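import Vale.Agent.P353.Z.U.StmtC

/-! # P353, general `N`: the one parameter groups `exp (t ad a)` lie in the colour group (G-1) -/

set_option linter.all false

open MeasureTheory Filter Topology
open scoped ContDiff

namespace Vale.Agent.P353.Z.U

variable {d : ℕ} {F : Type*} [NormedAddCommGroup F] [InnerProductSpace ℂ F]

section ExpDeriv

open scoped Matrix.Norms.Operator

lemma gx983_hasDerivAt_exp (M : Matrix (Fin d) (Fin d) ℝ) (t : ℝ) (A B : Fin d) :
    HasDerivAt (fun t : ℝ => (NormedSpace.exp (t • M)) A B)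
      ((M * NormedSpace.exp (t • M)) A B) t := by
  have h := hasDerivAt_exp_smul_const' (𝕂 := ℝ) M t
  exact (LinearMap.toContinuousLinearMap
    (Matrix.entryLinearMap ℝ ℝ A B)).hasFDerivAt.comp_hasDerivAt t h

end ExpDeriv

lemma gx983_ro_mul (O O' : Matrix (Fin d) (Fin d) ℝ) (x : Cfg d) :
    ro (O * O') x = ro O (ro O' x) := by
  ext ⟨i, A⟩
  simp only [ro, Matrix.mul_apply, Finset.sum_mul, Finset.mul_sum]
  rw [Finset.sum_comm]
  refine Finset.sum_congr rfl fun B _ => Finset.sum_congr rfl fun D _ => ?_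
  ring

lemma gx983_ro_one (x : Cfg d) : ro (1 : Matrix (Fin d) (Fin d) ℝ) x = x := by
  ext ⟨i, A⟩
  simp [ro, Matrix.one_apply]

lemma gx983_hasDerivAt_ro (M : Matrix (Fin d) (Fin d) ℝ) (t : ℝ) (x : Cfg d) :
    HasDerivAt (fun t : ℝ => ro (NormedSpace.exp (t • M)) x)
      (ro M (ro (NormedSpace.exp (t • M)) x)) t := by
  have h1 : HasDerivAt (fun t : ℝ => fun p : Fin 9 × Fin d =>
      ∑ B, (NormedSpace.exp (t • M)) p.2 B * x (p.1, B))
      (fun p : Fin 9 × Fin d => ∑ B, (M * NormedSpace.exp (t • M)) p.2 B * x (p.1, B)) t :=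
    hasDerivAt_pi.2 fun p => HasDerivAt.fun_sum fun B _ =>
      (gx983_hasDerivAt_exp M t p.2 B).mul_const _
  have h2 := (PiLp.continuousLinearEquiv 2 ℝ (fun _ : Fin 9 × Fin d => ℝ)).symm.hasFDerivAt.comp_hasDerivAt
    t h1
  rw [← gx983_ro_mul]
  exact h2

lemma gx983_fderiv_ad (S : Setup d F) (a : Fin d → ℝ) (u : Cfg d → F) (y : Cfg d) :
    fderiv ℝ u y (ro (S.adm a) y) =
      ∑ C, (a C : ℂ) • ∑ i, ∑ A, ∑ B, ((S.f C A B : ℂ) * (y (i, A) : ℂ)) • pd i B u y := by
  have hx : ro (S.adm a) y = ∑ p : Fin 9 × Fin d, (ro (S.adm a) y) p •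
      (EuclideanSpace.single p (1 : ℝ) : Cfg d) := by
    ext q
    simp only [WithLp.ofLp_sum, WithLp.ofLp_smul, Finset.sum_apply, Pi.smul_apply,
        PiLp.single_apply, smul_eq_mul, mul_ite, mul_one, mul_zero]
    rw [Finset.sum_ite_eq]
    simp
  rw [hx, map_sum]
  simp only [map_smul]
  rw [Fintype.sum_prod_type]
  simp only [Finset.smul_sum]
  rw [Finset.sum_comm (s := (Finset.univ : Finset (Fin d))) (t := (Finset.univ : Finset (Fin 9)))]
  refine Finset.sum_congr rfl fun i _ => ?_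
  have e1 : ∀ B, (ro (S.adm a) y) (i, B) = ∑ A, ∑ C, S.f C A B * a C * y (i, A) := by
    intro B
    have : (ro (S.adm a) y) (i, B) = ∑ A, (∑ C, S.f B C A * a C) * y (i, A) := rfl
    rw [this]
    refine Finset.sum_congr rfl fun A _ => ?_
    rw [Finset.sum_mul]
    refine Finset.sum_congr rfl fun C _ => ?_
    rw [S.f_cyc B C A]
  simp only [e1, Finset.sum_smul]
  rw [Finset.sum_comm]
  conv_rhs => rw [Finset.sum_comm]
  refine Finset.sum_congr rfl fun A _ => ?_
  rw [Finset.sum_comm]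
  refine Finset.sum_congr rfl fun C _ => Finset.sum_congr rfl fun B _ => ?_
  unfold pd
  rw [smul_smul, show ((a C : ℂ) * ((S.f C A B : ℂ) * (y (i, A) : ℂ))) =
    ((S.f C A B * a C * y (i, A) : ℝ) : ℂ) by push_cast; ring]
  exact (RCLike.real_smul_eq_coe_smul (K := ℂ) _ _)

lemma gx983_norm (S : Setup d F) {u : Cfg d → F} (hu : Setup.Tst u)
    (hG : ∀ C x, S.G C u x = 0) (a : Fin d → ℝ) (t : ℝ) (x : Cfg d) :
    ‖u (ro (NormedSpace.exp (t • S.adm a)) x)‖ = ‖u x‖ := by
  have hd : ∀ t : ℝ, HasDerivAt (fun t : ℝ => u (ro (NormedSpace.exp (t • S.adm a)) x))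
      (∑ C, ((a C : ℂ) * -Complex.I) • S.cS C (u (ro (NormedSpace.exp (t • S.adm a)) x))) t := by
    intro t
    have h1 : HasDerivAt (fun t : ℝ => u (ro (NormedSpace.exp (t • S.adm a)) x))
        (fderiv ℝ u (ro (NormedSpace.exp (t • S.adm a)) x)
          (ro (S.adm a) (ro (NormedSpace.exp (t • S.adm a)) x))) t :=
      ((hu.1.differentiable (by simp)) _).hasFDerivAt.comp_hasDerivAt t
        (gx983_hasDerivAt_ro (S.adm a) t x)
    refine h1.congr_deriv ?_
    rw [gx983_fderiv_ad]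
    refine Finset.sum_congr rfl fun C _ => ?_
    have h2 := hG C (ro (NormedSpace.exp (t • S.adm a)) x)
    unfold Setup.G at h2
    have h3 := congrArg (fun v => Complex.I • v) h2
    simp only [smul_add, smul_smul, smul_zero] at h3
    rw [show Complex.I * -Complex.I = 1 by rw [mul_neg, Complex.I_mul_I, neg_neg], one_smul] at h3
    rw [mul_smul, neg_smul]
    congr 1
    exact eq_neg_of_add_eq_zero_left h3
  have hn : ∀ t : ℝ, HasDerivAt (fun t : ℝ =>
      inner ℂ (u (ro (NormedSpace.exp (t • S.adm a)) x))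
        (u (ro (NormedSpace.exp (t • S.adm a)) x))) 0 t := by
    intro t
    have h1 := (hd t).inner ℂ (hd t)
    refine h1.congr_deriv ?_
    rw [inner_sum, sum_inner, ← Finset.sum_add_distrib]
    refine Finset.sum_eq_zero fun C _ => ?_
    rw [inner_smul_right, inner_smul_left, S.cS_symm]
    simp
  have hc := is_const_of_deriv_eq_zero
    (f := fun t : ℝ => inner ℂ (u (ro (NormedSpace.exp (t • S.adm a)) x))
        (u (ro (NormedSpace.exp (t • S.adm a)) x)))
    (fun t => (hn t).differentiableAt) (fun t => (hn t).deriv) t 0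
  have h0 : ro (NormedSpace.exp ((0 : ℝ) • S.adm a)) x = x := by
    rw [zero_smul, NormedSpace.exp_zero, gx983_ro_one]
  rw [h0] at hc
  simp only [inner_self_eq_norm_sq_to_K] at hc
  have h4 : ‖u (ro (NormedSpace.exp (t • S.adm a)) x)‖ ^ 2 = ‖u x‖ ^ 2 := by exact_mod_cast hc
  exact (sq_eq_sq₀ (norm_nonneg _) (norm_nonneg _)).1 h4

lemma gx983_adm_transpose (S : Setup d F) (a : Fin d → ℝ) :
    (S.adm a).transpose = - S.adm a := by
  ext A B
  simp only [Matrix.transpose_apply, Matrix.neg_apply, Setup.adm, Matrix.of_apply]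
  rw [← Finset.sum_neg_distrib]
  refine Finset.sum_congr rfl fun C _ => ?_
  rw [S.f_swap B C A, S.f_cyc C B A, S.f_cyc B A C]
  ring

lemma gx983_orth (S : Setup d F) (a : Fin d → ℝ) (t : ℝ) :
    (NormedSpace.exp (t • S.adm a)).transpose * NormedSpace.exp (t • S.adm a) = 1 := by
  rw [← Matrix.exp_transpose, Matrix.transpose_smul, gx983_adm_transpose, smul_neg,
    Matrix.exp_neg]
  exact Matrix.nonsing_inv_mul _ ((Matrix.isUnit_iff_isUnit_det _).1 (Matrix.isUnit_exp _))

lemma gx983_jac (S : Setup d F) (a : Fin d → ℝ) (A B C : Fin d) :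
    ∑ D, (S.adm a D A * S.f D B C + S.adm a D B * S.f A D C + S.adm a D C * S.f A B D) = 0 := by
  simp only [Setup.adm, Matrix.of_apply, Finset.sum_mul, ← Finset.sum_add_distrib]
  rw [Finset.sum_comm]
  refine Finset.sum_eq_zero fun E _ => ?_
  have h := S.f_jac E A B C
  have h2 : ∑ D, (S.f D E A * a E * S.f D B C + S.f D E B * a E * S.f A D C +
      S.f D E C * a E * S.f A B D) = a E * ∑ X, (S.f E A X * S.f X B C + S.f A B X * S.f X E C +
        S.f B E X * S.f X A C) := by
    rw [Finset.mul_sum]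
    refine Finset.sum_congr rfl fun D _ => ?_
    rw [S.f_cyc D E A, S.f_cyc D E B, S.f_swap E B D, S.f_swap A D C]
    ring
  rw [h2, h, mul_zero]

lemma gx983_adj (M O : Matrix (Fin d) (Fin d) ℝ) (A : Fin d) (h : Fin d → ℝ) :
    ∑ X, (M * O) X A * h X = ∑ X, O X A * ∑ D, M D X * h D := by
  simp only [Matrix.mul_apply, Finset.sum_mul, Finset.mul_sum]
  rw [Finset.sum_comm]
  refine Finset.sum_congr rfl fun X _ => Finset.sum_congr rfl fun D _ => ?_
  ring

lemma gx983_zero (S : Setup d F) (a : Fin d → ℝ) (O : Matrix (Fin d) (Fin d) ℝ)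
    (A B C : Fin d) :
    ∑ A', ∑ B', ∑ C', (((S.adm a * O) A' A * O B' B + O A' A * (S.adm a * O) B' B) * O C' C +
      O A' A * O B' B * (S.adm a * O) C' C) * S.f A' B' C' = 0 := by
  have h1 : ∑ A', ∑ B', ∑ C', (S.adm a * O) A' A * O B' B * O C' C * S.f A' B' C' =
      ∑ A', ∑ B', ∑ C', O A' A * O B' B * O C' C * ∑ D, S.adm a D A' * S.f D B' C' := by
    have e := gx983_adj (S.adm a) O A (fun A' => ∑ B', ∑ C', O B' B * O C' C * S.f A' B' C')
    have e1 : ∑ A', ∑ B', ∑ C', (S.adm a * O) A' A * O B' B * O C' C * S.f A' B' C' =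
        ∑ A', (S.adm a * O) A' A * ∑ B', ∑ C', O B' B * O C' C * S.f A' B' C' := by
      simp only [Finset.mul_sum]
      refine Finset.sum_congr rfl fun A' _ => Finset.sum_congr rfl fun B' _ =>
        Finset.sum_congr rfl fun C' _ => ?_
      ring
    rw [e1, e]
    refine Finset.sum_congr rfl fun A' _ => ?_
    simp only [Finset.mul_sum]
    rw [Finset.sum_comm]
    refine Finset.sum_congr rfl fun B' _ => ?_
    rw [Finset.sum_comm]
    refine Finset.sum_congr rfl fun C' _ => Finset.sum_congr rfl fun D _ => ?_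
    ring
  have h2 : ∑ A', ∑ B', ∑ C', O A' A * (S.adm a * O) B' B * O C' C * S.f A' B' C' =
      ∑ A', ∑ B', ∑ C', O A' A * O B' B * O C' C * ∑ D, S.adm a D B' * S.f A' D C' := by
    refine Finset.sum_congr rfl fun A' _ => ?_
    have e := gx983_adj (S.adm a) O B (fun B' => ∑ C', O A' A * O C' C * S.f A' B' C')
    have e1 : ∑ B', ∑ C', O A' A * (S.adm a * O) B' B * O C' C * S.f A' B' C' =
        ∑ B', (S.adm a * O) B' B * ∑ C', O A' A * O C' C * S.f A' B' C' := by
      simp only [Finset.mul_sum]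
      refine Finset.sum_congr rfl fun B' _ => Finset.sum_congr rfl fun C' _ => ?_
      ring
    rw [e1, e]
    refine Finset.sum_congr rfl fun B' _ => ?_
    simp only [Finset.mul_sum]
    rw [Finset.sum_comm]
    refine Finset.sum_congr rfl fun C' _ => Finset.sum_congr rfl fun D _ => ?_
    ring
  have h3 : ∑ A', ∑ B', ∑ C', O A' A * O B' B * (S.adm a * O) C' C * S.f A' B' C' =
      ∑ A', ∑ B', ∑ C', O A' A * O B' B * O C' C * ∑ D, S.adm a D C' * S.f A' B' D := by
    refine Finset.sum_congr rfl fun A' _ => Finset.sum_congr rfl fun B' _ => ?_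
    have e := gx983_adj (S.adm a) O C (fun C' => O A' A * O B' B * S.f A' B' C')
    have e1 : ∑ C', O A' A * O B' B * (S.adm a * O) C' C * S.f A' B' C' =
        ∑ C', (S.adm a * O) C' C * (O A' A * O B' B * S.f A' B' C') := by
      refine Finset.sum_congr rfl fun C' _ => ?_
      ring
    rw [e1, e]
    refine Finset.sum_congr rfl fun C' _ => ?_
    simp only [Finset.mul_sum]
    refine Finset.sum_congr rfl fun D _ => ?_
    ring
  have h4 : ∑ A', ∑ B', ∑ C', (((S.adm a * O) A' A * O B' B + O A' A * (S.adm a * O) B' B) *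
      O C' C + O A' A * O B' B * (S.adm a * O) C' C) * S.f A' B' C' =
      ∑ A', ∑ B', ∑ C', (S.adm a * O) A' A * O B' B * O C' C * S.f A' B' C' +
      ∑ A', ∑ B', ∑ C', O A' A * (S.adm a * O) B' B * O C' C * S.f A' B' C' +
      ∑ A', ∑ B', ∑ C', O A' A * O B' B * (S.adm a * O) C' C * S.f A' B' C' := by
    simp only [← Finset.sum_add_distrib]
    refine Finset.sum_congr rfl fun A' _ => Finset.sum_congr rfl fun B' _ =>
      Finset.sum_congr rfl fun C' _ => ?_
    ring
  rw [h4, h1, h2, h3]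
  simp only [← Finset.sum_add_distrib]
  refine Finset.sum_eq_zero fun A' _ => Finset.sum_eq_zero fun B' _ =>
    Finset.sum_eq_zero fun C' _ => ?_
  rw [← mul_add, ← mul_add, ← Finset.sum_add_distrib, ← Finset.sum_add_distrib, gx983_jac,
    mul_zero]

lemma gx983_inv (S : Setup d F) (a : Fin d → ℝ) (t : ℝ) (A B C : Fin d) :
    ∑ A', ∑ B', ∑ C', (NormedSpace.exp (t • S.adm a)) A' A * (NormedSpace.exp (t • S.adm a)) B' B *
      (NormedSpace.exp (t • S.adm a)) C' C * S.f A' B' C' = S.f A B C := by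
  have hd : ∀ t : ℝ, HasDerivAt (fun t : ℝ => ∑ A', ∑ B', ∑ C',
      (NormedSpace.exp (t • S.adm a)) A' A * (NormedSpace.exp (t • S.adm a)) B' B *
      (NormedSpace.exp (t • S.adm a)) C' C * S.f A' B' C') 0 t := by
    intro t
    refine HasDerivAt.congr_deriv (HasDerivAt.fun_sum fun A' _ => HasDerivAt.fun_sum fun B' _ =>
      HasDerivAt.fun_sum fun C' _ => (((gx983_hasDerivAt_exp (S.adm a) t A' A).mul
        (gx983_hasDerivAt_exp (S.adm a) t B' B)).mul
        (gx983_hasDerivAt_exp (S.adm a) t C' C)).mul_const _)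
      (gx983_zero S a (NormedSpace.exp (t • S.adm a)) A B C)
  have hc := is_const_of_deriv_eq_zero (f := fun t : ℝ => ∑ A', ∑ B', ∑ C',
      (NormedSpace.exp (t • S.adm a)) A' A * (NormedSpace.exp (t • S.adm a)) B' B *
      (NormedSpace.exp (t • S.adm a)) C' C * S.f A' B' C')
    (fun t => (hd t).differentiableAt) (fun t => (hd t).deriv) t 0
  refine hc.trans ?_
  rw [zero_smul, NormedSpace.exp_zero]
  simp [Matrix.one_apply]

/-- the one parameter groups `exp (t ad a)` lie in the colour group -/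
lemma exp_mem (S : Setup d F) (a : Fin d → ℝ) (t : ℝ) :
    NormedSpace.exp (t • S.adm a) ∈ S.grp :=
  ⟨gx983_orth S a t, gx983_inv S a t, fun _ hu hG x => gx983_norm S hu hG a t x⟩

/-- **G-1** -/
theorem grpExp (S : Setup d F) : GrpExpStmt S := by
  intro a
  refine ⟨fun t => NormedSpace.exp (t • S.adm a), fun t => exp_mem S a t, ?_, fun A B => ?_⟩
  · simp only [zero_smul, NormedSpace.exp_zero]
  · have h := gx983_hasDerivAt_exp (S.adm a) 0 A B
    rwa [zero_smul, NormedSpace.exp_zero, mul_one] at h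

end Vale.Agent.P353.Z.U
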