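import Vale.Agent.P353.Z.U.StmtA
import Vale.Agent.P353.Z.RotC
import Vale.Agent.P353.Z.Exact

/-! # P353, general `N`: A2 and A3 (covariance of the supercharges) -/

open MeasureTheory Filter Topology
open scoped ContDiff

namespace Vale.Agent.P353.Z.U

variable {dc : ℕ}

variable {F : Type*} [NormedAddCommGroup F] [InnerProductSpace ℂ F]

/-- product rule -/
lemma fderiv_clm_app {T : (Cfg dc) → F →L[ℂ] F} {u : (Cfg dc) → F} {x : (Cfg dc)}
    (hT : DifferentiableAt ℝ T x) (hu : DifferentiableAt ℝ u x) (e : (Cfg dc)) :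
    fderiv ℝ (fun y => T y (u y)) x e = (fderiv ℝ T x e) (u x) + T x (fderiv ℝ u x e) := by
  have hB : IsBoundedBilinearMap ℝ (fun p : (F →L[ℂ] F) × F => p.1 p.2) := by
    have h := (isBoundedBilinearMap_apply (𝕜 := ℂ) (E := F) (F := F))
    refine ⟨fun a b c => by simp, fun c a b => ?_, fun a b c => by simp, fun c a b => ?_, ?_⟩
    · simp
    · simp
    · obtain ⟨C, hC, hb⟩ := h.bound
      exact ⟨C, hC, hb⟩
  have h1 := hB.hasFDerivAt (T x, u x)
  have h2 := hT.hasFDerivAt.prodMk hu.hasFDerivAt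
  have h3 := h1.comp x h2
  have h4 : fderiv ℝ (fun y => T y (u y)) x = _ := h3.fderiv
  rw [h4]
  simp [add_comm]

/-- directional derivative of a quadratic polynomial -/
lemma line_fderiv {G : Type*} [NormedAddCommGroup G] [NormedSpace ℂ G] {f : (Cfg dc) → G} {x v : (Cfg dc)}
    {a b : G} (hf : DifferentiableAt ℝ f x)
    (h : ∀ t : ℝ, f (x + t • v) = f x + (t : ℂ) • a + ((t : ℂ) ^ 2) • b) :
    fderiv ℝ f x v = a := by
  have h1 : HasDerivAt (fun t : ℝ => f (x + t • v)) (fderiv ℝ f x v) 0 := by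
    have h2 : HasDerivAt (fun t : ℝ => x + t • v) v 0 := by
      simpa using ((hasDerivAt_id (0 : ℝ)).smul_const v).const_add x
    have h3 : HasFDerivAt f (fderiv ℝ f x) (x + (0 : ℝ) • v) := by simpa using hf.hasFDerivAt
    exact h3.comp_hasDerivAt (0 : ℝ) h2
  have h4 : HasDerivAt (fun t : ℝ => f x + (t : ℂ) • a + ((t : ℂ) ^ 2) • b) a 0 := by
    have h5 : HasDerivAt (fun t : ℝ => (t : ℂ)) 1 (0 : ℝ) := by
      simpa using (hasDerivAt_id (0 : ℝ)).ofReal_comp
    have h6 : HasDerivAt (fun t : ℝ => (t : ℂ) ^ 2) 0 (0 : ℝ) := by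
      simpa using h5.fun_pow 2
    simpa using ((h5.smul_const a).const_add (f x)).fun_add (h6.smul_const b)
  have h7 : (fun t : ℝ => f (x + t • v)) = fun t : ℝ => f x + (t : ℂ) • a + ((t : ℂ) ^ 2) • b :=
    funext h
  rw [h7] at h1
  exact h1.unique h4

/-- commutator of a first order generator with a Dirac type operator -/
lemma comm_gen {N : Fin 9 → Fin dc → F →L[ℂ] F} {Z : (Cfg dc) → F →L[ℂ] F} (hZ : ContDiff ℝ ∞ Z)
    (L : (Cfg dc) →L[ℝ] (Cfg dc)) (T : F →L[ℂ] F) {D K : ((Cfg dc) → F) → (Cfg dc) → F}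
    (hD : ∀ u x, D u x = (-Complex.I) • fderiv ℝ u x (L x) + T (u x))
    (hK : ∀ u x, K u x = (-Complex.I) • ∑ i, ∑ A, N i A (pd i A u x) + Z x (u x))
    {u : (Cfg dc) → F} (hu : ContDiff ℝ ∞ u) (x : (Cfg dc)) :
    D (K u) x - K (D u) x =
      ∑ i, ∑ A, N i A (fderiv ℝ u x (L (EuclideanSpace.single (i, A) (1 : ℝ)))) +
      (-Complex.I) • ∑ i, ∑ A, (T * N i A - N i A * T) (pd i A u x) +
      (-Complex.I) • (fderiv ℝ Z x (L x)) (u x) + (T * Z x - Z x * T) (u x) := by
  have hud : Differentiable ℝ u := hu.differentiable (by simp)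
  have hpd : ∀ i A, DifferentiableAt ℝ (pd i A u) x := fun i A =>
    (contDiff_pd hu).differentiable (by simp) x
  have hfd : Differentiable ℝ (fderiv ℝ u) := (hu.fderiv_right (m := ∞) (by simp)).differentiable
    (by simp)
  have hZd : DifferentiableAt ℝ Z x := hZ.differentiable (by simp) x
  have hKu : K u = fun y => (-Complex.I) • ∑ i, ∑ A, N i A (pd i A u y) + Z y (u y) :=
    funext (hK u)
  have hDu : D u = fun y => (-Complex.I) • fderiv ℝ u y (L y) + T (u y) := funext (hD u)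
  have e1 : ∀ e, fderiv ℝ (K u) x e = (-Complex.I) • ∑ i, ∑ A, N i A (fderiv ℝ (pd i A u) x e) +
      ((fderiv ℝ Z x e) (u x) + Z x (fderiv ℝ u x e)) := by
    intro e
    have hN : ∀ i A, DifferentiableAt ℝ (fun y => N i A (pd i A u y)) x := fun i A =>
      ((N i A).restrictScalars ℝ).differentiableAt.comp x (hpd i A)
    have hs1 : ∀ i, DifferentiableAt ℝ (fun y => ∑ A, N i A (pd i A u y)) x := fun i =>
      DifferentiableAt.fun_sum fun A _ => hN i A
    have hs2 : DifferentiableAt ℝ (fun y => ∑ i, ∑ A, N i A (pd i A u y)) x :=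
      DifferentiableAt.fun_sum fun i _ => hs1 i
    have hs3 : DifferentiableAt ℝ (fun y => Z y (u y)) x :=
      (Setup.contDiff_clm_apply' hZ hu).differentiable (by simp) x
    rw [hKu, fderiv_fun_add (hs2.fun_const_smul _) hs3, _root_.add_apply, fderiv_clm_app hZd (hud x),
      fderiv_fun_const_smul hs2]
    congr 1
    rw [_root_.smul_apply]
    congr 1
    rw [fderiv_fun_sum fun i _ => hs1 i, _root_.sum_apply]
    refine Finset.sum_congr rfl fun i _ => ?_
    rw [fderiv_fun_sum fun A _ => hN i A, _root_.sum_apply]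
    refine Finset.sum_congr rfl fun A _ => ?_
    rw [fderiv_clm_app (T := fun _ => N i A) (differentiableAt_const _) (hpd i A)]
    simp
  have e2 : ∀ i A, pd i A (D u) x = (-Complex.I) • (fderiv ℝ (pd i A u) x (L x) +
      fderiv ℝ u x (L (EuclideanSpace.single (i, A) (1 : ℝ)))) + T (pd i A u x) := by
    intro i A
    have hL : DifferentiableAt ℝ (fun y => fderiv ℝ u y (L y)) x :=
      (hfd x).clm_apply L.differentiableAt
    have hT : DifferentiableAt ℝ (fun y => T (u y)) x :=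
      (T.restrictScalars ℝ).differentiableAt.comp x (hud x)
    have hs : IsSymmSndFDerivAt ℝ u x := by
      refine (hu.contDiffAt).isSymmSndFDerivAt ?_
      simp only [minSmoothness_of_isRCLikeNormedField]
      exact WithTop.coe_le_coe.mpr le_top
    have h3 : fderiv ℝ (pd i A u) x (L x) =
        fderiv ℝ (fderiv ℝ u) x (EuclideanSpace.single (i, A) (1 : ℝ)) (L x) := by
      unfold pd
      rw [fderiv_clm_apply (hfd x) (differentiableAt_const _)]
      simp only [fderiv_fun_const, Pi.zero_apply, _root_.add_apply,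
        ContinuousLinearMap.flip_apply]
      simp only [ContinuousLinearMap.comp_zero, _root_.zero_apply, zero_add]
      exact hs _ _
    rw [pd, hDu, fderiv_fun_add (hL.fun_const_smul _) hT, _root_.add_apply,
      fderiv_fun_const_smul hL, _root_.smul_apply, fderiv_clm_apply (hfd x) L.differentiableAt,
      fderiv_clm_app (T := fun _ => T) (differentiableAt_const _) (hud x), h3]
    simp only [fderiv_fun_const, Pi.zero_apply, _root_.add_apply, _root_.zero_apply,
      ContinuousLinearMap.flip_apply, ContinuousLinearMap.comp_apply, ContinuousLinearMap.fderiv,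
      zero_add]
    rw [add_comm (fderiv ℝ u x (L _))]
    rfl
  rw [hD (K u) x, hK (D u) x, e1, hD u x, hK u x]
  simp only [e2, map_add, map_smul, map_sum, _root_.sub_apply, mul_apply_eq_comp,
    Finset.sum_add_distrib, Finset.sum_sub_distrib, ← Finset.smul_sum]
  linear_combination (norm := module) (-Complex.I_mul_I) •
    (∑ i, ∑ A, N i A (fderiv ℝ u x (L (EuclideanSpace.single (i, A) (1 : ℝ)))))


section defs

variable (S : Setup dc F)

/-- polarisation of the matrix `NA` -/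
noncomputable def NB (A : Fin dc) (v x : (Cfg dc)) : Matrix (Fin 16) (Fin 16) ℂ :=
  (S.κ / 2 : ℂ) • ∑ B, ∑ C, (S.f A B C : ℂ) • (S.XB B v * S.XB C x + S.XB B x * S.XB C v)

/-- the matrix of the mass term -/
noncomputable def MA (A : Fin dc) (x : (Cfg dc)) : Matrix (Fin 16) (Fin 16) ℂ :=
  ∑ i, ((aw i * x (i, A) : ℝ) : ℂ) • (S.g i * S.Gam)

lemma XB_line (A : Fin dc) (x v : (Cfg dc)) (t : ℝ) :
    S.XB A (x + t • v) = S.XB A x + (t : ℂ) • S.XB A v := by
  simp only [Setup.XB, PiLp.add_apply, PiLp.smul_apply, smul_eq_mul, Complex.ofReal_add,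
    Complex.ofReal_mul, add_smul, mul_smul, Finset.sum_add_distrib, Finset.smul_sum]

lemma NA_line (A : Fin dc) (x v : (Cfg dc)) (t : ℝ) :
    S.NA A (x + t • v) = S.NA A x + (t : ℂ) • NB S A v x + ((t : ℂ) ^ 2) • S.NA A v := by
  simp only [S.NA_eq_XB, NB, XB_line]
  rw [smul_comm (t : ℂ), smul_comm ((t : ℂ) ^ 2), ← smul_add, ← smul_add]
  congr 1
  simp only [Finset.smul_sum, ← Finset.sum_add_distrib]
  refine Finset.sum_congr rfl fun B _ => Finset.sum_congr rfl fun C _ => ?_
  simp only [add_mul, mul_add, Matrix.smul_mul, Matrix.mul_smul]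
  module

lemma fderiv_W' (b : Fin 16) (x v : (Cfg dc)) :
    fderiv ℝ (S.W b) x v = ∑ A, S.vec (NB S A v x) A b := by
  refine line_fderiv (b := S.W b v) ((S.contDiff_W b).differentiable (by simp) x) fun t => ?_
  simp only [S.W_eq_NA, NA_line, S.vec_add, S.vec_smul, Finset.sum_add_distrib, ← Finset.smul_sum]

lemma MM_eq_MA (b : Fin 16) (x : (Cfg dc)) : S.MM b x = ∑ A, S.vec (MA S A x) A b := by
  simp only [Setup.MM, MA, S.vec_sum, S.vec_smul]
  rw [Finset.sum_comm]

lemma MA_line (A : Fin dc) (x v : (Cfg dc)) (t : ℝ) :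
    MA S A (x + t • v) = MA S A x + (t : ℂ) • MA S A v := by
  simp only [MA, PiLp.add_apply, PiLp.smul_apply, smul_eq_mul, Finset.smul_sum,
    ← Finset.sum_add_distrib]
  refine Finset.sum_congr rfl fun i _ => ?_
  push_cast
  module

lemma contDiff_MM (b : Fin 16) : ContDiff ℝ ∞ (S.MM b) := by
  unfold Setup.MM
  refine ContDiff.sum fun i _ => ContDiff.sum fun A _ => ?_
  exact (Setup.contDiff_ofReal (contDiff_const.mul (Setup.contDiff_coord _))).smul contDiff_const

lemma fderiv_MM (b : Fin 16) (x v : (Cfg dc)) : fderiv ℝ (S.MM b) x v = S.MM b v := by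
  refine line_fderiv (b := 0) ((contDiff_MM S b).differentiable (by simp) x) fun t => ?_
  simp only [MM_eq_MA, MA_line, S.vec_add, S.vec_smul, Finset.sum_add_distrib, ← Finset.smul_sum,
    smul_zero, add_zero]

/-- the multiplier part of `Q_β + m M_β` -/
noncomputable def Zm (m : ℝ) (b : Fin 16) (x : (Cfg dc)) : F →L[ℂ] F := S.W b x + (m : ℂ) • S.MM b x

lemma contDiff_Zm (m : ℝ) (b : Fin 16) : ContDiff ℝ ∞ (Zm S m b) :=
  (S.contDiff_W b).add ((contDiff_MM S b).const_smul (m : ℂ))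

lemma fderiv_Zm (m : ℝ) (b : Fin 16) (x v : (Cfg dc)) : fderiv ℝ (Zm S m b) x v =
    ∑ A, S.vec (NB S A v x + (m : ℂ) • MA S A v) A b := by
  have h1 : DifferentiableAt ℝ (S.W b) x := (S.contDiff_W b).differentiable (by simp) x
  have h2 : DifferentiableAt ℝ (S.MM b) x := (contDiff_MM S b).differentiable (by simp) x
  have h : fderiv ℝ (Zm S m b) x = fderiv ℝ (S.W b) x + (m : ℂ) • fderiv ℝ (S.MM b) x := by
    have e : Zm S m b = fun y => S.W b y + (m : ℂ) • S.MM b y := rfl
    rw [e, fderiv_fun_add h1 (h2.fun_const_smul _), fderiv_fun_const_smul h2]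
  rw [h, _root_.add_apply, _root_.smul_apply, fderiv_W', fderiv_MM, MM_eq_MA]
  simp only [S.vec_add, S.vec_smul, Finset.sum_add_distrib, ← Finset.smul_sum]

lemma Zm_eq (m : ℝ) (b : Fin 16) (x : (Cfg dc)) : Zm S m b x =
    ∑ A, S.vec (S.NA A x + (m : ℂ) • MA S A x) A b := by
  rw [Zm, S.W_eq_NA, MM_eq_MA]
  simp only [S.vec_add, S.vec_smul, Finset.sum_add_distrib, ← Finset.smul_sum]

lemma Qm_eq (m : ℝ) (b : Fin 16) (u : (Cfg dc) → F) (x : (Cfg dc)) : S.Qm m b u x =
    (-Complex.I) • ∑ i, ∑ A, S.vec (S.g i) A b (pd i A u x) + Zm S m b x (u x) := by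
  rw [Setup.Qm, Setup.Q, Zm, _root_.add_apply, _root_.smul_apply, add_assoc]

/-! ### rotations -/

lemma aw_same {k l : Fin 9} (h : Same k l) : aw k = aw l := by
  unfold aw
  by_cases hk : k.val < 3
  · rw [if_pos hk, if_pos (h.2.mp hk)]
  · rw [if_neg hk, if_neg fun hl => hk (h.2.mpr hl)]

lemma g_g2_comm (k l i : Fin 9) : S.g i * S.g2 k l - S.g2 k l * S.g i =
    (2 : ℂ) • ((if i = k then S.g l else 0) - (if i = l then S.g k else 0)) := by
  have h := S.g2_mul_g k l i
  rw [h]
  by_cases h1 : i = k <;> by_cases h2 : i = l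
  · subst h1; subst h2; simp
  · subst h1; simp [h2, Ne.symm h2]
  · subst h2; simp [h1, Ne.symm h1]
  · simp [h1, h2, Ne.symm h1, Ne.symm h2]

lemma neg_LL_apply (k l i : Fin 9) (A : Fin dc) (x : (Cfg dc)) :
    (-(LL k l x)) (i, A) = (if i = l then x (k, A) else 0) - (if i = k then x (l, A) else 0) := by
  rw [PiLp.neg_apply, LL_apply]
  ring

lemma XB_J (k l : Fin 9) (A : Fin dc) (x : (Cfg dc)) :
    (2 : ℂ) • S.XB A (-(LL k l x)) = S.XB A x * S.g2 k l - S.g2 k l * S.XB A x := by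
  simp only [Setup.XB, neg_LL_apply, Finset.sum_mul, Finset.mul_sum, Matrix.smul_mul,
    Matrix.mul_smul, ← Finset.sum_sub_distrib, ← smul_sub, g_g2_comm]
  simp only [smul_comm _ (2 : ℂ), ← Finset.smul_sum]
  congr 1
  simp only [smul_sub, Complex.ofReal_sub, sub_smul, Finset.sum_sub_distrib, smul_ite, smul_zero]
  rw [sub_eq_sub_iff_add_eq_add]
  simp

lemma NB_J (k l : Fin 9) (A : Fin dc) (x : (Cfg dc)) :
    (2 : ℂ) • NB S A (-(LL k l x)) x = S.NA A x * S.g2 k l - S.g2 k l * S.NA A x := by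
  rw [NB, S.NA_eq_XB, smul_comm, Matrix.smul_mul, Matrix.mul_smul, ← smul_sub]
  congr 1
  simp only [Finset.smul_sum, Finset.sum_mul, Finset.mul_sum, ← Finset.sum_sub_distrib]
  refine Finset.sum_congr rfl fun B _ => Finset.sum_congr rfl fun C _ => ?_
  rw [smul_comm, smul_add, ← Matrix.smul_mul, ← Matrix.mul_smul, XB_J, XB_J, Matrix.smul_mul,
    Matrix.mul_smul, ← smul_sub]
  congr 1
  noncomm_ring

lemma MA_J {k l : Fin 9} (h : Same k l) (A : Fin dc) (x : (Cfg dc)) :
    (2 : ℂ) • MA S A (-(LL k l x)) = MA S A x * S.g2 k l - S.g2 k l * MA S A x := by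
  have e : ∀ i, S.g i * S.Gam * S.g2 k l - S.g2 k l * (S.g i * S.Gam) =
      (2 : ℂ) • ((if i = k then S.g l * S.Gam else 0) - (if i = l then S.g k * S.Gam else 0)) := by
    intro i
    have h1 : S.g i * S.Gam * S.g2 k l - S.g2 k l * (S.g i * S.Gam) =
        (S.g i * S.g2 k l - S.g2 k l * S.g i) * S.Gam := by
      rw [sub_mul, mul_assoc (S.g i), ← S.Gam_comm_g2 h]
      simp only [mul_assoc]
    rw [h1, g_g2_comm, Matrix.smul_mul, sub_mul]
    congr 2 <;> split_ifs <;> simp
  simp only [MA, neg_LL_apply, Finset.sum_mul, Finset.mul_sum, Matrix.smul_mul,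
    Matrix.mul_smul, ← Finset.sum_sub_distrib, ← smul_sub, e]
  simp only [smul_comm _ (2 : ℂ), ← Finset.smul_sum]
  congr 1
  simp only [smul_sub, mul_sub, Complex.ofReal_sub, sub_smul, Finset.sum_sub_distrib, smul_ite,
    smul_zero]
  rw [sub_eq_sub_iff_add_eq_add]
  simp [aw_same h, -Complex.ofReal_mul]

lemma comm_Sk (k l : Fin 9) (P : Matrix (Fin 16) (Fin 16) ℂ) (A : Fin dc) (b : Fin 16) :
    S.Skl k l * S.vec P A b - S.vec P A b * S.Skl k l =
      (Complex.I / 2) • S.vec (P * S.g2 k l) A b := by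
  rw [S.Skl_eq, ← neg_sub, S.vec_comm_Sk, ← neg_smul]
  congr 1
  ring

lemma fderiv_neg_LL (k l i : Fin 9) (A : Fin dc) (u : (Cfg dc) → F) (x : (Cfg dc)) :
    fderiv ℝ u x (-(LL k l (EuclideanSpace.single (i, A) (1 : ℝ)))) =
      (if i = k then pd l A u x else 0) - (if i = l then pd k A u x else 0) := by
  have h : -(LL k l (EuclideanSpace.single (i, A) (1 : ℝ))) =
      (if i = k then (EuclideanSpace.single (l, A) (1 : ℝ) : (Cfg dc)) else 0) -
        (if i = l then (EuclideanSpace.single (k, A) (1 : ℝ) : (Cfg dc)) else 0) := by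
    rw [neg_LL_eq]
    simp only [PiLp.single_apply, Prod.mk.injEq, Finset.sum_sub_distrib]
    congr 1
    · by_cases h1 : i = k
      · subst h1
        simp only [true_and, if_true, ite_smul, one_smul, zero_smul]
        rw [Finset.sum_ite_eq']
        simp
      · have h1' : ¬ k = i := fun e => h1 e.symm
        simp [h1, h1']
    · by_cases h1 : i = l
      · subst h1
        simp only [true_and, if_true, ite_smul, one_smul, zero_smul]
        rw [Finset.sum_ite_eq']
        simp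
      · have h1' : ¬ l = i := fun e => h1 e.symm
        simp [h1, h1']
  rw [h, map_sub]
  congr 1
  · split_ifs <;> simp [pd]
  · split_ifs <;> simp [pd]

theorem a2 : A2Stmt S := by
  intro m k l hkl α u hu x
  have hD : ∀ (u : (Cfg dc) → F) (x : (Cfg dc)), S.J k l u x =
      (-Complex.I) • fderiv ℝ u x ((-(LL k l)) x) + S.Skl k l (u x) := fun u x => S.J_eq k l u x
  rw [comm_gen (contDiff_Zm S m α) (-(LL k l)) (S.Skl k l) hD (Qm_eq S m α) hu x]
  -- the zero order part
  have hZ : (-Complex.I) • (fderiv ℝ (Zm S m α) x ((-(LL k l)) x)) (u x) +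
      (S.Skl k l * Zm S m α x - Zm S m α x * S.Skl k l) (u x) =
      (Complex.I / 2) • ∑ β, S.g2 k l α β • Zm S m β x (u x) := by
    have h1 : ∑ β, S.g2 k l α β • Zm S m β x =
        ∑ A, S.vec (S.g2 k l * (S.NA A x + (m : ℂ) • MA S A x)) A α := by
      simp only [Zm_eq, S.vec_mul, Finset.smul_sum]
      rw [Finset.sum_comm]
    have h2 : (2 : ℂ) • fderiv ℝ (Zm S m α) x ((-(LL k l)) x) =
        ∑ A, S.vec ((S.NA A x + (m : ℂ) • MA S A x) * S.g2 k l) A α -
        ∑ A, S.vec (S.g2 k l * (S.NA A x + (m : ℂ) • MA S A x)) A α := by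
      rw [fderiv_Zm, Finset.smul_sum, ← Finset.sum_sub_distrib]
      refine Finset.sum_congr rfl fun A _ => ?_
      rw [← S.vec_smul, ← S.vec_sub]
      congr 1
      rw [_root_.neg_apply, smul_add, NB_J, smul_comm, MA_J S hkl]
      simp only [add_mul, mul_add, Matrix.smul_mul, Matrix.mul_smul, smul_sub]
      rw [sub_add_sub_comm]
    have h3 : S.Skl k l * Zm S m α x - Zm S m α x * S.Skl k l =
        (Complex.I / 2) • ∑ A, S.vec ((S.NA A x + (m : ℂ) • MA S A x) * S.g2 k l) A α := by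
      rw [Zm_eq, Finset.mul_sum, Finset.sum_mul, ← Finset.sum_sub_distrib, Finset.smul_sum]
      refine Finset.sum_congr rfl fun A _ => ?_
      rw [comm_Sk]
    have h4 : (-Complex.I) • fderiv ℝ (Zm S m α) x ((-(LL k l)) x) +
        (S.Skl k l * Zm S m α x - Zm S m α x * S.Skl k l) =
        (Complex.I / 2) • ∑ β, S.g2 k l α β • Zm S m β x := by
      rw [h1, h3]
      linear_combination (norm := module) (-Complex.I / 2) • h2
    have h5 := congrArg (fun T : F →L[ℂ] F => T (u x)) h4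
    simpa only [_root_.add_apply, _root_.smul_apply, _root_.sum_apply] using h5
  -- the first order part
  have hF : ∑ i, ∑ A, S.vec (S.g i) A α
        (fderiv ℝ u x ((-(LL k l)) (EuclideanSpace.single (i, A) (1 : ℝ)))) +
      (-Complex.I) • ∑ i, ∑ A, (S.Skl k l * S.vec (S.g i) A α - S.vec (S.g i) A α * S.Skl k l)
        (pd i A u x) =
      (1 / 2 : ℂ) • ∑ i, ∑ A, S.vec (S.g2 k l * S.g i) A α (pd i A u x) := by
    have h1 : ∀ i, S.g2 k l * S.g i = S.g i * S.g2 k l -
        (2 : ℂ) • ((if i = k then S.g l else 0) - (if i = l then S.g k else 0)) := by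
      intro i
      rw [← g_g2_comm]
      abel
    have h2 : ∑ i, ∑ A, S.vec (S.g i) A α
        (fderiv ℝ u x ((-(LL k l)) (EuclideanSpace.single (i, A) (1 : ℝ)))) =
        ∑ A, (S.vec (S.g k) A α (pd l A u x) - S.vec (S.g l) A α (pd k A u x)) := by
      rw [Finset.sum_comm]
      refine Finset.sum_congr rfl fun A _ => ?_
      have e1 : ∀ (c : Prop) [Decidable c] (T : F →L[ℂ] F) (v : F),
          T (if c then v else 0) = if c then T v else 0 := by
        intro c _ T v
        split_ifs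
        · rfl
        · rw [map_zero]
      simp only [_root_.neg_apply, fderiv_neg_LL, map_sub, Finset.sum_sub_distrib, e1]
      simp
    have h3 : ∑ i, ∑ A, S.vec (S.g2 k l * S.g i) A α (pd i A u x) =
        ∑ i, ∑ A, S.vec (S.g i * S.g2 k l) A α (pd i A u x) +
        (2 : ℂ) • ∑ A, (S.vec (S.g k) A α (pd l A u x) - S.vec (S.g l) A α (pd k A u x)) := by
      have e : ∀ i A, S.vec (S.g2 k l * S.g i) A α (pd i A u x) =
          S.vec (S.g i * S.g2 k l) A α (pd i A u x) +
          (2 : ℂ) • ((if i = l then S.vec (S.g k) A α (pd i A u x) else 0) -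
            (if i = k then S.vec (S.g l) A α (pd i A u x) else 0)) := by
        intro i A
        rw [h1, S.vec_sub, S.vec_smul, S.vec_sub, _root_.sub_apply, _root_.smul_apply,
          _root_.sub_apply]
        have e1 : ∀ (c : Prop) [Decidable c] (P : Matrix (Fin 16) (Fin 16) ℂ) (v : F),
            S.vec (if c then P else 0) A α v = if c then S.vec P A α v else 0 := by
          intro c _ P v
          split_ifs
          · rfl
          · rw [S.vec_zero]; rfl
        rw [e1, e1]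
        module
      simp only [e, Finset.sum_add_distrib, ← Finset.smul_sum, Finset.sum_sub_distrib]
      congr 3
      · rw [Finset.sum_comm]; simp
      · rw [Finset.sum_comm]; simp
    have h4 : ∀ i A, (S.Skl k l * S.vec (S.g i) A α - S.vec (S.g i) A α * S.Skl k l)
        (pd i A u x) = (Complex.I / 2) • S.vec (S.g i * S.g2 k l) A α (pd i A u x) := by
      intro i A
      rw [comm_Sk]; rfl
    simp only [h4, ← Finset.smul_sum]
    rw [h2, h3]
    linear_combination (norm := module) (-(1 / 2 : ℂ) * Complex.I_mul_I) •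
      (∑ i, ∑ A, S.vec (S.g i * S.g2 k l) A α (pd i A u x))
  have hQ : ∑ β, S.g2 k l α β • S.Qm m β u x =
      (-Complex.I) • ∑ i, ∑ A, S.vec (S.g2 k l * S.g i) A α (pd i A u x) +
      ∑ β, S.g2 k l α β • Zm S m β x (u x) := by
    simp only [Qm_eq, smul_add, Finset.sum_add_distrib]
    congr 1
    simp only [smul_comm _ (-Complex.I), ← Finset.smul_sum]
    congr 1
    simp only [Finset.smul_sum, S.vec_mul, _root_.sum_apply, _root_.smul_apply]
    rw [Finset.sum_comm]
    refine Finset.sum_congr rfl fun i _ => ?_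
    rw [Finset.sum_comm]
  rw [hQ, add_assoc, hZ, hF]
  linear_combination (norm := module) ((1 / 2 : ℂ) * Complex.I_mul_I) •
      (∑ i, ∑ A, S.vec (S.g2 k l * S.g i) A α (pd i A u x))

/-! ### gauge transformations -/

/-- the generator of the colour rotations -/
noncomputable def gLc (C : Fin dc) : (Cfg dc) →L[ℝ] (Cfg dc) :=
  ∑ i : Fin 9, ∑ A : Fin dc, ∑ B : Fin dc, (S.f C A B) •
    ((EuclideanSpace.proj (𝕜 := ℝ) (i, A) : (Cfg dc) →L[ℝ] ℝ).smulRight
      (EuclideanSpace.single (i, B) (1 : ℝ)))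

lemma gLc_eq (C : Fin dc) (x : (Cfg dc)) : gLc S C x = ∑ i : Fin 9, ∑ A : Fin dc, ∑ B : Fin dc,
    ((S.f C A B) * x (i, A)) • (EuclideanSpace.single (i, B) (1 : ℝ) : (Cfg dc)) := by
  simp only [gLc, _root_.sum_apply, _root_.smul_apply, ContinuousLinearMap.smulRight_apply,
    PiLp.proj_apply, smul_smul]

lemma gLc_apply (C : Fin dc) (x : (Cfg dc)) (i : Fin 9) (B : Fin dc) :
    (gLc S C x) (i, B) = ∑ A, (S.f C A B) * x (i, A) := by
  simp only [gLc_eq, WithLp.ofLp_sum, Finset.sum_apply, WithLp.ofLp_smul, Pi.smul_apply,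
    PiLp.single_apply, Prod.mk.injEq, smul_eq_mul, mul_ite, mul_one, mul_zero]
  rw [Finset.sum_eq_single i]
  · simp
  · intro j _ hj; simp [Ne.symm hj]
  · intro h; exact absurd (Finset.mem_univ _) h

lemma gLc_single (C : Fin dc) (i : Fin 9) (A : Fin dc) :
    gLc S C (EuclideanSpace.single (i, A) (1 : ℝ)) =
      ∑ B : Fin dc, (S.f C A B) • (EuclideanSpace.single (i, B) (1 : ℝ) : (Cfg dc)) := by
  rw [gLc_eq, Finset.sum_eq_single i, Finset.sum_eq_single A]
  · simp
  · intro B _ hB; simp [hB]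
  · intro h; exact absurd (Finset.mem_univ _) h
  · intro j _ hj; simp [hj]
  · intro h; exact absurd (Finset.mem_univ _) h

lemma G_eq (C : Fin dc) (u : (Cfg dc) → F) (x : (Cfg dc)) :
    S.G C u x = (-Complex.I) • fderiv ℝ u x (gLc S C x) + S.cS C (u x) := by
  have h : ∀ (i : Fin 9) (A B : Fin dc), ((S.f C A B : ℂ) * (x (i, A) : ℂ)) • pd i B u x =
      ((S.f C A B) * x (i, A)) • pd i B u x := by
    intro i A B
    rw [← Complex.coe_smul]
    push_cast
    rfl
  simp only [Setup.G, h, gLc_eq, map_sum, map_smul]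
  rfl

lemma XB_G (C B : Fin dc) (x : (Cfg dc)) : S.XB B (gLc S C x) = ∑ A, (S.f C A B : ℂ) • S.XB A x := by
  simp only [Setup.XB, gLc_apply, Complex.ofReal_sum, Finset.sum_smul, Finset.smul_sum]
  rw [Finset.sum_comm]
  refine Finset.sum_congr rfl fun A _ => Finset.sum_congr rfl fun i _ => ?_
  rw [smul_smul]
  congr 1
  push_cast
  rfl

lemma MA_G (C B : Fin dc) (x : (Cfg dc)) : MA S B (gLc S C x) = ∑ A, (S.f C A B : ℂ) • MA S A x := by
  simp only [MA, gLc_apply, Finset.mul_sum, Complex.ofReal_sum, Finset.sum_smul, Finset.smul_sum]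
  rw [Finset.sum_comm]
  refine Finset.sum_congr rfl fun A _ => Finset.sum_congr rfl fun i _ => ?_
  rw [smul_smul]
  congr 1
  push_cast
  ring

lemma f_jac4 (C E P Q : Fin dc) :
    ∑ X, (S.f E X Q * S.f C P X + S.f E P X * S.f C Q X - S.f C X E * S.f X P Q) = 0 := by
  have h := S.f_jac C P E Q
  rw [← neg_eq_zero, ← Finset.sum_neg_distrib, ← h]
  refine Finset.sum_congr rfl fun X _ => ?_
  have e1 := S.f_swap E X Q
  have e2 : S.f C Q X = S.f X C Q := by rw [S.f_cyc C Q X, S.f_cyc Q X C]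
  have e3 := S.f_swap E P X
  have e4 : S.f C X E = S.f E C X := by rw [S.f_swap' C E X, S.f_swap C E X, neg_neg]
  rw [e1, e2, e3, e4]
  ring

/-- Jacobi identity -/
lemma f_jacobi {M : Type*} [AddCommGroup M] [Module ℂ M] (b : Fin dc → Fin dc → M)
    (C E : Fin dc) :
    ∑ B, ∑ D, (S.f E B D : ℂ) • (∑ G, (S.f C G B : ℂ) • b G D + ∑ G, (S.f C G D : ℂ) • b B G) =
      ∑ A, (S.f C A E : ℂ) • ∑ B, ∑ D, (S.f A B D : ℂ) • b B D := by
  have e1 : ∑ B, ∑ D, (S.f E B D : ℂ) • ∑ G, (S.f C G B : ℂ) • b G D =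
      ∑ P, ∑ Q, ∑ X, ((S.f E X Q * S.f C P X : ℝ) : ℂ) • b P Q := by
    simp only [Finset.smul_sum, smul_smul, Complex.ofReal_mul]
    calc _ = ∑ D, ∑ B, ∑ G, ((S.f E B D : ℂ) * (S.f C G B : ℂ)) • b G D := Finset.sum_comm
      _ = ∑ D, ∑ G, ∑ B, ((S.f E B D : ℂ) * (S.f C G B : ℂ)) • b G D :=
        Finset.sum_congr rfl fun D _ => Finset.sum_comm
      _ = _ := Finset.sum_comm
  have e2 : ∑ B, ∑ D, (S.f E B D : ℂ) • ∑ G, (S.f C G D : ℂ) • b B G =
      ∑ P, ∑ Q, ∑ X, ((S.f E P X * S.f C Q X : ℝ) : ℂ) • b P Q := by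
    simp only [Finset.smul_sum, smul_smul, Complex.ofReal_mul]
    exact Finset.sum_congr rfl fun B _ => Finset.sum_comm
  have e3 : ∑ A, (S.f C A E : ℂ) • ∑ B, ∑ D, (S.f A B D : ℂ) • b B D =
      ∑ P, ∑ Q, ∑ X, ((S.f C X E * S.f X P Q : ℝ) : ℂ) • b P Q := by
    simp only [Finset.smul_sum, smul_smul, Complex.ofReal_mul]
    calc _ = ∑ B, ∑ A, ∑ D, ((S.f C A E : ℂ) * (S.f A B D : ℂ)) • b B D := Finset.sum_comm
      _ = _ := Finset.sum_congr rfl fun B _ => Finset.sum_comm
  simp only [smul_add, Finset.sum_add_distrib]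
  rw [e1, e2, e3]
  simp only [← Finset.sum_smul, ← Finset.sum_add_distrib, ← add_smul, ← Complex.ofReal_sum,
    ← Complex.ofReal_add]
  refine Finset.sum_congr rfl fun P _ => Finset.sum_congr rfl fun Q _ => ?_
  have h := f_jac4 S C E P Q
  rw [Finset.sum_sub_distrib, sub_eq_zero] at h
  rw [h]

lemma NB_G (C E : Fin dc) (x : (Cfg dc)) : NB S E (gLc S C x) x = ∑ A, (S.f C A E : ℂ) • S.NA A x := by
  have h := f_jacobi S (fun B D => S.XB B x * S.XB D x) C E
  simp only [NB, S.NA_eq_XB, XB_G, Finset.sum_mul, Finset.mul_sum, Matrix.smul_mul,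
    Matrix.mul_smul]
  rw [h, Finset.smul_sum]
  refine Finset.sum_congr rfl fun A _ => ?_
  rw [smul_comm]

lemma comm_cS (C : Fin dc) (P : Matrix (Fin 16) (Fin 16) ℂ) (A : Fin dc) (b : Fin 16) :
    S.cS C * S.vec P A b - S.vec P A b * S.cS C =
      Complex.I • ∑ E, (S.f C A E : ℂ) • S.vec P E b := by
  rw [S.cS_eq, ← neg_sub, S.vec_comm_sG S.f (fun C D E => S.f_swap' C E D), ← neg_smul, neg_neg]

theorem a3 : A3Stmt S := by
  intro m C α u hu x
  rw [← sub_eq_zero]
  have hD : ∀ (u : (Cfg dc) → F) (x : (Cfg dc)), S.G C u x =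
      (-Complex.I) • fderiv ℝ u x (gLc S C x) + S.cS C (u x) := fun u x => G_eq S C u x
  rw [comm_gen (contDiff_Zm S m α) (gLc S C) (S.cS C) hD (Qm_eq S m α) hu x]
  -- the zero order part
  have hZ : (-Complex.I) • (fderiv ℝ (Zm S m α) x (gLc S C x)) (u x) +
      (S.cS C * Zm S m α x - Zm S m α x * S.cS C) (u x) = 0 := by
    have h2 : fderiv ℝ (Zm S m α) x (gLc S C x) =
        ∑ E, ∑ A, (S.f C A E : ℂ) • S.vec (S.NA A x + (m : ℂ) • MA S A x) E α := by
      rw [fderiv_Zm]
      refine Finset.sum_congr rfl fun E _ => ?_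
      rw [NB_G, MA_G, Finset.smul_sum, ← Finset.sum_add_distrib, S.vec_sum]
      refine Finset.sum_congr rfl fun A _ => ?_
      rw [← S.vec_smul]
      congr 1
      rw [smul_add, smul_comm]
    have h3 : S.cS C * Zm S m α x - Zm S m α x * S.cS C =
        Complex.I • ∑ E, ∑ A, (S.f C A E : ℂ) • S.vec (S.NA A x + (m : ℂ) • MA S A x) E α := by
      rw [Zm_eq, Finset.mul_sum, Finset.sum_mul, ← Finset.sum_sub_distrib, Finset.sum_comm,
        Finset.smul_sum]
      refine Finset.sum_congr rfl fun A _ => ?_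
      rw [comm_cS]
    have h4 : (-Complex.I) • fderiv ℝ (Zm S m α) x (gLc S C x) +
        (S.cS C * Zm S m α x - Zm S m α x * S.cS C) = 0 := by
      rw [h2, h3]
      module
    have h5 := congrArg (fun T : F →L[ℂ] F => T (u x)) h4
    simpa only [_root_.add_apply, _root_.smul_apply, _root_.sum_apply, _root_.zero_apply] using h5
  have hF : ∑ i, ∑ A, S.vec (S.g i) A α
        (fderiv ℝ u x ((gLc S C) (EuclideanSpace.single (i, A) (1 : ℝ)))) +
      (-Complex.I) • ∑ i, ∑ A, (S.cS C * S.vec (S.g i) A α - S.vec (S.g i) A α * S.cS C)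
        (pd i A u x) = 0 := by
    have h1 : ∀ i A, S.vec (S.g i) A α
        (fderiv ℝ u x ((gLc S C) (EuclideanSpace.single (i, A) (1 : ℝ)))) =
        ∑ B, (S.f C A B : ℂ) • S.vec (S.g i) A α (pd i B u x) := by
      intro i A
      rw [gLc_single, map_sum, map_sum]
      refine Finset.sum_congr rfl fun B _ => ?_
      rw [map_smul, ← Complex.coe_smul, map_smul]
      rfl
    have h2 : ∀ i A, (S.cS C * S.vec (S.g i) A α - S.vec (S.g i) A α * S.cS C) (pd i A u x) =
        Complex.I • ∑ B, (S.f C A B : ℂ) • S.vec (S.g i) B α (pd i A u x) := by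
      intro i A
      rw [comm_cS, _root_.smul_apply, _root_.sum_apply]
      rfl
    have h3 : ∀ i, ∑ A, ∑ B, (S.f C A B : ℂ) • S.vec (S.g i) B α (pd i A u x) =
        -∑ A, ∑ B, (S.f C A B : ℂ) • S.vec (S.g i) A α (pd i B u x) := by
      intro i
      rw [Finset.sum_comm, ← Finset.sum_neg_distrib]
      refine Finset.sum_congr rfl fun A _ => ?_
      rw [← Finset.sum_neg_distrib]
      refine Finset.sum_congr rfl fun B _ => ?_
      rw [S.f_swap' C A B, ← neg_smul]
      push_cast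
      rfl
    simp only [h1, h2, ← Finset.smul_sum, h3, Finset.sum_neg_distrib]
    linear_combination (norm := module) (Complex.I_mul_I) •
      (∑ i, ∑ A, ∑ B, (S.f C A B : ℂ) • S.vec (S.g i) A α (pd i B u x))
  rw [add_assoc, hZ, hF, add_zero]

end defs

end Vale.Agent.P353.Z.U
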