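import Vale.Agent.P353.Z.U.EnGen

/-! # P353, general `N`: energy identity at a critical point (`EnStmt`) -/

open MeasureTheory Filter Topology
open scoped ContDiff Matrix

namespace Vale.Agent.P353.Z.U.En

variable {dc : ℕ}

variable {F : Type*} [NormedAddCommGroup F] [InnerProductSpace ℂ F]

/-- `a' = 3 + a` -/
def cj (a : Fin 6) : Fin 9 := ⟨3 + a.val, by omega⟩

lemma sum9 {M : Type*} [AddCommMonoid M] (f : Fin 9 → M) :
    ∑ i, f i = ∑ l : Fin 3, f (Setup.c3 l) + ∑ a : Fin 6, f (cj a) :=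
  Fin.sum_univ_add (a := 3) (b := 6) f

lemma c3_lt (l : Fin 3) : (Setup.c3 l).val < 3 := by simp [Setup.c3]

lemma cj_not (a : Fin 6) : ¬ (cj a).val < 3 := by simp [cj]

/-- the norm of a combination of orthogonal matrices -/
lemma trace_family {ι : Type*} [Fintype ι] [DecidableEq ι] (E : ι → Matrix (Fin 16) (Fin 16) ℂ)
    (hE : ∀ i j, (E i * (E j)ᵀ).trace = if i = j then 16 else 0) (c : ι → ℝ) :
    ((∑ i, ((c i : ℝ) : ℂ) • E i) * (∑ i, ((c i : ℝ) : ℂ) • E i)ᵀ).trace =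
      ((16 * ∑ i, c i ^ 2 : ℝ) : ℂ) := by
  simp only [Matrix.transpose_sum, Matrix.transpose_smul, Matrix.sum_mul, Matrix.mul_sum,
    Matrix.smul_mul, Matrix.mul_smul, Matrix.trace_sum, Matrix.trace_smul, hE,
    smul_eq_mul, mul_ite, mul_zero]
  push_cast
  rw [Finset.mul_sum]
  refine Finset.sum_congr rfl fun i _ => ?_
  simp
  ring

/-! ### gamma matrices -/

section gam

variable (S : Setup dc F)

lemma Gam_mul_transpose : S.Gam * S.Gamᵀ = 1 := by
  rw [S.Gam_transpose, Matrix.mul_neg, S.Gam_sq, neg_neg]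

lemma trace_gGgG (i k : Fin 9) :
    ((S.g i * S.Gam) * (S.g k * S.Gam)ᵀ).trace = if i = k then 16 else 0 := by
  have h : (S.g i * S.Gam) * (S.g k * S.Gam)ᵀ = S.g i * S.g k := by
    rw [Matrix.transpose_mul, S.g_symm]
    calc S.g i * S.Gam * (S.Gamᵀ * S.g k) = S.g i * (S.Gam * S.Gamᵀ) * S.g k := by
          simp only [Matrix.mul_assoc]
      _ = S.g i * S.g k := by rw [Gam_mul_transpose, Matrix.mul_one]
  rw [h, S.trace_g_g]

lemma exists_third (j k : Fin 9) : ∃ i : Fin 9, 3 ≤ i.val ∧ i ≠ j ∧ i ≠ k := by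
  revert j k; decide

lemma trace_gGg (j k : Fin 9) : (S.g j * (S.g k * S.Gam)ᵀ).trace = 0 := by
  obtain ⟨i, hi, hij, hik⟩ := exists_third j k
  have e : S.g j * (S.g k * S.Gam)ᵀ = -(S.g j * S.Gam * S.g k) := by
    rw [Matrix.transpose_mul, S.g_symm, S.Gam_transpose]
    simp only [Matrix.neg_mul, Matrix.mul_neg, Matrix.mul_assoc]
  have h1 : S.g i * S.g j = -(S.g j * S.g i) := S.g_ac hij
  have h2 : S.g i * S.Gam = -(S.Gam * S.g i) := S.g_Gam_anti hi
  have h3 : S.g i * S.g k = -(S.g k * S.g i) := S.g_ac hik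
  have h4 : S.g i * (S.g j * S.Gam * S.g k) = -((S.g j * S.Gam * S.g k) * S.g i) := by
    calc S.g i * (S.g j * S.Gam * S.g k) = (S.g i * S.g j) * (S.Gam * S.g k) := by
          simp only [Matrix.mul_assoc]
      _ = -(S.g j * (S.g i * S.Gam) * S.g k) := by
          rw [h1]; simp only [Matrix.mul_assoc, Matrix.neg_mul]
      _ = S.g j * S.Gam * (S.g i * S.g k) := by
          rw [h2]; simp only [Matrix.mul_assoc, Matrix.neg_mul, Matrix.mul_neg, neg_neg]
      _ = -((S.g j * S.Gam * S.g k) * S.g i) := by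
          rw [h3]; simp only [Matrix.mul_assoc, Matrix.mul_neg]
  have h5 : (S.g j * S.Gam * S.g k).trace = 0 := by
    have a1 : (S.g i * (S.g i * (S.g j * S.Gam * S.g k))).trace =
        (S.g j * S.Gam * S.g k).trace := by
      rw [← Matrix.mul_assoc, S.g_sq', Matrix.one_mul]
    have a2 : (S.g i * (S.g i * (S.g j * S.Gam * S.g k))).trace =
        -(S.g j * S.Gam * S.g k).trace := by
      rw [h4, Matrix.mul_neg, Matrix.trace_neg, ← Matrix.mul_assoc, Matrix.trace_mul_comm,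
        ← Matrix.mul_assoc, S.g_sq', Matrix.one_mul]
    have a3 : (S.g j * S.Gam * S.g k).trace = -(S.g j * S.Gam * S.g k).trace := a1.symm.trans a2
    have : (2 : ℂ) * (S.g j * S.Gam * S.g k).trace = 0 := by linear_combination a3
    simpa using this
  rw [e, Matrix.trace_neg, h5, neg_zero]

lemma trace_g_g2T (j k l : Fin 9) : (S.g j * (S.g2 k l)ᵀ).trace = 0 := by
  rw [S.g2_transpose', Matrix.mul_neg, Matrix.trace_neg, S.trace_g_g2E, neg_zero]

lemma gG0 : S.g 0 * S.Gam = S.g 1 * S.g 2 := by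
  calc S.g 0 * (S.g 0 * S.g 1 * S.g 2) = (S.g 0 * S.g 0) * (S.g 1 * S.g 2) := by
        simp only [Matrix.mul_assoc]
    _ = S.g 1 * S.g 2 := by rw [S.g_sq', Matrix.one_mul]

lemma gG1 : S.g 1 * S.Gam = S.g 2 * S.g 0 := by
  have h10 : S.g 1 * S.g 0 = -(S.g 0 * S.g 1) := S.g_ac (by decide)
  have h02 : S.g 0 * S.g 2 = -(S.g 2 * S.g 0) := S.g_ac (by decide)
  calc S.g 1 * (S.g 0 * S.g 1 * S.g 2) = (S.g 1 * S.g 0) * (S.g 1 * S.g 2) := by
        simp only [Matrix.mul_assoc]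
    _ = -(S.g 0 * (S.g 1 * S.g 1) * S.g 2) := by
        rw [h10]; simp only [Matrix.mul_assoc, Matrix.neg_mul]
    _ = S.g 2 * S.g 0 := by rw [S.g_sq', Matrix.mul_one, h02, neg_neg]

lemma gG2 : S.g 2 * S.Gam = S.g 0 * S.g 1 := by
  have h20 : S.g 2 * S.g 0 = -(S.g 0 * S.g 2) := S.g_ac (by decide)
  have h21 : S.g 2 * S.g 1 = -(S.g 1 * S.g 2) := S.g_ac (by decide)
  calc S.g 2 * (S.g 0 * S.g 1 * S.g 2) = (S.g 2 * S.g 0) * (S.g 1 * S.g 2) := by
        simp only [Matrix.mul_assoc]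
    _ = -(S.g 0 * (S.g 2 * S.g 1) * S.g 2) := by
        rw [h20]; simp only [Matrix.mul_assoc, Matrix.neg_mul]
    _ = S.g 0 * S.g 1 * (S.g 2 * S.g 2) := by
        rw [h21]; simp only [Matrix.mul_assoc, Matrix.neg_mul, Matrix.mul_neg, neg_neg]
    _ = S.g 0 * S.g 1 := by rw [S.g_sq', Matrix.mul_one]

lemma g2_ne {k l : Fin 9} (h : k ≠ l) : S.g2 k l = S.g k * S.g l := by
  have h1 : S.g l * S.g k = -(S.g k * S.g l) := S.g_ac h.symm
  unfold CS.g2
  rw [h1, sub_neg_eq_add, ← two_smul ℂ, smul_smul]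
  norm_num

/-- `γ^kΓ = γ^{k+1,k+2}` for `k ∈ I3` -/
lemma gG_c3 (k : Fin 3) : S.g (Setup.c3 k) * S.Gam =
    S.g2 (Setup.c3 (k + 1)) (Setup.c3 (k + 2)) := by
  fin_cases k
  · change S.g 0 * S.Gam = S.g2 1 2
    rw [gG0, g2_ne S (by decide)]
  · change S.g 1 * S.Gam = S.g2 2 0
    rw [gG1, g2_ne S (by decide)]
  · change S.g 2 * S.Gam = S.g2 0 1
    rw [gG2, g2_ne S (by decide)]

/-- `γ^aΓ` is symmetric for `a ∈ I6` -/
lemma gG_symm (a : Fin 9) (ha : 3 ≤ a.val) : (S.g a * S.Gam)ᵀ = S.g a * S.Gam := by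
  rw [Matrix.transpose_mul, S.g_symm, S.Gam_transpose, Matrix.neg_mul, S.g_Gam_anti ha]

/-- norm of an antisymmetric combination of the `γ^{ij}` -/
lemma trace_R (L : Fin 9 → Fin 9 → ℝ) (hL : ∀ i j, L i j = - L j i) :
    (((1 / 2 : ℂ) • ∑ i, ∑ j, ((L i j : ℝ) : ℂ) • S.g2 i j) *
      ((1 / 2 : ℂ) • ∑ i, ∑ j, ((L i j : ℝ) : ℂ) • S.g2 i j)ᵀ).trace =
      ((8 * ∑ i, ∑ j, L i j ^ 2 : ℝ) : ℂ) := by
  have h1 : (((1 / 2 : ℂ) • ∑ i, ∑ j, ((L i j : ℝ) : ℂ) • S.g2 i j) *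
      ((1 / 2 : ℂ) • ∑ i, ∑ j, ((L i j : ℝ) : ℂ) • S.g2 i j)ᵀ).trace =
      -(1 / 4 : ℂ) * ∑ i, ∑ j, ∑ k, ∑ l,
      ((L i j : ℝ) : ℂ) * ((L k l : ℝ) : ℂ) * (S.g2 i j * S.g2 k l).trace := by
    simp only [Matrix.transpose_smul, Matrix.transpose_sum, S.g2_transpose', smul_neg,
      Finset.sum_neg_distrib, Matrix.mul_neg, Matrix.trace_neg]
    simp only [smul_mul_smul_comm, Matrix.trace_smul, Matrix.sum_mul, smul_eq_mul,
      Matrix.trace_sum]
    simp only [Matrix.mul_sum, Matrix.smul_mul, Matrix.mul_smul, Matrix.trace_smul, smul_eq_mul,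
      Matrix.trace_sum]
    rw [show (1 / 2 : ℂ) * (1 / 2) = 1 / 4 by norm_num, neg_mul]
    congr 2
    refine Finset.sum_congr rfl fun i _ => Finset.sum_congr rfl fun j _ =>
      Finset.sum_congr rfl fun k _ => Finset.sum_congr rfl fun l _ => ?_
    ring
  have h2 : ∀ i j, ∑ k, ∑ l,
      ((L i j : ℝ) : ℂ) * ((L k l : ℝ) : ℂ) * (S.g2 i j * S.g2 k l).trace =
      - 32 * ((L i j : ℝ) : ℂ) ^ 2 := by
    intro i j
    simp only [S.trace_g2_g2, mul_sub, Finset.sum_sub_distrib]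
    rw [Finset.sum_eq_single j, Finset.sum_eq_single i, Finset.sum_eq_single i,
      Finset.sum_eq_single j]
    · rw [hL j i]
      simp only [if_true]
      push_cast
      ring
    · intro l _ hl; simp [Ne.symm hl]
    · intro h; exact absurd (Finset.mem_univ _) h
    · intro k _ hk
      refine Finset.sum_eq_zero fun l _ => ?_
      simp [Ne.symm hk]
    · intro h; exact absurd (Finset.mem_univ _) h
    · intro l _ hl; simp [Ne.symm hl]
    · intro h; exact absurd (Finset.mem_univ _) h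
    · intro k _ hk
      refine Finset.sum_eq_zero fun l _ => ?_
      simp [Ne.symm hk]
    · intro h; exact absurd (Finset.mem_univ _) h
  rw [h1]
  simp only [h2, ← Finset.mul_sum]
  push_cast
  ring

/-- symmetric and antisymmetric matrices are orthogonal -/
lemma trace_PR (P R : Matrix (Fin 16) (Fin 16) ℂ) (hP : Pᵀ = P) (hR : Rᵀ = -R) :
    ((P + R) * (P + R)ᵀ).trace = (P * Pᵀ).trace + (R * Rᵀ).trace := by
  have h : (P * R).trace = -(P * R).trace := by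
    conv_lhs => rw [← Matrix.trace_transpose, Matrix.transpose_mul, hP, hR, Matrix.neg_mul,
      Matrix.trace_neg, Matrix.trace_mul_comm]
  have h0 : (P * R).trace = 0 := by
    have : (2 : ℂ) * (P * R).trace = 0 := by linear_combination h
    simpa using this
  have h1 : (R * P).trace = 0 := by rw [Matrix.trace_mul_comm, h0]
  rw [Matrix.transpose_add, Matrix.add_mul, Matrix.mul_add, Matrix.mul_add, Matrix.trace_add,
    Matrix.trace_add, Matrix.trace_add, hP, hR, Matrix.mul_neg, Matrix.mul_neg, Matrix.trace_neg,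
    h0, h1]
  ring

end gam

/-! ### coefficient matrices at `ξ` -/

section coef

variable (S : Setup dc F) (ξ : Cfg dc)

/-- coefficient matrices of `M_β` -/
noncomputable def N0c (j : Fin 9) (B A : Fin dc) : Matrix (Fin 16) (Fin 16) ℂ :=
  if A = B then (aw j : ℂ) • (S.g j * S.Gam) else 0

/-- coefficient matrices of `DW_β` (without `κ`) -/
noncomputable def D1c (j : Fin 9) (C A : Fin dc) : Matrix (Fin 16) (Fin 16) ℂ :=
  ∑ B, ∑ i, ((S.f A B C : ℂ) * (ξ (i, B) : ℂ)) • S.g2 i j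

/-- coefficient matrices of `M_β + DW_β` -/
noncomputable def N1c (j : Fin 9) (C A : Fin dc) : Matrix (Fin 16) (Fin 16) ℂ :=
  N0c S j C A + (S.κ : ℂ) • D1c S ξ j C A

lemma sum_perm5 {M : Type*} [AddCommMonoid M]
    (f : Fin dc → Fin dc → Fin dc → Fin 9 → Fin 9 → M) :
    ∑ A, ∑ B, ∑ C, ∑ i, ∑ j, f A B C i j = ∑ j, ∑ C, ∑ A, ∑ B, ∑ i, f A B C i j := by
  calc ∑ A, ∑ B, ∑ C, ∑ i, ∑ j, f A B C i j
      = ∑ A, ∑ B, ∑ C, ∑ j, ∑ i, f A B C i j :=
        Finset.sum_congr rfl fun A _ => Finset.sum_congr rfl fun B _ =>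
          Finset.sum_congr rfl fun C _ => Finset.sum_comm
    _ = ∑ A, ∑ B, ∑ j, ∑ C, ∑ i, f A B C i j :=
        Finset.sum_congr rfl fun A _ => Finset.sum_congr rfl fun B _ => Finset.sum_comm
    _ = ∑ A, ∑ j, ∑ B, ∑ C, ∑ i, f A B C i j :=
        Finset.sum_congr rfl fun A _ => Finset.sum_comm
    _ = ∑ j, ∑ A, ∑ B, ∑ C, ∑ i, f A B C i j := Finset.sum_comm
    _ = ∑ j, ∑ A, ∑ C, ∑ B, ∑ i, f A B C i j :=
        Finset.sum_congr rfl fun j _ => Finset.sum_congr rfl fun A _ => Finset.sum_comm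
    _ = _ := Finset.sum_congr rfl fun j _ => Finset.sum_comm

lemma TT_N0c (β : Fin 16) (x : Cfg dc) : TT S (N0c S) β x = S.MM β x := by
  unfold TT Setup.MM
  refine Finset.sum_congr rfl fun j _ => Finset.sum_congr rfl fun B _ => ?_
  rw [Finset.sum_eq_single B]
  · rw [N0c, if_pos rfl, S.vec_smul, smul_smul]
    congr 1
    push_cast
    ring
  · intro A _ hA
    rw [N0c, if_neg hA, S.vec_zero]
  · intro h; exact absurd (Finset.mem_univ _) h

lemma TT_N1c (β : Fin 16) (x : Cfg dc) : TT S (N1c S ξ) β x = S.MM β x + S.DW ξ β x := by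
  rw [← TT_N0c]
  unfold Setup.DW
  rw [sum_perm5]
  unfold TT N1c
  simp only [S.vec_add, S.vec_smul, Finset.sum_add_distrib, smul_add]
  congr 1
  rw [Finset.smul_sum]
  refine Finset.sum_congr rfl fun j _ => ?_
  rw [Finset.smul_sum]
  refine Finset.sum_congr rfl fun C _ => ?_
  simp only [D1c, S.vec_sum, S.vec_smul, Finset.smul_sum, smul_smul]
  refine Finset.sum_congr rfl fun A _ => Finset.sum_congr rfl fun B _ =>
    Finset.sum_congr rfl fun i _ => ?_
  congr 1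
  ring

lemma N0c_im (j : Fin 9) (B A : Fin dc) (α β : Fin 16) : (N0c S j B A α β).im = 0 := by
  unfold N0c
  split_ifs
  · rw [Matrix.smul_apply, smul_eq_mul, Complex.mul_im, Complex.ofReal_im,
      Setup.mul_im_zero (S.g_im j) S.Gam_real]
    ring
  · simp

lemma N1c_im (j : Fin 9) (C A : Fin dc) (α β : Fin 16) : (N1c S ξ j C A α β).im = 0 := by
  unfold N1c D1c
  rw [Matrix.add_apply, Complex.add_im, N0c_im, zero_add, Matrix.smul_apply, smul_eq_mul,
    Complex.im_ofReal_mul]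
  simp only [Matrix.sum_apply, Matrix.smul_apply, smul_eq_mul, Complex.im_sum]
  have h : ∀ B i, (((S.f A B C : ℝ) : ℂ) * ((ξ (i, B) : ℝ) : ℂ) * S.g2 i j α β).im = 0 := by
    intro B i
    rw [← Complex.ofReal_mul, Complex.im_ofReal_mul, Setup.g2_im, mul_zero]
  simp only [h, Finset.sum_const_zero, mul_zero]

lemma N0c_trace (j k : Fin 9) (C B : Fin dc) : (S.g j * (N0c S k C B)ᵀ).trace = 0 := by
  unfold N0c
  split_ifs
  · rw [Matrix.transpose_smul, Matrix.mul_smul, Matrix.trace_smul, trace_gGg, smul_zero]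
  · simp

lemma N1c_trace (j k : Fin 9) (C B : Fin dc) : (S.g j * (N1c S ξ k C B)ᵀ).trace = 0 := by
  unfold N1c D1c
  rw [Matrix.transpose_add, Matrix.mul_add, Matrix.trace_add, N0c_trace, zero_add]
  simp only [Matrix.transpose_smul, Matrix.transpose_sum, Matrix.mul_smul, Matrix.mul_sum,
    Matrix.trace_smul, Matrix.trace_sum, trace_g_g2T, smul_zero, Finset.sum_const_zero]

lemma LF_swap (A : Fin dc) (i j : Fin 9) (x : Cfg dc) : S.LF ξ A i j x = - S.LF ξ A j i x := by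
  unfold Setup.LF
  rw [← mul_neg, ← Finset.sum_neg_distrib]
  congr 1
  rw [Finset.sum_comm]
  refine Finset.sum_congr rfl fun B _ => ?_
  rw [← Finset.sum_neg_distrib]
  refine Finset.sum_congr rfl fun C _ => ?_
  rw [S.f_swap' A B C]
  ring

/-- the antisymmetric coefficients -/
noncomputable def Lc (x : Cfg dc) (A : Fin dc) (i j : Fin 9) : ℝ :=
  S.LF ξ A i j x + ∑ k : Fin 3, 2 * x (Setup.c3 k, A) *
    ((if i = Setup.c3 (k + 1) then 1 else 0) * (if j = Setup.c3 (k + 2) then 1 else 0) -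
      (if i = Setup.c3 (k + 2) then 1 else 0) * (if j = Setup.c3 (k + 1) then 1 else 0))

lemma Lc_swap (x : Cfg dc) (A : Fin dc) (i j : Fin 9) : Lc S ξ x A i j = - Lc S ξ x A j i := by
  unfold Lc
  rw [LF_swap, neg_add, ← Finset.sum_neg_distrib]
  congr 1
  refine Finset.sum_congr rfl fun k _ => ?_
  ring

lemma sum_DW (x : Cfg dc) (A : Fin dc) :
    (S.κ : ℂ) • ∑ j, ∑ C, ((x (j, C) : ℝ) : ℂ) • D1c S ξ j C A =
      (1 / 2 : ℂ) • ∑ i, ∑ j, ((S.LF ξ A i j x : ℝ) : ℂ) • S.g2 i j := by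
  have h1 : (S.κ : ℂ) • ∑ j, ∑ C, ((x (j, C) : ℝ) : ℂ) • D1c S ξ j C A =
      ∑ i, ∑ j, ((S.κ * ∑ B, ∑ C, S.f A B C * (ξ (i, B) * x (j, C)) : ℝ) : ℂ) • S.g2 i j := by
    have h2 : ∀ j, ∑ C, ((x (j, C) : ℝ) : ℂ) • D1c S ξ j C A =
        ∑ i, ∑ B, ∑ C, ((S.f A B C * (ξ (i, B) * x (j, C)) : ℝ) : ℂ) • S.g2 i j := by
      intro j
      calc ∑ C, ((x (j, C) : ℝ) : ℂ) • D1c S ξ j C A
          = ∑ C, ∑ B, ∑ i, ((S.f A B C * (ξ (i, B) * x (j, C)) : ℝ) : ℂ) • S.g2 i j := by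
            refine Finset.sum_congr rfl fun C _ => ?_
            simp only [D1c, Finset.smul_sum, smul_smul]
            refine Finset.sum_congr rfl fun B _ => Finset.sum_congr rfl fun i _ => ?_
            congr 1
            push_cast
            ring
        _ = ∑ C, ∑ i, ∑ B, ((S.f A B C * (ξ (i, B) * x (j, C)) : ℝ) : ℂ) • S.g2 i j :=
            Finset.sum_congr rfl fun C _ => Finset.sum_comm
        _ = ∑ i, ∑ C, ∑ B, ((S.f A B C * (ξ (i, B) * x (j, C)) : ℝ) : ℂ) • S.g2 i j :=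
            Finset.sum_comm
        _ = _ := Finset.sum_congr rfl fun i _ => Finset.sum_comm
    simp only [h2]
    rw [Finset.sum_comm, Finset.smul_sum]
    refine Finset.sum_congr rfl fun i _ => ?_
    rw [Finset.smul_sum]
    refine Finset.sum_congr rfl fun j _ => ?_
    push_cast
    rw [mul_smul, Finset.sum_smul]
    simp only [Finset.sum_smul]
  have h3 : ∑ i, ∑ j, ((S.κ * ∑ B, ∑ C, S.f A B C * (ξ (i, B) * x (j, C)) : ℝ) : ℂ) • S.g2 i j =
      ∑ i, ∑ j, ((S.κ * ∑ B, ∑ C, S.f A B C * (x (i, B) * ξ (j, C)) : ℝ) : ℂ) • S.g2 i j := by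
    rw [Finset.sum_comm]
    refine Finset.sum_congr rfl fun i _ => Finset.sum_congr rfl fun j _ => ?_
    rw [S.g2_swap j i, smul_neg, ← neg_smul, ← Complex.ofReal_neg]
    congr 2
    rw [← mul_neg, ← Finset.sum_neg_distrib, Finset.sum_comm]
    congr 1
    refine Finset.sum_congr rfl fun B _ => ?_
    rw [← Finset.sum_neg_distrib]
    refine Finset.sum_congr rfl fun C _ => ?_
    rw [S.f_swap' A B C]
    ring
  have h4 : ∑ i, ∑ j, ((S.LF ξ A i j x : ℝ) : ℂ) • S.g2 i j =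
      ∑ i, ∑ j, ((S.κ * ∑ B, ∑ C, S.f A B C * (ξ (i, B) * x (j, C)) : ℝ) : ℂ) • S.g2 i j +
      ∑ i, ∑ j, ((S.κ * ∑ B, ∑ C, S.f A B C * (x (i, B) * ξ (j, C)) : ℝ) : ℂ) • S.g2 i j := by
    rw [← Finset.sum_add_distrib]
    refine Finset.sum_congr rfl fun i _ => ?_
    rw [← Finset.sum_add_distrib]
    refine Finset.sum_congr rfl fun j _ => ?_
    rw [← add_smul, ← Complex.ofReal_add]
    congr 2
    unfold Setup.LF
    rw [← mul_add, ← Finset.sum_add_distrib]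
    congr 1
    refine Finset.sum_congr rfl fun B _ => ?_
    rw [← Finset.sum_add_distrib]
    refine Finset.sum_congr rfl fun C _ => ?_
    ring
  rw [h4, ← h3, h1, ← two_smul ℂ, smul_smul]
  norm_num

/-- the symmetric part -/
noncomputable def Pc (x : Cfg dc) (A : Fin dc) : Matrix (Fin 16) (Fin 16) ℂ :=
  ∑ i : Fin 9, (((if i.val < 3 then 0 else x (i, A)) : ℝ) : ℂ) • (S.g i * S.Gam)

/-- the antisymmetric part -/
noncomputable def Rc (x : Cfg dc) (A : Fin dc) : Matrix (Fin 16) (Fin 16) ℂ :=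
  (1 / 2 : ℂ) • ∑ i, ∑ j, ((Lc S ξ x A i j : ℝ) : ℂ) • S.g2 i j

lemma Pc_symm (x : Cfg dc) (A : Fin dc) : (Pc S x A)ᵀ = Pc S x A := by
  unfold Pc
  rw [Matrix.transpose_sum]
  refine Finset.sum_congr rfl fun i _ => ?_
  rw [Matrix.transpose_smul]
  by_cases h : i.val < 3
  · simp [h]
  · rw [gG_symm S i (by omega)]

lemma Rc_anti (x : Cfg dc) (A : Fin dc) : (Rc S ξ x A)ᵀ = -Rc S ξ x A := by
  simp only [Rc, Matrix.transpose_smul, Matrix.transpose_sum, S.g2_transpose', smul_neg,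
    Finset.sum_neg_distrib]

lemma sum_Tk (c : ℂ) (p q : Fin 9) : ∑ i, ∑ j,
    (c * ((if i = p then 1 else 0) * (if j = q then 1 else 0) -
      (if i = q then 1 else 0) * (if j = p then 1 else 0))) • S.g2 i j =
    (2 * c) • S.g2 p q := by
  have h : ∀ (c : ℂ) (p q : Fin 9), ∑ i, ∑ j,
      (c * ((if i = p then 1 else 0) * (if j = q then 1 else 0))) • S.g2 i j = c • S.g2 p q := by
    intro c p q
    rw [Finset.sum_eq_single p, Finset.sum_eq_single q]
    · simp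
    · intro j _ hj; simp [hj]
    · intro h; exact absurd (Finset.mem_univ _) h
    · intro i _ hi
      refine Finset.sum_eq_zero fun j _ => ?_
      simp [hi]
    · intro h; exact absurd (Finset.mem_univ _) h
  simp only [mul_sub, sub_smul, Finset.sum_sub_distrib]
  rw [h, h, S.g2_swap q p]
  module

lemma sum_T (x : Cfg dc) (A : Fin dc) : (1 / 2 : ℂ) • ∑ i, ∑ j,
    (((∑ k : Fin 3, 2 * x (Setup.c3 k, A) *
    ((if i = Setup.c3 (k + 1) then 1 else 0) * (if j = Setup.c3 (k + 2) then 1 else 0) -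
      (if i = Setup.c3 (k + 2) then 1 else 0) * (if j = Setup.c3 (k + 1) then 1 else 0)) : ℝ)) : ℂ)
      • S.g2 i j =
    ∑ k : Fin 3, ((2 * x (Setup.c3 k, A) : ℝ) : ℂ) • (S.g (Setup.c3 k) * S.Gam) := by
  have h : ∑ i, ∑ j,
    (((∑ k : Fin 3, 2 * x (Setup.c3 k, A) *
    ((if i = Setup.c3 (k + 1) then 1 else 0) * (if j = Setup.c3 (k + 2) then 1 else 0) -
      (if i = Setup.c3 (k + 2) then 1 else 0) * (if j = Setup.c3 (k + 1) then 1 else 0)) : ℝ)) : ℂ)
      • S.g2 i j = ∑ k : Fin 3, ∑ i, ∑ j, (((2 * x (Setup.c3 k, A) : ℝ) : ℂ) *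
    ((if i = Setup.c3 (k + 1) then 1 else 0) * (if j = Setup.c3 (k + 2) then 1 else 0) -
      (if i = Setup.c3 (k + 2) then 1 else 0) * (if j = Setup.c3 (k + 1) then 1 else 0))) •
      S.g2 i j := by
    rw [Finset.sum_comm (γ := Fin 3)]
    refine Finset.sum_congr rfl fun i _ => ?_
    rw [Finset.sum_comm (γ := Fin 3)]
    refine Finset.sum_congr rfl fun j _ => ?_
    rw [Complex.ofReal_sum, Finset.sum_smul]
    refine Finset.sum_congr rfl fun k _ => ?_
    have hi : ∀ p : Prop, [Decidable p] → (((if p then 1 else 0 : ℝ)) : ℂ) = if p then 1 else 0 := by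
      intro p _
      split_ifs <;> simp
    congr 1
    simp only [Complex.ofReal_mul, Complex.ofReal_sub, hi]
  rw [h, Finset.smul_sum]
  refine Finset.sum_congr rfl fun k _ => ?_
  rw [sum_Tk, smul_smul, gG_c3]
  congr 1
  ring

lemma NX_N1c (x : Cfg dc) (A : Fin dc) : NX (N1c S ξ) x A = Pc S x A + Rc S ξ x A := by
  have h1 : NX (N1c S ξ) x A = ∑ i, ((aw i * x (i, A) : ℝ) : ℂ) • (S.g i * S.Gam) +
      (S.κ : ℂ) • ∑ j, ∑ C, ((x (j, C) : ℝ) : ℂ) • D1c S ξ j C A := by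
    unfold NX N1c
    simp only [smul_add, Finset.sum_add_distrib, Finset.smul_sum]
    congr 1
    · refine Finset.sum_congr rfl fun j _ => ?_
      rw [Finset.sum_eq_single A]
      · rw [N0c, if_pos rfl, smul_smul]
        congr 1
        push_cast
        ring
      · intro B _ hB
        rw [N0c, if_neg (Ne.symm hB), smul_zero]
      · intro h; exact absurd (Finset.mem_univ _) h
    · refine Finset.sum_congr rfl fun j _ => Finset.sum_congr rfl fun C _ => ?_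
      rw [smul_comm]
  have h2 : ∑ i, ((aw i * x (i, A) : ℝ) : ℂ) • (S.g i * S.Gam) = Pc S x A +
      ∑ k : Fin 3, ((2 * x (Setup.c3 k, A) : ℝ) : ℂ) • (S.g (Setup.c3 k) * S.Gam) := by
    unfold Pc
    rw [sum9, sum9]
    have a1 : ∀ l : Fin 3, aw (Setup.c3 l) = 2 := fun l => if_pos (c3_lt l)
    have a2 : ∀ a : Fin 6, aw (cj a) = 1 := fun a => if_neg (cj_not a)
    simp only [a1, a2, c3_lt, cj_not, if_true, if_false, one_mul, Complex.ofReal_zero, zero_smul,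
      Finset.sum_const_zero, zero_add]
    rw [add_comm]
  rw [h1, h2, sum_DW, ← sum_T]
  unfold Rc Lc
  simp only [Complex.ofReal_add, add_smul, Finset.sum_add_distrib, smul_add]
  abel

lemma c3_inj {l k : Fin 3} : Setup.c3 l = Setup.c3 k ↔ l = k := by
  constructor
  · intro h
    have := congrArg Fin.val h
    simp only [Setup.c3] at this
    exact Fin.ext this
  · rintro rfl; rfl

lemma cj_ne_c3 (l : Fin 3) (a : Fin 6) : cj a ≠ Setup.c3 l := by
  intro h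
  have := congrArg Fin.val h
  simp only [Setup.c3, cj] at this
  omega

lemma Lc_cj_right (x : Cfg dc) (A : Fin dc) (i : Fin 9) (a : Fin 6) :
    Lc S ξ x A i (cj a) = S.LF ξ A i (cj a) x := by
  simp [Lc, cj_ne_c3]

lemma Lc_cj_left (x : Cfg dc) (A : Fin dc) (j : Fin 9) (a : Fin 6) :
    Lc S ξ x A (cj a) j = S.LF ξ A (cj a) j x := by
  simp [Lc, cj_ne_c3]

lemma Lc_diag (x : Cfg dc) (A : Fin dc) (i : Fin 9) : Lc S ξ x A i i = 0 := by
  have h := Lc_swap S ξ x A i i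
  linarith

lemma Lc_cyc (x : Cfg dc) (A : Fin dc) (k : Fin 3) :
    Lc S ξ x A (Setup.c3 (k + 1)) (Setup.c3 (k + 2)) = S.LG ξ k A x := by
  unfold Lc Setup.LG
  congr 1
  simp only [c3_inj]
  fin_cases k <;> simp [Fin.sum_univ_three]

lemma sum_Lc_sq (x : Cfg dc) (A : Fin dc) : ∑ i, ∑ j, Lc S ξ x A i j ^ 2 =
    2 * ∑ k, S.LG ξ k A x ^ 2 +
      ∑ i : Fin 9, ∑ j : Fin 9, if i.val < 3 ∧ j.val < 3 then 0 else S.LF ξ A i j x ^ 2 := by
  have h3 : ∑ l : Fin 3, ∑ l' : Fin 3, Lc S ξ x A (Setup.c3 l) (Setup.c3 l') ^ 2 =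
      2 * ∑ k, S.LG ξ k A x ^ 2 := by
    have h0 : Lc S ξ x A (Setup.c3 1) (Setup.c3 2) = S.LG ξ 0 A x := Lc_cyc S ξ x A 0
    have h1 : Lc S ξ x A (Setup.c3 2) (Setup.c3 0) = S.LG ξ 1 A x := Lc_cyc S ξ x A 1
    have h2 : Lc S ξ x A (Setup.c3 0) (Setup.c3 1) = S.LG ξ 2 A x := Lc_cyc S ξ x A 2
    have h0' : Lc S ξ x A (Setup.c3 2) (Setup.c3 1) = - S.LG ξ 0 A x := by rw [Lc_swap, h0]
    have h1' : Lc S ξ x A (Setup.c3 0) (Setup.c3 2) = - S.LG ξ 1 A x := by rw [Lc_swap, h1]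
    have h2' : Lc S ξ x A (Setup.c3 1) (Setup.c3 0) = - S.LG ξ 2 A x := by rw [Lc_swap, h2]
    simp only [Fin.sum_univ_three, Lc_diag, h0, h1, h2, h0', h1', h2']
    ring
  simp only [sum9, Finset.sum_add_distrib, Lc_cj_right, Lc_cj_left, c3_lt, cj_not, if_true,
    if_false, and_true, and_false, Finset.sum_const_zero, h3]
  ring

lemma N1c_sq (x : Cfg dc) : (1 / 2 : ℂ) * ∑ A, (NX (N1c S ξ) x A * (NX (N1c S ξ) x A)ᵀ).trace =
    ((16 * S.hq ξ x : ℝ) : ℂ) := by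
  have h : ∀ A, (NX (N1c S ξ) x A * (NX (N1c S ξ) x A)ᵀ).trace =
      ((16 * ∑ i : Fin 9, (if i.val < 3 then 0 else x (i, A)) ^ 2 +
        8 * ∑ i, ∑ j, Lc S ξ x A i j ^ 2 : ℝ) : ℂ) := by
    intro A
    rw [NX_N1c, trace_PR _ _ (Pc_symm S x A) (Rc_anti S ξ x A), Complex.ofReal_add]
    congr 1
    · exact trace_family (fun i => S.g i * S.Gam) (trace_gGgG S)
        (fun i => if i.val < 3 then 0 else x (i, A))
    · exact trace_R S _ (Lc_swap S ξ x A)
  simp only [h, sum_Lc_sq]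
  rw [← Complex.ofReal_sum]
  have h2 : (1 / 2 : ℂ) = ((1 / 2 : ℝ) : ℂ) := by push_cast; rfl
  rw [h2, ← Complex.ofReal_mul]
  congr 1
  unfold Setup.hq
  have e1 : ∑ k, ∑ A, S.LG ξ k A x ^ 2 = ∑ A, ∑ k, S.LG ξ k A x ^ 2 := Finset.sum_comm
  have e2 : (∑ i : Fin 9, ∑ A, if i.val < 3 then 0 else x (i, A) ^ 2) =
      ∑ A, ∑ i : Fin 9, (if i.val < 3 then 0 else x (i, A)) ^ 2 := by
    rw [Finset.sum_comm]
    refine Finset.sum_congr rfl fun A _ => Finset.sum_congr rfl fun i _ => ?_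
    split_ifs <;> simp
  have e3 : (∑ i : Fin 9, ∑ j : Fin 9, ∑ A,
      if i.val < 3 ∧ j.val < 3 then 0 else S.LF ξ A i j x ^ 2) =
      ∑ A, ∑ i : Fin 9, ∑ j : Fin 9, if i.val < 3 ∧ j.val < 3 then 0 else S.LF ξ A i j x ^ 2 := by
    calc (∑ i : Fin 9, ∑ j : Fin 9, ∑ A,
        if i.val < 3 ∧ j.val < 3 then 0 else S.LF ξ A i j x ^ 2) =
        ∑ i : Fin 9, ∑ A, ∑ j : Fin 9,
          if i.val < 3 ∧ j.val < 3 then 0 else S.LF ξ A i j x ^ 2 :=
          Finset.sum_congr rfl fun i _ => Finset.sum_comm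
      _ = _ := Finset.sum_comm
  rw [e1, e2, e3]
  simp only [Finset.sum_add_distrib, ← Finset.mul_sum]
  ring

lemma sum_aw : ∑ i, aw i = 12 := by
  rw [sum9]
  have h1 : ∀ l : Fin 3, aw (Setup.c3 l) = 2 := fun l => if_pos (c3_lt l)
  have h2 : ∀ a : Fin 6, aw (cj a) = 1 := fun a => if_neg (cj_not a)
  simp only [h1, h2, Finset.sum_const, Finset.card_univ, Fintype.card_fin]
  norm_num

lemma KT_N0c : KT S (N0c S) = -((12 : ℂ) • S.FG) := by
  have h : ∀ j : Fin 9, ∑ B, ∑ A, S.bil (S.g j * N0c S j B A) B A = (aw j : ℂ) • S.tot S.Gam := by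
    intro j
    rw [CS.tot, Finset.smul_sum]
    refine Finset.sum_congr rfl fun B _ => ?_
    rw [Finset.sum_eq_single B]
    · rw [N0c, if_pos rfl, Matrix.mul_smul, S.bil_smul, ← Matrix.mul_assoc, S.g_sq',
        Matrix.one_mul]
    · intro A _ hA
      rw [N0c, if_neg hA, Matrix.mul_zero, S.bil_zero]
    · intro h; exact absurd (Finset.mem_univ _) h
  unfold KT
  simp only [h]
  rw [← Finset.sum_smul, ← Complex.ofReal_sum, sum_aw, smul_smul]
  unfold Setup.FG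
  rw [smul_smul, ← neg_smul]
  congr 1
  push_cast
  ring

lemma sum_g_g2' (i : Fin 9) : ∑ j, S.g j * S.g2 i j = -((8 : ℂ) • S.g i) := by
  rw [← S.sum_g_g2, ← Finset.sum_neg_distrib]
  refine Finset.sum_congr rfl fun j _ => ?_
  rw [S.g2_swap, Matrix.mul_neg]

lemma KT_D1c : ∑ j, ∑ C, ∑ A, S.bil (S.g j * D1c S ξ j C A) C A =
    -((8 : ℂ) • ∑ q, ∑ A, ∑ B, ∑ C, ((S.f A B C : ℂ) * (ξ (q, C) : ℂ)) • S.bil (S.g q) A B) := by
  calc ∑ j, ∑ C, ∑ A, S.bil (S.g j * D1c S ξ j C A) C A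
      = ∑ j, ∑ C, ∑ A, ∑ B, ∑ i,
          ((S.f A B C : ℂ) * (ξ (i, B) : ℂ)) • S.bil (S.g j * S.g2 i j) C A := by
        refine Finset.sum_congr rfl fun j _ => Finset.sum_congr rfl fun C _ =>
          Finset.sum_congr rfl fun A _ => ?_
        simp only [D1c, Matrix.mul_sum, Matrix.mul_smul, S.bil_sum, S.bil_smul]
    _ = ∑ j, ∑ C, ∑ A, ∑ i, ∑ B,
          ((S.f A B C : ℂ) * (ξ (i, B) : ℂ)) • S.bil (S.g j * S.g2 i j) C A :=
        Finset.sum_congr rfl fun j _ => Finset.sum_congr rfl fun C _ =>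
          Finset.sum_congr rfl fun A _ => Finset.sum_comm
    _ = ∑ j, ∑ C, ∑ i, ∑ A, ∑ B,
          ((S.f A B C : ℂ) * (ξ (i, B) : ℂ)) • S.bil (S.g j * S.g2 i j) C A :=
        Finset.sum_congr rfl fun j _ => Finset.sum_congr rfl fun C _ => Finset.sum_comm
    _ = ∑ j, ∑ i, ∑ C, ∑ A, ∑ B,
          ((S.f A B C : ℂ) * (ξ (i, B) : ℂ)) • S.bil (S.g j * S.g2 i j) C A :=
        Finset.sum_congr rfl fun j _ => Finset.sum_comm
    _ = ∑ i, ∑ j, ∑ C, ∑ A, ∑ B,
          ((S.f A B C : ℂ) * (ξ (i, B) : ℂ)) • S.bil (S.g j * S.g2 i j) C A := Finset.sum_comm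
    _ = ∑ i, ∑ C, ∑ j, ∑ A, ∑ B,
          ((S.f A B C : ℂ) * (ξ (i, B) : ℂ)) • S.bil (S.g j * S.g2 i j) C A :=
        Finset.sum_congr rfl fun i _ => Finset.sum_comm
    _ = ∑ i, ∑ C, ∑ A, ∑ j, ∑ B,
          ((S.f A B C : ℂ) * (ξ (i, B) : ℂ)) • S.bil (S.g j * S.g2 i j) C A :=
        Finset.sum_congr rfl fun i _ => Finset.sum_congr rfl fun C _ => Finset.sum_comm
    _ = ∑ i, ∑ C, ∑ A, ∑ B, ∑ j,
          ((S.f A B C : ℂ) * (ξ (i, B) : ℂ)) • S.bil (S.g j * S.g2 i j) C A :=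
        Finset.sum_congr rfl fun i _ => Finset.sum_congr rfl fun C _ =>
          Finset.sum_congr rfl fun A _ => Finset.sum_comm
    _ = _ := by
        rw [Finset.smul_sum, ← Finset.sum_neg_distrib]
        refine Finset.sum_congr rfl fun i _ => ?_
        rw [Finset.smul_sum, ← Finset.sum_neg_distrib]
        refine Finset.sum_congr rfl fun C _ => ?_
        rw [Finset.smul_sum, ← Finset.sum_neg_distrib]
        refine Finset.sum_congr rfl fun A _ => ?_
        rw [Finset.smul_sum, ← Finset.sum_neg_distrib]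
        refine Finset.sum_congr rfl fun B _ => ?_
        rw [← Finset.smul_sum, ← S.bil_sum, sum_g_g2', S.bil_neg, S.bil_smul,
          show S.f A B C = S.f C A B from (S.f_cyc C A B).symm]
        module

lemma KT_N1c : KT S (N1c S ξ) = (16 : ℂ) • S.Fx ξ - (12 : ℂ) • S.FG := by
  have h0 : KT S (N1c S ξ) = KT S (N0c S) +
      (-Complex.I * (S.κ : ℂ)) • ∑ j, ∑ C, ∑ A, S.bil (S.g j * D1c S ξ j C A) C A := by
    unfold KT N1c
    simp only [Matrix.mul_add, Matrix.mul_smul, S.bil_add, S.bil_smul, Finset.sum_add_distrib,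
      ← Finset.smul_sum]
    module
  rw [h0, KT_D1c, KT_N0c]
  unfold Setup.Fx
  module

lemma Qlin_eq (β : Fin 16) (v : Cfg dc → F) (x : Cfg dc) :
    S.Qlin ξ β v x = QT S (N1c S ξ) β v x := by
  unfold Setup.Qlin QT
  rw [TT_N1c, _root_.add_apply, add_assoc]

lemma norm_K_sq (K : Cfg dc →L[ℝ] Cfg dc) (x : Cfg dc) :
    ‖K x‖ ^ 2 = ∑ i, ∑ A, (K x (i, A)) ^ 2 := by
  rw [EuclideanSpace.real_norm_sq_eq, Fintype.sum_prod_type]

/-- one component of `K` -/
noncomputable def KL (K : Cfg dc →L[ℝ] Cfg dc) (i : Fin 9) (A : Fin dc) : Cfg dc →L[ℝ] ℝ :=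
  (EuclideanSpace.proj (𝕜 := ℝ) (i, A) : Cfg dc →L[ℝ] ℝ).comp K

lemma KL_apply (K : Cfg dc →L[ℝ] Cfg dc) (i : Fin 9) (A : Fin dc) (x : Cfg dc) :
    KL K i A x = K x (i, A) := rfl

end coef

/-- **C-En** -/
theorem en (S : Setup dc F) : EnStmt S := by
  intro ξ K _ hK v hv
  have hAc : ∀ i A, ContDiff ℝ ∞ (fun x : Cfg dc => K x (i, A)) := fun i A => (KL K i A).contDiff
  have hqe : ∀ x, 16 * S.hq ξ x = 8 * ∑ i, ∑ A, (K x (i, A)) ^ 2 := by
    intro x
    rw [← norm_K_sq, hK.sq]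
    ring
  have hq : Continuous fun x : Cfg dc => 8 * ∑ i, ∑ A, (K x (i, A)) ^ 2 :=
    continuous_const.mul (continuous_finsetSum _ fun i _ => continuous_finsetSum _ fun A _ =>
      ((hAc i A).continuous.pow 2))
  have hE := energy_QT S (N1c S ξ) (N1c_im S ξ) (N1c_trace S ξ) _ hq
    (fun x => by rw [N1c_sq S ξ x, hqe]) v hv
  have hQ : ∀ β, S.Qlin ξ β v = QT S (N1c S ξ) β v := fun β => funext (Qlin_eq S ξ β v)
  simp only [hQ]
  rw [hE]
  have hsq : ∀ i A, nsq (fun x => pd i A v x + ((K x (i, A) : ℝ) : ℂ) • v x) =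
      nsq (pd i A v) + (∫ x, (K x (i, A)) ^ 2 * ‖v x‖ ^ 2) -
        K (EuclideanSpace.single (i, A) (1 : ℝ)) (i, A) * nsq v := by
    intro i A
    refine nsq_pd_add (fun x => K x (i, A)) (hAc i A) i A _ ?_ v hv
    intro x
    have h' : fderiv ℝ (fun x : Cfg dc => K x (i, A)) x = KL K i A :=
      (KL K i A).hasFDerivAt.fderiv
    rw [h', KL_apply]
  have hint : ∀ i A, Integrable (fun x : Cfg dc => (K x (i, A)) ^ 2 * ‖v x‖ ^ 2) := by
    intro i A
    exact hv.mul_norm_sq_int ((hAc i A).continuous.pow 2)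
  simp only [hsq, Finset.sum_sub_distrib, Finset.sum_add_distrib]
  have i1 : ∫ x, (8 * ∑ i, ∑ A, (K x (i, A)) ^ 2) * ‖v x‖ ^ 2 =
      8 * ∑ i, ∑ A, ∫ x, (K x (i, A)) ^ 2 * ‖v x‖ ^ 2 := by
    have e : ∀ x : Cfg dc, (8 * ∑ i, ∑ A, (K x (i, A)) ^ 2) * ‖v x‖ ^ 2 =
        8 * ∑ i, ∑ A, (K x (i, A)) ^ 2 * ‖v x‖ ^ 2 := by
      intro x
      simp only [Finset.sum_mul, mul_assoc]
    simp only [e]
    rw [integral_const_mul, integral_finsetSum _ fun i _ => integrable_finsetSum _ fun A _ =>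
      hint i A]
    congr 1
    refine Finset.sum_congr rfl fun i _ => ?_
    rw [integral_finsetSum _ fun A _ => hint i A]
  have i2 : ∑ i : Fin 9, ∑ A : Fin dc, K (EuclideanSpace.single (i, A) (1 : ℝ)) (i, A) * nsq v =
      trK K * nsq v := by
    simp only [← Finset.sum_mul]
    rfl
  have i4 : (∫ x, inner ℂ (v x) (KT S (N1c S ξ) (v x))).re =
      16 * (∫ x, inner ℂ (v x) (S.Nx (trK K) ξ (v x))).re - 8 * trK K * nsq v := by
    have e : ∀ x, inner ℂ (v x) (KT S (N1c S ξ) (v x)) =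
        (16 : ℂ) * inner ℂ (v x) (S.Nx (trK K) ξ (v x)) -
          ((8 * trK K : ℝ) : ℂ) * inner ℂ (v x) (v x) := by
      intro x
      have hN : KT S (N1c S ξ) (v x) = (16 : ℂ) • S.Nx (trK K) ξ (v x) -
          ((8 * trK K : ℝ) : ℂ) • v x := by
        rw [KT_N1c]
        unfold Setup.Nx
        simp only [_root_.sub_apply, _root_.add_apply, _root_.smul_apply,
          one_apply_eq_self]
        push_cast
        module
      rw [hN, inner_sub_right, inner_smul_right, inner_smul_right]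
    have hF : Setup.Tst (fun x => S.Nx (trK K) ξ (v x)) := hv.clm contDiff_const
    simp only [e]
    rw [integral_sub ((hv.inner_int hF.1.continuous).const_mul _)
      ((hv.inner_int hv.1.continuous).const_mul _), integral_const_mul, integral_const_mul]
    have : ∫ x, inner ℂ (v x) (v x) = ((nsq v : ℝ) : ℂ) := by
      rw [nsq, ← integral_complex_ofReal]
      congr 1
      ext x
      rw [inner_self_eq_norm_sq_to_K]
      norm_cast
    rw [this, Complex.sub_re, Complex.re_ofReal_mul, Complex.ofReal_re]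
    congr 1
    have h16 : (16 : ℂ) = ((16 : ℝ) : ℂ) := by push_cast; rfl
    rw [h16, Complex.re_ofReal_mul]
  rw [i1, i2, i4]
  ring

end Vale.Agent.P353.Z.U.En

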