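import Vale.Agent.P353.Z.U.GamLem

/-! # P353, general `N`: statements of part B (spectral theory for fixed `m > 0`) -/

open MeasureTheory Filter Topology
open scoped ContDiff

namespace Vale.Agent.P353.Z.U

variable {d : ℕ} {F : Type*} [NormedAddCommGroup F] [InnerProductSpace ℂ F]

/-- **C-Coe** coercivity of the potential. PROOF (compactness, works for every compact Lie algebra).
Suppose not: `x_n`, `|x_n| → ∞`, `V_1(x_n) ≤ |x_n|²/n`. By the square formula (`SqStmt`) `|x_{n,a}| = o(|x_n|)` for `a ∈ I6`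
and `|F_{ij}(x_n) + 2x_{n,k}| = o(|x_n|)` (`(ijk)` cyclic in `I3`). `y_n = x_n/|x_n|`; subsequence `y_n → y`, `|y| = 1`,
`y_a = 0` for `a ∈ I6`, and `κ|x_n|[y_{n,i},y_{n,j}] + 2y_{n,k} → 0`, so `[y_i,y_j] = 0`. Choose `O_n ∈ grp` minimising
`|ro O_n y_n - y|` (`grp` is compact: `GrpCptStmt`); replace `y_n` by `ro O_n y_n` (everything is invariant; since `1 ∈ grp` still `→ y`).
`e_n = y_n - y` satisfies `Perp y e_n` (derivative along `exp(t ad a)`, `GrpExpStmt`). Let `𝔷` = common kernel of the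
`ad y_i`, `i ∈ I3` (a subalgebra), `e = e_∥ + e_⊥` (componentwise, `𝔷 ⊕ 𝔷^⊥`). For commuting `D_i = ad y_i` (antisymmetric):
`∑_{ij}|D_ie_j|² = ½∑_{ij}|D_ie_j - D_je_i|² + |∑_iD_ie_i|²`, and `∑_i D_ie_i = 0` by `Perp`; so
`c|e_⊥|² ≤ ½∑|D_ie_j - D_je_i|²`, `D_ie_j - D_je_i = [y_{n,i},y_{n,j}] - [e_i,e_j]`. Project on `𝔷^⊥`: `[e_∥,e_∥] ∈ 𝔷`,
`([y_{n,i},y_{n,j}])_⊥ = -(2/(κ|x_n|))(y_{n,k})_⊥ + o(1/|x_n|) = o(1/|x_n|)`, so `|e_⊥| ≤ o(1/|x_n|) + C|e||e_⊥|`,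
`|e_⊥| = o(1/|x_n|)`. Finally `⟨[y_{n,i},y_{n,j}],y_k⟩ = ⟨[e_i,e_j],y_k⟩ = ⟨e_i,[e_j,y_k]⟩ = O(|e_⊥|²)`, so
`-2|y_k|² = lim κ|x_n|⟨[y_{n,i},y_{n,j}],y_k⟩ = 0` for all `k`: contradiction with `|y| = 1`. -/
def CoeStmt (S : Setup d F) : Prop := ∃ c C : ℝ, 0 < c ∧ 0 ≤ C ∧
  ∀ x : Cfg d, c * ‖x‖ ^ 2 - C ≤ S.Vm 1 x

/-- **B0** coercivity, locally uniform in `m`: from A6, `CoeStmt` and the scaling `V_m(x) = m⁴V_1(x/m)`: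
`V_m(x) ≥ cm²|x|² - Cm⁴`; `|⟨u,Fx u⟩| ≤ C|x||u|²`, `‖FG‖ ≤ C`. -/
def CoerStmt (S : Setup d F) : Prop := ∀ a b : ℝ, 0 < a → ∃ c C : ℝ, 0 < c ∧ 0 ≤ C ∧
  ∀ m : ℝ, a ≤ m → m ≤ b → ∀ u : Cfg d → F, Setup.Tst u →
    c * ((∫ x, ‖x‖ ^ 2 * ‖u x‖ ^ 2) + ∑ i, ∑ A, nsq (pd i A u)) ≤
      C * nsq u + ∑ β, nsq (S.Qm m β u)

/-- **B-LR** local Rellich theorem (`F` finite dimensional). -/
def LRStmt (d : ℕ) (F : Type*) [NormedAddCommGroup F] [InnerProductSpace ℂ F] : Prop :=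
  ∀ u : ℕ → Cfg d → F, (∀ n, ContDiff ℝ ∞ (u n)) →
    (∀ s : ℝ, 0 < s → ∃ K : ℝ, ∀ n, (∫ x in Metric.ball (0 : Cfg d) s, ‖u n x‖ ^ 2) +
      ∑ i, ∑ A, (∫ x in Metric.ball (0 : Cfg d) s, ‖pd i A (u n) x‖ ^ 2) ≤ K) →
    ∃ φ : ℕ → ℕ, StrictMono φ ∧ ∃ Ψ : Cfg d → F, StronglyMeasurable Ψ ∧
      (∀ s : ℝ, 0 < s → IntegrableOn (fun x => ‖Ψ x‖ ^ 2) (Metric.ball (0 : Cfg d) s)) ∧
      ∀ s : ℝ, 0 < s → Tendsto (fun n => ∫ x in Metric.ball (0 : Cfg d) s, ‖u (φ n) x - Ψ x‖ ^ 2)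
        atTop (𝓝 0)

/-- **core gap** `‖∑Q²φ‖² ≥ 8m ∑‖Qφ‖²` for invariant test functions. Same proof as for `N = 2`
(`Vale/Agent/P353/U/CGap.lean`). -/
def CGapStmt (S : Setup d F) : Prop := ∀ m : ℝ, 0 < m → ∀ φ : Cfg d → F, S.Inv φ →
  8 * m * ∑ β, nsq (S.Qm m β φ) ≤ nsq (fun x => ∑ β, S.Qm m β (S.Qm m β φ) x)

/-- **weak = strong** for limits of invariant test functions. Same proof as for `N = 2`
(`Vale/Agent/P353/U/WS.lean`). -/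
def WSStmt (S : Setup d F) : Prop := ∀ m : ℝ, ∀ Ψ : Cfg d → F,
  (∃ w : ℕ → Cfg d → F, (∀ n, S.Inv (w n)) ∧ L2t w Ψ) →
  (∀ φ, S.Inv φ → ∫ x, inner ℂ (∑ β, S.Qm m β (S.Qm m β φ) x) (Ψ x) = 0) →
  ∃ u : ℕ → Cfg d → F, (∀ n, S.Inv (u n)) ∧ L2t u Ψ ∧
    Tendsto (fun n => ∑ β, nsq (S.Qm m β (u n))) atTop (𝓝 0)

/-- **Theorem B** Same proof as for `N = 2` (`Vale/Agent/P353/U/ThmB2.lean`), with `k` instead of `3` functions. -/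
def ThmBStmt (S : Setup d F) (k : ℕ) : Prop := ∀ m : ℝ, 0 < m → S.Low k m (8 * m) →
  ∀ m' : ℝ, 0 < m' → ∀ c : ℝ, 0 < c → S.Low k m' c

end Vale.Agent.P353.Z.U
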