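import Vale.Agent.P353.Z.U.StmtA
import Vale.Agent.P353.Z.U.StmtB

/-! # P353, general `N`: the operator `1 + ∑ Q_β²`, basic lemmas (from `Vale/Agent/P353/U/ESA.lean`) -/

open MeasureTheory Filter Topology
open scoped ContDiff

namespace Vale.Agent.P353.Z

variable {dc : ℕ}

variable {F : Type*} [NormedAddCommGroup F] [InnerProductSpace ℂ F]

lemma esa_pdr_smooth {φ : (Cfg dc) → ℝ} (hφ : ContDiff ℝ ∞ φ) (j : Fin 9) (B : Fin dc) :
    ContDiff ℝ ∞ (pdr j B φ) := by
  unfold pdr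
  exact (hφ.fderiv_right (m := ∞) (by simp)).clm_apply contDiff_const

lemma esa_pdr_cs {φ : (Cfg dc) → ℝ} (hφ : HasCompactSupport φ) (j : Fin 9) (B : Fin dc) :
    HasCompactSupport (pdr j B φ) := hφ.fderiv_apply (𝕜 := ℝ) _

namespace Setup

variable (S : Setup dc F)

lemma esa_gGam_real (i : Fin 9) (α β : Fin 16) : ((S.g i * S.Gam) α β).im = 0 :=
  mul_im_zero (S.g_im i) S.Gam_real α β

lemma esa_MM_symm (β : Fin 16) (x : (Cfg dc)) (v w : F) :
    inner ℂ (S.MM β x v) w = inner ℂ v (S.MM β x w) := by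
  simp only [MM, _root_.sum_apply, _root_.smul_apply, sum_inner,
    inner_sum, inner_smul_left, inner_smul_right, S.vec_symm _ (S.esa_gGam_real _),
    Complex.conj_ofReal]

lemma esa_contDiff_MM (β : Fin 16) : ContDiff ℝ ∞ (S.MM β) := by
  unfold MM
  refine ContDiff.sum fun i _ => ContDiff.sum fun A _ => ?_
  exact (contDiff_ofReal (contDiff_const.mul (contDiff_coord _))).smul contDiff_const

lemma esa_contDiff_Qm (m : ℝ) (β : Fin 16) {u : (Cfg dc) → F} (hu : ContDiff ℝ ∞ u) :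
    ContDiff ℝ ∞ (S.Qm m β u) := by
  unfold Qm
  exact (S.contDiff_Q β hu).add (contDiff_const.smul (contDiff_clm_apply' (S.esa_contDiff_MM β) hu))

lemma esa_Tst_Qm {u : (Cfg dc) → F} (hu : Tst u) (m : ℝ) (β : Fin 16) : Tst (S.Qm m β u) := by
  have h1 : Tst (fun x => ((m : ℂ) • S.MM β x) (u x)) :=
    Tst.clm (T := fun x => (m : ℂ) • S.MM β x) ((S.esa_contDiff_MM β).const_smul (m : ℂ)) hu
  exact (hu.Q S β).add h1

theorem esa_Qm_symm (m : ℝ) (β : Fin 16) (u v : (Cfg dc) → F) (hu : Tst u) (hv : ContDiff ℝ ∞ v) :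
    ∫ x, inner ℂ (S.Qm m β u x) (v x) = ∫ x, inner ℂ (u x) (S.Qm m β v x) := by
  have h1 : Tst (fun x => ((m : ℂ) • S.MM β x) (u x)) :=
    Tst.clm (T := fun x => (m : ℂ) • S.MM β x) ((S.esa_contDiff_MM β).const_smul (m : ℂ)) hu
  have h2 : ContDiff ℝ ∞ (fun x => ((m : ℂ) • S.MM β x) (v x)) :=
    contDiff_clm_apply' (T := fun x => (m : ℂ) • S.MM β x)
      ((S.esa_contDiff_MM β).const_smul (m : ℂ)) hv
  have e1 : ∀ x, inner ℂ (S.Qm m β u x) (v x) = inner ℂ (S.Q β u x) (v x) +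
      inner ℂ (((m : ℂ) • S.MM β x) (u x)) (v x) := fun x => by
    rw [Qm, inner_add_left]; rfl
  have e2 : ∀ x, inner ℂ (u x) (S.Qm m β v x) = inner ℂ (u x) (S.Q β v x) +
      inner ℂ (u x) (((m : ℂ) • S.MM β x) (v x)) := fun x => by
    rw [Qm, inner_add_right]; rfl
  simp only [e1, e2]
  rw [integral_add ((hu.Q S β).inner_int hv.continuous) (h1.inner_int hv.continuous),
    integral_add (hu.inner_int (S.contDiff_Q β hv).continuous) (hu.inner_int h2.continuous),
    Q_symm S β u v hu hv]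
  congr 1
  refine integral_congr_ae (Filter.Eventually.of_forall fun x => ?_)
  simp only [_root_.smul_apply, inner_smul_left, inner_smul_right, S.esa_MM_symm,
    Complex.conj_ofReal]

/-- the symbol `i (γθ∇χ)_β` -/
noncomputable def esaD (χ : (Cfg dc) → ℝ) (β : Fin 16) (x : (Cfg dc)) : F →L[ℂ] F :=
  Complex.I • ∑ i, ∑ A, ((pdr i A χ x : ℝ) : ℂ) • S.vec (S.g i) A β

lemma esa_Qm_smul (m : ℝ) (β : Fin 16) (φ : (Cfg dc) → ℝ) (u : (Cfg dc) → F) (x : (Cfg dc))
    (hφ : DifferentiableAt ℝ φ x) (hu : DifferentiableAt ℝ u x) :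
    S.Qm m β (fun y => ((φ y : ℝ) : ℂ) • u y) x = ((φ x : ℝ) : ℂ) • S.Qm m β u x -
      S.esaD φ β x (u x) := by
  rw [Qm, Q_smul S β φ u x hφ hu, Qm, esaD, map_smul, smul_add, smul_comm (m : ℂ)]
  simp only [_root_.smul_apply, _root_.sum_apply]
  abel

lemma esa_contDiff_D {χ : (Cfg dc) → ℝ} (hχ : ContDiff ℝ ∞ χ) (β : Fin 16) :
    ContDiff ℝ ∞ (S.esaD χ β) := by
  unfold esaD
  refine ContDiff.const_smul Complex.I (ContDiff.sum fun i _ => ContDiff.sum fun A _ => ?_)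
  exact (contDiff_ofReal (esa_pdr_smooth hχ i A)).smul contDiff_const

/-- the constants `∑ ‖(γ^iθ^A)_β‖` -/
noncomputable def esaC (β : Fin 16) : ℝ := ∑ i, ∑ A, ‖S.vec (S.g i) A β‖

lemma esa_FG_symm (v w : F) : inner ℂ (S.FG v) w = inner ℂ v (S.FG w) := by
  simp only [FG, _root_.smul_apply, inner_smul_left, inner_smul_right,
    S.tot_adj _ S.Gam_real, S.Gam_transpose, S.tot_neg, _root_.neg_apply, inner_neg_right,
    Complex.conj_I]
  ring

lemma esa_Fx_symm (x : (Cfg dc)) (v w : F) : inner ℂ (S.Fx x v) w = inner ℂ v (S.Fx x w) := by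
  have he : ∀ A B C : Fin dc, S.f B A C = - S.f A B C := fun A B C => S.f_swap B A C
  have hc : ∀ A B C : Fin dc, (starRingEnd ℂ) ((S.f A B C : ℝ) : ℂ) = ((S.f A B C : ℝ) : ℂ) :=
    fun A B C => Complex.conj_ofReal _
  simp only [Fx, _root_.smul_apply, _root_.sum_apply, inner_smul_left, inner_smul_right,
    sum_inner, inner_sum, S.bil_adj _ (S.g_im _), S.g_symm, map_mul, hc, Complex.conj_ofReal]
  have : (starRingEnd ℂ) (Complex.I / 2) = -(Complex.I / 2) := by
    have h2 : (starRingEnd ℂ) 2 = 2 := by norm_num [Complex.ext_iff]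
    rw [map_div₀, h2, Complex.conj_I]; ring
  rw [this, neg_mul, neg_mul, ← mul_neg]
  congr 1
  rw [← Finset.sum_neg_distrib]
  refine Finset.sum_congr rfl fun q _ => ?_
  rw [Finset.sum_comm, ← Finset.sum_neg_distrib]
  refine Finset.sum_congr rfl fun A _ => ?_
  rw [← Finset.sum_neg_distrib]
  refine Finset.sum_congr rfl fun B _ => ?_
  rw [← Finset.sum_neg_distrib]
  refine Finset.sum_congr rfl fun C _ => ?_
  rw [he A B C]; push_cast; ring

/-- total potential of `1 + ∑ Q_β²` -/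
noncomputable def esaW (m : ℝ) (x : (Cfg dc)) : F →L[ℂ] F :=
  ((1 + 16 * S.Vm m x : ℝ) : ℂ) • (1 : F →L[ℂ] F) + (16 : ℂ) • S.Fx x - ((12 * m : ℝ) : ℂ) • S.FG

lemma esa_W_symm (m : ℝ) (x : (Cfg dc)) (v w : F) :
    inner ℂ (S.esaW m x v) w = inner ℂ v (S.esaW m x w) := by
  have h16 : (starRingEnd ℂ) 16 = 16 := by norm_num [Complex.ext_iff]
  simp only [esaW, _root_.smul_apply, _root_.add_apply, _root_.sub_apply, inner_add_left,
    inner_add_right, inner_sub_left, inner_sub_right, inner_smul_left, inner_smul_right,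
    S.esa_Fx_symm, S.esa_FG_symm, Complex.conj_ofReal, h16, one_apply_eq_self]

lemma esa_contDiff_Vm (m : ℝ) : ContDiff ℝ ∞ (S.Vm m) := by
  have h1 : ContDiff ℝ ∞ S.det3 := by
    unfold det3
    refine ContDiff.sum fun A _ => ContDiff.sum fun B _ => ContDiff.sum fun C _ => ?_
    exact ((contDiff_const.mul (contDiff_coord _)).mul (contDiff_coord _)).mul (contDiff_coord _)
  have h2 : ContDiff ℝ ∞ (fun x : (Cfg dc) => ∑ i, ∑ A, (aw i * x (i, A)) ^ 2) :=
    ContDiff.sum fun i _ => ContDiff.sum fun A _ => (contDiff_const.mul (contDiff_coord _)).pow 2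
  unfold Vm
  exact ((contDiff_V S).add (contDiff_const.mul h1)).add (contDiff_const.mul h2)

lemma esa_W_continuous (m : ℝ) : Continuous (S.esaW m) := by
  unfold esaW
  have h1 : Continuous (fun x => ((1 + 16 * S.Vm m x : ℝ) : ℂ)) :=
    Complex.continuous_ofReal.comp (continuous_const.add
      (continuous_const.mul (S.esa_contDiff_Vm m).continuous))
  exact ((h1.smul continuous_const).add ((contDiff_Fx S).continuous.const_smul (16 : ℂ))).sub
    continuous_const

lemma esa_L_eq (h7 : U.A7Stmt S) (m : ℝ) {u : (Cfg dc) → F} (hu : ContDiff ℝ ∞ u) (x : (Cfg dc)) :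
    u x + ∑ β, S.Qm m β (S.Qm m β u) x =
      S.esaW m x (u x) - (8 : ℂ) • ∑ i, ∑ A, pd i A (pd i A u) x := by
  rw [h7 m u hu x, Hm, esaW]
  simp only [_root_.smul_apply, _root_.add_apply, _root_.sub_apply, one_apply_eq_self,
    smul_sub, smul_add, smul_smul]
  push_cast
  module

end Setup

end Vale.Agent.P353.Z
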