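import Vale.Agent.P353.Z.U.StmtC

/-! # P353, general `N`: the colour group is a compact group (`GrpCptStmt`) -/

open MeasureTheory Filter Topology
open scoped ContDiff

namespace Vale.Agent.P353.Z.U

variable {d : ℕ} {F : Type*} [NormedAddCommGroup F] [InnerProductSpace ℂ F]

theorem grp_ro_apply (O : Matrix (Fin d) (Fin d) ℝ) (x : Cfg d) (p : Fin 9 × Fin d) :
    ro O x p = ∑ B, O p.2 B * x (p.1, B) := rfl

theorem grp_ro_mul (O O' : Matrix (Fin d) (Fin d) ℝ) (x : Cfg d) :
    ro (O * O') x = ro O (ro O' x) := by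
  ext p
  simp only [grp_ro_apply, Matrix.mul_apply, Finset.sum_mul, Finset.mul_sum]
  rw [Finset.sum_comm]
  exact Finset.sum_congr rfl fun B _ => Finset.sum_congr rfl fun C _ => by ring

theorem grp_ro_one (x : Cfg d) : ro 1 x = x := by
  ext p
  simp only [grp_ro_apply, Matrix.one_apply, ite_mul, one_mul, zero_mul, Finset.sum_ite_eq,
    Finset.mem_univ, if_true]

theorem grp_ro_cont (x : Cfg d) : Continuous fun O : Matrix (Fin d) (Fin d) ℝ => ro O x := by
  unfold ro
  refine (PiLp.continuous_toLp 2 _).comp (continuous_pi fun p => ?_)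
  exact continuous_finsetSum _ fun B _ =>
    (continuous_id.matrix_elem p.2 B).mul continuous_const

theorem grp_orth {O : Matrix (Fin d) (Fin d) ℝ} (h : O.transpose * O = 1) (B D : Fin d) :
    ∑ A, O A B * O A D = if B = D then 1 else 0 := by
  have := congrFun (congrFun h B) D
  rw [Matrix.mul_apply, Matrix.one_apply] at this
  simpa [Matrix.transpose_apply] using this

theorem grp_orth' {O : Matrix (Fin d) (Fin d) ℝ} (h : O.transpose * O = 1) (B D : Fin d) :
    ∑ A, O B A * O D A = if B = D then 1 else 0 := by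
  have h' : O * O.transpose = 1 := mul_eq_one_comm.1 h
  have := congrFun (congrFun h' B) D
  rw [Matrix.mul_apply, Matrix.one_apply] at this
  simpa [Matrix.transpose_apply] using this

/-- orthogonal matrices preserve sums of squares -/
theorem grp_sq {O : Matrix (Fin d) (Fin d) ℝ} (h : O.transpose * O = 1) (v : Fin d → ℝ) :
    ∑ A, (∑ B, O A B * v B) ^ 2 = ∑ A, v A ^ 2 := by
  have h3 : ∀ A, (∑ B, O A B * v B) ^ 2 = ∑ B, ∑ D, (O A B * O A D) * (v B * v D) := by
    intro A
    rw [sq, Finset.sum_mul_sum]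
    refine Finset.sum_congr rfl fun B _ => Finset.sum_congr rfl fun D _ => ?_
    ring
  simp only [h3]
  rw [Finset.sum_comm]
  refine Finset.sum_congr rfl fun B _ => ?_
  rw [Finset.sum_comm]
  have h4 : ∀ D, ∑ A, O A B * O A D * (v B * v D) =
      (if B = D then 1 else 0) * (v B * v D) := by
    intro D
    rw [← Finset.sum_mul, grp_orth h]
  simp only [h4, ite_mul, one_mul, zero_mul, Finset.sum_ite_eq, Finset.mem_univ, if_true]
  ring

theorem grp_norm {O : Matrix (Fin d) (Fin d) ℝ} (h : O.transpose * O = 1) (x : Cfg d) :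
    ‖ro O x‖ = ‖x‖ := by
  have h1 : ‖ro O x‖ ^ 2 = ‖x‖ ^ 2 := by
    rw [EuclideanSpace.norm_sq_eq, EuclideanSpace.norm_sq_eq, Fintype.sum_prod_type,
      Fintype.sum_prod_type]
    refine Finset.sum_congr rfl fun i _ => ?_
    simp only [Real.norm_eq_abs, sq_abs]
    exact grp_sq h fun B => x (i, B)
  exact (sq_eq_sq₀ (norm_nonneg _) (norm_nonneg _)).1 h1

/-- half of the invariance of the structure constants -/
theorem grp_f (S : Setup d F) {O : Matrix (Fin d) (Fin d) ℝ} (h : O.transpose * O = 1)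
    (hf : ∀ A B C, ∑ A', ∑ B', ∑ C', O A' A * O B' B * O C' C * S.f A' B' C' = S.f A B C)
    (A B C : Fin d) :
    ∑ B', ∑ C', O B' B * O C' C * S.f A B' C' = ∑ A', O A A' * S.f A' B C := by
  have h1 : ∀ A', O A A' * S.f A' B C = ∑ D, O A A' * O D A' *
      ∑ B', ∑ C', O B' B * O C' C * S.f D B' C' := by
    intro A'
    rw [← hf A' B C, Finset.mul_sum]
    refine Finset.sum_congr rfl fun D _ => ?_
    simp only [Finset.mul_sum]
    exact Finset.sum_congr rfl fun B' _ => Finset.sum_congr rfl fun C' _ => by ring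
  simp only [h1]
  symm
  rw [Finset.sum_comm]
  simp only [← Finset.sum_mul, grp_orth' h, ite_mul, one_mul, zero_mul, Finset.sum_ite_eq,
    Finset.mem_univ, if_true]

/-- the transpose also preserves the structure constants -/
theorem grp_f' (S : Setup d F) {O : Matrix (Fin d) (Fin d) ℝ} (h : O.transpose * O = 1)
    (hf : ∀ A B C, ∑ A', ∑ B', ∑ C', O A' A * O B' B * O C' C * S.f A' B' C' = S.f A B C)
    (A B C : Fin d) :
    ∑ A', ∑ B', ∑ C', O A A' * O B B' * O C C' * S.f A' B' C' = S.f A B C := by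
  have h1 : ∑ A', ∑ B', ∑ C', O A A' * O B B' * O C C' * S.f A' B' C' =
      ∑ B', ∑ C', O B B' * O C C' * ∑ A', O A A' * S.f A' B' C' := by
    rw [Finset.sum_comm]
    refine Finset.sum_congr rfl fun B' _ => ?_
    rw [Finset.sum_comm]
    refine Finset.sum_congr rfl fun C' _ => ?_
    rw [Finset.mul_sum]
    exact Finset.sum_congr rfl fun A' _ => by ring
  rw [h1]
  have h2 : ∀ B' C', O B B' * O C C' * ∑ A', O A A' * S.f A' B' C' =
      ∑ D, ∑ E, (O B B' * O D B') * ((O C C' * O E C') * S.f A D E) := by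
    intro B' C'
    rw [← grp_f S h hf A B' C', Finset.mul_sum]
    refine Finset.sum_congr rfl fun D _ => ?_
    rw [Finset.mul_sum]
    exact Finset.sum_congr rfl fun E _ => by ring
  simp only [h2]
  have h3 : ∀ B', ∑ C', ∑ D, ∑ E, (O B B' * O D B') * ((O C C' * O E C') * S.f A D E) =
      ∑ D, (O B B' * O D B') * S.f A D C := by
    intro B'
    rw [Finset.sum_comm]
    refine Finset.sum_congr rfl fun D _ => ?_
    rw [Finset.sum_comm]
    have h4 : ∀ E, ∑ C', (O B B' * O D B') * ((O C C' * O E C') * S.f A D E) =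
        (O B B' * O D B') * ((if C = E then 1 else 0) * S.f A D E) := by
      intro E
      rw [← Finset.mul_sum, ← Finset.sum_mul, grp_orth' h]
    simp only [h4, ite_mul, one_mul, zero_mul, mul_ite, mul_zero, Finset.sum_ite_eq,
      Finset.mem_univ, if_true]
  simp only [h3]
  rw [Finset.sum_comm]
  simp only [← Finset.sum_mul, grp_orth' h, ite_mul, one_mul, zero_mul, Finset.sum_ite_eq,
    Finset.mem_univ, if_true]

theorem grp_FF (S : Setup d F) {O : Matrix (Fin d) (Fin d) ℝ} (h : O.transpose * O = 1)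
    (hf : ∀ A B C, ∑ A', ∑ B', ∑ C', O A' A * O B' B * O C' C * S.f A' B' C' = S.f A B C)
    (A : Fin d) (i j : Fin 9) (x : Cfg d) :
    S.FF A i j (ro O x) = ∑ A', O A A' * S.FF A' i j x := by
  unfold Setup.FF
  simp only [grp_ro_apply]
  have h1 : ∀ B' C', S.f A B' C' * (∑ B, O B' B * x (i, B)) * (∑ C, O C' C * x (j, C)) =
      ∑ B, ∑ C, (O B' B * O C' C * S.f A B' C') * (x (i, B) * x (j, C)) := by
    intro B' C'
    rw [mul_assoc, Finset.sum_mul_sum, Finset.mul_sum]
    refine Finset.sum_congr rfl fun B _ => ?_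
    rw [Finset.mul_sum]
    exact Finset.sum_congr rfl fun C _ => by ring
  simp only [h1]
  have h2 : ∑ B', ∑ C', ∑ B, ∑ C, (O B' B * O C' C * S.f A B' C') * (x (i, B) * x (j, C)) =
      ∑ B, ∑ C, (∑ B', ∑ C', O B' B * O C' C * S.f A B' C') * (x (i, B) * x (j, C)) := by
    have e1 : ∀ B', ∑ C', ∑ B, ∑ C, (O B' B * O C' C * S.f A B' C') * (x (i, B) * x (j, C)) =
        ∑ B, ∑ C, ∑ C', (O B' B * O C' C * S.f A B' C') * (x (i, B) * x (j, C)) := by
      intro B'
      rw [Finset.sum_comm]
      exact Finset.sum_congr rfl fun B _ => Finset.sum_comm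
    simp only [e1]
    rw [Finset.sum_comm]
    refine Finset.sum_congr rfl fun B _ => ?_
    rw [Finset.sum_comm]
    refine Finset.sum_congr rfl fun C _ => ?_
    simp only [Finset.sum_mul]
  rw [h2]
  simp only [grp_f S h hf]
  have h3 : ∀ A', O A A' * (S.κ * ∑ B, ∑ C, S.f A' B C * x (i, B) * x (j, C)) =
      ∑ B, ∑ C, S.κ * (O A A' * S.f A' B C * (x (i, B) * x (j, C))) := by
    intro A'
    simp only [Finset.mul_sum]
    exact Finset.sum_congr rfl fun B _ => Finset.sum_congr rfl fun C _ => by ring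
  simp only [h3]
  symm
  rw [Finset.sum_comm, Finset.mul_sum]
  refine Finset.sum_congr rfl fun B _ => ?_
  rw [Finset.sum_comm, Finset.mul_sum]
  refine Finset.sum_congr rfl fun C _ => ?_
  rw [Finset.sum_mul, Finset.mul_sum]

theorem grp_V (S : Setup d F) {O : Matrix (Fin d) (Fin d) ℝ} (h : O.transpose * O = 1)
    (hf : ∀ A B C, ∑ A', ∑ B', ∑ C', O A' A * O B' B * O C' C * S.f A' B' C' = S.f A B C)
    (x : Cfg d) : S.V (ro O x) = S.V x := by
  unfold Setup.V
  congr 1
  have e : ∀ y, ∑ A, ∑ i, ∑ j, S.FF A i j y ^ 2 = ∑ i, ∑ j, ∑ A, S.FF A i j y ^ 2 := by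
    intro y
    rw [Finset.sum_comm]
    exact Finset.sum_congr rfl fun i _ => Finset.sum_comm
  rw [e, e]
  refine Finset.sum_congr rfl fun i _ => Finset.sum_congr rfl fun j _ => ?_
  simp only [grp_FF S h hf]
  exact grp_sq h fun A => S.FF A i j x

theorem grp_det3 (S : Setup d F) {O : Matrix (Fin d) (Fin d) ℝ} (h : O.transpose * O = 1)
    (hf : ∀ A B C, ∑ A', ∑ B', ∑ C', O A' A * O B' B * O C' C * S.f A' B' C' = S.f A B C)
    (x : Cfg d) : S.det3 (ro O x) = S.det3 x := by
  have e : ∀ y, S.κ * S.det3 y = ∑ A, y (0, A) * S.FF A 1 2 y := by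
    intro y
    unfold Setup.det3 Setup.FF
    simp only [Finset.mul_sum]
    exact Finset.sum_congr rfl fun A _ => Finset.sum_congr rfl fun B _ =>
      Finset.sum_congr rfl fun C _ => by ring
  have h1 : S.κ * S.det3 (ro O x) = S.κ * S.det3 x := by
    rw [e, e]
    simp only [grp_FF S h hf, grp_ro_apply]
    have h3 : ∀ A, (∑ B, O A B * x (0, B)) * (∑ D, O A D * S.FF D 1 2 x) =
        ∑ B, ∑ D, (O A B * O A D) * (x (0, B) * S.FF D 1 2 x) := by
      intro A
      rw [Finset.sum_mul_sum]
      refine Finset.sum_congr rfl fun B _ => Finset.sum_congr rfl fun D _ => ?_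
      ring
    simp only [h3]
    rw [Finset.sum_comm]
    refine Finset.sum_congr rfl fun B _ => ?_
    rw [Finset.sum_comm]
    have h4 : ∀ D, ∑ A, O A B * O A D * (x (0, B) * S.FF D 1 2 x) =
        (if B = D then 1 else 0) * (x (0, B) * S.FF D 1 2 x) := by
      intro D
      rw [← Finset.sum_mul, grp_orth h]
    simp only [h4, ite_mul, one_mul, zero_mul, Finset.sum_ite_eq, Finset.mem_univ, if_true]
  exact mul_left_cancel₀ S.κ_pos.ne' h1

theorem grp_Vm (S : Setup d F) {O : Matrix (Fin d) (Fin d) ℝ} (hO : O ∈ S.grp) (m : ℝ)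
    (x : Cfg d) : S.Vm m (ro O x) = S.Vm m x := by
  unfold Setup.Vm
  rw [grp_V S hO.1 hO.2.1, grp_det3 S hO.1 hO.2.1]
  congr 2
  refine Finset.sum_congr rfl fun i _ => ?_
  simp only [mul_pow, ← Finset.mul_sum]
  congr 1
  exact grp_sq hO.1 fun A => x (i, A)

theorem grp_one (S : Setup d F) : (1 : Matrix (Fin d) (Fin d) ℝ) ∈ S.grp := by
  refine ⟨by simp, fun A B C => ?_, fun u _ _ x => by rw [grp_ro_one]⟩
  simp [Matrix.one_apply]

theorem grp_mul (S : Setup d F) {O O' : Matrix (Fin d) (Fin d) ℝ} (hO : O ∈ S.grp)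
    (hO' : O' ∈ S.grp) : O * O' ∈ S.grp := by
  refine ⟨?_, fun A B C => ?_, fun u hu hG x => ?_⟩
  · rw [Matrix.transpose_mul, Matrix.mul_assoc, ← Matrix.mul_assoc O.transpose, hO.1,
      Matrix.one_mul, hO'.1]
  · -- use the half invariance three times
    have h1 := grp_f S hO.1 hO.2.1
    have h2 := grp_f S hO'.1 hO'.2.1
    have h3 : ∀ A', ∑ B', ∑ C', (O * O') B' B * (O * O') C' C * S.f A' B' C' =
        ∑ D, (O * O') A' D * S.f D B C := by
      intro A'
      have e1 : ∀ B' C', (O * O') B' B * (O * O') C' C * S.f A' B' C' =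
          ∑ D, ∑ E, (O' D B * O' E C) * (O B' D * O C' E * S.f A' B' C') := by
        intro B' C'
        rw [Matrix.mul_apply, Matrix.mul_apply, Finset.sum_mul_sum, Finset.sum_mul]
        refine Finset.sum_congr rfl fun D _ => ?_
        rw [Finset.sum_mul]
        exact Finset.sum_congr rfl fun E _ => by ring
      simp only [e1]
      have e2 : ∑ B', ∑ C', ∑ D, ∑ E, (O' D B * O' E C) * (O B' D * O C' E * S.f A' B' C') =
          ∑ D, ∑ E, (O' D B * O' E C) * ∑ B', ∑ C', O B' D * O C' E * S.f A' B' C' := by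
        have e3 : ∀ B', ∑ C', ∑ D, ∑ E, (O' D B * O' E C) * (O B' D * O C' E * S.f A' B' C') =
            ∑ D, ∑ E, ∑ C', (O' D B * O' E C) * (O B' D * O C' E * S.f A' B' C') := by
          intro B'
          rw [Finset.sum_comm]
          exact Finset.sum_congr rfl fun D _ => Finset.sum_comm
        simp only [e3]
        rw [Finset.sum_comm]
        refine Finset.sum_congr rfl fun D _ => ?_
        rw [Finset.sum_comm]
        refine Finset.sum_congr rfl fun E _ => ?_
        simp only [Finset.mul_sum]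
      rw [e2]
      simp only [h1]
      have e4 : ∀ D E, (O' D B * O' E C) * ∑ A'', O A' A'' * S.f A'' D E =
          ∑ A'', O A' A'' * (O' D B * O' E C * S.f A'' D E) := by
        intro D E
        rw [Finset.mul_sum]
        exact Finset.sum_congr rfl fun _ _ => by ring
      simp only [e4]
      have e5 : ∑ D, ∑ E, ∑ A'', O A' A'' * (O' D B * O' E C * S.f A'' D E) =
          ∑ A'', O A' A'' * ∑ D, ∑ E, O' D B * O' E C * S.f A'' D E := by
        have e6 : ∀ D, ∑ E, ∑ A'', O A' A'' * (O' D B * O' E C * S.f A'' D E) =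
            ∑ A'', ∑ E, O A' A'' * (O' D B * O' E C * S.f A'' D E) := fun D => Finset.sum_comm
        simp only [e6]
        rw [Finset.sum_comm]
        refine Finset.sum_congr rfl fun A'' _ => ?_
        simp only [Finset.mul_sum]
      rw [e5]
      simp only [h2, Matrix.mul_apply, Finset.sum_mul, Finset.mul_sum]
      rw [Finset.sum_comm]
      exact Finset.sum_congr rfl fun _ _ => Finset.sum_congr rfl fun _ _ => by ring
    have h4 : (O * O').transpose * (O * O') = 1 := by
      rw [Matrix.transpose_mul, Matrix.mul_assoc, ← Matrix.mul_assoc O.transpose, hO.1,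
        Matrix.one_mul, hO'.1]
    have e7 : ∀ A', ∑ B', ∑ C', (O * O') A' A * (O * O') B' B * (O * O') C' C * S.f A' B' C' =
        (O * O') A' A * ∑ B', ∑ C', (O * O') B' B * (O * O') C' C * S.f A' B' C' := by
      intro A'
      simp only [Finset.mul_sum]
      exact Finset.sum_congr rfl fun _ _ => Finset.sum_congr rfl fun _ _ => by ring
    simp only [e7, h3, Finset.mul_sum]
    rw [Finset.sum_comm]
    have e8 : ∀ D, ∑ A', (O * O') A' A * ((O * O') A' D * S.f D B C) =
        (if A = D then 1 else 0) * S.f D B C := by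
      intro D
      rw [← grp_orth h4 A D, Finset.sum_mul]
      exact Finset.sum_congr rfl fun _ _ => by ring
    simp only [e8, ite_mul, one_mul, zero_mul, Finset.sum_ite_eq, Finset.mem_univ, if_true]
  · rw [grp_ro_mul, hO.2.2 u hu hG, hO'.2.2 u hu hG]

theorem grp_transpose (S : Setup d F) {O : Matrix (Fin d) (Fin d) ℝ} (hO : O ∈ S.grp) :
    O.transpose ∈ S.grp := by
  have h' : O * O.transpose = 1 := mul_eq_one_comm.1 hO.1
  refine ⟨by rw [Matrix.transpose_transpose, h'], fun A B C => ?_, fun u hu hG x => ?_⟩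
  · simpa only [Matrix.transpose_apply] using grp_f' S hO.1 hO.2.1 A B C
  · rw [← hO.2.2 u hu hG (ro O.transpose x), ← grp_ro_mul, h', grp_ro_one]

theorem grp_compact (S : Setup d F) : IsCompact S.grp := by
  have h1 : IsCompact (Set.pi Set.univ fun _ : Fin d => Set.pi Set.univ fun _ : Fin d =>
      Set.Icc (-1 : ℝ) 1) :=
    isCompact_univ_pi fun _ => isCompact_univ_pi fun _ => isCompact_Icc
  have ce : ∀ A B, Continuous fun O : Matrix (Fin d) (Fin d) ℝ => O A B :=
    fun A B => continuous_id.matrix_elem A B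
  refine h1.of_isClosed_subset ?_ ?_
  · have c1 : IsClosed {O : Matrix (Fin d) (Fin d) ℝ | O.transpose * O = 1} :=
      isClosed_eq (by fun_prop) continuous_const
    have c2 : IsClosed {O : Matrix (Fin d) (Fin d) ℝ | ∀ A B C, ∑ A', ∑ B', ∑ C',
        O A' A * O B' B * O C' C * S.f A' B' C' = S.f A B C} := by
      simp only [Set.ofPred_forall]
      refine isClosed_iInter fun A => isClosed_iInter fun B => isClosed_iInter fun C => ?_
      refine isClosed_eq ?_ continuous_const
      exact continuous_finsetSum _ fun A' _ => continuous_finsetSum _ fun B' _ =>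
        continuous_finsetSum _ fun C' _ =>
          (((ce A' A).mul (ce B' B)).mul (ce C' C)).mul continuous_const
    have c3 : IsClosed {O : Matrix (Fin d) (Fin d) ℝ | ∀ u : Cfg d → F, Setup.Tst u →
        (∀ C x, S.G C u x = 0) → ∀ x, ‖u (ro O x)‖ = ‖u x‖} := by
      simp only [Set.ofPred_forall]
      refine isClosed_iInter fun u => isClosed_iInter fun hu => isClosed_iInter fun _ =>
        isClosed_iInter fun x => ?_
      exact isClosed_eq ((hu.1.continuous.comp (grp_ro_cont x)).norm) continuous_const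
    exact c1.inter (c2.inter c3)
  · intro O hO i _ j _
    have this : ∑ k, O k j * O k j = 1 := by
      rw [grp_orth hO.1 j j, if_pos rfl]
    have h2 : O i j * O i j ≤ 1 := by
      rw [← this]
      exact Finset.single_le_sum (f := fun k => O k j * O k j)
        (fun k _ => mul_self_nonneg _) (Finset.mem_univ i)
    constructor
    · nlinarith
    · nlinarith

/-- **G-2** -/
theorem grpCpt (S : Setup d F) : GrpCptStmt S :=
  ⟨grp_compact S, grp_one S, fun _ hO _ hO' => grp_mul S hO hO', fun _ hO => grp_transpose S hO,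
    fun _ hO m x => grp_Vm S hO m x, fun _ hO x => grp_norm hO.1 x⟩

end Vale.Agent.P353.Z.U
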