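import Vale.Agent.P353.Z.U.StmtM

/-! # P353, general `N`: the adjoint matrices of `SU(N)` are in the colour group -/

open scoped ContDiff

namespace Vale.Agent.P353.Z.U

section Log

open scoped Matrix.Norms.L2Operator

/-- a unitary matrix is the exponential of a skew-Hermitian matrix -/
theorem mad_log {N : ℕ} (U : Matrix (Fin N) (Fin N) ℂ)
    (hU : U ∈ unitary (Matrix (Fin N) (Fin N) ℂ)) :
    ∃ K : Matrix (Fin N) (Fin N) ℂ, K.IsHermitian ∧ NormedSpace.exp (Complex.I • K) = U := by
  have hnorm : IsStarNormal U := by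
    refine ⟨?_⟩
    rw [Commute, SemiconjBy, (Unitary.mem_iff.1 hU).1, (Unitary.mem_iff.1 hU).2]
  have hc : ContinuousOn Complex.arg (spectrum ℂ U) :=
    (Matrix.finite_spectrum U).continuousOn _
  refine ⟨cfc (fun z : ℂ => (Complex.arg z : ℂ)) U, ?_, ?_⟩
  · exact IsSelfAdjoint.cfc_arg U
  · rw [← CFC.exp_eq_normedSpace_exp (𝕜 := ℂ), ← cfc_comp_smul ..,
      ← cfc_comp' ..]
    conv_rhs => rw [← cfc_id' ℂ U]
    refine cfc_congr fun y hy ↦ ?_
    have hy₁ : ‖y‖ = 1 := spectrum.norm_eq_one_of_unitary hU hy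
    have hy0 : y ≠ 0 := by
      rintro rfl
      simp at hy₁
    have : Complex.I * y.arg = Complex.log y :=
      Complex.ext (by simp [Complex.log_re, hy₁]) (by simp [Complex.log_im])
    simpa [← Complex.exp_eq_exp_ℂ, this] using Complex.exp_log hy0

end Log

section Ad

open scoped Matrix.Norms.Operator

/-- `exp X · exp(-X)`-conjugation of a basis, from the commutators -/
theorem mad_conj {N d : ℕ} (T : Fin d → Matrix (Fin N) (Fin N) ℂ)
    (X : Matrix (Fin N) (Fin N) ℂ) (D : Matrix (Fin d) (Fin d) ℝ)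
    (hD : ∀ C, X * T C - T C * X = ∑ B, (D B C : ℂ) • T B) (A : Fin d) :
    NormedSpace.exp X * T A * NormedSpace.exp (-X) = ∑ B, ((NormedSpace.exp D B A : ℝ) : ℂ) • T B := by
  let L0 : Matrix (Fin d) (Fin d) ℝ →ₗ[ℝ] Matrix (Fin N) (Fin N) ℂ :=
    { toFun := fun E => ∑ B, ((E B A : ℝ) : ℂ) • T B
      map_add' := fun E E' => by
        simp only [Matrix.add_apply, Complex.ofReal_add, add_smul, Finset.sum_add_distrib]
      map_smul' := fun c E => by
        simp only [Matrix.smul_apply, smul_eq_mul, Complex.ofReal_mul, mul_smul, Finset.smul_sum,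
          RingHom.id_apply]
        rfl }
  let L := LinearMap.toContinuousLinearMap L0
  have hL : ∀ E, L E = ∑ B, ((E B A : ℝ) : ℂ) • T B := fun E => rfl
  have hcomm : ∀ E, L (D * E) = X * L E - L E * X := by
    intro E
    rw [hL, hL, Finset.mul_sum, Finset.sum_mul, ← Finset.sum_sub_distrib]
    have h1 : ∀ C, X * (((E C A : ℝ) : ℂ) • T C) - (((E C A : ℝ) : ℂ) • T C) * X =
        ∑ B, (((D B C * E C A : ℝ)) : ℂ) • T B := by
      intro C
      rw [Matrix.mul_smul, Matrix.smul_mul, ← smul_sub, hD C, Finset.smul_sum]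
      refine Finset.sum_congr rfl fun B _ => ?_
      rw [smul_smul, Complex.ofReal_mul, mul_comm]
    rw [Finset.sum_congr rfl fun C _ => h1 C, Finset.sum_comm]
    refine Finset.sum_congr rfl fun B _ => ?_
    rw [Matrix.mul_apply, Complex.ofReal_sum, Finset.sum_smul]
  let F : ℝ → Matrix (Fin N) (Fin N) ℂ := fun t =>
    NormedSpace.exp (t • (-X)) * L (NormedSpace.exp (t • D)) * NormedSpace.exp (t • X)
  have hF : ∀ t, HasDerivAt F 0 t := by
    intro t
    have e1 := hasDerivAt_exp_smul_const (𝕂 := ℝ) (-X) t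
    have e2 := L.hasFDerivAt.comp_hasDerivAt t (hasDerivAt_exp_smul_const' (𝕂 := ℝ) D t)
    have e3 := hasDerivAt_exp_smul_const' (𝕂 := ℝ) X t
    have e : HasDerivAt F ((NormedSpace.exp (t • (-X)) * (-X) * L (NormedSpace.exp (t • D)) +
        NormedSpace.exp (t • (-X)) * L (D * NormedSpace.exp (t • D))) * NormedSpace.exp (t • X) +
        (NormedSpace.exp (t • (-X)) * L (NormedSpace.exp (t • D))) * (X * NormedSpace.exp (t • X)))
        t := (e1.mul e2).mul e3
    have e0 : (NormedSpace.exp (t • (-X)) * (-X) * L (NormedSpace.exp (t • D)) +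
        NormedSpace.exp (t • (-X)) * L (D * NormedSpace.exp (t • D))) * NormedSpace.exp (t • X) +
        (NormedSpace.exp (t • (-X)) * L (NormedSpace.exp (t • D))) * (X * NormedSpace.exp (t • X)) =
        0 := by
      rw [hcomm]
      noncomm_ring
    rw [e0] at e
    exact e
  have hconst := is_const_of_deriv_eq_zero (fun t => (hF t).differentiableAt)
    (fun t => (hF t).deriv) 1 0
  simp only [F, one_smul, zero_smul, NormedSpace.exp_zero, one_mul, mul_one] at hconst
  have hL1 : L 1 = T A := by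
    rw [hL]
    rw [Finset.sum_eq_single A]
    · simp
    · intro B _ hB
      simp [hB]
    · simp
  rw [hL1] at hconst
  have hinv : NormedSpace.exp X * NormedSpace.exp (-X) = 1 := by
    rw [← Matrix.exp_add_of_commute _ _ (Commute.neg_right (Commute.refl X)), add_neg_cancel,
      NormedSpace.exp_zero]
  have hinv' : NormedSpace.exp (-X) * NormedSpace.exp X = 1 := by
    rw [← Matrix.exp_add_of_commute _ _ (Commute.neg_left (Commute.refl X)), neg_add_cancel,
      NormedSpace.exp_zero]
  rw [← hconst, ← hL]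
  calc _ = (NormedSpace.exp X * NormedSpace.exp (-X)) * L (NormedSpace.exp D) *
        (NormedSpace.exp X * NormedSpace.exp (-X)) := by noncomm_ring
    _ = _ := by rw [hinv, one_mul, mul_one]

end Ad

section Main

variable {N d : ℕ} {F : Type*} [NormedAddCommGroup F] [InnerProductSpace ℂ F]

/-- completeness of the basis `T_A`, `1` -/
theorem mad_complete (M : BFSS.Model N d F) (hN : 0 < N) (X : Matrix (Fin N) (Fin N) ℂ) :
    X = ∑ A, (M.T A * X).trace • M.T A + (X.trace / N) • (1 : Matrix (Fin N) (Fin N) ℂ) := by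
  have hN' : (N : ℂ) ≠ 0 := by exact_mod_cast hN.ne'
  let Λ : Matrix (Fin N) (Fin N) ℂ →ₗ[ℂ] (Fin d → ℂ) × ℂ :=
    { toFun := fun X => (fun A => (M.T A * X).trace, X.trace)
      map_add' := fun X Y => by
        ext <;> simp [mul_add, Matrix.trace_add]
      map_smul' := fun c X => by
        ext <;> simp [Matrix.trace_smul] }
  have hval : ∀ (c : Fin d → ℂ) (s : ℂ), Λ (∑ A, c A • M.T A +
      (s / N) • (1 : Matrix (Fin N) (Fin N) ℂ)) = (c, s) := by
    intro c s
    apply Prod.ext
    · funext B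
      show (M.T B * (∑ A, c A • M.T A + (s / N) • (1 : Matrix (Fin N) (Fin N) ℂ))).trace = c B
      rw [mul_add, Matrix.mul_sum, Matrix.trace_add, Matrix.trace_sum, Finset.sum_eq_single B]
      · rw [Matrix.mul_smul, Matrix.trace_smul, M.T_orthonormal, if_pos rfl, Matrix.mul_smul,
          mul_one, Matrix.trace_smul, M.T_traceless]
        simp
      · intro A _ hA
        rw [Matrix.mul_smul, Matrix.trace_smul, M.T_orthonormal, if_neg (Ne.symm hA), smul_zero]
      · simp
    · show (∑ A, c A • M.T A + (s / N) • (1 : Matrix (Fin N) (Fin N) ℂ)).trace = s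
      rw [Matrix.trace_add, Matrix.trace_sum, Finset.sum_eq_zero (fun A _ => by
        rw [Matrix.trace_smul, M.T_traceless, smul_zero]), Matrix.trace_smul, Matrix.trace_one]
      simp [hN']
  have hsurj : Function.Surjective Λ := fun y => ⟨_, hval y.1 y.2⟩
  have hrank : Module.finrank ℂ (Matrix (Fin N) (Fin N) ℂ) =
      Module.finrank ℂ ((Fin d → ℂ) × ℂ) := by
    rw [Module.finrank_matrix, Module.finrank_prod, Module.finrank_pi, Module.finrank_self,
      Fintype.card_fin, Fintype.card_fin, M.dim_eq, mul_one]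
    have : 1 ≤ N ^ 2 := Nat.one_le_pow _ _ hN
    have h2 : N ^ 2 = N * N := sq N
    omega
  have hinj : Function.Injective Λ :=
    (LinearMap.injective_iff_surjective_of_finrank_eq_finrank hrank).2 hsurj
  apply hinj
  rw [hval]
  rfl

/-- the adjoint matrices are exponentials of `ad` -/
theorem mad_exp (M : BFSS.Model N d F) (hN : 0 < N) (S : Setup d F) (hS : Rep M S)
    (U : BFSS.SU N) : ∃ a : Fin d → ℝ,
      (Matrix.of fun B A => BFSS.adCoeff M.T U B A) = NormedSpace.exp ((-1 : ℝ) • S.adm a) := by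
  have hU : U.val ∈ unitary (Matrix (Fin N) (Fin N) ℂ) :=
    (Matrix.mem_specialUnitaryGroup_iff.1 U.2).1
  obtain ⟨K, hK, hKU⟩ := mad_log U.val hU
  have hreal : ∀ A, (M.T A * K).trace = (((M.T A * K).trace.re : ℝ) : ℂ) := by
    intro A
    symm
    rw [← Complex.conj_eq_iff_re]
    have h1 : (M.T A * K).conjTranspose.trace = star (M.T A * K).trace :=
      Matrix.trace_conjTranspose _
    rw [Matrix.conjTranspose_mul, M.T_hermitian, hK.eq, Matrix.trace_mul_comm] at h1
    exact h1.symm
  set h : Fin d → ℝ := fun A => (M.T A * K).trace.re with hh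
  have hKe : K = ∑ A, ((h A : ℝ) : ℂ) • M.T A + (K.trace / N) • (1 : Matrix (Fin N) (Fin N) ℂ) := by
    have := mad_complete M hN K
    rw [Finset.sum_congr rfl fun A _ => by rw [hreal A]] at this
    exact this
  refine ⟨h, ?_⟩
  have hD : ∀ C, (Complex.I • K) * M.T C - M.T C * (Complex.I • K) =
      ∑ B, ((((-1 : ℝ) • S.adm h) B C : ℝ) : ℂ) • M.T B := by
    intro C
    have e1 : (Complex.I • K) * M.T C - M.T C * (Complex.I • K) =
        Complex.I • ∑ A, ((h A : ℝ) : ℂ) • (M.T A * M.T C - M.T C * M.T A) := by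
      conv_lhs => rw [hKe]
      rw [Matrix.smul_mul, Matrix.mul_smul, ← smul_sub, add_mul, mul_add, Matrix.smul_mul,
        Matrix.mul_smul, one_mul, mul_one, add_sub_add_right_eq_sub, Matrix.sum_mul,
        Matrix.mul_sum, ← Finset.sum_sub_distrib]
      congr 1
      refine Finset.sum_congr rfl fun A _ => ?_
      rw [Matrix.smul_mul, Matrix.mul_smul, smul_sub]
    rw [e1, Finset.smul_sum]
    have e2 : ∀ A, Complex.I • ((h A : ℝ) : ℂ) • (M.T A * M.T C - M.T C * M.T A) =
        ∑ B, ((-(h A * M.f A C B) : ℝ) : ℂ) • M.T B := by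
      intro A
      rw [M.T_comm, Finset.smul_sum, Finset.smul_sum]
      refine Finset.sum_congr rfl fun B _ => ?_
      rw [smul_smul, smul_smul]
      congr 1
      push_cast
      linear_combination ((h A : ℂ) * (M.f A C B : ℂ)) * Complex.I_mul_I
    rw [Finset.sum_congr rfl fun A _ => e2 A, Finset.sum_comm]
    refine Finset.sum_congr rfl fun B _ => ?_
    rw [← Finset.sum_smul, ← Complex.ofReal_sum]
    congr 2
    simp only [Setup.adm, Matrix.smul_apply, Matrix.of_apply, smul_eq_mul, Finset.mul_sum]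
    refine Finset.sum_congr rfl fun A _ => ?_
    rw [S.f_cyc B A C, hS.hf]
    ring
  have hconj := mad_conj M.T (Complex.I • K) ((-1 : ℝ) • S.adm h) hD
  have hUstar : U.val.conjTranspose = NormedSpace.exp (-(Complex.I • K)) := by
    rw [← hKU, ← Matrix.exp_conjTranspose, Matrix.conjTranspose_smul, hK.eq]
    simp
  ext B A
  rw [Matrix.of_apply]
  unfold BFSS.adCoeff
  rw [hUstar]
  conv_lhs => rw [← hKU]
  rw [hconj A, Matrix.mul_sum, Matrix.trace_sum, Finset.sum_eq_single B]
  · rw [Matrix.mul_smul, Matrix.trace_smul, M.T_orthonormal, if_pos rfl]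
    simp
  · intro C _ hC
    rw [Matrix.mul_smul, Matrix.trace_smul, M.T_orthonormal, if_neg (Ne.symm hC), smul_zero]
  · simp

/-- **M-Ad** -/
theorem adS (M : BFSS.Model N d F)
    (hexp : ∀ (S : Setup d F) (a : Fin d → ℝ) (t : ℝ), NormedSpace.exp (t • S.adm a) ∈ S.grp) :
    AdStmt M := by
  intro S hS U
  rcases Nat.eq_zero_or_pos N with hN | hN
  · have hd : d = 0 := by rw [M.dim_eq, hN]; rfl
    subst hd
    have h := hexp S 0 0
    have e : (Matrix.of fun B A => BFSS.adCoeff M.T U B A) =
        NormedSpace.exp ((0 : ℝ) • S.adm 0) := by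
      ext i
      exact i.elim0
    rw [e]
    exact h
  · obtain ⟨a, ha⟩ := mad_exp M hN S hS U
    rw [ha]
    exact hexp S a (-1)

end Main

end Vale.Agent.P353.Z.U
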