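import Vale.Agent.P353.Z.U.StmtM

/-! # P353, general `N`: every model has a setup -/

open MeasureTheory Filter Topology
open scoped ContDiff

namespace Vale.Agent.P353.Z.U

variable {N d : ℕ} {F : Type*} [NormedAddCommGroup F] [InnerProductSpace ℂ F]

section structureConstants

variable (M : BFSS.Model N d F)

/-- the structure constants are traces of commutators -/
lemma mf_trace (A B C : Fin d) : ((M.T A * M.T B - M.T B * M.T A) * M.T C).trace =
    Complex.I * (M.f A B C : ℂ) := by
  rw [M.T_comm, Finset.sum_mul, Matrix.trace_sum]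
  simp only [Matrix.smul_mul, Matrix.trace_smul, M.T_orthonormal, smul_eq_mul, mul_ite, mul_one,
    mul_zero, Finset.sum_ite_eq', Finset.mem_univ, if_true]

/-- the structure constants are antisymmetric in the first two indices -/
lemma mf_swap (A B C : Fin d) : M.f A B C = - M.f B A C := by
  have h1 := mf_trace M A B C
  have h2 := mf_trace M B A C
  have h3 : ((M.T A * M.T B - M.T B * M.T A) * M.T C).trace =
      -((M.T B * M.T A - M.T A * M.T B) * M.T C).trace := by
    rw [← Matrix.trace_neg, ← Matrix.neg_mul, neg_sub]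
  rw [h1, h2] at h3
  have h4 : Complex.I * ((M.f A B C : ℂ) + (M.f B A C : ℂ)) = 0 := by linear_combination h3
  have h5 : ((M.f A B C : ℂ) + (M.f B A C : ℂ)) = 0 := by
    rcases mul_eq_zero.mp h4 with h | h
    · exact absurd h Complex.I_ne_zero
    · exact h
  have h6 : M.f A B C + M.f B A C = 0 := by exact_mod_cast h5
  linarith

/-- the structure constants are invariant under cyclic permutations -/
lemma mf_cyc (A B C : Fin d) : M.f A B C = M.f B C A := by
  have h1 := mf_trace M A B C
  have h2 := mf_trace M B C A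
  have h3 : ((M.T A * M.T B - M.T B * M.T A) * M.T C).trace =
      ((M.T B * M.T C - M.T C * M.T B) * M.T A).trace := by
    rw [Matrix.sub_mul, Matrix.sub_mul, Matrix.trace_sub, Matrix.trace_sub]
    have e1 : (M.T A * M.T B * M.T C).trace = (M.T B * M.T C * M.T A).trace := by
      rw [mul_assoc, Matrix.trace_mul_comm]
    have e2 : (M.T B * M.T A * M.T C).trace = (M.T C * M.T B * M.T A).trace := by
      rw [Matrix.trace_mul_comm, ← mul_assoc]
    rw [e1, e2]
  rw [h1, h2] at h3
  have h4 : Complex.I * ((M.f A B C : ℂ) - (M.f B C A : ℂ)) = 0 := by linear_combination h3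
  have h5 : ((M.f A B C : ℂ) - (M.f B C A : ℂ)) = 0 := by
    rcases mul_eq_zero.mp h4 with h | h
    · exact absurd h Complex.I_ne_zero
    · exact h
  have h6 : M.f A B C - M.f B C A = 0 := by exact_mod_cast h5
  linarith

/-- traces of double commutators -/
lemma mf_trace2 (A B C D : Fin d) :
    (((M.T A * M.T B - M.T B * M.T A) * M.T C - M.T C * (M.T A * M.T B - M.T B * M.T A)) *
      M.T D).trace = -((∑ E, M.f A B E * M.f E C D : ℝ) : ℂ) := by
  have h1 : (M.T A * M.T B - M.T B * M.T A) * M.T C -
      M.T C * (M.T A * M.T B - M.T B * M.T A) =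
      ∑ E, (Complex.I * (M.f A B E : ℂ)) • (M.T E * M.T C - M.T C * M.T E) := by
    rw [M.T_comm A B, Finset.sum_mul, Finset.mul_sum, ← Finset.sum_sub_distrib]
    refine Finset.sum_congr rfl fun E _ => ?_
    rw [Matrix.smul_mul, Matrix.mul_smul, smul_sub]
  rw [h1, Finset.sum_mul, Matrix.trace_sum]
  push_cast
  rw [← Finset.sum_neg_distrib]
  refine Finset.sum_congr rfl fun E _ => ?_
  rw [Matrix.smul_mul, Matrix.trace_smul, mf_trace, smul_eq_mul]
  linear_combination ((M.f A B E : ℂ) * (M.f E C D : ℂ)) * Complex.I_sq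

/-- the Jacobi identity -/
lemma mf_jac (A B C D : Fin d) :
    ∑ E, (M.f A B E * M.f E C D + M.f B C E * M.f E A D + M.f C A E * M.f E B D) = 0 := by
  have h0 : ((M.T A * M.T B - M.T B * M.T A) * M.T C -
        M.T C * (M.T A * M.T B - M.T B * M.T A)) +
      ((M.T B * M.T C - M.T C * M.T B) * M.T A -
        M.T A * (M.T B * M.T C - M.T C * M.T B)) +
      ((M.T C * M.T A - M.T A * M.T C) * M.T B -
        M.T B * (M.T C * M.T A - M.T A * M.T C)) = 0 := by
    noncomm_ring
  have h1 := congrArg (fun X => (X * M.T D).trace) h0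
  simp only [Matrix.add_mul, Matrix.trace_add, mf_trace2, Matrix.zero_mul,
    Matrix.trace_zero] at h1
  rw [Finset.sum_add_distrib, Finset.sum_add_distrib]
  have h2 : (((∑ E, M.f A B E * M.f E C D) + (∑ E, M.f B C E * M.f E A D) +
      ∑ E, M.f C A E * M.f E B D : ℝ) : ℂ) = 0 := by
    push_cast
    push_cast at h1
    linear_combination -h1
  exact_mod_cast h2

end structureConstants

/-- the real gamma matrices as complex matrices -/
noncomputable def gamC (M : BFSS.Model N d F) (i : Fin 9) : Matrix (Fin 16) (Fin 16) ℂ :=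
  (M.γ i).map Complex.ofRealHom

/-- the setup of a model -/
noncomputable def ofModel (M : BFSS.Model N d F) : Setup d F where
  g := gamC M
  g_symm := by
    intro i
    rw [gamC, ← Matrix.transpose_map, M.γ_symm]
  g_anti := by
    intro i j
    rw [gamC, gamC, ← Matrix.map_mul, ← Matrix.map_mul, ← Matrix.map_add _ (map_add _),
      M.γ_anticomm]
    split_ifs
    · ext α β
      by_cases h : α = β
      · simp [Matrix.ofNat_apply, h]
      · simp [Matrix.ofNat_apply, h]
    · simp
  th := M.θ
  th_anti := by
    intro α A β B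
    ext v
    have h := M.θ_anticomm α A β B v
    rw [_root_.add_apply]
    refine h.trans ?_
    split_ifs
    · rfl
    · rfl
  κ := 1
  κ_pos := one_pos
  f := M.f
  f_swap := mf_swap M
  f_cyc := mf_cyc M
  f_jac := mf_jac M
  g_real := by
    intro i α β
    simp [gamC]
  th_sa := M.θ_selfAdjoint

lemma ofModel_rep (M : BFSS.Model N d F) : Rep M (ofModel M) where
  hκ := rfl
  hf := rfl
  hg := fun _ _ _ => rfl
  hth := rfl

/-- **M-Set** -/
theorem setS (M : BFSS.Model N d F) : SetStmt M := ⟨ofModel M, ofModel_rep M⟩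

end Vale.Agent.P353.Z.U
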