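import Vale.Agent.P353.FiniteDim
import Vale.Agent.P353.Z.U.StmtB

/-! # P353, general `N`: local Rellich theorem (B-LR) -/

open MeasureTheory Filter Topology
open scoped ContDiff

namespace Vale.Agent.P353.Z.U

variable {dc : ℕ}

variable {F : Type*} [NormedAddCommGroup F] [InnerProductSpace ℂ F]

namespace Rl

open FD

/-- Poincaré inequality on cells. -/
lemma poincare [CompleteSpace F] {ι : Type*} [Fintype ι] {v : EuclideanSpace ℝ ι → F}
    (hv : ContDiff ℝ 1 v) (hvs : HasCompactSupport v) {δ : ℝ} (hδ : 0 < δ) (K : Finset (ι → ℤ))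
    (hK : ∀ x, x ∉ (⋃ k ∈ K, (cell δ k : Set (EuclideanSpace ℝ ι))) → v x = 0) :
    ∫ x, ‖v x‖ ^ 2 ≤ 2 * (2 ^ Fintype.card ι * (Fintype.card ι * δ ^ 2)) *
      (∫ x, ‖fderiv ℝ v x‖ ^ 2) +
      2 * ∑ k ∈ K, (δ ^ Fintype.card ι)⁻¹ * ‖∫ x in cell δ k, v x‖ ^ 2 := by
  have hvL : MemLp v 2 (volume : Measure (EuclideanSpace ℝ ι)) :=
    hv.continuous.memLp_of_hasCompactSupport hvs
  have hvi : Integrable v := hv.continuous.integrable_of_hasCompactSupport hvs
  have hv2 : Integrable (fun x => ‖v x‖ ^ 2) := (memLp_two_iff_integrable_sq_norm hvL.1).mp hvL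
  have hDv : Integrable (fun x => ‖fderiv ℝ v x‖ ^ 2) := by
    refine ((hv.continuous_fderiv (by simp)).norm.pow 2).integrable_of_hasCompactSupport ?_
    have h1 : HasCompactSupport (fderiv ℝ v) := hvs.fderiv (𝕜 := ℝ)
    refine h1.mono ?_
    intro x hx
    simp only [Function.mem_support] at hx ⊢
    intro h2
    exact hx (by simp [h2])
  have hfin : ∀ k : ι → ℤ,
      IsFiniteMeasure (volume.restrict (cell δ k : Set (EuclideanSpace ℝ ι))) := by
    intro k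
    refine ⟨?_⟩
    rw [Measure.restrict_apply_univ, volume_cell]
    exact ENNReal.pow_lt_top ENNReal.ofReal_lt_top
  have hvol : ∀ k : ι → ℤ, (volume (cell δ k : Set (EuclideanSpace ℝ ι))).toReal =
      δ ^ Fintype.card ι := by
    intro k
    rw [volume_cell, ENNReal.toReal_pow, ENNReal.toReal_ofReal hδ.le]
  have hδd : 0 < δ ^ Fintype.card ι := pow_pos hδ _
  let c : (ι → ℤ) → F := fun k => (volume (cell δ k : Set (EuclideanSpace ℝ ι))).toReal⁻¹ •
    ∫ y in cell δ k, v y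
  have hcL : ∀ k : ι → ℤ, MemLp (fun x => v x - c k) 2
      (volume.restrict (cell δ k : Set (EuclideanSpace ℝ ι))) := by
    intro k
    have := hfin k
    exact (hvL.restrict _).sub (memLp_const _)
  have hc2 : ∀ k : ι → ℤ, Integrable (fun x => ‖v x - c k‖ ^ 2)
      (volume.restrict (cell δ k : Set (EuclideanSpace ℝ ι))) := fun k =>
    (memLp_two_iff_integrable_sq_norm (hcL k).1).mp (hcL k)
  have hbound : ∑ k ∈ K, ∫ x in cell δ k, ‖v x - c k‖ ^ 2 ≤
      2 ^ Fintype.card ι * (Fintype.card ι * δ ^ 2) * ∫ x, ‖fderiv ℝ v x‖ ^ 2 := by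
    have h1 := cells_bound hv hvi hδ K
    have h2 : ∀ k ∈ K, ∫⁻ x in cell δ k, ‖v x - (volume (cell δ k)).toReal⁻¹ •
        ∫ y in cell δ k, v y‖ₑ ^ 2 = ENNReal.ofReal (∫ x in cell δ k, ‖v x - c k‖ ^ 2) := by
      intro k _
      exact lint_eq (hc2 k)
    rw [Finset.sum_congr rfl h2, ← ENNReal.ofReal_sum_of_nonneg
      (fun k _ => integral_nonneg fun x => by positivity)] at h1
    have h3 : ∫⁻ x, ‖fderiv ℝ v x‖ₑ ^ 2 = ENNReal.ofReal (∫ x, ‖fderiv ℝ v x‖ ^ 2) := lint_eq hDv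
    rw [h3, ← ENNReal.ofReal_mul (by positivity)] at h1
    exact (ENNReal.ofReal_le_ofReal_iff (by positivity)).mp h1
  have h1 : ∫ x, ‖v x‖ ^ 2 = ∑ k ∈ K, ∫ x in cell δ k, ‖v x‖ ^ 2 := by
    rw [← integral_biUnion_finset K (fun k _ => measurableSet_cell δ k)
      (fun k _ l _ hkl => cell_disjoint hδ hkl) (fun k _ => hv2.integrableOn)]
    symm
    refine setIntegral_eq_integral_of_forall_compl_eq_zero fun x hx => ?_
    rw [hK x hx]; simp
  have h2 : ∀ k ∈ K, ∫ x in cell δ k, ‖v x‖ ^ 2 ≤ 2 * (∫ x in cell δ k, ‖v x - c k‖ ^ 2) +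
      2 * ((δ ^ Fintype.card ι)⁻¹ * ‖∫ x in cell δ k, v x‖ ^ 2) := by
    intro k hk
    have := hfin k
    have e1 : (δ ^ Fintype.card ι)⁻¹ * ‖∫ x in cell δ k, v x‖ ^ 2 =
        ∫ _x in cell δ k, ‖c k‖ ^ 2 := by
      rw [setIntegral_const, Measure.real, hvol k]
      simp only [c, norm_smul, norm_inv, hvol k, Real.norm_of_nonneg hδd.le, smul_eq_mul, mul_pow]
      field_simp
    rw [e1, ← integral_const_mul, ← integral_const_mul, ← integral_add
      ((hc2 k).const_mul 2) ((integrable_const _).const_mul 2)]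
    refine integral_mono hv2.integrableOn
      (((hc2 k).const_mul 2).add ((integrable_const _).const_mul 2)) fun x => ?_
    have h3 : ‖v x‖ ≤ ‖v x - c k‖ + ‖c k‖ := by
      simpa using norm_add_le (v x - c k) (c k)
    have h4 : ‖v x‖ ^ 2 ≤ (‖v x - c k‖ + ‖c k‖) ^ 2 := by gcongr
    simp only
    nlinarith [sq_nonneg (‖v x - c k‖ - ‖c k‖)]
  rw [h1]
  refine (Finset.sum_le_sum h2).trans ?_
  rw [Finset.sum_add_distrib, ← Finset.mul_sum, ← Finset.mul_sum]
  nlinarith [hbound]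

lemma opNorm_sq_le (L : (Cfg dc) →L[ℝ] F) :
    ‖L‖ ^ 2 ≤ ∑ i, ∑ A, ‖L (EuclideanSpace.single (i, A) 1)‖ ^ 2 := by
  have h0 : 0 ≤ ∑ i, ∑ A, ‖L (EuclideanSpace.single (i, A) 1)‖ ^ 2 := by positivity
  have h1 : ‖L‖ ≤ Real.sqrt (∑ i, ∑ A, ‖L (EuclideanSpace.single (i, A) 1)‖ ^ 2) := by
    refine L.opNorm_le_bound (Real.sqrt_nonneg _) fun x => ?_
    have hx : x = ∑ p : Fin 9 × Fin dc, x p • (EuclideanSpace.single p (1 : ℝ) : (Cfg dc)) := by
      ext q
      simp only [WithLp.ofLp_sum, Finset.sum_apply, WithLp.ofLp_smul, Pi.smul_apply,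
        PiLp.single_apply, smul_eq_mul, mul_ite, mul_one, mul_zero]
      simp
    have h2 : L x = ∑ p : Fin 9 × Fin dc, x p • L (EuclideanSpace.single p (1 : ℝ) : (Cfg dc)) := by
      conv_lhs => rw [hx]
      rw [map_sum]
      simp only [map_smul]
    have h3 : ‖L x‖ ≤ ∑ p : Fin 9 × Fin dc, |x p| * ‖L (EuclideanSpace.single p (1 : ℝ) : (Cfg dc))‖ := by
      rw [h2]
      refine (norm_sum_le _ _).trans (Finset.sum_le_sum fun p _ => ?_)
      rw [norm_smul, Real.norm_eq_abs]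
    have h4 := Finset.sum_mul_sq_le_sq_mul_sq (Finset.univ : Finset (Fin 9 × Fin dc))
      (fun p => |x p|) (fun p => ‖L (EuclideanSpace.single p (1 : ℝ) : (Cfg dc))‖)
    have h5 : ∑ p : Fin 9 × Fin dc, |x p| ^ 2 = ‖x‖ ^ 2 := by
      rw [EuclideanSpace.norm_sq_eq]
      simp
    have h6 : ∑ p : Fin 9 × Fin dc, ‖L (EuclideanSpace.single p (1 : ℝ) : (Cfg dc))‖ ^ 2 =
        ∑ i, ∑ A, ‖L (EuclideanSpace.single (i, A) 1)‖ ^ 2 := by
      rw [Fintype.sum_prod_type]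
    rw [h5, h6] at h4
    have h7 : 0 ≤ ∑ p : Fin 9 × Fin dc, |x p| * ‖L (EuclideanSpace.single p (1 : ℝ) : (Cfg dc))‖ := by
      positivity
    refine h3.trans ?_
    rw [← Real.sqrt_sq h7, ← Real.sqrt_sq (norm_nonneg x), ← Real.sqrt_mul h0]
    refine Real.sqrt_le_sqrt ?_
    linarith
  calc ‖L‖ ^ 2 ≤ (Real.sqrt (∑ i, ∑ A, ‖L (EuclideanSpace.single (i, A) 1)‖ ^ 2)) ^ 2 := by
        gcongr
    _ = _ := Real.sq_sqrt h0

lemma sq_add_le (a b : ℝ) : (a + b) ^ 2 ≤ 2 * a ^ 2 + 2 * b ^ 2 := by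
  nlinarith [sq_nonneg (a - b)]

omit [InnerProductSpace ℂ F] in
lemma sq_sub_le (a b : F) : ‖a - b‖ ^ 2 ≤ 2 * ‖a‖ ^ 2 + 2 * ‖b‖ ^ 2 := by
  have h1 : ‖a - b‖ ^ 2 ≤ (‖a‖ + ‖b‖) ^ 2 := by
    gcongr; exact norm_sub_le _ _
  exact h1.trans (sq_add_le _ _)

lemma int_ball {f : (Cfg dc) → ℝ} (hf : Continuous f) (r : ℝ) :
    IntegrableOn f (Metric.ball (0 : (Cfg dc)) r) :=
  (hf.continuousOn.integrableOn_compact (isCompact_closedBall (0 : (Cfg dc)) r)).mono_set
    Metric.ball_subset_closedBall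

/-- the localized functions -/
lemma loc_bound {χ : (Cfg dc) → ℝ} (hχ : ContDiff ℝ ∞ χ) (hχs : HasCompactSupport χ)
    (hχ0 : ∀ x, 0 ≤ χ x) (hχ1 : ∀ x, χ x ≤ 1) {r : ℝ} (hr : ∀ x, r ≤ ‖x‖ → χ x = 0) :
    ∃ C : ℝ, 0 ≤ C ∧ ∀ u : (Cfg dc) → F, ContDiff ℝ ∞ u →
      ((∫ x, ‖χ x • u x‖ ^ 2) ≤ ∫ x in Metric.ball (0 : (Cfg dc)) r, ‖u x‖ ^ 2) ∧
      (∫ x, ‖fderiv ℝ (fun y => χ y • u y) x‖ ^ 2) ≤
        C * (∫ x in Metric.ball (0 : (Cfg dc)) r, ‖u x‖ ^ 2) +
        2 * ∑ i, ∑ A, ∫ x in Metric.ball (0 : (Cfg dc)) r, ‖pd i A u x‖ ^ 2 := by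
  have hχd : Continuous (fderiv ℝ χ) := hχ.continuous_fderiv (by simp)
  obtain ⟨M, hM⟩ := (hχs.fderiv (𝕜 := ℝ)).exists_bound_of_continuous hχd
  have hM0 : 0 ≤ M := (norm_nonneg _).trans (hM 0)
  have hnot : ∀ x : (Cfg dc), x ∉ Metric.ball (0 : (Cfg dc)) r → r ≤ ‖x‖ := by
    intro x hx
    rw [Metric.mem_ball, dist_zero_right, not_lt] at hx
    exact hx
  refine ⟨2 * M ^ 2, by positivity, fun u hu => ⟨?_, ?_⟩⟩
  · rw [← setIntegral_eq_integral_of_forall_compl_eq_zero (s := Metric.ball (0 : (Cfg dc)) r)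
      (fun x hx => by rw [hr x (hnot x hx)]; simp)]
    refine setIntegral_mono (int_ball ((hχ.continuous.smul hu.continuous).norm.pow 2) r)
      (int_ball (hu.continuous.norm.pow 2) r) fun x => ?_
    simp only
    rw [norm_smul, mul_pow, Real.norm_of_nonneg (hχ0 x)]
    have h1 : χ x ^ 2 ≤ 1 := by
      have := hχ0 x; have := hχ1 x; nlinarith
    nlinarith [sq_nonneg ‖u x‖]
  · have hud : Continuous (fderiv ℝ u) := hu.continuous_fderiv (by simp)
    have hprod : ContDiff ℝ ∞ (fun y => χ y • u y) := hχ.smul hu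
    have hpc : Continuous (fderiv ℝ (fun y => χ y • u y)) := hprod.continuous_fderiv (by simp)
    have hder : ∀ x, fderiv ℝ (fun y => χ y • u y) x =
        χ x • fderiv ℝ u x + (fderiv ℝ χ x).smulRight (u x) := by
      intro x
      exact fderiv_smul ((hχ.differentiable (by simp)) x) ((hu.differentiable (by simp)) x)
    have hz : ∀ x, x ∉ Metric.ball (0 : (Cfg dc)) r →
        ‖fderiv ℝ (fun y => χ y • u y) x‖ ^ 2 = 0 := by
      intro x hx
      have h1 := hr x (hnot x hx)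
      have h2 : fderiv ℝ χ x = 0 := by
        apply IsLocalMin.fderiv_eq_zero
        refine Filter.Eventually.of_forall fun y => ?_
        rw [h1]; exact hχ0 y
      rw [hder, h1, h2]
      simp
    rw [← setIntegral_eq_integral_of_forall_compl_eq_zero (s := Metric.ball (0 : (Cfg dc)) r) hz]
    have hpd : ∀ i A, Continuous (fun x => ‖pd i A u x‖ ^ 2) := fun i A =>
      (hud.clm_apply continuous_const).norm.pow 2
    have hsum : ∑ i, ∑ A, ∫ x in Metric.ball (0 : (Cfg dc)) r, ‖pd i A u x‖ ^ 2 =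
        ∫ x in Metric.ball (0 : (Cfg dc)) r, ∑ i, ∑ A, ‖pd i A u x‖ ^ 2 := by
      rw [integral_finsetSum _ fun i _ => integrable_finsetSum _ fun A _ => int_ball (hpd i A) r]
      refine Finset.sum_congr rfl fun i _ => ?_
      rw [integral_finsetSum _ fun A _ => int_ball (hpd i A) r]
    have hi1 : IntegrableOn (fun x => ‖u x‖ ^ 2) (Metric.ball (0 : (Cfg dc)) r) :=
      int_ball (hu.continuous.norm.pow 2) r
    have hi2 : IntegrableOn (fun x => ∑ i, ∑ A, ‖pd i A u x‖ ^ 2) (Metric.ball (0 : (Cfg dc)) r) :=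
      int_ball (continuous_finsetSum _ fun i _ => continuous_finsetSum _ fun A _ => hpd i A) r
    rw [hsum, ← integral_const_mul, ← integral_const_mul, ← integral_add (hi1.const_mul _)
      (hi2.const_mul _)]
    refine setIntegral_mono (int_ball (hpc.norm.pow 2) r) ((hi1.const_mul _).add (hi2.const_mul _))
      fun x => ?_
    have h1 : ‖fderiv ℝ (fun y => χ y • u y) x‖ ≤ ‖fderiv ℝ u x‖ + M * ‖u x‖ := by
      rw [hder]
      refine (norm_add_le _ _).trans (add_le_add ?_ ?_)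
      · rw [norm_smul, Real.norm_of_nonneg (hχ0 x)]
        exact mul_le_of_le_one_left (norm_nonneg _) (hχ1 x)
      · rw [ContinuousLinearMap.norm_smulRight_apply]
        exact mul_le_mul_of_nonneg_right (hM x) (norm_nonneg _)
    have h2 := opNorm_sq_le (fderiv ℝ u x)
    have h3 : ‖fderiv ℝ (fun y => χ y • u y) x‖ ^ 2 ≤ (‖fderiv ℝ u x‖ + M * ‖u x‖) ^ 2 := by
      gcongr
    have h4 := sq_add_le ‖fderiv ℝ u x‖ (M * ‖u x‖)
    have h5 : ∑ i, ∑ A, ‖fderiv ℝ u x (EuclideanSpace.single (i, A) 1)‖ ^ 2 =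
        ∑ i, ∑ A, ‖pd i A u x‖ ^ 2 := rfl
    rw [h5] at h2
    simp only
    calc _ ≤ _ := h3
      _ ≤ _ := h4
      _ ≤ 2 * ∑ i, ∑ A, ‖pd i A u x‖ ^ 2 + 2 * (M * ‖u x‖) ^ 2 := by gcongr
      _ = _ := by ring

omit [InnerProductSpace ℂ F] in
lemma int_sq {v : (Cfg dc) → F} (hv : Continuous v) (hvs : HasCompactSupport v) :
    Integrable (fun x => ‖v x‖ ^ 2) := by
  refine (hv.norm.pow 2).integrable_of_hasCompactSupport ?_
  refine hvs.mono ?_
  intro x hx
  simp only [Function.mem_support] at hx ⊢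
  intro h2
  exact hx (by simp [h2])

lemma cauchy_of_avg [CompleteSpace F] {w : ℕ → (Cfg dc) → F} (hw : ∀ n, ContDiff ℝ ∞ (w n))
    (hws : ∀ n, HasCompactSupport (w n)) {D : ℝ}
    (hD : ∀ n, ∫ x, ‖fderiv ℝ (w n) x‖ ^ 2 ≤ D) {r : ℝ} (hr : ∀ n x, r ≤ ‖x‖ → w n x = 0)
    (havg : ∀ (j : ℕ) (k : Fin 9 × Fin dc → ℤ), ∃ l : F,
      Tendsto (fun n => ∫ x in (cell (1 / ((j : ℝ) + 1)) k : Set (Cfg dc)), w n x) atTop (𝓝 l)) :
    Tendsto (fun p : ℕ × ℕ => nsq (fun x => w p.1 x - w p.2 x)) atTop (𝓝 0) := by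
  have hlim : Tendsto (fun j : ℕ => 2 * (2 ^ Fintype.card (Fin 9 × Fin dc) *
      (Fintype.card (Fin 9 × Fin dc) * (1 / ((j : ℝ) + 1)) ^ 2)) * (4 * D)) atTop (𝓝 0) := by
    have h1 : Tendsto (fun j : ℕ => (1 / ((j : ℝ) + 1))) atTop (𝓝 0) :=
      tendsto_one_div_add_atTop_nhds_zero_nat
    have h2 := ((((h1.pow 2).const_mul (Fintype.card (Fin 9 × Fin dc) : ℝ)).const_mul
      ((2 : ℝ) ^ Fintype.card (Fin 9 × Fin dc))).const_mul 2).mul_const (4 * D)
    simpa using h2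
  rw [tendsto_order]
  refine ⟨fun a ha => Filter.Eventually.of_forall fun p => lt_of_lt_of_le ha (nsq_nonneg _),
    fun ε hε => ?_⟩
  obtain ⟨j, hj⟩ := (hlim.eventually_lt_const (half_pos hε)).exists
  have hδ : (0 : ℝ) < 1 / ((j : ℝ) + 1) := by positivity
  obtain ⟨K, hK⟩ := exists_cells (ι := Fin 9 × Fin dc) hδ r
  choose l hl using havg
  have hav : Tendsto (fun p : ℕ × ℕ => 2 * ∑ k ∈ K,
      ((1 / ((j : ℝ) + 1)) ^ Fintype.card (Fin 9 × Fin dc))⁻¹ *
        ‖(∫ x in (cell (1 / ((j : ℝ) + 1)) k : Set (Cfg dc)), w p.1 x) -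
          ∫ x in (cell (1 / ((j : ℝ) + 1)) k : Set (Cfg dc)), w p.2 x‖ ^ 2) atTop (𝓝 0) := by
    have h1 : ∀ k ∈ K, Tendsto (fun p : ℕ × ℕ =>
      ((1 / ((j : ℝ) + 1)) ^ Fintype.card (Fin 9 × Fin dc))⁻¹ *
        ‖(∫ x in (cell (1 / ((j : ℝ) + 1)) k : Set (Cfg dc)), w p.1 x) -
          ∫ x in (cell (1 / ((j : ℝ) + 1)) k : Set (Cfg dc)), w p.2 x‖ ^ 2) atTop (𝓝 0) := by
      intro k _
      rw [← prod_atTop_atTop_eq]
      have e1 := (hl j k).comp (tendsto_fst (f := (atTop : Filter ℕ)) (g := (atTop : Filter ℕ)))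
      have e2 := (hl j k).comp (tendsto_snd (f := (atTop : Filter ℕ)) (g := (atTop : Filter ℕ)))
      have h2 := ((e1.sub e2).norm.pow 2).const_mul
          ((1 / ((j : ℝ) + 1)) ^ Fintype.card (Fin 9 × Fin dc))⁻¹
      simpa using h2
    have h3 := (tendsto_finsetSum K h1).const_mul 2
    simpa using h3
  filter_upwards [hav.eventually_lt_const (half_pos hε)] with p hp
  have hv : ContDiff ℝ ∞ (fun x => w p.1 x - w p.2 x) := (hw p.1).sub (hw p.2)
  have hvs : HasCompactSupport (fun x => w p.1 x - w p.2 x) := (hws p.1).sub (hws p.2)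
  have h1 := poincare (hv.of_le (by simp)) hvs hδ K (fun x hx => by
    have : r ≤ ‖x‖ := by
      by_contra hcon
      push Not at hcon
      exact hx (hK x hcon)
    rw [hr _ x this, hr _ x this, sub_zero])
  have h2 : ∫ x, ‖fderiv ℝ (fun x => w p.1 x - w p.2 x) x‖ ^ 2 ≤ 4 * D := by
    have hi : ∀ n, Integrable (fun x => ‖fderiv ℝ (w n) x‖ ^ 2) := fun n =>
      int_sq ((hw n).continuous_fderiv (by simp)) ((hws n).fderiv (𝕜 := ℝ))
    have h3 : ∫ x, ‖fderiv ℝ (fun x => w p.1 x - w p.2 x) x‖ ^ 2 ≤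
        ∫ x, (2 * ‖fderiv ℝ (w p.1) x‖ ^ 2 + 2 * ‖fderiv ℝ (w p.2) x‖ ^ 2) := by
      refine integral_mono_of_nonneg (Filter.Eventually.of_forall fun x => by
        simp only [Pi.zero_apply]; positivity) (((hi p.1).const_mul 2).add ((hi p.2).const_mul 2))
        (Filter.Eventually.of_forall fun x => ?_)
      have h4 : fderiv ℝ (fun x => w p.1 x - w p.2 x) x =
          fderiv ℝ (w p.1) x - fderiv ℝ (w p.2) x :=
        fderiv_fun_sub (((hw p.1).differentiable (by simp)) x)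
          (((hw p.2).differentiable (by simp)) x)
      simp only
      rw [h4]
      exact sq_sub_le _ _
    rw [integral_add ((hi p.1).const_mul 2) ((hi p.2).const_mul 2), integral_const_mul,
      integral_const_mul] at h3
    have := hD p.1
    have := hD p.2
    linarith
  have h5 : ∀ k, ∫ x in (cell (1 / ((j : ℝ) + 1)) k : Set (Cfg dc)), (w p.1 x - w p.2 x) =
      (∫ x in (cell (1 / ((j : ℝ) + 1)) k : Set (Cfg dc)), w p.1 x) -
          ∫ x in (cell (1 / ((j : ℝ) + 1)) k : Set (Cfg dc)), w p.2 x := by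
    intro k
    have hi : ∀ n, Integrable (w n) := fun n =>
      (hw n).continuous.integrable_of_hasCompactSupport (hws n)
    exact integral_sub (hi p.1).integrableOn (hi p.2).integrableOn
  simp only [h5] at h1
  have h6 : 0 ≤ 2 * (2 ^ Fintype.card (Fin 9 × Fin dc) *
      (Fintype.card (Fin 9 × Fin dc) * (1 / ((j : ℝ) + 1)) ^ 2)) := by positivity
  have h7 := mul_le_mul_of_nonneg_left h2 h6
  rw [nsq]
  linarith

lemma extraction [FiniteDimensional ℂ F] {w : ℕ → ℕ → (Cfg dc) → F}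
    (hwc : ∀ s n, Continuous (w s n)) (hws : ∀ s n, HasCompactSupport (w s n)) {K : ℕ → ℝ}
    (hK : ∀ s n, ∫ x, ‖w s n x‖ ^ 2 ≤ K s) :
    ∃ φ : ℕ → ℕ, StrictMono φ ∧ ∀ (s j : ℕ) (k : Fin 9 × Fin dc → ℤ), ∃ l : F,
      Tendsto (fun n => ∫ x in (cell (1 / ((j : ℝ) + 1)) k : Set (Cfg dc)), w s (φ n) x)
        atTop (𝓝 l) := by
  have hprop : ProperSpace F := FiniteDimensional.proper ℂ F
  let a : ℕ → (ℕ × ℕ × (Fin 9 × Fin dc → ℤ)) → F := fun n p =>
    ∫ x in (cell (1 / ((p.2.1 : ℝ) + 1)) p.2.2 : Set (Cfg dc)), w p.1 n x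
  let B : (ℕ × ℕ × (Fin 9 × Fin dc → ℤ)) → ℝ := fun p =>
    (1 / ((p.2.1 : ℝ) + 1)) ^ Fintype.card (Fin 9 × Fin dc) + K p.1
  have ha : ∀ n, a n ∈ Set.univ.pi fun p => Metric.closedBall (0 : F) (B p) := by
    intro n p _
    rw [mem_closedBall_zero_iff]
    have hδ : (0 : ℝ) < 1 / ((p.2.1 : ℝ) + 1) := by positivity
    have hsq := int_sq (hwc p.1 n) (hws p.1 n)
    have hint : Integrable (w p.1 n) :=
      (hwc p.1 n).integrable_of_hasCompactSupport (hws p.1 n)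
    have hfin : IsFiniteMeasure (volume.restrict
        (cell (1 / ((p.2.1 : ℝ) + 1)) p.2.2 : Set (Cfg dc))) := by
      refine ⟨?_⟩
      rw [Measure.restrict_apply_univ, volume_cell]
      exact ENNReal.pow_lt_top ENNReal.ofReal_lt_top
    calc ‖a n p‖ ≤ ∫ x in (cell (1 / ((p.2.1 : ℝ) + 1)) p.2.2 : Set (Cfg dc)), ‖w p.1 n x‖ :=
          norm_integral_le_integral_norm _
      _ ≤ ∫ x in (cell (1 / ((p.2.1 : ℝ) + 1)) p.2.2 : Set (Cfg dc)), (1 + ‖w p.1 n x‖ ^ 2) := by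
          refine integral_mono hint.norm.integrableOn
            ((integrable_const _).add hsq.integrableOn) fun x => ?_
          simp only
          nlinarith [sq_nonneg (‖w p.1 n x‖ - 1), norm_nonneg (w p.1 n x)]
      _ = (1 / ((p.2.1 : ℝ) + 1)) ^ Fintype.card (Fin 9 × Fin dc) +
          ∫ x in (cell (1 / ((p.2.1 : ℝ) + 1)) p.2.2 : Set (Cfg dc)), ‖w p.1 n x‖ ^ 2 := by
          rw [integral_add (integrable_const _) hsq.integrableOn, setIntegral_const, Measure.real,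
            volume_cell, ENNReal.toReal_pow, ENNReal.toReal_ofReal hδ.le, smul_eq_mul, mul_one]
      _ ≤ B p := by
          refine add_le_add le_rfl (le_trans ?_ (hK p.1 n))
          exact setIntegral_le_integral hsq (Filter.Eventually.of_forall fun x => by positivity)
  have hc : IsCompact (Set.univ.pi fun p : ℕ × ℕ × (Fin 9 × Fin dc → ℤ) =>
      Metric.closedBall (0 : F) (B p)) :=
    isCompact_univ_pi fun p => isCompact_closedBall _ _
  obtain ⟨l, -, φ, hφ, hl⟩ := hc.tendsto_subseq ha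
  exact ⟨φ, hφ, fun s j k => ⟨l (s, j, k), (tendsto_pi_nhds.1 hl) (s, j, k)⟩⟩

lemma lim_of_cauchy [CompleteSpace F] {f : ℕ → (Cfg dc) → F}
    (hf : ∀ n, MemLp (f n) 2 (volume : Measure (Cfg dc)))
    (hc : Tendsto (fun p : ℕ × ℕ => nsq (fun x => f p.1 x - f p.2 x)) atTop (𝓝 0)) :
    ∃ g : (Cfg dc) → F, StronglyMeasurable g ∧ L2t f g := by
  have h1 : CauchySeq fun n => (hf n).toLp (f n) := by
    rw [cauchySeq_iff_tendsto_dist_atTop_0]
    have h2 : ∀ p : ℕ × ℕ, dist ((hf p.1).toLp (f p.1)) ((hf p.2).toLp (f p.2)) =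
        Real.sqrt (nsq (fun x => f p.1 x - f p.2 x)) := by
      intro p
      rw [dist_eq_norm, ← MemLp.toLp_sub, norm_toLp]
      rfl
    simp only [h2]
    have := (Real.continuous_sqrt.tendsto 0).comp hc
    rw [Real.sqrt_zero] at this
    exact this
  obtain ⟨g, hg⟩ := cauchySeq_tendsto_of_complete h1
  refine ⟨g, Lp.stronglyMeasurable g, ⟨hf, Lp.memLp g, ?_⟩⟩
  have h3 : ∀ n, nsq (fun x => f n x - g x) = ‖(hf n).toLp (f n) - g‖ ^ 2 := by
    intro n
    have h4 : (hf n).toLp (f n) - g =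
        ((hf n).sub (Lp.memLp g)).toLp (f n - (g : (Cfg dc) → F)) := by
      rw [MemLp.toLp_sub (hf n) (Lp.memLp g), Lp.toLp_coeFn]
    rw [h4, norm_toLp, Real.sq_sqrt (nsq_nonneg _)]
    rfl
  simp only [h3]
  have h5 := (tendsto_iff_norm_sub_tendsto_zero.1 hg).pow 2
  simpa using h5

end Rl

open Rl

theorem lr [FiniteDimensional ℂ F] : LRStmt dc F := by
  intro u hu hK
  have hcomp : CompleteSpace F := FiniteDimensional.complete ℂ F
  obtain ⟨K0, -, hcut⟩ := exists_cut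
  choose χ hχ using fun s : ℕ => hcut ((s : ℝ) + 1) (by positivity)
  choose C hC0 hC using fun s : ℕ => loc_bound (F := F) (hχ s).1 (hχ s).2.1 (hχ s).2.2.1
    (hχ s).2.2.2.1 (hχ s).2.2.2.2.2.1
  choose KK hKK using fun s : ℕ => hK (2 * ((s : ℝ) + 1)) (by positivity)
  have hA : ∀ s n : ℕ, ∫ x in Metric.ball (0 : (Cfg dc)) (2 * ((s : ℝ) + 1)), ‖u n x‖ ^ 2 ≤ KK s := by
    intro s n
    have h1 := hKK s n
    have h2 : 0 ≤ ∑ i, ∑ A, (∫ x in Metric.ball (0 : (Cfg dc)) (2 * ((s : ℝ) + 1)),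
        ‖pd i A (u n) x‖ ^ 2) := Finset.sum_nonneg fun i _ => Finset.sum_nonneg fun A _ =>
      integral_nonneg fun x => by positivity
    linarith
  have hw1 : ∀ s n, ∫ x, ‖χ s x • u n x‖ ^ 2 ≤ KK s := fun s n =>
    ((hC s (u n) (hu n)).1).trans (hA s n)
  have hw2 : ∀ s n, ∫ x, ‖fderiv ℝ (fun y => χ s y • u n y) x‖ ^ 2 ≤ (C s + 2) * KK s := by
    intro s n
    refine ((hC s (u n) (hu n)).2).trans ?_
    have h1 := hKK s n
    have h2 : 0 ≤ ∫ x in Metric.ball (0 : (Cfg dc)) (2 * ((s : ℝ) + 1)), ‖u n x‖ ^ 2 :=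
      integral_nonneg fun x => by positivity
    have h3 := mul_le_mul_of_nonneg_left (hA s n) (hC0 s)
    have h4 : (C s + 2) * KK s = C s * KK s + 2 * KK s := by ring
    rw [h4]
    linarith
  have hws : ∀ s n, ContDiff ℝ ∞ (fun x => χ s x • u n x) := fun s n => (hχ s).1.smul (hu n)
  have hwc : ∀ s n, HasCompactSupport (fun x => χ s x • u n x) := fun s n =>
    (hχ s).2.1.smul_right
  have hwm : ∀ s n, MemLp (fun x => χ s x • u n x) 2 (volume : Measure (Cfg dc)) := fun s n =>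
    (hws s n).continuous.memLp_of_hasCompactSupport (hwc s n)
  obtain ⟨φ, hφ, hex⟩ := extraction (w := fun s n x => χ s x • u n x)
    (fun s n => (hws s n).continuous) hwc hw1
  have hlim : ∀ s : ℕ, ∃ g : (Cfg dc) → F, StronglyMeasurable g ∧
      L2t (fun n x => χ s x • u (φ n) x) g := by
    intro s
    refine lim_of_cauchy (fun n => hwm s (φ n)) ?_
    exact cauchy_of_avg (w := fun n x => χ s x • u (φ n) x) (fun n => hws s (φ n))
      (fun n => hwc s (φ n)) (fun n => hw2 s (φ n)) (r := 2 * ((s : ℝ) + 1))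
      (fun n x hx => by rw [(hχ s).2.2.2.2.2.1 x hx, zero_smul]) (fun j k => hex s j k)
  choose g hgm hg using hlim
  let Ψ : (Cfg dc) → F := fun x => g ⌊‖x‖⌋₊ x
  have hΨm : StronglyMeasurable Ψ := by
    have hprop : ProperSpace F := FiniteDimensional.proper ℂ F
    borelize F
    have h1 : Measurable (fun p : ℕ × (Cfg dc) => g p.1 p.2) :=
      measurable_from_prod_countable_right fun s => (hgm s).measurable
    have h2 : Measurable (fun x : (Cfg dc) => (⌊‖x‖⌋₊, x)) :=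
      (Nat.measurable_floor.comp measurable_norm).prodMk measurable_id
    exact (h1.comp h2).stronglyMeasurable
  have hg2 : ∀ s, Integrable (fun x => ‖g s x‖ ^ 2) := fun s => memLp_norm_sq_int (hg s).mem'
  have hfl : ∀ r : ℝ, ∀ x ∈ Metric.ball (0 : (Cfg dc)) r, ⌊‖x‖⌋₊ ∈ Finset.range (⌊r⌋₊ + 1) := by
    intro r x hx
    rw [Metric.mem_ball, dist_zero_right] at hx
    rw [Finset.mem_range]
    exact Nat.lt_succ_of_le (Nat.floor_le_floor hx.le)
  refine ⟨φ, hφ, Ψ, hΨm, fun r hr => ?_, fun r hr => ?_⟩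
  · refine Integrable.mono' (g := fun x => ∑ s ∈ Finset.range (⌊r⌋₊ + 1), ‖g s x‖ ^ 2)
      (integrable_finsetSum _ fun s _ => (hg2 s).integrableOn)
      ((hΨm.norm.pow 2).aestronglyMeasurable) ?_
    refine (ae_restrict_mem Metric.isOpen_ball.measurableSet).mono fun x hx => ?_
    rw [Real.norm_of_nonneg (by positivity)]
    exact Finset.single_le_sum (f := fun s => ‖g s x‖ ^ 2) (fun s _ => by positivity) (hfl r x hx)
  · have hd2 : ∀ s n, Integrable (fun x => ‖χ s x • u (φ n) x - g s x‖ ^ 2) := fun s n =>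
      memLp_norm_sq_int ((hwm s (φ n)).sub (hg s).mem')
    have h1 : ∀ n, ∫ x in Metric.ball (0 : (Cfg dc)) r, ‖u (φ n) x - Ψ x‖ ^ 2 ≤
        ∑ s ∈ Finset.range (⌊r⌋₊ + 1), nsq (fun x => χ s x • u (φ n) x - g s x) := by
      intro n
      have h2 : ∑ s ∈ Finset.range (⌊r⌋₊ + 1), nsq (fun x => χ s x • u (φ n) x - g s x) =
          ∫ x, ∑ s ∈ Finset.range (⌊r⌋₊ + 1), ‖χ s x • u (φ n) x - g s x‖ ^ 2 := by
        rw [integral_finsetSum _ fun s _ => hd2 s n]
        rfl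
      rw [h2]
      refine le_trans ?_ (setIntegral_le_integral (s := Metric.ball (0 : (Cfg dc)) r)
        (integrable_finsetSum _ fun s _ => hd2 s n)
        (Filter.Eventually.of_forall fun x => Finset.sum_nonneg fun s _ => by positivity))
      refine integral_mono_of_nonneg (Filter.Eventually.of_forall fun x => by
        simp only [Pi.zero_apply]; positivity)
        (integrable_finsetSum _ fun s _ => (hd2 s n).integrableOn) ?_
      refine (ae_restrict_mem Metric.isOpen_ball.measurableSet).mono fun x hx => ?_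
      have h3 : ‖u (φ n) x - Ψ x‖ ^ 2 = ‖χ ⌊‖x‖⌋₊ x • u (φ n) x - g ⌊‖x‖⌋₊ x‖ ^ 2 := by
        have h4 : χ ⌊‖x‖⌋₊ x = 1 :=
          (hχ ⌊‖x‖⌋₊).2.2.2.2.1 x (Nat.lt_floor_add_one ‖x‖).le
        rw [h4, one_smul]
      simp only
      rw [h3]
      exact Finset.single_le_sum (f := fun s => ‖χ s x • u (φ n) x - g s x‖ ^ 2)
        (fun s _ => by positivity) (hfl r x hx)
    have h5 : Tendsto (fun n => ∑ s ∈ Finset.range (⌊r⌋₊ + 1),
        nsq (fun x => χ s x • u (φ n) x - g s x)) atTop (𝓝 0) := by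
      have := tendsto_finsetSum (Finset.range (⌊r⌋₊ + 1)) fun s _ => (hg s).lim
      simpa using this
    exact squeeze_zero (fun n => integral_nonneg fun x => by positivity) h1 h5

end Vale.Agent.P353.Z.U
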