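import Vale.Agent.P353.Z.U.StmtA
import Vale.Agent.P353.Z.U.StmtB

/-! # P353, uniqueness: basic facts on the deformed supercharges (helper349) -/

open MeasureTheory Filter Topology
open scoped ContDiff

namespace Vale.Agent.P353.Z.U

variable {dc : ℕ}

variable {F : Type*} [NormedAddCommGroup F] [InnerProductSpace ℂ F]

namespace HB

variable (S : Setup dc F)

lemma MM_symm (β : Fin 16) (x : (Cfg dc)) (v w : F) :
    inner ℂ (S.MM β x v) w = inner ℂ v (S.MM β x w) := by
  have h : ∀ i α γ, ((S.g i * S.Gam) α γ).im = 0 := fun i =>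
    Setup.mul_im_zero (S.g_im i) S.Gam_real
  simp only [Setup.MM, _root_.sum_apply, _root_.smul_apply, sum_inner,
    inner_sum, inner_smul_left, inner_smul_right, S.vec_symm _ (h _), Complex.conj_ofReal]

lemma contDiff_MM (β : Fin 16) : ContDiff ℝ ∞ (S.MM β) := by
  unfold Setup.MM
  refine ContDiff.sum fun i _ => ContDiff.sum fun A _ => ?_
  exact (Setup.contDiff_ofReal (contDiff_const.mul (Setup.contDiff_coord _))).smul contDiff_const

lemma Tst_csmul (c : ℂ) {u : (Cfg dc) → F} (hu : Setup.Tst u) : Setup.Tst (fun x => c • u x) := by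
  refine ⟨contDiff_const.smul hu.1, hu.2.mono ?_⟩
  intro x hx
  simp only [Function.mem_support] at hx ⊢
  intro h0
  exact hx (by rw [h0, smul_zero])

lemma Tst_zero : Setup.Tst (fun _ : (Cfg dc) => (0 : F)) :=
  ⟨contDiff_const, HasCompactSupport.zero⟩

lemma Tst_sum {ι : Type*} (s : Finset ι) {u : ι → (Cfg dc) → F} (hu : ∀ k ∈ s, Setup.Tst (u k)) :
    Setup.Tst (fun x => ∑ k ∈ s, u k x) := by
  classical
  induction s using Finset.induction_on with
  | empty => simpa using (Tst_zero (F := F))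
  | insert a s ha ih =>
    have h1 := (hu a (Finset.mem_insert_self _ _)).add
      (ih fun k hk => hu k (Finset.mem_insert_of_mem hk))
    simpa [Finset.sum_insert ha] using h1

lemma Tst_Qm (m : ℝ) (β : Fin 16) {u : (Cfg dc) → F} (hu : Setup.Tst u) :
    Setup.Tst (S.Qm m β u) :=
  (hu.Q S β).add (Tst_csmul _ (Setup.Tst.clm (contDiff_MM S β) hu))

lemma contDiff_Qm (m : ℝ) (β : Fin 16) {u : (Cfg dc) → F} (hu : ContDiff ℝ ∞ u) :
    ContDiff ℝ ∞ (S.Qm m β u) :=
  (S.contDiff_Q β hu).add (contDiff_const.smul (Setup.contDiff_clm_apply' (contDiff_MM S β) hu))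

lemma Qm_symm (m : ℝ) (β : Fin 16) {u v : (Cfg dc) → F} (hu : Setup.Tst u) (hv : ContDiff ℝ ∞ v) :
    ∫ x, inner ℂ (S.Qm m β u x) (v x) = ∫ x, inner ℂ (u x) (S.Qm m β v x) := by
  have h := Q_symm S β u v hu hv
  have hM : Setup.Tst (fun x => (m : ℂ) • S.MM β x (u x)) :=
    Tst_csmul _ (Setup.Tst.clm (contDiff_MM S β) hu)
  simp only [Setup.Qm, inner_add_left, inner_add_right]
  have hM2 : ContDiff ℝ ∞ (fun x => (m : ℂ) • S.MM β x (v x)) :=
    contDiff_const.smul (Setup.contDiff_clm_apply' (contDiff_MM S β) hv)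
  rw [integral_add ((hu.Q S β).inner_int hv.continuous) (hM.inner_int hv.continuous),
    integral_add (hu.inner_int (S.contDiff_Q β hv).continuous) (hu.inner_int hM2.continuous), h]
  congr 1
  refine integral_congr_ae (Eventually.of_forall fun x => ?_)
  simp only [inner_smul_left, inner_smul_right, MM_symm, Complex.conj_ofReal]

lemma Qm_add (m : ℝ) (β : Fin 16) {u v : (Cfg dc) → F} (hu : ContDiff ℝ ∞ u) (hv : ContDiff ℝ ∞ v)
    (x : (Cfg dc)) : S.Qm m β (fun y => u y + v y) x = S.Qm m β u x + S.Qm m β v x := by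
  have h1 : ∀ i A, pd i A (fun y => u y + v y) x = pd i A u x + pd i A v x := fun i A =>
    pd_add ((hu.differentiable (by simp)) x) ((hv.differentiable (by simp)) x)
  simp only [Setup.Qm, Setup.Q, h1, map_add, smul_add, Finset.sum_add_distrib]
  abel

lemma Qm_csmul (m : ℝ) (β : Fin 16) (c : ℂ) {u : (Cfg dc) → F} (hu : ContDiff ℝ ∞ u)
    (x : (Cfg dc)) : S.Qm m β (fun y => c • u y) x = c • S.Qm m β u x := by
  have h1 : ∀ i A, pd i A (fun y => c • u y) x = c • pd i A u x := by
    intro i A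
    rw [pd_csmul (differentiableAt_const _) ((hu.differentiable (by simp)) x)]
    simp
  simp only [Setup.Qm, Setup.Q, h1, map_smul, smul_add, Finset.smul_sum, smul_smul,
    mul_comm c]

lemma Qm_zero (m : ℝ) (β : Fin 16) (x : (Cfg dc)) : S.Qm m β (fun _ => (0 : F)) x = 0 := by
  have h := Qm_csmul S m β 0 (u := fun _ => (0 : F)) contDiff_const x
  simpa using h

lemma Qm_sum (m : ℝ) (β : Fin 16) {ι : Type*} (s : Finset ι) (a : ι → ℂ) {u : ι → (Cfg dc) → F}
    (hu : ∀ k, ContDiff ℝ ∞ (u k)) (x : (Cfg dc)) :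
    S.Qm m β (fun y => ∑ k ∈ s, a k • u k y) x = ∑ k ∈ s, a k • S.Qm m β (u k) x := by
  classical
  induction s using Finset.induction_on with
  | empty => simpa using Qm_zero S m β x
  | insert b s hb ih =>
    simp only [Finset.sum_insert hb]
    have h1 : ContDiff ℝ ∞ (fun y => a b • u b y) := contDiff_const.smul (hu b)
    have h2 : ContDiff ℝ ∞ (fun y => ∑ k ∈ s, a k • u k y) :=
      ContDiff.sum fun k _ => contDiff_const.smul (hu k)
    rw [← ih, ← Qm_csmul S m β _ (hu b), ← Qm_add S m β h1 h2]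

lemma Qm_sub (m : ℝ) (β : Fin 16) {u v : (Cfg dc) → F} (hu : ContDiff ℝ ∞ u) (hv : ContDiff ℝ ∞ v)
    (x : (Cfg dc)) : S.Qm m β (fun y => u y - v y) x = S.Qm m β u x - S.Qm m β v x := by
  have hv' : ContDiff ℝ ∞ (fun y => (-1 : ℂ) • v y) := contDiff_const.smul hv
  have h := Qm_add S m β hu hv' x
  rw [Qm_csmul S m β (-1) hv x] at h
  simp only [neg_smul, one_smul, ← sub_eq_add_neg] at h
  exact h

lemma G_add (C : Fin dc) {u v : (Cfg dc) → F} (hu : ContDiff ℝ ∞ u) (hv : ContDiff ℝ ∞ v)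
    (x : (Cfg dc)) : S.G C (fun y => u y + v y) x = S.G C u x + S.G C v x := by
  have h1 : ∀ i A, pd i A (fun y => u y + v y) x = pd i A u x + pd i A v x := fun i A =>
    pd_add ((hu.differentiable (by simp)) x) ((hv.differentiable (by simp)) x)
  simp only [Setup.G, h1, map_add, smul_add, Finset.sum_add_distrib]
  abel

lemma G_csmul (C : Fin dc) (c : ℂ) {u : (Cfg dc) → F} (hu : ContDiff ℝ ∞ u)
    (x : (Cfg dc)) : S.G C (fun y => c • u y) x = c • S.G C u x := by
  have h1 : ∀ i A, pd i A (fun y => c • u y) x = c • pd i A u x := by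
    intro i A
    rw [pd_csmul (differentiableAt_const _) ((hu.differentiable (by simp)) x)]
    simp
  simp only [Setup.G, h1, map_smul, smul_add, Finset.smul_sum, smul_smul]
  congr 1
  refine Finset.sum_congr rfl fun i _ => Finset.sum_congr rfl fun A _ =>
    Finset.sum_congr rfl fun B _ => ?_
  congr 1
  ring

lemma J_add (k l : Fin 9) {u v : (Cfg dc) → F} (hu : ContDiff ℝ ∞ u) (hv : ContDiff ℝ ∞ v)
    (x : (Cfg dc)) : S.J k l (fun y => u y + v y) x = S.J k l u x + S.J k l v x := by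
  have h1 : ∀ i A, pd i A (fun y => u y + v y) x = pd i A u x + pd i A v x := fun i A =>
    pd_add ((hu.differentiable (by simp)) x) ((hv.differentiable (by simp)) x)
  simp only [Setup.J, h1, map_add, smul_add, Finset.sum_add_distrib, Finset.sum_sub_distrib,
    smul_sub]
  abel

lemma J_csmul (k l : Fin 9) (c : ℂ) {u : (Cfg dc) → F} (hu : ContDiff ℝ ∞ u)
    (x : (Cfg dc)) : S.J k l (fun y => c • u y) x = c • S.J k l u x := by
  have h1 : ∀ i A, pd i A (fun y => c • u y) x = c • pd i A u x := by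
    intro i A
    rw [pd_csmul (differentiableAt_const _) ((hu.differentiable (by simp)) x)]
    simp
  simp only [Setup.J, h1, map_smul, smul_add, smul_sub, Finset.smul_sum, smul_smul]
  congr 1
  refine Finset.sum_congr rfl fun A _ => ?_
  congr 2 <;> ring

lemma Inv_add {u v : (Cfg dc) → F} (hu : S.Inv u) (hv : S.Inv v) : S.Inv (fun y => u y + v y) := by
  refine ⟨hu.1.add hv.1, fun C x => ?_, fun k l h x => ?_⟩
  · rw [G_add S C hu.1.1 hv.1.1, hu.2.1, hv.2.1, add_zero]
  · rw [J_add S k l hu.1.1 hv.1.1, hu.2.2 k l h, hv.2.2 k l h, add_zero]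

lemma Inv_csmul (c : ℂ) {u : (Cfg dc) → F} (hu : S.Inv u) : S.Inv (fun y => c • u y) := by
  refine ⟨Tst_csmul c hu.1, fun C x => ?_, fun k l h x => ?_⟩
  · rw [G_csmul S C c hu.1.1, hu.2.1, smul_zero]
  · rw [J_csmul S k l c hu.1.1, hu.2.2 k l h, smul_zero]

lemma Inv_zero : S.Inv (fun _ : (Cfg dc) => (0 : F)) := by
  refine ⟨Tst_zero, fun C x => ?_, fun k l h x => ?_⟩
  · have h := G_csmul S C 0 (u := fun _ => (0 : F)) contDiff_const x
    simpa using h
  · have h := J_csmul S k l 0 (u := fun _ => (0 : F)) contDiff_const x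
    simpa using h

lemma Inv_sum {ι : Type*} (s : Finset ι) (a : ι → ℂ) {u : ι → (Cfg dc) → F} (hu : ∀ k, S.Inv (u k)) :
    S.Inv (fun y => ∑ k ∈ s, a k • u k y) := by
  classical
  induction s using Finset.induction_on with
  | empty => simpa using Inv_zero S
  | insert b s hb ih =>
    simp only [Finset.sum_insert hb]
    exact Inv_add S (Inv_csmul S (a b) (hu b)) ih

/-- `16 H_m = ∑ Q_β²` -/
noncomputable def HH (m : ℝ) (u : (Cfg dc) → F) (x : (Cfg dc)) : F := ∑ β, S.Qm m β (S.Qm m β u) x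

lemma contDiff_HH (m : ℝ) {u : (Cfg dc) → F} (hu : ContDiff ℝ ∞ u) : ContDiff ℝ ∞ (HH S m u) :=
  ContDiff.sum fun β _ => contDiff_Qm S m β (contDiff_Qm S m β hu)

lemma Tst_HH (m : ℝ) {u : (Cfg dc) → F} (hu : Setup.Tst u) : Setup.Tst (HH S m u) :=
  Tst_sum _ fun β _ => Tst_Qm S m β (Tst_Qm S m β hu)

lemma HH_sum (m : ℝ) {ι : Type*} (s : Finset ι) (a : ι → ℂ) {u : ι → (Cfg dc) → F}
    (hu : ∀ k, ContDiff ℝ ∞ (u k)) (x : (Cfg dc)) :
    HH S m (fun y => ∑ k ∈ s, a k • u k y) x = ∑ k ∈ s, a k • HH S m (u k) x := by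
  have h1 : ∀ β, S.Qm m β (fun y => ∑ k ∈ s, a k • u k y) =
      fun y => ∑ k ∈ s, a k • S.Qm m β (u k) y := fun β => funext fun y => Qm_sum S m β s a hu y
  simp only [HH, h1]
  simp only [Qm_sum S m _ s a (fun k => contDiff_Qm S m _ (hu k))]
  rw [Finset.sum_comm]
  simp only [Finset.smul_sum]

lemma inner_HH (m : ℝ) {u v : (Cfg dc) → F} (hu : Setup.Tst u) (hv : Setup.Tst v) :
    ∫ x, inner ℂ (HH S m u x) (v x) = ∑ β, ∫ x, inner ℂ (S.Qm m β u x) (S.Qm m β v x) := by
  simp only [HH, sum_inner]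
  rw [integral_finsetSum _ fun β _ => (Tst_Qm S m β (Tst_Qm S m β hu)).inner_int hv.1.continuous]
  refine Finset.sum_congr rfl fun β _ => ?_
  exact Qm_symm S m β (Tst_Qm S m β hu) hv.1

/-- the Hamiltonian preserves the invariant test functions -/
lemma Inv_HH (hA1 : A2Stmt S) (hA3 : A3Stmt S) (m : ℝ) {u : (Cfg dc) → F} (hu : S.Inv u) :
    S.Inv (HH S m u) := by
  refine ⟨Tst_HH S m hu.1, fun C x => ?_, fun k l h x => ?_⟩
  · have h0 : S.G C u = fun _ => 0 := funext fun y => hu.2.1 C y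
    have h1 : ∀ β, S.G C (S.Qm m β u) = fun _ => 0 := by
      intro β
      funext y
      rw [hA3 m C β u hu.1.1 y, h0, Qm_zero]
    have h2 : ∀ β, S.G C (S.Qm m β (S.Qm m β u)) x = 0 := by
      intro β
      rw [hA3 m C β _ (contDiff_Qm S m β hu.1.1) x, h1, Qm_zero]
    have h3 : ∀ s : Finset (Fin 16), S.G C (fun y => ∑ β ∈ s, S.Qm m β (S.Qm m β u) y) x = 0 := by
      intro s
      classical
      induction s using Finset.induction_on with
      | empty =>
        have := (Inv_zero S).2.1 C x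
        simpa using this
      | insert b s hb ih =>
        simp only [Finset.sum_insert hb]
        rw [G_add S C (contDiff_Qm S m b (contDiff_Qm S m b hu.1.1))
          (ContDiff.sum fun β _ => contDiff_Qm S m β (contDiff_Qm S m β hu.1.1)), h2, ih, add_zero]
    exact h3 Finset.univ
  · have h0 : S.J k l u = fun _ => 0 := funext fun y => hu.2.2 k l h y
    have h1 : ∀ β, S.J k l (S.Qm m β u) = fun y => ∑ γ, (Complex.I / 2 * S.g2 k l β γ) •
        S.Qm m γ u y := by
      intro β
      funext y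
      have h2 := hA1 m k l h β u hu.1.1 y
      rw [h0, Qm_zero, sub_zero, Finset.smul_sum] at h2
      simpa only [smul_smul] using h2
    have h2 : ∀ β, S.J k l (S.Qm m β (S.Qm m β u)) x =
        ∑ γ, (Complex.I / 2 * S.g2 k l β γ) • S.Qm m β (S.Qm m γ u) x +
        ∑ γ, (Complex.I / 2 * S.g2 k l β γ) • S.Qm m γ (S.Qm m β u) x := by
      intro β
      have h3 := hA1 m k l h β _ (contDiff_Qm S m β hu.1.1) x
      rw [h1, Qm_sum S m β _ _ (fun γ => contDiff_Qm S m γ hu.1.1), sub_eq_iff_eq_add] at h3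
      rw [h3, Finset.smul_sum, add_comm]
      simp only [smul_smul]
    have h3 : ∀ s : Finset (Fin 16), S.J k l (fun y => ∑ β ∈ s, S.Qm m β (S.Qm m β u) y) x =
        ∑ β ∈ s, S.J k l (S.Qm m β (S.Qm m β u)) x := by
      intro s
      classical
      induction s using Finset.induction_on with
      | empty =>
        have := (Inv_zero S).2.2 k l h x
        simpa using this
      | insert b s hb ih =>
        simp only [Finset.sum_insert hb]
        rw [J_add S k l (contDiff_Qm S m b (contDiff_Qm S m b hu.1.1))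
          (ContDiff.sum fun β _ => contDiff_Qm S m β (contDiff_Qm S m β hu.1.1)), ih]
    have h4 : ∀ β γ, S.g2 k l β γ = - S.g2 k l γ β := by
      intro β γ
      have := congrFun (congrFun (Setup.g2_transpose S k l) γ) β
      simpa [Matrix.transpose_apply] using this
    refine (h3 Finset.univ).trans ?_
    simp only [h2, Finset.sum_add_distrib]
    rw [Finset.sum_comm (f := fun β γ => (Complex.I / 2 * S.g2 k l β γ) • S.Qm m γ (S.Qm m β u) x),
      ← Finset.sum_add_distrib]
    refine Finset.sum_eq_zero fun β _ => ?_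
    rw [← Finset.sum_add_distrib]
    refine Finset.sum_eq_zero fun γ _ => ?_
    rw [h4 γ β, ← add_smul]
    simp

end HB

end Vale.Agent.P353.Z.U
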