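import Vale.Agent.P353.Z.U.GamLem

/-! # P353, general `N`: statements of part D (zero modes of `H_N` give low states of the BMN model) -/

open MeasureTheory Filter Topology
open scoped ContDiff

namespace Vale.Agent.P353.Z.U

variable {d : ℕ} {F : Type*} [NormedAddCommGroup F] [InnerProductSpace ℂ F]

/-- **D-J** zero modes are rotation invariant (conversion of the landed `RotA–RotF`, `Exact` (`J_exact`)). -/
def ZJStmt (S : Setup d F) : Prop := ∀ Ψ : Lp F 2 (volume : Measure (Cfg d)), S.IsZM Ψ →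
  ∀ k l : Fin 9, k ≠ l → ∀ ζ, Setup.Tst ζ → ∫ x, inner ℂ (S.J k l ζ x) (Ψ x) = 0

/-- **D-App** approximation of an invariant weak zero mode of `H_0` by invariant test functions with support in a ball,
without any moment assumption.  PROOF as `InvLem` (`Vale/Agent/P353/U/InvLem*.lean`, `Moll*.lean`): `u = χ_R·(ρ_ε*Ψ)`,
`Q_βu = -i(γθ∇χ_R)_β(ρ_ε*Ψ) + χ_R[W_β,ρ_ε*]Ψ`; on `|x| ≤ R` the commutator is `≤ Cε(1+R)(ρ_ε*|Ψ|)`; choose `ε` small depending on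
`R, δ`. Weak gauge and `J` invariance give exact invariance of `u` (radial mollifier and cutoff). -/
def AppStmt (S : Setup d F) : Prop := ∀ Ψ : Cfg d → F, MemLp Ψ 2 (volume : Measure (Cfg d)) →
  S.wG Ψ → S.wJ Ψ → (∀ β, S.wQ 0 β Ψ (fun _ => 0)) →
  ∃ C : ℝ, 0 ≤ C ∧ ∀ R : ℝ, 1 ≤ R → ∀ δ : ℝ, 0 < δ → ∃ u : Cfg d → F, S.Inv u ∧
    (∀ x, R ≤ ‖x‖ → u x = 0) ∧
    nsq (fun x => u x - Ψ x) ≤ δ + C * ∫ x, (if R / 4 ≤ ‖x‖ then ‖Ψ x‖ ^ 2 else 0) ∧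
    ∀ β, nsq (S.Q β u) ≤ δ + C / R ^ 2 * ∫ x, (if R / 4 ≤ ‖x‖ then ‖Ψ x‖ ^ 2 else 0)

/-- **D-Small** `k` linearly independent zero modes give `Low k m (8m)` for some small `m`.
PROOF. Apply D-App to `Ψ_j` (weak invariance: D-J, and the approximants `Apx`) with `R = m^{-1/2}`, `δ = m²`: invariant `u_j` with
`nsq(u_j - Ψ_j) → 0`, `nsq(Q_βu_j) ≤ m² + Cm·o(1)`; and `m²·nsq(M_βu_j) ≤ Cm²∫|x|²|u_j|²`, `∫|x|²|u_j|² ≤ 2R²nsq(u_j-Ψ_j) + 2∫_{|x| ≤ R}|x|²|Ψ_j|²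
= R²·o(1)` (dominated convergence: `∫ min(|x|²/R²,1)|Ψ|² → 0`), so `∑_βnsq(Q^m_βu_j) = o(m)`. On the `k` dimensional span all norms are
comparable (Gram matrix of `u_j` tends to that of `Ψ_j`, positive definite). -/
def SmallStmt (S : Setup d F) (k : ℕ) : Prop :=
  ∀ Ψ : Fin k → Lp F 2 (volume : Measure (Cfg d)), (∀ j, S.IsZM (Ψ j)) → LinearIndependent ℂ Ψ →
    ∃ m : ℝ, 0 < m ∧ S.Low k m (8 * m)

/-- **Bound** the number of linearly independent zero modes is at most the number of orbits of zeros of `V_1`. -/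
def BoundStmt (S : Setup d F) : Prop := S.Irr → (∃ v : F, v ≠ 0) → ∀ n, S.OrbCount n →
  ∀ Ψ : Fin (n + 1) → Lp F 2 (volume : Measure (Cfg d)), (∀ j, S.IsZM (Ψ j)) →
    ¬ LinearIndependent ℂ Ψ

end Vale.Agent.P353.Z.U
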