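import Vale.Agent.P353.Z.U.InvLemB
import Vale.Agent.P353.Z.U.StmtD

/-! # P353, uniqueness, task B8: approximation by (invariant) test functions -/

open MeasureTheory Filter Topology
open scoped ContDiff

namespace Vale.Agent.P353.Z.U

variable {dc : ℕ}

namespace InvL

open Vale.Agent.P353.Z.Moll

variable {F : Type*} [NormedAddCommGroup F] [InnerProductSpace ℂ F]

lemma exists_pos_le (a : Fin 16 → ℝ) (h : ∀ β, 0 < a β) : ∃ ε > 0, ∀ β, ε ≤ a β :=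
  ⟨Finset.univ.inf' ⟨0, Finset.mem_univ _⟩ a, (Finset.lt_inf'_iff _).2 fun β _ => h β,
    fun β => Finset.inf'_le _ (Finset.mem_univ β)⟩

omit [InnerProductSpace ℂ F] in
/-- functions dominated by the tail of `f` -/
lemma nsq_tail {f w : (Cfg dc) → F} (hf : MemLp f 2 (volume : Measure (Cfg dc))) {c r : ℝ}
    (h : ∀ x, ‖w x‖ ≤ c * (if r ≤ ‖x‖ then ‖f x‖ else 0)) :
    nsq w ≤ c ^ 2 * ∫ x, (if r ≤ ‖x‖ then ‖f x‖ ^ 2 else 0) := by
  have hi : Integrable (fun x : (Cfg dc) => if r ≤ ‖x‖ then ‖f x‖ ^ 2 else 0) := by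
    have h1 := (memLp_norm_sq_int hf).indicator
      (measurableSet_le measurable_const measurable_norm : MeasurableSet {x : (Cfg dc) | r ≤ ‖x‖})
    refine h1.congr (Eventually.of_forall fun x => ?_)
    simp only [Set.indicator_apply, Set.mem_ofPred_eq]
  rw [nsq, ← integral_const_mul]
  refine integral_mono_of_nonneg (Eventually.of_forall fun x => by positivity)
    (hi.const_mul _) (Eventually.of_forall fun x => ?_)
  have h2 := pow_le_pow_left₀ (norm_nonneg _) (h x) 2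
  refine h2.trans (le_of_eq ?_)
  rw [mul_pow]
  congr 1
  split_ifs <;> simp

omit [InnerProductSpace ℂ F] in
lemma tail_nonneg (f : (Cfg dc) → F) (r : ℝ) : 0 ≤ ∫ x, (if r ≤ ‖x‖ then ‖f x‖ ^ 2 else 0) :=
  integral_nonneg fun x => by
    simp only [Pi.zero_apply]
    split_ifs <;> positivity

omit [InnerProductSpace ℂ F] in
lemma memLp_of_bound {f g : (Cfg dc) → F} {c : ℝ} (hm : AEStronglyMeasurable f volume)
    (hg : MemLp g 2 (volume : Measure (Cfg dc))) (h : ∀ x, ‖f x‖ ≤ c * ‖g x‖) :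
    MemLp f 2 (volume : Measure (Cfg dc)) :=
  MemLp.of_le_mul hg hm (Eventually.of_forall h)

lemma asm_smul {φ : (Cfg dc) → ℂ} (hφ : Continuous φ) {f : (Cfg dc) → F}
    (hf : AEStronglyMeasurable f (volume : Measure (Cfg dc))) :
    AEStronglyMeasurable (fun x => φ x • f x) (volume : Measure (Cfg dc)) :=
  hφ.aestronglyMeasurable.smul hf

lemma contDiff_MM (S : Setup dc F) (β : Fin 16) : ContDiff ℝ ∞ (S.MM β) := by
  unfold Setup.MM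
  refine ContDiff.sum fun i _ => ContDiff.sum fun A _ => ?_
  exact (Setup.contDiff_ofReal (contDiff_const.mul (Setup.contDiff_coord _))).smul contDiff_const

lemma continuous_Qm (S : Setup dc F) (m : ℝ) (β : Fin 16) {u : (Cfg dc) → F} (hu : ContDiff ℝ ∞ u) :
    Continuous (S.Qm m β u) :=
  (S.contDiff_Q β hu).continuous.add
    ((Setup.contDiff_clm_apply' (contDiff_MM S β) hu).continuous.const_smul (m : ℂ))

/-- uniform continuity of the zero order coefficients on balls -/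
lemma AA_unif (S : Setup dc F) (m : ℝ) (β : Fin 16) (R : ℝ) {η : ℝ} (hη : 0 < η) :
    ∃ ε > 0, ∀ x y : (Cfg dc), ‖x‖ ≤ R → ‖x - y‖ < ε → ‖AA S m β x - AA S m β y‖ ≤ η := by
  have h1 := (isCompact_closedBall (0 : (Cfg dc)) (R + 1)).uniformContinuousOn_of_continuous
    (continuous_AA S m β).continuousOn
  obtain ⟨ε, hε, h2⟩ := Metric.uniformContinuousOn_iff.1 h1 η hη
  refine ⟨min ε 1, lt_min hε one_pos, fun x y hx hxy => ?_⟩
  rw [← dist_eq_norm]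
  refine (h2 x ?_ y ?_ ?_).le
  · rw [Metric.mem_closedBall, dist_zero_right]; linarith
  · rw [Metric.mem_closedBall, dist_zero_right]
    have h3 : ‖y‖ ≤ ‖x‖ + ‖x - y‖ := by
      have := norm_sub_norm_le y x
      rw [norm_sub_rev] at this
      linarith
    have h4 := hxy.trans_le (min_le_right _ _)
    linarith
  · rw [dist_eq_norm]
    exact hxy.trans_le (min_le_left _ _)

/-- size of the gradient operator of a cutoff -/
noncomputable def Vc (S : Setup dc F) : ℝ := ∑ β, ∑ i, ∑ A, ‖S.vec (S.g i) A β‖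

lemma Vc_nonneg (S : Setup dc F) : 0 ≤ Vc S := by unfold Vc; positivity

lemma gradOp_le (S : Setup dc F) {K R : ℝ} {h : ℝ → ℝ} (hK : 0 ≤ K) (hR : 0 < R) (H : IsRC K R h)
    (β : Fin 16) (x : (Cfg dc)) : ‖S.gradOp (rad h) β x‖ ≤ K * Vc S / R := by
  have h1 : ∑ i, ∑ A, ‖S.vec (S.g i) A β‖ ≤ Vc S :=
    Finset.single_le_sum (f := fun β => ∑ i, ∑ A, ‖S.vec (S.g i) A β‖)
      (fun β _ => by positivity) (Finset.mem_univ β)
  have h2 : ‖S.gradOp (rad h) β x‖ ≤ ∑ i, ∑ A, K / R * ‖S.vec (S.g i) A β‖ := by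
    rw [Setup.gradOp, norm_smul, norm_neg, Complex.norm_I, one_mul]
    refine (norm_sum_le _ _).trans (Finset.sum_le_sum fun i _ => ?_)
    refine (norm_sum_le _ _).trans (Finset.sum_le_sum fun A _ => ?_)
    rw [norm_smul, Complex.norm_real]
    exact mul_le_mul_of_nonneg_right (H.grad i A x) (norm_nonneg _)
  refine h2.trans ?_
  simp only [← Finset.mul_sum]
  calc K / R * ∑ i, ∑ A, ‖S.vec (S.g i) A β‖ ≤ K / R * Vc S := by gcongr
    _ = K * Vc S / R := by ring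

lemma gradOp_zero (S : Setup dc F) {K R : ℝ} {h : ℝ → ℝ} (H : IsRC K R h)
    (β : Fin 16) {x : (Cfg dc)} (hx : ‖x‖ < R / 2) : S.gradOp (rad h) β x = 0 := by
  simp only [Setup.gradOp, H.grad0 _ _ x hx, Complex.ofReal_zero, zero_smul,
    Finset.sum_const_zero, smul_zero]

lemma continuous_gradOp (S : Setup dc F) {h : ℝ → ℝ} (hh : ContDiff ℝ ∞ h) (β : Fin 16) :
    Continuous (S.gradOp (rad h) β) := by
  have : ContDiff ℝ ∞ (fun x => ∑ i, ∑ A, ((pdr i A (rad h) x : ℝ) : ℂ) • S.vec (S.g i) A β) := by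
    refine ContDiff.sum fun i _ => ContDiff.sum fun A _ => ?_
    exact (Setup.contDiff_ofReal (contDiff_pdr' (contDiff_rad hh) i A)).smul contDiff_const
  exact this.continuous.const_smul (-Complex.I)

section cut

variable {K R : ℝ} {h : ℝ → ℝ} {f g : (Cfg dc) → F}

lemma norm_cut_le (H : IsRC K R h) (x : (Cfg dc)) (v : F) : ‖((rad h x : ℝ) : ℂ) • v‖ ≤ 1 * ‖v‖ := by
  rw [norm_smul, Complex.norm_real, Real.norm_of_nonneg (H.nonneg x)]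
  exact mul_le_mul_of_nonneg_right (H.le_one x) (norm_nonneg _)

lemma norm_cut1_le (H : IsRC K R h) (hR : 0 < R) (x : (Cfg dc)) (v : F) :
    ‖(((rad h x : ℝ) : ℂ) - 1) • v‖ ≤ 1 * (if R / 4 ≤ ‖x‖ then ‖v‖ else 0) := by
  by_cases hx : ‖x‖ ≤ R / 2
  · rw [H.one x hx]
    simp only [Complex.ofReal_one, sub_self, zero_smul, norm_zero, one_mul]
    split_ifs <;> positivity
  · push Not at hx
    rw [if_pos (by linarith), norm_smul]
    refine mul_le_mul_of_nonneg_right ?_ (norm_nonneg _)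
    have : ((rad h x : ℝ) : ℂ) - 1 = ((rad h x - 1 : ℝ) : ℂ) := by push_cast; rfl
    rw [this, Complex.norm_real, Real.norm_eq_abs, abs_le]
    constructor <;> linarith [H.nonneg x, H.le_one x]

/-- `‖χ g - f‖² ≤ 2 ‖g - f‖² + 2 ∫_{tail} |f|²` -/
lemma nsq_cut_sub (H : IsRC K R h) (hR : 0 < R) (hf : MemLp f 2 (volume : Measure (Cfg dc)))
    (hg : MemLp g 2 (volume : Measure (Cfg dc))) :
    nsq (fun x => ((rad h x : ℝ) : ℂ) • g x - f x) ≤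
      2 * nsq (fun x => g x - f x) + 2 * ∫ x, (if R / 4 ≤ ‖x‖ then ‖f x‖ ^ 2 else 0) := by
  have hc : Continuous (fun x : (Cfg dc) => ((rad h x : ℝ) : ℂ)) :=
    (Setup.contDiff_ofReal (contDiff_rad H.contDiff)).continuous
  have hgf : MemLp (fun x => g x - f x) 2 (volume : Measure (Cfg dc)) := hg.sub hf
  have m1 : MemLp (fun x => ((rad h x : ℝ) : ℂ) • (g x - f x)) 2 (volume : Measure (Cfg dc)) :=
    memLp_of_bound (asm_smul hc hgf.1) hgf fun x => norm_cut_le H x _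
  have m2 : MemLp (fun x => (((rad h x : ℝ) : ℂ) - 1) • f x) 2 (volume : Measure (Cfg dc)) := by
    refine memLp_of_bound (c := 1) (asm_smul (hc.sub continuous_const) hf.1) hf fun x => ?_
    refine (norm_cut1_le H hR x _).trans ?_
    split_ifs
    · exact le_rfl
    · rw [mul_zero]; positivity
  have e : (fun x => ((rad h x : ℝ) : ℂ) • g x - f x) = fun x =>
      ((rad h x : ℝ) : ℂ) • (g x - f x) + (((rad h x : ℝ) : ℂ) - 1) • f x := by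
    funext x
    rw [smul_sub, sub_smul, one_smul]
    abel
  rw [e]
  refine (nsq_add_le m1 m2).trans ?_
  have b1 := nsq_le_of hgf (fun x => norm_cut_le H x (g x - f x))
  have b2 := nsq_tail hf (fun x => norm_cut1_le H hR x (f x))
  rw [one_pow, one_mul] at b1 b2
  linarith

end cut

/-- the estimate for `Q_β` -/
lemma nsq_Q_est [CompleteSpace F] {S : Setup dc F} {m K R ε η δ₁ : ℝ} {β : Fin 16} {Ψ Θ : (Cfg dc) → F}
    {ρ : (Cfg dc) → ℝ} {h : ℝ → ℝ} (hΨ : MemLp Ψ 2 (volume : Measure (Cfg dc)))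
    (hΘ : MemLp Θ 2 (volume : Measure (Cfg dc))) (hw : S.wQ m β Ψ Θ) (hρ : IsMol ε ρ)
    (hK : 0 ≤ K) (hR : 1 ≤ R) (H : IsRC K R h) (hη : 0 ≤ η)
    (hA : ∀ x y : (Cfg dc), ‖x‖ ≤ R → ‖x - y‖ < ε → ‖AA S m β x - AA S m β y‖ ≤ η)
    (h1 : nsq (fun x => mo ρ Ψ x - Ψ x) ≤ δ₁) (h2 : nsq (fun x => mo ρ Θ x - Θ x) ≤ δ₁) :
    nsq (fun x => S.Qm m β (fun y => ((rad h y : ℝ) : ℂ) • mo ρ Ψ y) x - Θ x) ≤
      4 * δ₁ + 8 * (K * Vc S) ^ 2 * δ₁ + 8 * (η ^ 2 * nsq Ψ) +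
      8 * ((K * Vc S / R) ^ 2 * ∫ x, (if R / 4 ≤ ‖x‖ then ‖Ψ x‖ ^ 2 else 0)) +
      4 * ∫ x, (if R / 4 ≤ ‖x‖ then ‖Θ x‖ ^ 2 else 0) := by
  have hR0 : 0 < R := lt_of_lt_of_le one_pos hR
  have hcd : ContDiff ℝ ∞ (mo ρ Ψ) := contDiff_mo hρ.contDiff hρ.hcs (locInt hΨ)
  have mΨ := (nsq_mo_le hρ hΨ).1
  have mΘ := (nsq_mo_le hρ hΘ).1
  have hc : Continuous (fun x : (Cfg dc) => ((rad h x : ℝ) : ℂ)) :=
    (Setup.contDiff_ofReal (contDiff_rad H.contDiff)).continuous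
  have hV := Vc_nonneg S
  -- the commutator term
  have hcom : ∀ x, ‖((rad h x : ℝ) : ℂ) • (S.Qm m β (mo ρ Ψ) x - mo ρ Θ x)‖ ≤
      η * mo ρ (fun y => ‖Ψ y‖) x := by
    intro x
    have h0 : 0 ≤ mo ρ (fun y => ‖Ψ y‖) x :=
      integral_nonneg fun y => mul_nonneg (hρ.nonneg _) (norm_nonneg _)
    by_cases hx : ‖x‖ ≤ R
    · rw [Qm_mo hΨ hΘ hw hρ.contDiff hρ.hcs, add_sub_cancel_left]
      refine (norm_cut_le H x _).trans ?_
      rw [one_mul]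
      exact comm_bound hρ hΨ fun y hy => hA x y hx hy
    · push Not at hx
      rw [H.zero x hx.le, Complex.ofReal_zero, zero_smul, norm_zero]
      positivity
  obtain ⟨m3', b3'⟩ := nsq_le_mo hρ hΨ (asm_smul hc
    (((continuous_Qm S m β hcd).sub
      (contDiff_mo hρ.contDiff hρ.hcs (locInt hΘ)).continuous).aestronglyMeasurable)) hcom
  have m3 : MemLp (fun x => ((rad h x : ℝ) : ℂ) • (S.Qm m β (mo ρ Ψ) x - mo ρ Θ x)) 2
      (volume : Measure (Cfg dc)) := m3'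
  have b3 : nsq (fun x => ((rad h x : ℝ) : ℂ) • (S.Qm m β (mo ρ Ψ) x - mo ρ Θ x)) ≤
      η ^ 2 * nsq Ψ := b3'
  -- the gradient terms
  have hd : MemLp (fun x => mo ρ Ψ x - Ψ x) 2 (volume : Measure (Cfg dc)) := mΨ.sub hΨ
  have m4 : MemLp (fun x => S.gradOp (rad h) β x (mo ρ Ψ x - Ψ x)) 2 (volume : Measure (Cfg dc)) :=
    memLp_op (continuous_gradOp S H.contDiff β) (gradOp_le S hK hR0 H β) hd
  have b4 := nsq_op_le (gradOp_le S hK hR0 H β) hd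
  have m5 : MemLp (fun x => S.gradOp (rad h) β x (Ψ x)) 2 (volume : Measure (Cfg dc)) :=
    memLp_op (continuous_gradOp S H.contDiff β) (gradOp_le S hK hR0 H β) hΨ
  have b5 : nsq (fun x => S.gradOp (rad h) β x (Ψ x)) ≤
      (K * Vc S / R) ^ 2 * ∫ x, (if R / 4 ≤ ‖x‖ then ‖Ψ x‖ ^ 2 else 0) := by
    refine nsq_tail hΨ fun x => ?_
    by_cases hx : ‖x‖ < R / 2
    · rw [gradOp_zero S H β hx]
      simp only [_root_.zero_apply, norm_zero]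
      have : (0 : ℝ) ≤ if R / 4 ≤ ‖x‖ then ‖Ψ x‖ else 0 := by split_ifs <;> positivity
      positivity
    · push Not at hx
      rw [if_pos (by linarith)]
      exact ((S.gradOp (rad h) β x).le_opNorm _).trans
        (mul_le_mul_of_nonneg_right (gradOp_le S hK hR0 H β x) (norm_nonneg _))
  -- the main term
  have b1 := nsq_cut_sub H hR0 hΘ mΘ
  have m1 : MemLp (fun x => ((rad h x : ℝ) : ℂ) • mo ρ Θ x - Θ x) 2 (volume : Measure (Cfg dc)) :=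
    (memLp_of_bound (asm_smul hc mΘ.1) mΘ fun x => norm_cut_le H x _).sub hΘ
  have e : (fun x => S.Qm m β (fun y => ((rad h y : ℝ) : ℂ) • mo ρ Ψ y) x - Θ x) = fun x =>
      (((rad h x : ℝ) : ℂ) • mo ρ Θ x - Θ x) +
      (((rad h x : ℝ) : ℂ) • (S.Qm m β (mo ρ Ψ) x - mo ρ Θ x) +
      (S.gradOp (rad h) β x (mo ρ Ψ x - Ψ x) + S.gradOp (rad h) β x (Ψ x))) := by
    funext x
    have e1 := S.Q_cut (rad h) β (mo ρ Ψ) x
      ((contDiff_rad H.contDiff).differentiable (by simp) x) (hcd.differentiable (by simp) x)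
    rw [Setup.Qm, e1, Setup.Qm, map_smul, map_sub, smul_sub, smul_add,
      smul_comm (m : ℂ) ((rad h x : ℝ) : ℂ)]
    abel
  rw [e]
  have c1 := nsq_add_le m1 (m3.add (m4.add m5))
  have c2 := nsq_add_le m3 (m4.add m5)
  have c3 := nsq_add_le m4 m5
  have b4' : nsq (fun x => S.gradOp (rad h) β x (mo ρ Ψ x - Ψ x)) ≤ (K * Vc S) ^ 2 * δ₁ := by
    refine b4.trans ?_
    have h3 : (K * Vc S / R) ^ 2 ≤ (K * Vc S) ^ 2 := by
      refine pow_le_pow_left₀ (by positivity) ?_ 2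
      exact div_le_self (by positivity) hR
    exact mul_le_mul h3 h1 (nsq_nonneg _) (sq_nonneg _)
  have c1' : nsq (fun x => (((rad h x : ℝ) : ℂ) • mo ρ Θ x - Θ x) +
      (((rad h x : ℝ) : ℂ) • (S.Qm m β (mo ρ Ψ) x - mo ρ Θ x) +
      (S.gradOp (rad h) β x (mo ρ Ψ x - Ψ x) + S.gradOp (rad h) β x (Ψ x)))) ≤
      2 * nsq (fun x => ((rad h x : ℝ) : ℂ) • mo ρ Θ x - Θ x) +
      2 * nsq (fun x => ((rad h x : ℝ) : ℂ) • (S.Qm m β (mo ρ Ψ) x - mo ρ Θ x) +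
      (S.gradOp (rad h) β x (mo ρ Ψ x - Ψ x) + S.gradOp (rad h) β x (Ψ x))) := c1
  have c2' : nsq (fun x => ((rad h x : ℝ) : ℂ) • (S.Qm m β (mo ρ Ψ) x - mo ρ Θ x) +
      (S.gradOp (rad h) β x (mo ρ Ψ x - Ψ x) + S.gradOp (rad h) β x (Ψ x))) ≤
      2 * nsq (fun x => ((rad h x : ℝ) : ℂ) • (S.Qm m β (mo ρ Ψ) x - mo ρ Θ x)) +
      2 * nsq (fun x => S.gradOp (rad h) β x (mo ρ Ψ x - Ψ x) + S.gradOp (rad h) β x (Ψ x)) := c2
  have hn : 0 ≤ η ^ 2 * nsq Ψ := mul_nonneg (sq_nonneg η) (nsq_nonneg Ψ)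
  have h2' : nsq (fun x => mo ρ Θ x - Θ x) ≤ δ₁ := h2
  linarith

end InvL

open Vale.Agent.P353.Z.Moll InvL

variable {F : Type*} [NormedAddCommGroup F] [InnerProductSpace ℂ F]

/-- approximation of weak solutions by (invariant) test functions, general right hand side -/
theorem invApp [FiniteDimensional ℂ F] (S : Setup dc F) (m : ℝ) (Ψ : Cfg dc → F)
    (Θ : Fin 16 → Cfg dc → F) (hΨ : MemLp Ψ 2 (volume : Measure (Cfg dc)))
    (hΘ : ∀ β, MemLp (Θ β) 2 (volume : Measure (Cfg dc))) (hw : ∀ β, S.wQ m β Ψ (Θ β)) :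
    ∃ C : ℝ, 0 ≤ C ∧ ∀ R : ℝ, 1 ≤ R → ∀ δ : ℝ, 0 < δ → ∃ u : Cfg dc → F, Setup.Tst u ∧
    (∀ x, R ≤ ‖x‖ → u x = 0) ∧ (S.wG Ψ → ∀ C x, S.G C u x = 0) ∧
    (S.wJ Ψ → ∀ k l, Same k l → ∀ x, S.J k l u x = 0) ∧
    nsq (fun x => u x - Ψ x) ≤ δ + C * ∫ x, (if R / 4 ≤ ‖x‖ then ‖Ψ x‖ ^ 2 else 0) ∧
    ∀ β, nsq (fun x => S.Qm m β u x - Θ β x) ≤ δ +
      C / R ^ 2 * (∫ x, (if R / 4 ≤ ‖x‖ then ‖Ψ x‖ ^ 2 else 0)) +
      C * ∫ x, (if R / 4 ≤ ‖x‖ then ‖Θ β x‖ ^ 2 else 0) := by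
  have : CompleteSpace F := FiniteDimensional.complete ℂ F
  obtain ⟨K, hK, hcut⟩ := exists_rc
  have hV := Vc_nonneg S
  obtain ⟨G0, hG0⟩ : ∃ G0, G0 = (K * Vc S) ^ 2 := ⟨_, rfl⟩
  have hG0' : 0 ≤ G0 := hG0 ▸ sq_nonneg _
  have hN := nsq_nonneg Ψ
  refine ⟨4 + 8 * G0, by positivity, fun R hR δ hδ => ?_⟩
  have hR0 : 0 < R := lt_of_lt_of_le one_pos hR
  obtain ⟨h, H⟩ := hcut R hR0
  obtain ⟨δ₁, hδ₁⟩ : ∃ δ₁, δ₁ = δ / (8 * (1 + G0) * 2) := ⟨_, rfl⟩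
  have hδ₁' : 0 < δ₁ := by rw [hδ₁]; positivity
  have hδ₂ : 8 * (1 + G0) * δ₁ = δ / 2 := by rw [hδ₁]; field_simp
  obtain ⟨η, hη⟩ : ∃ η, η = Real.sqrt (δ / (16 * (nsq Ψ + 1))) := ⟨_, rfl⟩
  have hη0 : 0 < η := hη ▸ Real.sqrt_pos.2 (by positivity)
  have hη2 : 8 * (η ^ 2 * nsq Ψ) ≤ δ / 2 := by
    rw [hη, Real.sq_sqrt (by positivity)]
    rw [div_mul_eq_mul_div, mul_div_assoc', div_le_iff₀ (by positivity)]
    nlinarith
  obtain ⟨ε₁, hε₁, hm1⟩ := mo_approx hΨ hδ₁'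
  choose ε₂ hε₂ hm2 using fun β => mo_approx (hΘ β) hδ₁'
  choose ε₃ hε₃ hm3 using fun β => AA_unif S m β R hη0
  obtain ⟨ε₄, hε₄, hm4⟩ := exists_pos_le ε₂ hε₂
  obtain ⟨ε₅, hε₅, hm5⟩ := exists_pos_le ε₃ hε₃
  obtain ⟨ε, hε⟩ : ∃ ε, ε = min ε₁ (min ε₄ ε₅) := ⟨_, rfl⟩
  have hε0 : 0 < ε := hε ▸ lt_min hε₁ (lt_min hε₄ hε₅)
  have hε1 : ε ≤ ε₁ := hε ▸ min_le_left _ _
  have hε4 : ε ≤ ε₄ := hε ▸ (min_le_right _ _).trans (min_le_left _ _)
  have hε5 : ε ≤ ε₅ := hε ▸ (min_le_right _ _).trans (min_le_right _ _)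
  obtain ⟨g, hg, hρ⟩ := exists_mol hε0
  have hcd : ContDiff ℝ ∞ (mo (rad g) Ψ) := contDiff_mo hρ.contDiff hρ.hcs (locInt hΨ)
  have hdf : ∀ x, DifferentiableAt ℝ (mo (rad g) Ψ) x := hcd.differentiable (by simp)
  have hzero : ∀ x, R ≤ ‖x‖ → ((rad h x : ℝ) : ℂ) • mo (rad g) Ψ x = 0 := by
    intro x hx
    rw [H.zero x hx, Complex.ofReal_zero, zero_smul]
  have hΨm := hm1 ε hε1 _ hρ
  refine ⟨fun x => ((rad h x : ℝ) : ℂ) • mo (rad g) Ψ x, ⟨?_, ?_⟩, hzero, ?_, ?_, ?_, ?_⟩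
  · exact (Setup.contDiff_ofReal (contDiff_rad H.contDiff)).smul hcd
  · refine HasCompactSupport.intro (isCompact_closedBall (0 : (Cfg dc)) R) fun x hx => ?_
    rw [Metric.mem_closedBall, dist_zero_right, not_le] at hx
    exact hzero x hx.le
  · intro hG C x
    rw [G_rad S H.contDiff C _ x (hdf x), G_mo_zero hΨ hG hg hρ.hcs, smul_zero]
  · intro hJ k l hkl x
    rw [S.J_rad H.contDiff k l _ x (hdf x), J_mo_zero hΨ hJ hg hρ.hcs hkl, smul_zero]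
  · have b := nsq_cut_sub H hR0 hΨ (nsq_mo_le hρ hΨ).1
    have ht := tail_nonneg Ψ (R / 4)
    nlinarith [mul_nonneg hG0' ht, mul_nonneg hG0' hδ₁'.le]
  · intro β
    have hΘm := hm2 β ε (hε4.trans (hm4 β)) _ hρ
    have hA : ∀ x y : (Cfg dc), ‖x‖ ≤ R → ‖x - y‖ < ε → ‖AA S m β x - AA S m β y‖ ≤ η :=
      fun x y hx hxy => hm3 β x y hx (hxy.trans_le (hε5.trans (hm5 β)))
    have b := nsq_Q_est hΨ (hΘ β) (hw β) hρ hK hR H hη0.le hA hΨm hΘm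
    have ht := tail_nonneg Ψ (R / 4)
    have ht2 := tail_nonneg (Θ β) (R / 4)
    have e1 : (K * Vc S / R) ^ 2 = G0 / R ^ 2 := by rw [hG0, div_pow]
    rw [e1, ← hG0] at b
    have hR2 : 0 < R ^ 2 := by positivity
    have e2 : 8 * (G0 / R ^ 2 * ∫ x, (if R / 4 ≤ ‖x‖ then ‖Ψ x‖ ^ 2 else 0)) ≤
        (4 + 8 * G0) / R ^ 2 * ∫ x, (if R / 4 ≤ ‖x‖ then ‖Ψ x‖ ^ 2 else 0) := by
      have : (4 + 8 * G0) / R ^ 2 * ∫ x, (if R / 4 ≤ ‖x‖ then ‖Ψ x‖ ^ 2 else 0) =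
          8 * (G0 / R ^ 2 * ∫ x, (if R / 4 ≤ ‖x‖ then ‖Ψ x‖ ^ 2 else 0)) +
          4 / R ^ 2 * ∫ x, (if R / 4 ≤ ‖x‖ then ‖Ψ x‖ ^ 2 else 0) := by ring
      rw [this]
      have : 0 ≤ 4 / R ^ 2 * ∫ x, (if R / 4 ≤ ‖x‖ then ‖Ψ x‖ ^ 2 else 0) := by positivity
      linarith
    nlinarith [mul_nonneg hG0' ht2, mul_nonneg hG0' hδ₁'.le]

/-- **D-App** -/
theorem app [FiniteDimensional ℂ F] (S : Setup dc F) : AppStmt S := by
  intro Ψ hΨ hG hJ hQ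
  have h0 : MemLp (fun _ : Cfg dc => (0 : F)) 2 (volume : Measure (Cfg dc)) := MemLp.zero'
  obtain ⟨C, hC, h⟩ := invApp S 0 Ψ (fun _ _ => 0) hΨ (fun _ => h0) hQ
  refine ⟨C, hC, fun R hR δ hδ => ?_⟩
  obtain ⟨u, hu, hu0, hG', hJ', h1, h2⟩ := h R hR δ hδ
  refine ⟨u, ⟨hu, hG' hG, hJ' hJ⟩, hu0, h1, fun β => ?_⟩
  have h3 := h2 β
  have e1 : (fun x => S.Qm 0 β u x - 0) = S.Q β u := by
    funext x
    simp [Setup.Qm]
  have e2 : ∫ x : Cfg dc, (if R / 4 ≤ ‖x‖ then ‖(0 : F)‖ ^ 2 else 0) = 0 := by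
    simp
  rw [e1, e2, mul_zero, add_zero] at h3
  exact h3

end Vale.Agent.P353.Z.U
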