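import Vale.Agent.P353.Z.U.GamLem

/-! # P353, general `N`: statements of part C (semiclassical limit `m → ∞`)

`wells 1 = {V_1 = 0}`; `ro O x` rotates the colour index; `grp` the colour group (Defs). -/

open MeasureTheory Filter Topology
open scoped ContDiff

namespace Vale.Agent.P353.Z.U

variable {d : ℕ} {F : Type*} [NormedAddCommGroup F] [InnerProductSpace ℂ F]

/-- rescaling around `m ξ` with the length `m^{-1/2}` -/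
noncomputable def scl (m : ℝ) (ξ : Cfg d) (u : Cfg d → F) (w : Cfg d) : F :=
  u (m • ξ + (Real.sqrt m)⁻¹ • w)

/-- **C-Sq** square formula for the potential. PROOF: `V = ¼∑_{A,i,j}F²`; for `i,j ∈ I3` this is `½∑_k|F_{k+1,k+2}|²`;
cross term `2m∑_k x_k·F_{k+1,k+2} = 6mκ det3` (cyclicity of `f`), `½∑_k 4m²|x_k|² = (m²/2)∑_{I3}(2x)²`. -/
def SqStmt (S : Setup d F) : Prop := ∀ (m : ℝ) (x : Cfg d), S.Vm m x =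
  (1 / 2) * (∑ k, ∑ A, S.GG m k A x ^ 2) +
    (m ^ 2 / 2) * (∑ i : Fin 9, ∑ A, if i.val < 3 then 0 else x (i, A) ^ 2) +
    (1 / 4) * (∑ i : Fin 9, ∑ j : Fin 9, ∑ A,
      if i.val < 3 ∧ j.val < 3 then 0 else S.FF A i j x ^ 2)

/-- **C-Tay** lower Taylor bound at a zero: `V_1(ξ + w) ≥ ½ hq(w) - C|w|⁴`.
PROOF: `SqStmt` with `m = 1`: all squares at `ξ` vanish, `GG 1 k A (ξ+w) = LG + F(w)`, `F(ξ+w) = LF(w) + F(w)`,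
`(a+b)² ≥ ½a² - b²`, `|F(w)|² ≤ C|w|⁴`. (`C` independent of `ξ`.) -/
def TayStmt (S : Setup d F) : Prop := ∃ C : ℝ, 0 ≤ C ∧ ∀ ξ w : Cfg d, S.Vm 1 ξ = 0 →
  (1 / 2) * S.hq ξ w - C * ‖w‖ ^ 4 ≤ S.Vm 1 (ξ + w)

/-- **C-Crit** zeros of `V_1` are critical: `W_β(ξ) + M_β(ξ) = 0`.
PROOF: by `SqStmt` `ξ_a = 0` (`a ∈ I6`), `F_{k+1,k+2} = -2ξ_k`; `γ^kΓ = γ^{k+1}γ^{k+2}` (cyclic in `I3`). -/
def CritStmt (S : Setup d F) : Prop := ∀ ξ, S.Vm 1 ξ = 0 → ∀ β, S.W β ξ + S.MM β ξ = 0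

/-- **C-Hes** nondegeneracy transversal to the gauge orbit.
PROOF: `hq ξ w = 0` gives `w_a = 0` for `a ∈ I6` and `∑ f_{ABC}κ(ξ_{k+1}^Bw_{k+2}^C + w_{k+1}^Bξ_{k+2}^C) + 2w_k^A = 0`. Put
`(D_iv)^A = -(κ/2)∑f_{ABC}ξ_i^Bv^C` (`i ∈ I3`), antisymmetric; `F_{ij}(ξ) = -2ξ_k` and Jacobi give `[D_i,D_j] = D_k` (cyclic),
the equation is `w_k = D_iw_j - D_jw_i` (`w = D × w`), and `Perp ξ w` is `∑_iD_iw_i = 0`. Then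
`w = D×w = D×(D×w)`, `(D×(D×w))_k = D_k(D·w) + (D×w)_k - D²w_k`, so `D²w_k = 0`, `D² = ∑_iD_i²`;
`∑_i|D_iw_k|² = -⟨w_k,D²w_k⟩ = 0`, `D_iw_k = 0` for all `i,k`, so `w = D × w = 0`. -/
def HesStmt (S : Setup d F) : Prop := ∀ ξ w : Cfg d, S.Vm 1 ξ = 0 → S.hq ξ w = 0 → S.Perp ξ w → w = 0

/-- **G-1** the colour group contains the one parameter groups: there is a differentiable curve in `grp` through `1` with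
derivative `ad a`. PROOF: `γ(t) = exp(t·adm a)` (`adm a` antisymmetric): orthogonality; invariance of `f`: derivative in `t`
(Jacobi); norms: `d/dt ‖u(ro γ(t) x)‖² = 2Re⟨u,∑_Ca_C(rotation derivative)u⟩ = 2Re⟨u, i(…)𝒮 u⟩ = 0` by `G_Cu = 0` and
self-adjointness of `cS C` (as in `Vale/Agent/P353/U/Grp.lean`). Sign of `ad` as convenient (`a ↦ -a`). -/
def GrpExpStmt (S : Setup d F) : Prop := ∀ a : Fin d → ℝ, ∃ γ : ℝ → Matrix (Fin d) (Fin d) ℝ,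
  (∀ t, γ t ∈ S.grp) ∧ γ 0 = 1 ∧ ∀ A B, HasDerivAt (fun t => γ t A B) (S.adm a A B) 0

/-- **G-2** `grp` is a compact group acting by isometries and preserving `V_m`.
PROOF: closed (pointwise conditions, `u` continuous) and bounded (`OᵀO = 1`); products and transposes are clear. -/
def GrpCptStmt (S : Setup d F) : Prop := IsCompact S.grp ∧ (1 : Matrix (Fin d) (Fin d) ℝ) ∈ S.grp ∧
  (∀ O ∈ S.grp, ∀ O' ∈ S.grp, O * O' ∈ S.grp) ∧ (∀ O ∈ S.grp, O.transpose ∈ S.grp) ∧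
  (∀ O ∈ S.grp, ∀ m x, S.Vm m (ro O x) = S.Vm m x) ∧ (∀ O ∈ S.grp, ∀ x, ‖ro O x‖ = ‖x‖)

/-- **C-Near** quadratic lower bound near the wells: there are `c, δ > 0` with: `V_1(ξ) = 0`, `|w| ≤ δ`, `Perp ξ w` imply
`V_1(ξ+w) ≥ c|w|²`. PROOF: `hq ξ w ≥ c₀|w|²` for `V_1(ξ) = 0`, `Perp ξ w`, by compactness of
`{(ξ,w) : V_1(ξ) = 0, |w| = 1, Perp ξ w}` (`wells 1` is closed, bounded by `CoeStmt`), continuity of `hq` and `HesStmt`; then `TayStmt`. -/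
def NearStmt (S : Setup d F) : Prop := ∃ c δ : ℝ, 0 < c ∧ 0 < δ ∧ ∀ ξ w : Cfg d, S.Vm 1 ξ = 0 →
  ‖w‖ ≤ δ → S.Perp ξ w → c * ‖w‖ ^ 2 ≤ S.Vm 1 (ξ + w)

/-- **C-Foot** every point has a nearest point in every orbit and in `wells 1`, and the difference is `Perp`.
(`wells 1` is a union of orbits.) PROOF: compactness, and the derivative of `t ↦ |x - ro γ(t) ξ|²` at `0` vanishes (`GrpExpStmt`). -/
def FootStmt (S : Setup d F) : Prop :=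
  (∀ ξ x : Cfg d, ∃ ξ' ∈ S.Orb ξ, ‖x - ξ'‖ = Metric.infDist x (S.Orb ξ) ∧ S.Perp ξ' (x - ξ')) ∧
  ∀ x : Cfg d, ∃ ξ' ∈ S.wells 1, ‖x - ξ'‖ = Metric.infDist x (S.wells 1) ∧ S.Perp ξ' (x - ξ')

/-- **C-Wel** `V_m ≥ c m² dist(x, wells)²`. PROOF: scaling `V_m(x) = m⁴V_1(x/m)`, `wells m = m·wells 1`; for `m = 1`: near the
wells `NearStmt` + `FootStmt`; for `|x|` large `CoeStmt` (`0 ∈ wells 1`, so `dm 1 x ≤ |x|`); in between compactness. -/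
def WelStmt (S : Setup d F) : Prop := ∃ c : ℝ, 0 < c ∧ ∀ m : ℝ, 0 < m → ∀ x : Cfg d,
  c * m ^ 2 * S.dm m x ^ 2 ≤ S.Vm m x

/-- **C-Fin** finitely many orbits of zeros. PROOF: each orbit is open in the compact set `wells 1`: if `V_1(x) = 0` and `x` is
close to `Orb ξ`, take the nearest point `ξ'` of the orbit (`FootStmt`); `NearStmt` gives `0 ≥ c|x-ξ'|²`, so `x = ξ'`. -/
def FinStmt (S : Setup d F) : Prop := ∃ n, S.OrbCount n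

/-- **C-Vac** vacuum lemma (see `Vale/Agent/P353/U/Vac.lean`). -/
def VacStmt (S : Setup d F) : Prop := S.Irr → (∃ v : F, v ≠ 0) →
  ∀ 𝒜 : Submodule ℂ (Fin 16 × Fin d → ℂ),
    (∀ a ∈ 𝒜, ∀ b ∈ 𝒜, ∑ p, a p * b p = 0) →
    (∀ z : Fin 16 × Fin d → ℂ, ∃ a ∈ 𝒜, ∃ b ∈ 𝒜, z = a + fun p => (starRingEnd ℂ) (b p)) →
    ∃ Ω : F, ‖Ω‖ = 1 ∧ (∀ a ∈ 𝒜, ∑ p : Fin 16 × Fin d, a p • S.th p.1 p.2 Ω = 0) ∧
      ∀ v : F, (∀ a ∈ 𝒜, ∑ p : Fin 16 × Fin d, a p • S.th p.1 p.2 v = 0) → ∃ c : ℂ, v = c • Ω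

/-- **C-Qua** ground state of a nondegenerate quadratic fermionic Hamiltonian is simple.
PROOF: `R` real antisymmetric invertible; `iR` is Hermitian on `ℂ^{16d}` with real spectrum symmetric under complex conjugation of
eigenvectors, `0` not an eigenvalue. `𝒜` = span of the eigenvectors with the eigenvalues of the sign such that
`i∑R_{pq}θ_pθ_q = const + ∑_jλ_jθ(a_j)†θ(a_j)`, `λ_j > 0`, `a_j` orthonormal basis of `𝒜`. `𝒜` is isotropic, `𝒜 + 𝒜̄ = ⊤`. C-Vac gives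
`Ω`; `⟨Ω,NΩ⟩ = c₀ + const ≥ 0` by hypothesis, so `⟨v,Nv⟩ ≥ ∑_jλ_j‖θ(a_j)v‖²`, and `⟨v,Nv⟩ = 0` gives `θ(a_j)v = 0`, `v = cΩ`. -/
def QuaStmt (S : Setup d F) : Prop := S.Irr → (∃ v : F, v ≠ 0) →
  ∀ (R : Matrix (Fin 16 × Fin d) (Fin 16 × Fin d) ℝ) (c₀ : ℝ), R.transpose = -R →
    (∀ z : Fin 16 × Fin d → ℝ, R.mulVec z = 0 → z = 0) →
    (∀ v : F, 0 ≤ (inner ℂ v ((c₀ : ℂ) • v + Complex.I • ∑ p, ∑ q, (R p q : ℂ) •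
      S.th p.1 p.2 (S.th q.1 q.2 v))).re) →
    ∃ Ω : F, ‖Ω‖ = 1 ∧ ∀ v : F, (inner ℂ v ((c₀ : ℂ) • v + Complex.I • ∑ p, ∑ q, (R p q : ℂ) •
      S.th p.1 p.2 (S.th q.1 q.2 v))).re = 0 → ∃ c : ℂ, v = c • Ω

/-- **C-Inv** the fermionic one particle matrix at `ξ` is invertible. `Fx ξ - ¾FG = i∑R_{pq}θ_pθ_q`,
`R_{(αA),(βB)} = (κ/2)∑_{q,C}f_{ABC}ξ_q^Cγ^q_{αβ} - ¾Γ_{αβ}δ_{AB}` (`ξ_q = 0` for `q ∈ I6`).
PROOF: with `T_q = ` matrix `(f_{ABC}ξ_q^C)_{AB}·(κ/2)`, `R = ∑_{q∈I3}γ^q⊗T_q - ¾Γ⊗1`; `X = ΓR = ∑_qΓγ^q⊗T_q + ¾`; the matrices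
`σ_q = Γγ^q` (`q ∈ I3`) satisfy `σ_q² = Γγ^qΓγ^q = Γ² = -1`, `σ_0σ_1 = Γ²γ^0γ^1 = -γ^0γ^1`, …: quaternion units up to sign,
`[T_i,T_j] = ±T_k`: `(∑σ_qT_q)² = -∑T_q² + ½∑[σ_i,σ_j]…` `= -T² ± ∑σ_kT_k`-type relation, so `Y = ∑σ_qT_q` satisfies `Y² ∓ Y = -T²`
`≥ 0` (`T² = ∑T_q² ≤ 0`), and `X = Y + ¾` resp. the sign is such that `R` is invertible: `(X - ¾)² ∓ (X-¾) = -T²`; if `Xv = 0`:
`(9/16 ± 3/4)v = -T²v`; the right side is `≥ 0` and the sign for which it is `9/16 - 3/4 < 0` gives `v = 0`; check the sign with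
`[D_i,D_j] = D_k` of `HesStmt`; if the other sign occurs the Casimir eigenvalues `j(j+1)`, `21/16 = j(j+1)` has no
half-integer solution (`j = (-1+√(25/4))/2 = 3/4`). -/
def InvStmt (S : Setup d F) : Prop := ∀ ξ : Cfg d, S.Vm 1 ξ = 0 →
  ∃ R : Matrix (Fin 16 × Fin d) (Fin 16 × Fin d) ℝ, R.transpose = -R ∧
    (∀ z : Fin 16 × Fin d → ℝ, R.mulVec z = 0 → z = 0) ∧
    ∀ v : F, S.Fx ξ v - (3 / 4 : ℂ) • S.FG v =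
      Complex.I • ∑ p, ∑ q, (R p q : ℂ) • S.th p.1 p.2 (S.th q.1 q.2 v)

/-- **C-Sqr** existence of the square root `K` of the Hessian. PROOF: `hq ξ` is a positive quadratic form; diagonalise the
symmetric operator. (Then `ker K = {hq ξ = 0}`.) -/
def SqrStmt (S : Setup d F) : Prop := ∀ ξ : Cfg d, ∃ K : Cfg d →L[ℝ] Cfg d, S.IsK ξ K

/-- **C-En** energy identity at `ξ`: `∑‖Qlin_βv‖² = 8∑‖(∂_i^A + (Kx)_i^A)v‖² + 16⟨v,N_ξv⟩`.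
PROOF: `(1/16)∑Qlin² = -½Δ + hq ξ x + Fx(ξ) - ¾FG`: `∑_β{Q0_β,M_β}` and `∑_β{Q0_β,DW_β}` have no first order part, the zero order
parts are `-12 FG·…` (A-part) and `∑_β-i(γ^iθ^A)_β∂_i^A(DW ξ β x) = ∑_β-i(γ^iθ^A)_β∂_i^AW_β(ξ) = 16Fx(ξ)`; and
`∑_β(M_β(x)+DW ξ β x)² = 16 hq ξ x` (`∑_β(W_β+M_β)² = 16V_1`, quadratic part at the critical point, or directly).
Then complete the square with `K` symmetric, `‖Kx‖² = 2hq`. -/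
def EnStmt (S : Setup d F) : Prop := ∀ (ξ : Cfg d) (K : Cfg d →L[ℝ] Cfg d), S.Vm 1 ξ = 0 →
  S.IsK ξ K → ∀ v : Cfg d → F, Setup.Tst v →
  ∑ β, nsq (S.Qlin ξ β v) =
    8 * (∑ i, ∑ A, nsq (fun x => pd i A v x + ((K x (i, A) : ℝ) : ℂ) • v x)) +
    16 * (∫ x, inner ℂ (v x) (S.Nx (trK K) ξ (v x))).re

/-- **C-Npos** `N_ξ ≥ 0`. PROOF: `EnStmt` for `v = χ(x/s)e^{-½⟨x,Kx⟩}η`: `0 ≤ 8‖(∇χ_s)e^{…}‖²|η|² + 16⟨η,N_ξη⟩‖χ_se^{…}‖²`, `s → ∞`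
(Fubini is not needed: choose `χ_s` with `|∇χ_s| ≤ C/s·1_{|x| ≤ 2s}` and compare `∫_{|x|≤2s}e^{-⟨x,Kx⟩}` with `∫_{|x|≤s}`: if the ratio were
`≥ s^{1}`-like for all large `s` it would grow faster than any power; or use `χ = 1_{|x|≤s}`-like with the ratio bounded along a
sequence `s_j = 2^j`, since `∫_{|x|≤s}e^{…} ≤ Cs^{9d}`). -/
def NposStmt (S : Setup d F) : Prop := ∀ (ξ : Cfg d) (K : Cfg d →L[ℝ] Cfg d), S.Vm 1 ξ = 0 →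
  S.IsK ξ K → ∀ v : F, 0 ≤ (inner ℂ v (S.Nx (trK K) ξ v)).re

/-- **C-L1** Liouville theorem at `ξ` for polynomially bounded solutions that are invariant along the gauge directions
(`Vale/Agent/P353/U/LOne.lean`, `L1a–L1k`, with `A1` replaced by `K`; `g x = exp(-½⟨x,Kx⟩)`; `T` = gauge directions at `ξ`,
`|Kw| ≥ c|w_⊥|` by `HesStmt` and compactness, `Kw = Kw_⊥`). -/
def L1Stmt (S : Setup d F) : Prop := S.Irr → (∃ v : F, v ≠ 0) → ∀ ξ : Cfg d, S.Vm 1 ξ = 0 →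
  ∃ g : Cfg d → ℝ, Continuous g ∧ (∀ x, 0 < g x) ∧ ∃ Ω : F, ‖Ω‖ = 1 ∧
  ∀ u : Cfg d → F, StronglyMeasurable u →
    (∀ s : ℝ, 0 < s → IntegrableOn (fun x => ‖u x‖ ^ 2) (Metric.ball (0 : Cfg d) s)) →
    (∃ (K : ℝ) (p : ℕ), ∀ s : ℝ, 1 ≤ s → ∫ x in Metric.ball (0 : Cfg d) s, ‖u x‖ ^ 2 ≤ K * s ^ p) →
    (∀ β ζ, Setup.Tst ζ → ∫ x, inner ℂ (S.Qlin ξ β ζ x) (u x) = 0) →
    (∀ (C : Fin d) ζ, Setup.Tst ζ → ∫ x, inner ℂ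
      (∑ i, ∑ A, ∑ B, ((S.f C A B : ℂ) * (ξ (i, A) : ℂ)) • pd i B ζ x) (u x) = 0) →
    ∃ c : ℂ, ∀ᵐ x ∂(volume : Measure (Cfg d)), u x = (c * (g x : ℂ)) • Ω

/-- **C-AP** a priori bound: from A6 and C-Wel (as `N = 2`). -/
def APStmt (S : Setup d F) : Prop := ∃ C : ℝ, 0 < C ∧ ∀ m : ℝ, 1 ≤ m → ∀ u : Cfg d → F, Setup.Tst u →
  m ^ 2 * (∫ x, S.dm m x ^ 2 * ‖u x‖ ^ 2) ≤ C * (m * nsq u + ∑ β, nsq (S.Qm m β u))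

/-- **C-Pack** comparison of tubes around the orbit with balls around `mξ` (as `N = 2`, dimension `9d`; `Orb (mξ)` is compact). -/
def PackStmt (S : Setup d F) : Prop := ∀ ξ : Cfg d, ∀ R : ℝ, 0 < R → ∃ n : ℝ, 0 < n ∧ ∀ u : Cfg d → F,
  Setup.Tst u → (∀ O ∈ S.grp, ∀ x, ‖u (ro O x)‖ = ‖u x‖) →
  (∫ x, (if Metric.infDist x (S.Orb ξ) ≤ R then ‖u x‖ ^ 2 else 0) ≤
    n * ∫ x in Metric.ball ξ (2 * R), ‖u x‖ ^ 2) ∧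
  ∀ s : ℝ, R ≤ s → n * (∫ x in Metric.ball ξ s, ‖u x‖ ^ 2) ≤ (3 * s / R) ^ (9 * d) * nsq u

/-- **C-Lim** local limits (as `N = 2`). -/
def LimStmt (S : Setup d F) : Prop := ∀ ξ : Cfg d, (∀ β, S.W β ξ + S.MM β ξ = 0) →
  ∀ m : ℕ → ℝ, (∀ k, 1 ≤ m k) → Tendsto m atTop atTop →
  ∀ φ : ℕ → Cfg d → F, (∀ k, Setup.Tst (φ k)) → ∀ P : ℝ → ℝ,
  (∀ k, ∀ s : ℝ, 0 < s → ∫ w in Metric.ball (0 : Cfg d) s, ‖scl (m k) ξ (φ k) w‖ ^ 2 ≤ P s) →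
  (∀ s : ℝ, 0 < s → Tendsto (fun k => ∑ β, ∫ w in Metric.ball (0 : Cfg d) s,
    (m k)⁻¹ * ‖scl (m k) ξ (S.Qm (m k) β (φ k)) w‖ ^ 2) atTop (𝓝 0)) →
  ∃ ψ : ℕ → ℕ, StrictMono ψ ∧ ∃ u : Cfg d → F, StronglyMeasurable u ∧
    (∀ s : ℝ, 0 < s → IntegrableOn (fun x => ‖u x‖ ^ 2) (Metric.ball (0 : Cfg d) s)) ∧
    (∀ s : ℝ, 0 < s → Tendsto (fun k => ∫ w in Metric.ball (0 : Cfg d) s,
      ‖scl (m (ψ k)) ξ (φ (ψ k)) w - u w‖ ^ 2) atTop (𝓝 0)) ∧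
    (∀ β ζ, Setup.Tst ζ → ∫ x, inner ℂ (S.Qlin ξ β ζ x) (u x) = 0) ∧
    ((∀ k C x, S.G C (φ k) x = 0) → ∀ (C : Fin d) ζ, Setup.Tst ζ → ∫ x, inner ℂ
      (∑ i, ∑ A, ∑ B, ((S.f C A B : ℂ) * (ξ (i, A) : ℂ)) • pd i B ζ x) (u x) = 0)

/-- **Theorem C** for large `m` there are at most `n` invariant zero modes, `n` the number of orbits of zeros of `V_1`.
PROOF as for `N = 2` (`Vale/Agent/P353/U/ThmC.lean`) with `n` wells `ξ_1,…,ξ_n` instead of `0, ξ₀`: otherwise there are `m_k → ∞` with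
`Low (n+1) m_k ε` for all `ε > 0`. By C-AP a normalised `u` with tiny energy satisfies `∫_{d ≥ Km^{-1/2}}|u|² ≤ 1/4`, fix `K`;
`wells m = ⋃_j Orb(mξ_j)`. `R_k = Km_k^{-1/2}`, `n_{k,j}` from C-Pack at `m_kξ_j`, `ε_k = (k(1+∑_jn_{k,j}))⁻¹`; in the `n+1` dimensional space a unit
vector `φ_k` with `∫⟨b(m_k^{1/2}(x-m_kξ_j))Ω_j,φ_k⟩ = 0` for all `j`. The tubes cover mass `≥ 3/4`, so for some `j` (fixed along a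
subsequence) the mass in the tube of `Orb(m_kξ_j)` is `≥ 1/(2n)`; C-Pack (a): `μ_k = ∫_{ball(m_kξ_j,2R_k)}|φ_k|² ≥ 1/(2n·n_{k,j})`,
(b): the functions `μ_k^{-1/2}m_k^{-9d/4}φ_k` have scaled local masses `≤ 2n(3s/K)^{9d}` and energies `→ 0`. C-Lim, C-Crit, C-L1: the limit is
`u = c·g·Ω_j` with `∫⟨bΩ_j,u⟩ = 0`, so `c = 0`, but `∫_{ball(0,2K)}|u|² = 1`. -/
def ThmCStmt (S : Setup d F) (n : ℕ) : Prop := S.Irr → (∃ v : F, v ≠ 0) → S.OrbCount n →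
  ∃ M : ℝ, 0 < M ∧ ∀ m : ℝ, M ≤ m → ∃ ε : ℝ, 0 < ε ∧ ¬ S.Low (n + 1) m ε

end Vale.Agent.P353.Z.U
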