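import Vale.Agent.P353.Z.U.StmtA
import Vale.Agent.P353.Z.U.StmtB
import Vale.Agent.P353.Z.U.StmtC

/-! # P353, general `N`: coercivity (B0) and a priori bound (C-AP) -/

open MeasureTheory Filter Topology
open scoped ContDiff

namespace Vale.Agent.P353.Z.U

variable {d : ℕ} {F : Type*} [NormedAddCommGroup F] [InnerProductSpace ℂ F]

namespace CoerZ

lemma coord_le (x : Cfg d) (p : Fin 9 × Fin d) : |x p| ≤ ‖x‖ := by
  have h := PiLp.norm_apply_le x p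
  rwa [Real.norm_eq_abs] at h

/-- a bound of the fermionic potential -/
noncomputable def CF (S : Setup d F) : ℝ := ‖(Complex.I / 2 * (S.κ : ℂ))‖ *
  ∑ q : Fin 9, ∑ A, ∑ B, ∑ C, ‖(S.f A B C : ℂ)‖ * ‖S.bil (S.g q) A B‖

lemma CF_nonneg (S : Setup d F) : 0 ≤ CF S := by
  unfold CF
  positivity

lemma norm_Fx_le (S : Setup d F) (x : Cfg d) : ‖S.Fx x‖ ≤ CF S * ‖x‖ := by
  unfold Setup.Fx CF
  rw [norm_smul, mul_assoc]
  apply mul_le_mul_of_nonneg_left _ (norm_nonneg _)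
  simp only [Finset.sum_mul]
  refine (norm_sum_le _ _).trans (Finset.sum_le_sum fun q _ => ?_)
  refine (norm_sum_le _ _).trans (Finset.sum_le_sum fun A _ => ?_)
  refine (norm_sum_le _ _).trans (Finset.sum_le_sum fun B _ => ?_)
  refine (norm_sum_le _ _).trans (Finset.sum_le_sum fun C _ => ?_)
  rw [norm_smul, norm_mul]
  have h1 : ‖((x (q, C) : ℝ) : ℂ)‖ ≤ ‖x‖ := by
    rw [Complex.norm_real, Real.norm_eq_abs]
    exact coord_le x _
  calc ‖(S.f A B C : ℂ)‖ * ‖((x (q, C) : ℝ) : ℂ)‖ * ‖S.bil (S.g q) A B‖ ≤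
      ‖(S.f A B C : ℂ)‖ * ‖x‖ * ‖S.bil (S.g q) A B‖ := by gcongr
    _ = _ := by ring

/-- scaling `V_m(m • y) = m⁴ V_1(y)` -/
lemma Vm_smul (S : Setup d F) (m : ℝ) (y : Cfg d) : S.Vm m (m • y) = m ^ 4 * S.Vm 1 y := by
  have hF : ∀ A i j, S.FF A i j (m • y) = m ^ 2 * S.FF A i j y := by
    intro A i j
    unfold Setup.FF
    rw [Finset.mul_sum, Finset.mul_sum, Finset.mul_sum]
    apply Finset.sum_congr rfl
    intro B _
    rw [Finset.mul_sum, Finset.mul_sum, Finset.mul_sum]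
    apply Finset.sum_congr rfl
    intro C _
    simp only [PiLp.smul_apply, smul_eq_mul]
    ring
  have hV : S.V (m • y) = m ^ 4 * S.V y := by
    unfold Setup.V
    simp only [hF]
    simp only [Finset.mul_sum]
    refine Finset.sum_congr rfl fun A _ => Finset.sum_congr rfl fun i _ =>
      Finset.sum_congr rfl fun j _ => ?_
    ring
  have hD : S.det3 (m • y) = m ^ 3 * S.det3 y := by
    unfold Setup.det3
    simp only [Finset.mul_sum]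
    refine Finset.sum_congr rfl fun A _ => Finset.sum_congr rfl fun i _ =>
      Finset.sum_congr rfl fun j _ => ?_
    simp only [PiLp.smul_apply, smul_eq_mul]
    ring
  have hN : (∑ i, ∑ A, (aw i * (m • y) (i, A)) ^ 2) =
      m ^ 2 * ∑ i, ∑ A, (aw i * y (i, A)) ^ 2 := by
    simp only [Finset.mul_sum]
    refine Finset.sum_congr rfl fun A _ => Finset.sum_congr rfl fun i _ => ?_
    simp only [PiLp.smul_apply, smul_eq_mul]
    ring
  unfold Setup.Vm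
  rw [hV, hD, hN]
  ring

/-- lower bound of the potential for all `m > 0` -/
lemma Vm_lower (S : Setup d F) {c C : ℝ} (hV : ∀ x : Cfg d, c * ‖x‖ ^ 2 - C ≤ S.Vm 1 x) {m : ℝ}
    (hm : 0 < m) (x : Cfg d) : c * m ^ 2 * ‖x‖ ^ 2 - C * m ^ 4 ≤ S.Vm m x := by
  have e : x = m • (m⁻¹ • x) := by rw [smul_smul, mul_inv_cancel₀ hm.ne', one_smul]
  have h := hV (m⁻¹ • x)
  have h2 : S.Vm m x = m ^ 4 * S.Vm 1 (m⁻¹ • x) := by
    conv_lhs => rw [e]
    exact Vm_smul S m _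
  rw [h2]
  have h3 : ‖m⁻¹ • x‖ = m⁻¹ * ‖x‖ := by
    rw [norm_smul, Real.norm_eq_abs, abs_of_pos (inv_pos.2 hm)]
  rw [h3] at h
  have h4 := mul_le_mul_of_nonneg_left h (by positivity : 0 ≤ m ^ 4)
  have h5 : m ^ 4 * (c * (m⁻¹ * ‖x‖) ^ 2 - C) = c * m ^ 2 * ‖x‖ ^ 2 - C * m ^ 4 := by
    field_simp
  linarith

lemma zero_mem_wells (S : Setup d F) (m : ℝ) : (0 : Cfg d) ∈ S.wells m := by
  simp [Setup.wells, Setup.Vm, Setup.V, Setup.FF, Setup.det3]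

lemma dm_nonneg (S : Setup d F) (m : ℝ) (x : Cfg d) : 0 ≤ S.dm m x := Metric.infDist_nonneg

lemma dm_ge (S : Setup d F) {c C : ℝ} (hc : 0 < c) (hC : 0 ≤ C)
    (hV : ∀ x : Cfg d, c * ‖x‖ ^ 2 - C ≤ S.Vm 1 x) {m : ℝ} (hm : 0 < m) (x : Cfg d) :
    ‖x‖ - m * Real.sqrt (C / c) ≤ S.dm m x := by
  unfold Setup.dm
  rw [Metric.le_infDist ⟨0, zero_mem_wells S m⟩]
  intro y hy
  have h1 := Vm_lower S hV hm y
  have h2 : S.Vm m y = 0 := hy
  rw [h2] at h1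
  have h3 : ‖y‖ ≤ m * Real.sqrt (C / c) := by
    have h4 : ‖y‖ ^ 2 ≤ (m * Real.sqrt (C / c)) ^ 2 := by
      rw [mul_pow, Real.sq_sqrt (by positivity), ← mul_div_assoc, le_div_iff₀ hc]
      have h5 : 0 < m ^ 2 := by positivity
      have h6 : m ^ 2 * (‖y‖ ^ 2 * c) ≤ m ^ 2 * (m ^ 2 * C) := by nlinarith
      exact le_of_mul_le_mul_left h6 h5
    exact (sq_le_sq₀ (norm_nonneg _) (by positivity)).1 h4
  rw [dist_eq_norm]
  have h5 := norm_sub_norm_le x y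
  linarith

lemma continuous_dm (S : Setup d F) (m : ℝ) : Continuous (S.dm m) := by
  unfold Setup.dm
  exact Metric.continuous_infDist_pt _

lemma continuous_Vm (S : Setup d F) (m : ℝ) : Continuous (S.Vm m) := by
  unfold Setup.Vm Setup.det3
  have h1 := (contDiff_V S).continuous
  fun_prop

/-- lower bound of the energy by an integral of a function of `x`. -/
lemma energy_lower (S : Setup d F) (h6 : A6Stmt S) {m : ℝ} (hm : 0 ≤ m) {g : Cfg d → ℝ}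
    (hg : Continuous g) (hV : ∀ x : Cfg d, g x ≤ S.Vm m x) {u : Cfg d → F} (hu : Setup.Tst u) :
    8 * ∑ i, ∑ A, nsq (pd i A u) + ∫ x, (16 * g x - 16 * CF S * ‖x‖ -
      12 * m * ‖S.FG‖) * ‖u x‖ ^ 2 ≤ ∑ β, nsq (S.Qm m β u) := by
  have hcF : Setup.Tst (fun x => S.Fx x (u x)) := hu.clm (contDiff_Fx S)
  have hcG : Setup.Tst (fun x => S.FG (u x)) := hu.clm contDiff_const
  have i1 : Integrable (fun x => S.Vm m x * ‖u x‖ ^ 2) := hu.mul_norm_sq_int (continuous_Vm S m)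
  have i2 : Integrable (fun x => (inner ℂ (u x) (S.Fx x (u x)) : ℂ).re) :=
    (hu.inner_int hcF.1.continuous).re
  have i3 : Integrable (fun x => (inner ℂ (u x) (S.FG (u x)) : ℂ).re) :=
    (hu.inner_int hcG.1.continuous).re
  have e2 : (∫ x, inner ℂ (u x) (S.Fx x (u x))).re = ∫ x, (inner ℂ (u x) (S.Fx x (u x))).re :=
    (integral_re (hu.inner_int hcF.1.continuous)).symm
  have e3 : (∫ x, inner ℂ (u x) (S.FG (u x))).re = ∫ x, (inner ℂ (u x) (S.FG (u x))).re :=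
    (integral_re (hu.inner_int hcG.1.continuous)).symm
  rw [h6 m u hu, e2, e3]
  have hcont : Continuous fun x : Cfg d => 16 * g x - 16 * CF S * ‖x‖ -
      12 * m * ‖S.FG‖ := by
    fun_prop
  have i4 : Integrable (fun x => (16 * g x - 16 * CF S * ‖x‖ -
      12 * m * ‖S.FG‖) * ‖u x‖ ^ 2) := hu.mul_norm_sq_int hcont
  have e4 : 16 * (∫ x, S.Vm m x * ‖u x‖ ^ 2) + 16 * (∫ x, (inner ℂ (u x) (S.Fx x (u x))).re) -
      12 * m * (∫ x, (inner ℂ (u x) (S.FG (u x))).re) =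
      ∫ x, (16 * (S.Vm m x * ‖u x‖ ^ 2) + 16 * (inner ℂ (u x) (S.Fx x (u x))).re -
        12 * m * (inner ℂ (u x) (S.FG (u x))).re) := by
    have s1 : ∫ x, (16 * (S.Vm m x * ‖u x‖ ^ 2) + 16 * (inner ℂ (u x) (S.Fx x (u x))).re -
        12 * m * (inner ℂ (u x) (S.FG (u x))).re) =
        (∫ x, (16 * (S.Vm m x * ‖u x‖ ^ 2) + 16 * (inner ℂ (u x) (S.Fx x (u x))).re)) -
        ∫ x, 12 * m * (inner ℂ (u x) (S.FG (u x))).re :=
      integral_sub ((i1.const_mul 16).add (i2.const_mul 16)) (i3.const_mul (12 * m))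
    rw [s1, integral_add (i1.const_mul 16) (i2.const_mul 16), integral_const_mul,
      integral_const_mul, integral_const_mul]
  have hmain : ∫ x, (16 * g x - 16 * CF S * ‖x‖ -
      12 * m * ‖S.FG‖) * ‖u x‖ ^ 2 ≤
      ∫ x, (16 * (S.Vm m x * ‖u x‖ ^ 2) + 16 * (inner ℂ (u x) (S.Fx x (u x))).re -
        12 * m * (inner ℂ (u x) (S.FG (u x))).re) := by
    refine integral_mono i4 (((i1.const_mul 16).add (i2.const_mul 16)).sub
      (i3.const_mul (12 * m))) fun x => ?_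
    have hu0 : 0 ≤ ‖u x‖ ^ 2 := by positivity
    have a1 : |(inner ℂ (u x) (S.Fx x (u x)) : ℂ).re| ≤ CF S * ‖x‖ * ‖u x‖ ^ 2 := by
      calc |(inner ℂ (u x) (S.Fx x (u x)) : ℂ).re| ≤ ‖inner ℂ (u x) (S.Fx x (u x))‖ :=
            Complex.abs_re_le_norm _
        _ ≤ ‖u x‖ * ‖S.Fx x (u x)‖ := norm_inner_le_norm _ _
        _ ≤ ‖u x‖ * (‖S.Fx x‖ * ‖u x‖) := by
            gcongr
            exact (S.Fx x).le_opNorm _
        _ ≤ ‖u x‖ * ((CF S * ‖x‖) * ‖u x‖) := by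
            gcongr
            exact norm_Fx_le S x
        _ = _ := by ring
    have a2 : |(inner ℂ (u x) (S.FG (u x)) : ℂ).re| ≤ ‖S.FG‖ * ‖u x‖ ^ 2 := by
      calc |(inner ℂ (u x) (S.FG (u x)) : ℂ).re| ≤ ‖inner ℂ (u x) (S.FG (u x))‖ :=
            Complex.abs_re_le_norm _
        _ ≤ ‖u x‖ * ‖S.FG (u x)‖ := norm_inner_le_norm _ _
        _ ≤ ‖u x‖ * (‖S.FG‖ * ‖u x‖) := by
            gcongr
            exact S.FG.le_opNorm _
        _ = _ := by ring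
    have a3 := (abs_le.1 a1).1
    have a4 := mul_le_mul_of_nonneg_left (abs_le.1 a2).2
      (mul_nonneg (by norm_num : (0 : ℝ) ≤ 12) hm)
    have a5 := mul_le_mul_of_nonneg_right (hV x) hu0
    nlinarith
  linarith

end CoerZ

open CoerZ

/-- **B0** coercivity. -/
theorem coer (S : Setup d F) (h6 : A6Stmt S) (hc : CoeStmt S) : CoerStmt S := by
  obtain ⟨c1, C1, hc1, hC1, hV⟩ := hc
  intro a b ha
  have hCF := CF_nonneg S
  refine ⟨min 8 (8 * c1 * a ^ 2), 16 * C1 * b ^ 4 + 8 * CF S ^ 2 / (c1 * a ^ 2) +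
    12 * b * ‖S.FG‖ + 12 * |b| * ‖S.FG‖, by positivity, ?_, ?_⟩
  · have h1 : 0 ≤ b * ‖S.FG‖ + |b| * ‖S.FG‖ := by
      rw [← add_mul]
      have := neg_abs_le b
      exact mul_nonneg (by linarith) (norm_nonneg _)
    have h2 : 0 ≤ 16 * C1 * b ^ 4 := by positivity
    have h3 : 0 ≤ 8 * CF S ^ 2 / (c1 * a ^ 2) := by positivity
    linarith
  intro m ham hmb u hu
  have hm : 0 < m := ha.trans_le ham
  have hb : 0 < b := hm.trans_le hmb
  have h1 := energy_lower S h6 hm.le (g := fun x => c1 * m ^ 2 * ‖x‖ ^ 2 - C1 * m ^ 4)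
    (by fun_prop) (Vm_lower S hV hm) hu
  set C0 : ℝ := 16 * C1 * b ^ 4 + 8 * CF S ^ 2 / (c1 * a ^ 2) + 12 * b * ‖S.FG‖ with hC0
  have hpt : ∀ x : Cfg d, 8 * c1 * a ^ 2 * ‖x‖ ^ 2 - C0 ≤
      16 * (c1 * m ^ 2 * ‖x‖ ^ 2 - C1 * m ^ 4) - 16 * CF S * ‖x‖ - 12 * m * ‖S.FG‖ := by
    intro x
    have hx := norm_nonneg x
    have k5 : 16 * c1 * a ^ 2 * ‖x‖ ^ 2 ≤ 16 * c1 * m ^ 2 * ‖x‖ ^ 2 := by gcongr
    have k6 : 16 * C1 * m ^ 4 ≤ 16 * C1 * b ^ 4 := by gcongr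
    have k7 : 16 * CF S * ‖x‖ ≤ 8 * c1 * a ^ 2 * ‖x‖ ^ 2 + 8 * CF S ^ 2 / (c1 * a ^ 2) := by
      have hca : 0 < c1 * a ^ 2 := by positivity
      have : 0 ≤ 8 * ((c1 * a ^ 2) * ‖x‖ - CF S) ^ 2 / (c1 * a ^ 2) := by positivity
      have e : 8 * ((c1 * a ^ 2) * ‖x‖ - CF S) ^ 2 / (c1 * a ^ 2) =
          8 * c1 * a ^ 2 * ‖x‖ ^ 2 - 16 * CF S * ‖x‖ + 8 * CF S ^ 2 / (c1 * a ^ 2) := by
        field_simp
        ring
      linarith
    have k8 : 12 * m * ‖S.FG‖ ≤ 12 * b * ‖S.FG‖ := by gcongr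
    linarith
  have hint1 : Integrable (fun x : Cfg d => (8 * c1 * a ^ 2 * ‖x‖ ^ 2 - C0) * ‖u x‖ ^ 2) :=
    hu.mul_norm_sq_int (by fun_prop)
  have h2 : ∫ x, (8 * c1 * a ^ 2 * ‖x‖ ^ 2 - C0) * ‖u x‖ ^ 2 ≤
      ∫ x, (16 * (c1 * m ^ 2 * ‖x‖ ^ 2 - C1 * m ^ 4) - 16 * CF S * ‖x‖ -
        12 * m * ‖S.FG‖) * ‖u x‖ ^ 2 :=
    integral_mono hint1 (hu.mul_norm_sq_int (by fun_prop)) fun x =>
      mul_le_mul_of_nonneg_right (hpt x) (by positivity)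
  have h3 : ∫ x, (8 * c1 * a ^ 2 * ‖x‖ ^ 2 - C0) * ‖u x‖ ^ 2 =
      8 * c1 * a ^ 2 * (∫ x, ‖x‖ ^ 2 * ‖u x‖ ^ 2) - C0 * nsq u := by
    have i1 : Integrable (fun x : Cfg d => ‖x‖ ^ 2 * ‖u x‖ ^ 2) :=
      hu.mul_norm_sq_int (by fun_prop)
    rw [nsq, ← integral_const_mul, ← integral_const_mul, ← integral_sub (i1.const_mul _)
      (hu.norm_sq_int.const_mul _)]
    congr 1
    ext x
    ring
  have hX : 0 ≤ ∫ x, ‖x‖ ^ 2 * ‖u x‖ ^ 2 := integral_nonneg fun x => by positivity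
  have hP : 0 ≤ ∑ i, ∑ A, nsq (pd i A u) :=
    Finset.sum_nonneg fun i _ => Finset.sum_nonneg fun A _ => nsq_nonneg _
  have hn := nsq_nonneg u
  have h4 := mul_le_mul_of_nonneg_right (min_le_left 8 (8 * c1 * a ^ 2)) hP
  have h5 := mul_le_mul_of_nonneg_right (min_le_right 8 (8 * c1 * a ^ 2)) hX
  have h6 : 0 ≤ 12 * |b| * ‖S.FG‖ * nsq u := by positivity
  rw [mul_add, add_mul]
  linarith

/-- **C-AP** a priori bound. -/
theorem ap (S : Setup d F) (h6 : A6Stmt S) (hw : WelStmt S) (hc : CoeStmt S) : APStmt S := by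
  obtain ⟨c1, hc1, hW⟩ := hw
  obtain ⟨c2, C2, hc2, hC2, hV2⟩ := hc
  set R0 := Real.sqrt (C2 / c2)
  have hR0 : 0 ≤ R0 := Real.sqrt_nonneg _
  have hCF := CF_nonneg S
  set C1 : ℝ := 16 * CF S * R0 + 8 * CF S ^ 2 / c1 + 12 * ‖S.FG‖ with hC1
  have hC1' : 0 ≤ C1 := by positivity
  refine ⟨(1 + C1) / (8 * c1), by positivity, fun m hm1 u hu => ?_⟩
  have hm : 0 < m := lt_of_lt_of_le one_pos hm1
  have hcd := continuous_dm S m
  have h1 := energy_lower S h6 hm.le (g := fun x => c1 * m ^ 2 * S.dm m x ^ 2)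
    (by fun_prop) (hW m hm) hu
  have hpt : ∀ x : Cfg d, 8 * c1 * m ^ 2 * S.dm m x ^ 2 - C1 * m ≤
      16 * (c1 * m ^ 2 * S.dm m x ^ 2) - 16 * CF S * ‖x‖ - 12 * m * ‖S.FG‖ := by
    intro x
    have hd := dm_ge S hc2 hC2 hV2 hm x
    have hd0 := dm_nonneg S m x
    have k1 : 16 * CF S * ‖x‖ ≤ 16 * CF S * S.dm m x + 16 * CF S * R0 * m := by
      have : 16 * CF S * ‖x‖ ≤ 16 * CF S * (S.dm m x + m * R0) := by
        gcongr
        linarith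
      linarith
    have k2 : 16 * CF S * S.dm m x ≤ 8 * c1 * m ^ 2 * S.dm m x ^ 2 + 8 * CF S ^ 2 / c1 * m := by
      have k3 : 0 ≤ 8 * (c1 * m * S.dm m x - CF S / m) ^ 2 / c1 := by positivity
      have e : 8 * (c1 * m * S.dm m x - CF S / m) ^ 2 / c1 =
          8 * c1 * m ^ 2 * S.dm m x ^ 2 - 16 * CF S * S.dm m x + 8 * CF S ^ 2 / c1 * (1 / m ^ 2) := by
        field_simp
        ring
      have k4 : 1 / m ^ 2 ≤ m := by
        rw [div_le_iff₀ (by positivity)]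
        nlinarith [mul_pos hm hm, one_le_pow₀ (n := 3) hm1]
      have k5 : 8 * CF S ^ 2 / c1 * (1 / m ^ 2) ≤ 8 * CF S ^ 2 / c1 * m := by gcongr
      linarith
    nlinarith
  have h2 : ∫ x, (8 * c1 * m ^ 2 * S.dm m x ^ 2 - C1 * m) * ‖u x‖ ^ 2 ≤
      ∫ x, (16 * (c1 * m ^ 2 * S.dm m x ^ 2) - 16 * CF S * ‖x‖ - 12 * m * ‖S.FG‖) * ‖u x‖ ^ 2 :=
    integral_mono (hu.mul_norm_sq_int (by fun_prop)) (hu.mul_norm_sq_int (by fun_prop)) fun x =>
      mul_le_mul_of_nonneg_right (hpt x) (by positivity)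
  have h3 : ∫ x, (8 * c1 * m ^ 2 * S.dm m x ^ 2 - C1 * m) * ‖u x‖ ^ 2 =
      8 * c1 * (m ^ 2 * ∫ x, S.dm m x ^ 2 * ‖u x‖ ^ 2) - C1 * m * nsq u := by
    have i1 : Integrable (fun x : Cfg d => S.dm m x ^ 2 * ‖u x‖ ^ 2) :=
      hu.mul_norm_sq_int (by fun_prop)
    rw [nsq, ← integral_const_mul, ← integral_const_mul, ← integral_const_mul,
      ← integral_sub ((i1.const_mul _).const_mul _) (hu.norm_sq_int.const_mul _)]
    congr 1
    ext x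
    ring
  have hP : 0 ≤ ∑ i, ∑ A, nsq (pd i A u) :=
    Finset.sum_nonneg fun i _ => Finset.sum_nonneg fun A _ => nsq_nonneg _
  have hQ : 0 ≤ ∑ β, nsq (S.Qm m β u) := Finset.sum_nonneg fun β _ => nsq_nonneg _
  have hn := nsq_nonneg u
  have h4 : 8 * c1 * (m ^ 2 * ∫ x, S.dm m x ^ 2 * ‖u x‖ ^ 2) ≤
      C1 * (m * nsq u) + ∑ β, nsq (S.Qm m β u) := by linarith
  have h5 : C1 * (m * nsq u) + ∑ β, nsq (S.Qm m β u) ≤
      (1 + C1) * (m * nsq u + ∑ β, nsq (S.Qm m β u)) := by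
    have : 0 ≤ m * nsq u := by positivity
    nlinarith
  rw [div_mul_eq_mul_div, le_div_iff₀ (by positivity)]
  linarith

end Vale.Agent.P353.Z.U
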