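import Vale.Agent.P353.Z.U.GamLem

/-! # P353, general `N`: smoothness, supports and symmetry of `G_C`, `M_β`, `Q_β` (BMN) -/

open MeasureTheory Filter Topology
open scoped ContDiff

namespace Vale.Agent.P353.Z

variable {dc : ℕ}

variable {F : Type*} [NormedAddCommGroup F] [InnerProductSpace ℂ F]

/-! ### gauge generator -/

lemma integral_gauge_eq_zero {p q : Fin 9 × Fin dc} (hpq : p ≠ q) (w : (Cfg dc) → ℂ) (hw : ContDiff ℝ 1 w)
    (hc : HasCompactSupport w) :
    Integrable (fun x : (Cfg dc) => ((x p : ℝ) : ℂ) * fderiv ℝ w x (EuclideanSpace.single q (1 : ℝ))) ∧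
    ∫ x : (Cfg dc), ((x p : ℝ) : ℂ) * fderiv ℝ w x (EuclideanSpace.single q (1 : ℝ)) = 0 := by
  have hcd : ContDiff ℝ 1 (fun x : (Cfg dc) => ((x p : ℝ) : ℂ)) :=
    (Setup.contDiff_ofReal (Setup.contDiff_coord p)).of_le (by simp)
  have hder : ∀ (x : (Cfg dc)),
      fderiv ℝ (fun x : (Cfg dc) => ((x p : ℝ) : ℂ) * w x) x (EuclideanSpace.single q (1 : ℝ)) =
        ((x p : ℝ) : ℂ) * fderiv ℝ w x (EuclideanSpace.single q (1 : ℝ)) := by
    intro x
    rw [fderiv_fun_mul (hcd.differentiable (by simp) x) (hw.differentiable (by simp) x)]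
    have hdp : fderiv ℝ (fun y : (Cfg dc) => ((y p : ℝ) : ℂ)) x (EuclideanSpace.single q (1 : ℝ)) = 0 := by
      have hL : (fun y : (Cfg dc) => y p) = (EuclideanSpace.proj (𝕜 := ℝ) p : (Cfg dc) →L[ℝ] ℝ) := rfl
      have h := fderiv_ofReal_comp (d := dc) (φ := fun y : (Cfg dc) => y p) (x := x)
        (by rw [hL]; exact (EuclideanSpace.proj (𝕜 := ℝ) p : (Cfg dc) →L[ℝ] ℝ).differentiableAt)
        (EuclideanSpace.single q (1 : ℝ))
      rw [h, hL, ContinuousLinearMap.fderiv]
      simp [hpq]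
    simp only [_root_.add_apply, _root_.smul_apply, smul_eq_mul, hdp]
    ring
  have hcs : HasCompactSupport (fun x : (Cfg dc) => ((x p : ℝ) : ℂ) * w x) := hc.mul_left
  have hsm : ContDiff ℝ 1 (fun x : (Cfg dc) => ((x p : ℝ) : ℂ) * w x) := hcd.mul hw
  have hint : Integrable (fun x : (Cfg dc) =>
      fderiv ℝ (fun x : (Cfg dc) => ((x p : ℝ) : ℂ) * w x) x (EuclideanSpace.single q (1 : ℝ))) :=
    ((hsm.continuous_fderiv (by simp)).clm_apply
        continuous_const).integrable_of_hasCompactSupport (hcs.fderiv_apply (𝕜 := ℝ) _)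
  have hz := integral_fderiv_eq_zero _ hsm hcs (EuclideanSpace.single q (1 : ℝ))
  simp only [hder] at hint hz
  exact ⟨hint, hz⟩

namespace Setup

variable (S : Setup dc F)

lemma contDiff_G (C : Fin dc) {u : (Cfg dc) → F} (hu : ContDiff ℝ ∞ u) : ContDiff ℝ ∞ (S.G C u) := by
  unfold G
  refine ContDiff.add (ContDiff.const_smul _ (ContDiff.sum fun i _ => ContDiff.sum fun A _ =>
    ContDiff.sum fun B _ => ?_)) (contDiff_clm_apply' contDiff_const hu)
  exact (contDiff_const.mul (contDiff_ofReal (contDiff_coord _))).smul (contDiff_pd hu)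

lemma hasCompactSupport_G (C : Fin dc) {u : (Cfg dc) → F} (hu : HasCompactSupport u) :
    HasCompactSupport (S.G C u) := by
  refine HasCompactSupport.intro' (K := tsupport u) hu (isClosed_tsupport u) ?_
  intro x hx
  have h0 : u x = 0 := image_eq_zero_of_notMem_tsupport hx
  have h1 : ∀ i A, _root_.Vale.Agent.P353.pd i A u x = 0 := by
    intro i A
    have : fderiv ℝ u x = 0 := by
      have h := (tsupport_fderiv_subset ℝ (f := u))
      by_contra hne
      exact hx (h (subset_tsupport _ hne))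
    simp [_root_.Vale.Agent.P353.pd, this]
  simp [G, h0, h1]

lemma Tst.G {u : (Cfg dc) → F} (hu : Tst u) (C : Fin dc) : Tst (S.G C u) :=
  ⟨S.contDiff_G C hu.1, S.hasCompactSupport_G C hu.2⟩

lemma contDiff_MM (β : Fin 16) : ContDiff ℝ ∞ (S.MM β) := by
  unfold MM
  refine ContDiff.sum fun i _ => ContDiff.sum fun A _ => ?_
  exact (contDiff_ofReal (contDiff_const.mul (contDiff_coord _))).smul contDiff_const

/-- `M_β(x)` is symmetric -/
lemma MM_symm (β : Fin 16) (x : (Cfg dc)) (v w : F) :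
    inner ℂ (S.MM β x v) w = inner ℂ v (S.MM β x w) := by
  have h : ∀ i, ∀ a b, ((S.g i * S.Gam) a b).im = 0 := fun i =>
    mul_im_zero (S.g_im i) S.Gam_real
  simp only [MM, _root_.sum_apply, _root_.smul_apply, sum_inner, inner_sum, inner_smul_left,
    inner_smul_right, S.vec_symm _ (h _), Complex.conj_ofReal]

lemma Tst.MM {u : (Cfg dc) → F} (hu : Tst u) (β : Fin 16) : Tst (fun x => S.MM β x (u x)) :=
  Tst.clm (S.contDiff_MM β) hu

lemma contDiff_Qm (m : ℝ) (β : Fin 16) {u : (Cfg dc) → F} (hu : ContDiff ℝ ∞ u) :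
    ContDiff ℝ ∞ (S.Qm m β u) := by
  unfold Qm
  exact (S.contDiff_Q β hu).add (contDiff_const.smul (contDiff_clm_apply' (S.contDiff_MM β) hu))

lemma Tst.cst {u : (Cfg dc) → F} (hu : Tst u) (c : ℂ) : Tst (fun x => c • u x) := by
  refine ⟨contDiff_const.smul hu.1, hu.2.mono ?_⟩
  intro x hx
  simp only [Function.mem_support] at hx ⊢
  intro h0
  exact hx (by rw [h0, smul_zero])

lemma Tst.zero : Tst (fun _ : (Cfg dc) => (0 : F)) := ⟨contDiff_const, HasCompactSupport.zero⟩

lemma Tst.sum {ι : Type*} (s : Finset ι) {u : ι → (Cfg dc) → F} (hu : ∀ j, Tst (u j)) :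
    Tst (fun x => ∑ j ∈ s, u j x) := by
  classical
  induction s using Finset.induction_on with
  | empty => simpa using Tst.zero
  | insert a s ha ih =>
    simp only [Finset.sum_insert ha]
    exact (hu a).add ih

lemma Tst.Qm {u : (Cfg dc) → F} (hu : Tst u) (m : ℝ) (β : Fin 16) : Tst (S.Qm m β u) :=
  (hu.Q S β).add ((Tst.MM S hu β).cst _)

lemma Qm_add {m : ℝ} {β : Fin 16} {u v : (Cfg dc) → F} {x : (Cfg dc)} (hu : DifferentiableAt ℝ u x)
    (hv : DifferentiableAt ℝ v x) :
    S.Qm m β (fun y => u y + v y) x = S.Qm m β u x + S.Qm m β v x := by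
  simp only [Qm, Q, pd_add hu hv, map_add, Finset.sum_add_distrib, smul_add]
  abel

lemma Qm_cst {m : ℝ} {β : Fin 16} (c : ℂ) {u : (Cfg dc) → F} {x : (Cfg dc)} (hu : DifferentiableAt ℝ u x) :
    S.Qm m β (fun y => c • u y) x = c • S.Qm m β u x := by
  have h : ∀ i A, _root_.Vale.Agent.P353.pd i A (fun y => c • u y) x =
      c • _root_.Vale.Agent.P353.pd i A u x := by
    intro i A
    unfold _root_.Vale.Agent.P353.pd
    rw [fderiv_fun_const_smul hu]; rfl
  simp only [Qm, Q, h, map_smul, smul_add, Finset.smul_sum]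
  simp only [smul_comm c]

lemma Qm_sum {ι : Type*} (s : Finset ι) {m : ℝ} {β : Fin 16} {u : ι → (Cfg dc) → F}
    (hu : ∀ j, Tst (u j)) (x : (Cfg dc)) :
    S.Qm m β (fun y => ∑ j ∈ s, u j y) x = ∑ j ∈ s, S.Qm m β (u j) x := by
  classical
  induction s using Finset.induction_on with
  | empty =>
    have h : ∀ i A, _root_.Vale.Agent.P353.pd i A (fun _ : (Cfg dc) => (0 : F)) x = 0 := by
      intro i A
      simp [_root_.Vale.Agent.P353.pd]
    simp [Qm, Q, h]
  | insert a s ha ih =>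
    simp only [Finset.sum_insert ha]
    rw [S.Qm_add ((hu a).diff x) ((Tst.sum s hu).diff x), ih]

end Setup

/-- symmetry of the gauge generators -/
theorem G_symm (S : Setup dc F) (C : Fin dc) (u v : (Cfg dc) → F) (hu : Setup.Tst u)
    (hv : ContDiff ℝ ∞ v) :
    ∫ x, inner ℂ (S.G C u x) (v x) = ∫ x, inner ℂ (u x) (S.G C v x) := by
  have hv1 : ContDiff ℝ 1 v := hv.of_le (by simp)
  have hu1 : ContDiff ℝ 1 u := hu.1.of_le (by simp)
  have hw : ContDiff ℝ 1 (fun y => inner ℂ (u y) (v y)) := hu1.inner ℂ hv1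
  have hcs : HasCompactSupport (fun y => inner ℂ (u y) (v y)) := hu.inner_cs
  have hd : ∀ i A x, fderiv ℝ (fun y => inner ℂ (u y) (v y)) x
      (EuclideanSpace.single (i, A) (1 : ℝ)) =
      inner ℂ (u x) (pd i A v x) + inner ℂ (pd i A u x) (v x) := by
    intro i A x
    rw [fderiv_inner_apply ℂ ((hu1.differentiable (by simp)) x) ((hv1.differentiable (by simp)) x)]
    rfl
  have hpt : ∀ x, inner ℂ (S.G C u x) (v x) - inner ℂ (u x) (S.G C v x) =
      ∑ i, ∑ A, ∑ B, (Complex.I * (S.f C A B : ℂ)) * (((x (i, A) : ℝ) : ℂ) *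
        fderiv ℝ (fun y => inner ℂ (u y) (v y)) x (EuclideanSpace.single (i, B) (1 : ℝ))) := by
    intro x
    have he : ∀ A B, (starRingEnd ℂ) (S.f C A B : ℂ) = (S.f C A B : ℂ) := by
      intro A B
      simp
    simp only [hd, Setup.G, inner_add_left, inner_add_right, inner_smul_left, inner_smul_right,
      sum_inner, inner_sum, S.cS_symm, Complex.conj_ofReal, map_mul, he]
    simp only [map_neg, Complex.conj_I, neg_neg]
    rw [Finset.mul_sum, neg_mul, Finset.mul_sum, add_sub_add_right_eq_sub, sub_neg_eq_add,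
      ← Finset.sum_add_distrib]
    refine Finset.sum_congr rfl fun i _ => ?_
    rw [Finset.mul_sum, Finset.mul_sum, ← Finset.sum_add_distrib]
    refine Finset.sum_congr rfl fun A _ => ?_
    rw [Finset.mul_sum, Finset.mul_sum, ← Finset.sum_add_distrib]
    refine Finset.sum_congr rfl fun B _ => ?_
    ring
  have hI : ∫ x, (inner ℂ (S.G C u x) (v x) - inner ℂ (u x) (S.G C v x)) = 0 := by
    simp only [hpt]
    have hterm : ∀ (i : Fin 9) (A B : Fin dc), Integrable (fun x : (Cfg dc) =>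
        (Complex.I * (S.f C A B : ℂ)) * (((x (i, A) : ℝ) : ℂ) *
        fderiv ℝ (fun y => inner ℂ (u y) (v y)) x (EuclideanSpace.single (i, B) (1 : ℝ)))) ∧
        ∫ x : (Cfg dc), (Complex.I * (S.f C A B : ℂ)) * (((x (i, A) : ℝ) : ℂ) *
        fderiv ℝ (fun y => inner ℂ (u y) (v y)) x (EuclideanSpace.single (i, B) (1 : ℝ))) = 0 := by
      intro i A B
      by_cases hAB : A = B
      · subst hAB
        have : (S.f C A A : ℂ) = 0 := by
          have h9 := S.f_swap' C A A
          have h10 : S.f C A A = 0 := by linarith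
          rw [h10, Complex.ofReal_zero]
        simp [this]
      · have h1 := integral_gauge_eq_zero (p := (i, A)) (q := (i, B))
          (by simpa using hAB) _ hw hcs
        refine ⟨h1.1.const_mul _, ?_⟩
        rw [integral_const_mul, h1.2, mul_zero]
    rw [integral_finsetSum _ fun i _ => integrable_finsetSum _ fun A _ =>
      integrable_finsetSum _ fun B _ => (hterm i A B).1]
    refine Finset.sum_eq_zero fun i _ => ?_
    rw [integral_finsetSum _ fun A _ => integrable_finsetSum _ fun B _ => (hterm i A B).1]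
    refine Finset.sum_eq_zero fun A _ => ?_
    rw [integral_finsetSum _ fun B _ => (hterm i A B).1]
    exact Finset.sum_eq_zero fun B _ => (hterm i A B).2
  rw [integral_sub ((hu.G S C).inner_int hv.continuous)
    (hu.inner_int (S.contDiff_G C hv).continuous)] at hI
  exact sub_eq_zero.mp hI

/-- symmetry of the BMN supercharges -/
theorem Qm_symm (S : Setup dc F) (m : ℝ) (β : Fin 16) (u v : (Cfg dc) → F) (hu : Setup.Tst u)
    (hv : ContDiff ℝ ∞ v) :
    ∫ x, inner ℂ (S.Qm m β u x) (v x) = ∫ x, inner ℂ (u x) (S.Qm m β v x) := by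
  have h1 : ∀ x, inner ℂ (S.Qm m β u x) (v x) = inner ℂ (S.Q β u x) (v x) +
      (m : ℂ) * inner ℂ (u x) (S.MM β x (v x)) := by
    intro x
    simp only [Setup.Qm, inner_add_left, inner_smul_left, Complex.conj_ofReal, S.MM_symm]
  have h2 : ∀ x, inner ℂ (u x) (S.Qm m β v x) = inner ℂ (u x) (S.Q β v x) +
      (m : ℂ) * inner ℂ (u x) (S.MM β x (v x)) := by
    intro x
    simp only [Setup.Qm, inner_add_right, inner_smul_right]
  have h3 : Integrable (fun x => (m : ℂ) * inner ℂ (u x) (S.MM β x (v x))) :=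
    (hu.inner_int (Setup.contDiff_clm_apply' (S.contDiff_MM β) hv).continuous).const_mul _
  simp only [h1, h2]
  rw [integral_add ((hu.Q S β).inner_int hv.continuous) h3,
    integral_add (hu.inner_int (S.contDiff_Q β hv).continuous) h3, Q_symm S β u v hu hv]

namespace Setup

variable {S : Setup dc F}

/-- the strong `Q_βΨ` are the weak ones -/
lemma Str.wQ {m : ℝ} {Ψ : (Cfg dc) → F} {Φ : Fin 16 → (Cfg dc) → F} (h : S.Str m Ψ Φ) (β : Fin 16) :
    S.wQ m β Ψ (Φ β) := by
  obtain ⟨u, hu, h1, h2⟩ := h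
  intro ζ hζ
  have hQ : Tst (S.Qm m β ζ) := hζ.Qm S m β
  have hc : ∀ {f : (Cfg dc) → F}, Tst f → L2t (fun _ : ℕ => f) f := fun {f} hf =>
    ⟨fun _ => hf.memLp, hf.memLp, by simp [nsq]⟩
  have l1 := (hc hQ).lim_inner h1
  have l2 := (hc hζ).lim_inner (h2 β)
  refine tendsto_nhds_unique l1 (l2.congr fun n => ?_)
  exact (Qm_symm S m β ζ (u n) hζ (hu n).1).symm

end Setup
end Vale.Agent.P353.Z
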