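import Vale.Agent.P353.Z.U.StmtD
import Vale.Agent.P353.Z.U.Sym

/-! # P353, general `N`: zero modes of `H_N` give low states of the BMN model (`SmallStmt`) -/

open MeasureTheory Filter Topology
open scoped ContDiff

namespace Vale.Agent.P353.Z.U

variable {d : ℕ} {F : Type*} [NormedAddCommGroup F] [InnerProductSpace ℂ F]

lemma small_weak (S : Setup d F) (hJ : ZJStmt S) (Ψ : Lp F 2 (volume : Measure (Cfg d)))
    (hΨ : S.IsZM Ψ) : S.wG Ψ ∧ S.wJ Ψ ∧ ∀ β, S.wQ 0 β Ψ (fun _ => 0) := by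
  refine ⟨?_, fun k l hkl ζ hζ => hJ Ψ hΨ k l hkl.1 ζ hζ, ?_⟩
  all_goals obtain ⟨u, hu⟩ := hΨ
  all_goals have hT := hu.1
  all_goals have hL : L2t u Ψ := Lp_L2t hT hu.2.2.1
  · have hc : ∀ {f : Cfg d → F}, Setup.Tst f → L2t (fun _ : ℕ => f) f := fun {f} hf =>
      ⟨fun _ => hf.memLp, hf.memLp, by simp [nsq]⟩
    intro C ζ hζ
    have l1 := (hc (hζ.G S C)).lim_inner hL
    refine tendsto_nhds_unique l1 (tendsto_const_nhds.congr fun n => ?_)
    rw [G_symm S C ζ (u n) hζ (hT n).1]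
    simp only [hu.2.1 n C, inner_zero_right, integral_zero]
  · have hS : S.Str 0 Ψ (fun _ _ => 0) := by
      have h0 : ∀ β n, S.Qm 0 β (u n) = S.Q β (u n) := by
        intro β n
        funext x
        simp [Setup.Qm]
      refine ⟨u, hT, hL, fun β => ?_⟩
      simp only [h0]
      exact zero_L2t (fun n => (hT n).Q S β) (hu.2.2.2 β)
    exact fun β => hS.wQ β

lemma small_MM_bound (S : Setup d F) : ∃ K : ℝ, 0 ≤ K ∧ ∀ β x, ‖S.MM β x‖ ≤ K * ‖x‖ := by
  refine ⟨∑ β : Fin 16, ∑ i : Fin 9, ∑ A : Fin d, |aw i| * ‖S.vec (S.g i * S.Gam) A β‖,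
    Finset.sum_nonneg fun β _ => Finset.sum_nonneg fun i _ => Finset.sum_nonneg fun A _ =>
      by positivity, fun β x => ?_⟩
  have h1 : ‖S.MM β x‖ ≤ ∑ i : Fin 9, ∑ A : Fin d, |aw i| * ‖S.vec (S.g i * S.Gam) A β‖ * ‖x‖ := by
    unfold Setup.MM
    refine (norm_sum_le _ _).trans (Finset.sum_le_sum fun i _ => (norm_sum_le _ _).trans
      (Finset.sum_le_sum fun A _ => ?_))
    rw [norm_smul, Complex.norm_real, Real.norm_eq_abs, abs_mul]
    have h2 : |x (i, A)| ≤ ‖x‖ := by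
      have := PiLp.norm_apply_le x (i, A)
      simpa using this
    have h3 : 0 ≤ |aw i| := abs_nonneg _
    have h4 : 0 ≤ ‖S.vec (S.g i * S.Gam) A β‖ := norm_nonneg _
    calc |aw i| * |x (i, A)| * ‖S.vec (S.g i * S.Gam) A β‖
        = |aw i| * ‖S.vec (S.g i * S.Gam) A β‖ * |x (i, A)| := by ring
      _ ≤ |aw i| * ‖S.vec (S.g i * S.Gam) A β‖ * ‖x‖ := by gcongr
  refine h1.trans ?_
  simp only [← Finset.sum_mul]
  refine mul_le_mul_of_nonneg_right ?_ (norm_nonneg _)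
  exact Finset.single_le_sum (f := fun β : Fin 16 => ∑ i : Fin 9, ∑ A : Fin d,
    |aw i| * ‖S.vec (S.g i * S.Gam) A β‖) (fun β _ => Finset.sum_nonneg fun i _ =>
      Finset.sum_nonneg fun A _ => by positivity) (Finset.mem_univ β)

lemma small_nsq_sum_le {k : ℕ} (a : Fin k → ℂ) (v : Fin k → Cfg d → F)
    (hv : ∀ j, MemLp (v j) 2 (volume : Measure (Cfg d))) :
    nsq (fun x => ∑ j, a j • v j x) ≤ (∑ j, ‖a j‖ ^ 2) * ∑ j, nsq (v j) := by
  have h1 : ∑ j, nsq (v j) = ∫ x, ∑ j, ‖v j x‖ ^ 2 := by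
    unfold nsq
    rw [integral_finsetSum _ fun j _ => memLp_norm_sq_int (hv j)]
  rw [h1, nsq, ← integral_const_mul]
  refine integral_mono_of_nonneg (Filter.Eventually.of_forall fun x => by positivity)
    ((integrable_finsetSum _ fun j _ => memLp_norm_sq_int (hv j)).const_mul _)
    (Filter.Eventually.of_forall fun x => ?_)
  have h2 : ‖∑ j, a j • v j x‖ ≤ ∑ j, ‖a j‖ * ‖v j x‖ :=
    (norm_sum_le _ _).trans (Finset.sum_le_sum fun j _ => by rw [norm_smul])
  calc ‖∑ j, a j • v j x‖ ^ 2 ≤ (∑ j, ‖a j‖ * ‖v j x‖) ^ 2 :=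
        pow_le_pow_left₀ (norm_nonneg _) h2 2
    _ ≤ (∑ j, ‖a j‖ ^ 2) * ∑ j, ‖v j x‖ ^ 2 := Finset.sum_mul_sq_le_sq_mul_sq _ _ _

lemma small_coe_sum {k : ℕ} (a : Fin k → ℂ) (Ψ : Fin k → Lp F 2 (volume : Measure (Cfg d)))
    (s : Finset (Fin k)) : ⇑(∑ j ∈ s, a j • Ψ j) =ᵐ[volume] fun x => ∑ j ∈ s, a j • (Ψ j) x := by
  classical
  induction s using Finset.induction_on with
  | empty =>
    simp only [Finset.sum_empty]
    exact Lp.coeFn_zero F 2 volume
  | insert i s hi ih =>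
    simp only [Finset.sum_insert hi]
    filter_upwards [Lp.coeFn_add (a i • Ψ i) (∑ j ∈ s, a j • Ψ j), Lp.coeFn_smul (a i) (Ψ i), ih]
      with x h1 h2 h3
    rw [h1, Pi.add_apply, h2, h3, Pi.smul_apply]

lemma small_gram {k : ℕ} (Ψ : Fin k → Lp F 2 (volume : Measure (Cfg d)))
    (h : LinearIndependent ℂ Ψ) : ∃ c : ℝ, 0 < c ∧ ∀ a : Fin k → ℂ,
      c * ∑ j, ‖a j‖ ^ 2 ≤ nsq (fun x => ∑ j, a j • (Ψ j) x) := by
  have hker : LinearMap.ker (Fintype.linearCombination ℂ Ψ) = ⊥ :=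
    LinearMap.ker_eq_bot.mpr (linearIndependent_iff_injective_fintypeLinearCombination.mp h)
  obtain ⟨K, hK, hA⟩ := LinearMap.exists_antilipschitzWith (Fintype.linearCombination ℂ Ψ) hker
  refine ⟨1 / ((k + 1) * K ^ 2), by positivity, fun a => ?_⟩
  have h1 : ‖a‖ ≤ K * ‖Fintype.linearCombination ℂ Ψ a‖ := by
    have := hA.le_mul_dist a 0
    simpa [dist_zero_right] using this
  have h2 : ‖Fintype.linearCombination ℂ Ψ a‖ ^ 2 = nsq (fun x => ∑ j, a j • (Ψ j) x) := by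
    have h3 := norm_toLp (Lp.memLp (Fintype.linearCombination ℂ Ψ a))
    rw [Lp.toLp_coeFn] at h3
    rw [h3, Real.sq_sqrt (nsq_nonneg _)]
    refine integral_congr_ae ?_
    have h4 := small_coe_sum a Ψ Finset.univ
    rw [Fintype.linearCombination_apply]
    filter_upwards [h4] with x hx
    rw [hx]
  rw [← h2]
  have h5 : ∑ j, ‖a j‖ ^ 2 ≤ k * ‖a‖ ^ 2 := by
    have : ∀ j ∈ Finset.univ, ‖a j‖ ^ 2 ≤ ‖a‖ ^ 2 := fun j _ =>
      pow_le_pow_left₀ (norm_nonneg _) (norm_le_pi_norm a j) 2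
    refine (Finset.sum_le_card_nsmul _ _ _ this).trans ?_
    simp
  have h6 : ‖a‖ ^ 2 ≤ (K : ℝ) ^ 2 * ‖Fintype.linearCombination ℂ Ψ a‖ ^ 2 := by
    rw [← mul_pow]
    exact pow_le_pow_left₀ (norm_nonneg _) h1 2
  have hK' : (0 : ℝ) < K := hK
  rw [one_div, inv_mul_le_iff₀ (by positivity)]
  calc ∑ j, ‖a j‖ ^ 2 ≤ k * ‖a‖ ^ 2 := h5
    _ ≤ (k + 1) * ((K : ℝ) ^ 2 * ‖Fintype.linearCombination ℂ Ψ a‖ ^ 2) := by
        have : (k : ℝ) ≤ k + 1 := by linarith
        have h7 : 0 ≤ (K : ℝ) ^ 2 * ‖Fintype.linearCombination ℂ Ψ a‖ ^ 2 := by positivity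
        exact mul_le_mul this h6 (by positivity) (by positivity)
    _ = (k + 1) * (K : ℝ) ^ 2 * ‖Fintype.linearCombination ℂ Ψ a‖ ^ 2 := by ring

omit [InnerProductSpace ℂ F] in
lemma small_tail {f : Cfg d → F} (hf : MemLp f 2 (volume : Measure (Cfg d))) :
    Tendsto (fun R : ℝ => ∫ x, (if R / 4 ≤ ‖x‖ then ‖f x‖ ^ 2 else 0)) atTop (𝓝 0) := by
  have hint := memLp_norm_sq_int hf
  have h := tendsto_integral_filter_of_dominated_convergence (μ := (volume : Measure (Cfg d)))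
    (l := (atTop : Filter ℝ)) (F := fun (R : ℝ) (x : Cfg d) => if R / 4 ≤ ‖x‖ then ‖f x‖ ^ 2 else 0)
    (f := fun _ => (0 : ℝ)) (fun x => ‖f x‖ ^ 2) ?_ ?_ hint ?_
  · simpa using h
  · refine Filter.Eventually.of_forall fun R => ?_
    have : (fun x : Cfg d => if R / 4 ≤ ‖x‖ then ‖f x‖ ^ 2 else 0) =
        Set.indicator {x | R / 4 ≤ ‖x‖} (fun x => ‖f x‖ ^ 2) := by
      funext x
      simp [Set.indicator]
    rw [this]
    exact hint.1.indicator (measurableSet_le measurable_const measurable_norm)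
  · refine Filter.Eventually.of_forall fun R => Filter.Eventually.of_forall fun x => ?_
    by_cases hx : R / 4 ≤ ‖x‖
    · simp [hx]
    · simp [hx]
  · refine Filter.Eventually.of_forall fun x => ?_
    refine tendsto_const_nhds.congr' ?_
    filter_upwards [eventually_gt_atTop (4 * ‖x‖)] with R hR
    rw [if_neg]
    rw [not_le]
    linarith

omit [InnerProductSpace ℂ F] in
lemma small_mom_int {f : Cfg d → F} (hf : MemLp f 2 (volume : Measure (Cfg d))) (R : ℝ)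
    (hR : 0 < R) :
    Integrable (fun x : Cfg d => if ‖x‖ ≤ R then (‖x‖ / R) ^ 2 * ‖f x‖ ^ 2 else 0) := by
  have hint := memLp_norm_sq_int hf
  have h0 : (fun x : Cfg d => if ‖x‖ ≤ R then (‖x‖ / R) ^ 2 * ‖f x‖ ^ 2 else 0) =
      Set.indicator {x | ‖x‖ ≤ R} (fun x => (‖x‖ / R) ^ 2 * ‖f x‖ ^ 2) := by
    funext x
    simp [Set.indicator]
  have hm : AEStronglyMeasurable (fun x : Cfg d => if ‖x‖ ≤ R then (‖x‖ / R) ^ 2 * ‖f x‖ ^ 2
      else 0) volume := by
    rw [h0]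
    refine AEStronglyMeasurable.indicator ?_ (measurableSet_le measurable_norm measurable_const)
    exact (by fun_prop : Continuous fun x : Cfg d => (‖x‖ / R) ^ 2).aestronglyMeasurable.mul hint.1
  refine hint.mono' hm (Filter.Eventually.of_forall fun x => ?_)
  by_cases hx : ‖x‖ ≤ R
  · rw [if_pos hx, Real.norm_of_nonneg (by positivity)]
    have h1 : ‖x‖ / R ≤ 1 := (div_le_one hR).mpr hx
    have h2 : 0 ≤ ‖x‖ / R := by positivity
    have h3 : (‖x‖ / R) ^ 2 ≤ 1 := by nlinarith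
    nlinarith [sq_nonneg ‖f x‖]
  · rw [if_neg hx, norm_zero]
    positivity

omit [InnerProductSpace ℂ F] in
lemma small_mom {f : Cfg d → F} (hf : MemLp f 2 (volume : Measure (Cfg d))) :
    Tendsto (fun R : ℝ => ∫ x, (if ‖x‖ ≤ R then (‖x‖ / R) ^ 2 * ‖f x‖ ^ 2 else 0)) atTop
      (𝓝 0) := by
  have hint := memLp_norm_sq_int hf
  have h := tendsto_integral_filter_of_dominated_convergence (μ := (volume : Measure (Cfg d)))
    (l := (atTop : Filter ℝ))
    (F := fun (R : ℝ) (x : Cfg d) => if ‖x‖ ≤ R then (‖x‖ / R) ^ 2 * ‖f x‖ ^ 2 else 0)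
    (f := fun _ => (0 : ℝ)) (fun x => ‖f x‖ ^ 2) ?_ ?_ hint ?_
  · simpa using h
  · filter_upwards [eventually_gt_atTop (0 : ℝ)] with R hR
    exact (small_mom_int hf R hR).1
  · filter_upwards [eventually_gt_atTop (0 : ℝ)] with R hR
    refine Filter.Eventually.of_forall fun x => ?_
    by_cases hx : ‖x‖ ≤ R
    · rw [if_pos hx, Real.norm_of_nonneg (by positivity)]
      have h1 : ‖x‖ / R ≤ 1 := (div_le_one hR).mpr hx
      have h2 : 0 ≤ ‖x‖ / R := by positivity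
      have h3 : (‖x‖ / R) ^ 2 ≤ 1 := by nlinarith
      nlinarith [sq_nonneg ‖f x‖]
    · rw [if_neg hx, norm_zero]
      positivity
  · refine Filter.Eventually.of_forall fun x => ?_
    have h1 : Tendsto (fun R : ℝ => (‖x‖ / R) ^ 2 * ‖f x‖ ^ 2) atTop (𝓝 0) := by
      have h2 : Tendsto (fun R : ℝ => ‖x‖ / R) atTop (𝓝 0) := tendsto_const_nhds.div_atTop tendsto_id
      have h3 := (h2.pow 2).mul_const (‖f x‖ ^ 2)
      simpa using h3
    refine squeeze_zero (fun R => ?_) (fun R => ?_) h1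
    · split_ifs <;> positivity
    · split_ifs
      · exact le_rfl
      · positivity

/-- the second moment of the cut off function -/
lemma small_MM_nsq (S : Setup d F) {K : ℝ} (hMM : ∀ β x, ‖S.MM β x‖ ≤ K * ‖x‖)
    {Ψ : Cfg d → F} (hΨ : MemLp Ψ 2 (volume : Measure (Cfg d))) {u : Cfg d → F}
    (hu : Setup.Tst u) {R : ℝ} (hR : 0 < R) (h0 : ∀ x, R ≤ ‖x‖ → u x = 0) (β : Fin 16) :
    nsq (fun x => S.MM β x (u x)) ≤ K ^ 2 * (2 * R ^ 2 * nsq (fun x => u x - Ψ x) +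
      2 * R ^ 2 * ∫ x, (if ‖x‖ ≤ R then (‖x‖ / R) ^ 2 * ‖Ψ x‖ ^ 2 else 0)) := by
  have i1 : Integrable (fun x => ‖u x - Ψ x‖ ^ 2) := memLp_norm_sq_int (hu.memLp.sub hΨ)
  have i2 := small_mom_int hΨ R hR
  rw [nsq, nsq, ← integral_const_mul, ← integral_const_mul, ← integral_add
    (i1.const_mul _) (i2.const_mul _), ← integral_const_mul]
  refine integral_mono_of_nonneg (Filter.Eventually.of_forall fun x => by positivity)
    (((i1.const_mul _).add (i2.const_mul _)).const_mul _) (Filter.Eventually.of_forall fun x => ?_)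
  have h1 : ‖S.MM β x (u x)‖ ≤ K * ‖x‖ * ‖u x‖ :=
    ((S.MM β x).le_opNorm _).trans (mul_le_mul_of_nonneg_right (hMM β x) (norm_nonneg _))
  have h2 : ‖S.MM β x (u x)‖ ^ 2 ≤ K ^ 2 * (‖x‖ ^ 2 * ‖u x‖ ^ 2) := by
    have := pow_le_pow_left₀ (norm_nonneg _) h1 2
    calc _ ≤ (K * ‖x‖ * ‖u x‖) ^ 2 := this
      _ = _ := by ring
  refine h2.trans (mul_le_mul_of_nonneg_left ?_ (by positivity))
  by_cases hx : ‖x‖ ≤ R
  · simp only [if_pos hx]
    have h3 : ‖u x‖ ≤ ‖u x - Ψ x‖ + ‖Ψ x‖ := by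
      have := norm_add_le (u x - Ψ x) (Ψ x)
      simpa using this
    have h4 : ‖u x‖ ^ 2 ≤ 2 * ‖u x - Ψ x‖ ^ 2 + 2 * ‖Ψ x‖ ^ 2 := by
      have h5 := norm_nonneg (u x)
      nlinarith [sq_nonneg (‖u x - Ψ x‖ - ‖Ψ x‖)]
    have h6 : ‖x‖ ^ 2 ≤ R ^ 2 := pow_le_pow_left₀ (norm_nonneg _) hx 2
    have h7 : 2 * R ^ 2 * ((‖x‖ / R) ^ 2 * ‖Ψ x‖ ^ 2) = 2 * ‖x‖ ^ 2 * ‖Ψ x‖ ^ 2 := by
      field_simp
    rw [h7]
    have h8 := mul_le_mul_of_nonneg_left h4 (sq_nonneg ‖x‖)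
    nlinarith [mul_le_mul_of_nonneg_right h6 (sq_nonneg ‖u x - Ψ x‖)]
  · have hx' : R ≤ ‖x‖ := le_of_lt (not_le.mp hx)
    rw [h0 x hx', if_neg hx]
    simp only [norm_zero]
    have : 0 ≤ ‖0 - Ψ x‖ ^ 2 := by positivity
    nlinarith [sq_nonneg R, mul_nonneg (sq_nonneg R) this]

theorem small (S : Setup d F) (k : ℕ) (hJ : ZJStmt S) (hA : AppStmt S) : SmallStmt S k := by
  intro Ψ hZ hli
  obtain ⟨K, hK, hMM⟩ := small_MM_bound S
  obtain ⟨c, hc, hgram⟩ := small_gram Ψ hli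
  have hw := fun j => small_weak S hJ (Ψ j) (hZ j)
  have hmem : ∀ j, MemLp (Ψ j) 2 (volume : Measure (Cfg d)) := fun j => Lp.memLp (Ψ j)
  choose C hC happ using fun j => hA (Ψ j) (hmem j) (hw j).1 (hw j).2.1 (hw j).2.2
  -- tails
  set T : Fin k → ℝ → ℝ := fun j R => ∫ x, (if R / 4 ≤ ‖x‖ then ‖Ψ j x‖ ^ 2 else 0) with hTdef
  set M : Fin k → ℝ → ℝ := fun j R =>
    ∫ x, (if ‖x‖ ≤ R then (‖x‖ / R) ^ 2 * ‖Ψ j x‖ ^ 2 else 0) with hMdef
  have hT0 : ∀ j, Tendsto (T j) atTop (𝓝 0) := fun j => small_tail (hmem j)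
  have hM0 : ∀ j, Tendsto (M j) atTop (𝓝 0) := fun j => small_mom (hmem j)
  have hr0 : Tendsto (fun R : ℝ => 1 / R ^ 2) atTop (𝓝 0) := by
    have h2 : Tendsto (fun R : ℝ => R ^ 2) atTop atTop := tendsto_pow_atTop (by norm_num)
    exact tendsto_const_nhds.div_atTop h2
  set E : Fin k → ℝ → ℝ := fun j R => (1 / R ^ 2) ^ 2 + C j * T j R with hEdef
  have hE0 : ∀ j, Tendsto (E j) atTop (𝓝 0) := by
    intro j
    have h := (hr0.pow 2).add ((hT0 j).const_mul (C j))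
    rw [mul_zero, add_zero, zero_pow (by norm_num)] at h
    exact h
  set H : Fin k → ℝ → ℝ := fun j R => 16 * (2 * (1 / R ^ 2) + 2 * C j * T j R +
    2 * K ^ 2 * (2 * E j R + 2 * M j R)) with hHdef
  have hH0 : ∀ j, Tendsto (H j) atTop (𝓝 0) := by
    intro j
    have := (((hr0.const_mul 2).add ((hT0 j).const_mul (2 * C j))).add
      ((((hE0 j).const_mul 2).add ((hM0 j).const_mul 2)).const_mul (2 * K ^ 2))).const_mul 16
    simp only [mul_zero, add_zero] at this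
    exact this
  have hsE : Tendsto (fun R => ∑ j, E j R) atTop (𝓝 0) := by
    have := tendsto_finsetSum (Finset.univ : Finset (Fin k)) fun j _ => hE0 j
    simpa using this
  have hsH : Tendsto (fun R => ∑ j, H j R) atTop (𝓝 0) := by
    have := tendsto_finsetSum (Finset.univ : Finset (Fin k)) fun j _ => hH0 j
    simpa using this
  obtain ⟨R, hR1, hRE, hRH⟩ := ((eventually_ge_atTop (1 : ℝ)).and
    ((hsE.eventually (gt_mem_nhds (by positivity : (0 : ℝ) < c / 4))).and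
      (hsH.eventually (gt_mem_nhds hc)))).exists
  have hR0 : 0 < R := by linarith
  set m : ℝ := 1 / R ^ 2 with hm
  have hm0 : 0 < m := by positivity
  have hmR : m * R ^ 2 = 1 := by rw [hm]; field_simp
  choose u hInv hsupp hn hq using fun j => happ j R hR1 (m ^ 2) (by positivity)
  refine ⟨m, hm0, u, hInv, fun a ha => ?_⟩
  have hTst : ∀ j, Setup.Tst (u j) := fun j => (hInv j).1
  have hsum_pos : 0 < ∑ j, ‖a j‖ ^ 2 := by
    obtain ⟨j, hj⟩ : ∃ j, a j ≠ 0 := by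
      by_contra h
      push Not at h
      exact ha (funext h)
    have hj' : 0 < ‖a j‖ ^ 2 := by
      have := norm_pos_iff.mpr hj
      positivity
    exact lt_of_lt_of_le hj' (Finset.single_le_sum (f := fun j => ‖a j‖ ^ 2)
      (fun j _ => by positivity) (Finset.mem_univ j))
  -- upper bound
  have hE' : ∀ j, nsq (fun x => u j x - Ψ j x) ≤ E j R := fun j => hn j
  have hup : ∀ j, ∑ β, nsq (S.Qm m β (u j)) ≤ m * H j R := by
    intro j
    have h1 : ∀ β ∈ (Finset.univ : Finset (Fin 16)), nsq (S.Qm m β (u j)) ≤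
        m * (2 * m + 2 * C j * T j R + 2 * K ^ 2 * (2 * E j R + 2 * M j R)) := by
      intro β _
      have h2 : nsq (S.Qm m β (u j)) ≤ 2 * nsq (S.Q β (u j)) +
          2 * nsq (fun x => (m : ℂ) • S.MM β x (u j x)) :=
        nsq_add_le ((hTst j).Q S β).memLp ((Setup.Tst.MM S (hTst j) β).cst _).memLp
      have h3 : nsq (fun x => (m : ℂ) • S.MM β x (u j x)) =
          m ^ 2 * nsq (fun x => S.MM β x (u j x)) := by
        unfold nsq
        rw [← integral_const_mul]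
        refine integral_congr_ae (Filter.Eventually.of_forall fun x => ?_)
        simp only [norm_smul, Complex.norm_real, Real.norm_eq_abs, mul_pow, sq_abs]
      have h4 := small_MM_nsq S hMM (hmem j) (hTst j) hR0 (hsupp j) β
      have h5 := hq j β
      have h6 : C j / R ^ 2 * T j R = m * (C j * T j R) := by
        rw [hm]; ring
      have h7 : nsq (fun x => S.MM β x (u j x)) ≤
          K ^ 2 * (2 * R ^ 2 * E j R + 2 * R ^ 2 * M j R) := by
        refine h4.trans (mul_le_mul_of_nonneg_left ?_ (by positivity))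
        have := mul_le_mul_of_nonneg_left (hE' j) (by positivity : (0 : ℝ) ≤ 2 * R ^ 2)
        linarith
      have h8 : m ^ 2 * nsq (fun x => S.MM β x (u j x)) ≤
          m * (K ^ 2 * (2 * E j R + 2 * M j R)) := by
        have h9 := mul_le_mul_of_nonneg_left h7 (sq_nonneg m)
        refine h9.trans (le_of_eq ?_)
        have : m ^ 2 * (K ^ 2 * (2 * R ^ 2 * E j R + 2 * R ^ 2 * M j R)) =
          m * (m * R ^ 2) * (K ^ 2 * (2 * E j R + 2 * M j R)) := by ring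
        rw [this, hmR, mul_one]
      have h5' : nsq (S.Q β (u j)) ≤ m ^ 2 + m * (C j * T j R) := by
        rw [← h6]; exact h5
      rw [h3] at h2
      nlinarith
    have h10 := Finset.sum_le_card_nsmul _ _ _ h1
    refine h10.trans (le_of_eq ?_)
    simp only [Finset.card_univ, Fintype.card_fin, nsmul_eq_mul, hHdef]
    push_cast
    ring
  have hcomb : ∑ β, nsq (S.Qm m β (fun x => ∑ j, a j • u j x)) ≤
      (∑ j, ‖a j‖ ^ 2) * (m * ∑ j, H j R) := by
    have h1 : ∀ β, nsq (S.Qm m β (fun x => ∑ j, a j • u j x)) ≤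
        (∑ j, ‖a j‖ ^ 2) * ∑ j, nsq (S.Qm m β (u j)) := by
      intro β
      have h2 : S.Qm m β (fun x => ∑ j, a j • u j x) =
          fun x => ∑ j, a j • S.Qm m β (u j) x := by
        funext x
        rw [S.Qm_sum Finset.univ (fun j => (hTst j).cst (a j)) x]
        refine Finset.sum_congr rfl fun j _ => ?_
        rw [S.Qm_cst (a j) ((hTst j).diff x)]
      rw [h2]
      exact small_nsq_sum_le a _ fun j => ((hTst j).Qm S m β).memLp
    calc ∑ β, nsq (S.Qm m β (fun x => ∑ j, a j • u j x))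
        ≤ ∑ β, (∑ j, ‖a j‖ ^ 2) * ∑ j, nsq (S.Qm m β (u j)) :=
          Finset.sum_le_sum fun β _ => h1 β
      _ = (∑ j, ‖a j‖ ^ 2) * ∑ j, ∑ β, nsq (S.Qm m β (u j)) := by
          rw [← Finset.mul_sum, Finset.sum_comm]
      _ ≤ (∑ j, ‖a j‖ ^ 2) * ∑ j, m * H j R :=
          mul_le_mul_of_nonneg_left (Finset.sum_le_sum fun j _ => hup j) hsum_pos.le
      _ = _ := by rw [← Finset.mul_sum]
  -- lower bound
  have hlow : (c - 2 * ∑ j, E j R) * ∑ j, ‖a j‖ ^ 2 ≤ 2 * nsq (fun x => ∑ j, a j • u j x) := by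
    have m1 : MemLp (fun x => ∑ j, a j • u j x) 2 (volume : Measure (Cfg d)) :=
      (Setup.Tst.sum Finset.univ fun j => (hTst j).cst (a j)).memLp
    have m2 : MemLp (fun x => ∑ j, a j • (Ψ j x - u j x)) 2 (volume : Measure (Cfg d)) := by
      refine memLp_finsetSum _ fun j _ => ?_
      exact ((hmem j).sub (hTst j).memLp).const_smul (a j)
    have h1 := nsq_add_le m1 m2
    have h2 : (fun x => (∑ j, a j • u j x) + ∑ j, a j • (Ψ j x - u j x)) =
        fun x => ∑ j, a j • Ψ j x := by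
      funext x
      rw [← Finset.sum_add_distrib]
      refine Finset.sum_congr rfl fun j _ => ?_
      rw [← smul_add, add_sub_cancel]
    rw [h2] at h1
    have h3 := small_nsq_sum_le a (fun j x => Ψ j x - u j x)
      fun j => (hmem j).sub (hTst j).memLp
    have h4 : ∑ j, nsq (fun x => Ψ j x - u j x) ≤ ∑ j, E j R := by
      refine Finset.sum_le_sum fun j _ => ?_
      refine le_trans (le_of_eq ?_) (hE' j)
      unfold nsq
      simp only [norm_sub_rev]
    have h5 := mul_le_mul_of_nonneg_left h4 hsum_pos.le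
    have h6 := hgram a
    nlinarith
  have h8 : (∑ j, ‖a j‖ ^ 2) * (m * ∑ j, H j R) < (∑ j, ‖a j‖ ^ 2) * (m * c) :=
    mul_lt_mul_of_pos_left (mul_lt_mul_of_pos_left hRH hm0) hsum_pos
  have h9 : (c / 2) * ∑ j, ‖a j‖ ^ 2 ≤ 2 * nsq (fun x => ∑ j, a j • u j x) := by
    refine le_trans ?_ hlow
    refine mul_le_mul_of_nonneg_right ?_ hsum_pos.le
    linarith
  have h10 : (∑ j, ‖a j‖ ^ 2) * (m * c) ≤ 8 * m * nsq (fun x => ∑ j, a j • u j x) := by
    have h11 := mul_le_mul_of_nonneg_left h9 (by positivity : (0 : ℝ) ≤ 4 * m)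
    have h12 : 0 ≤ m * (c * ∑ j, ‖a j‖ ^ 2) := by positivity
    nlinarith
  linarith

end Vale.Agent.P353.Z.U
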