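import Vale.Agent.P353.Z.U.InvLemA

/-! # P353, uniqueness, task B8: invariance of mollified functions -/

open MeasureTheory Filter Topology
open scoped ContDiff

namespace Vale.Agent.P353.Z.U.InvL

variable {dc : ℕ}

open Vale.Agent.P353.Z.Moll

variable {F : Type*} [NormedAddCommGroup F] [InnerProductSpace ℂ F]

lemma f_sum_zero (S : Setup dc F) (C : Fin dc) (a : Fin dc → ℂ) :
    ∑ A, ∑ B, (S.f C A B : ℂ) * (a A * a B) = 0 := by
  have he : ∀ A B : Fin dc, S.f C B A = - S.f C A B := fun A B => S.f_swap' C A B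
  have h1 : ∑ A, ∑ B, (S.f C A B : ℂ) * (a A * a B) =
      -∑ A, ∑ B, (S.f C A B : ℂ) * (a A * a B) := by
    conv_lhs => rw [Finset.sum_comm]
    rw [← Finset.sum_neg_distrib]
    refine Finset.sum_congr rfl fun A _ => ?_
    rw [← Finset.sum_neg_distrib]
    refine Finset.sum_congr rfl fun B _ => ?_
    rw [he A B]
    push_cast
    ring
  have h2 : (2 : ℂ) * ∑ A, ∑ B, (S.f C A B : ℂ) * (a A * a B) = 0 := by
    linear_combination h1
  simpa using h2

variable (S : Setup dc F)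

lemma G_rad {f : ℝ → ℝ} (hf : ContDiff ℝ ∞ f) (C : Fin dc) (u : (Cfg dc) → F) (x : (Cfg dc))
    (hu : DifferentiableAt ℝ u x) :
    S.G C (fun y => ((rad f y : ℝ) : ℂ) • u y) x = ((rad f x : ℝ) : ℂ) • S.G C u x := by
  have h : ∀ i A, pd i A (fun y => ((rad f y : ℝ) : ℂ) • u y) x =
      ((2 * deriv f (‖x‖ ^ 2) * x (i, A) : ℝ) : ℂ) • u x + ((rad f x : ℝ) : ℂ) • pd i A u x := by
    intro i A
    rw [pd_rsmul ((contDiff_rad hf).differentiable (by simp) x) hu]
    have := pdr_rad hf i A x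
    rw [pdr] at this
    rw [this]
  have e : ∑ i, ∑ A, ∑ B, ((S.f C A B : ℂ) * (x (i, A) : ℂ)) •
      (((2 * deriv f (‖x‖ ^ 2) * x (i, B) : ℝ) : ℂ) • u x) = 0 := by
    refine Finset.sum_eq_zero fun i _ => ?_
    have e1 := f_sum_zero S C (fun A => (x (i, A) : ℂ))
    have e2 : ∑ A, ∑ B, ((S.f C A B : ℂ) * (x (i, A) : ℂ)) •
        (((2 * deriv f (‖x‖ ^ 2) * x (i, B) : ℝ) : ℂ) • u x) =
        ((2 * deriv f (‖x‖ ^ 2) : ℝ) : ℂ) •
          (∑ A, ∑ B, (S.f C A B : ℂ) * ((x (i, A) : ℂ) * (x (i, B) : ℂ))) • u x := by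
      rw [Finset.sum_smul, Finset.smul_sum]
      refine Finset.sum_congr rfl fun A _ => ?_
      rw [Finset.sum_smul, Finset.smul_sum]
      refine Finset.sum_congr rfl fun B _ => ?_
      rw [smul_smul, smul_smul]
      congr 1
      push_cast
      ring
    rw [e2, e1, zero_smul, smul_zero]
  have e3 : ∑ i, ∑ A, ∑ B, ((S.f C A B : ℂ) * (x (i, A) : ℂ)) •
      (((2 * deriv f (‖x‖ ^ 2) * x (i, B) : ℝ) : ℂ) • u x + ((rad f x : ℝ) : ℂ) • pd i B u x) =
      ((rad f x : ℝ) : ℂ) • ∑ i, ∑ A, ∑ B, ((S.f C A B : ℂ) * (x (i, A) : ℂ)) • pd i B u x := by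
    simp only [smul_add, Finset.sum_add_distrib]
    rw [e, zero_add]
    simp only [Finset.smul_sum]
    refine Finset.sum_congr rfl fun i _ => Finset.sum_congr rfl fun A _ =>
      Finset.sum_congr rfl fun B _ => ?_
    rw [smul_comm]
  simp only [Setup.G, h]
  rw [e3, map_smul, smul_add, smul_comm ((rad f x : ℝ) : ℂ) (-Complex.I)]

variable {S} {Ψ : (Cfg dc) → F} {g : ℝ → ℝ}

/-- the radial kernel is killed by the sum of the gauge generators in `x` and in `y` -/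
lemma ker_G (hg : ContDiff ℝ ∞ g) (C : Fin dc) (x y : (Cfg dc)) :
    ∑ i, ∑ A, ∑ B, (S.f C A B : ℂ) * (y (i, A) : ℂ) * ((pdr i B (rad g) (x - y) : ℝ) : ℂ) =
      ∑ i, ∑ A, ∑ B, (S.f C A B : ℂ) * (x (i, A) : ℂ) * ((pdr i B (rad g) (x - y) : ℝ) : ℂ) := by
  refine Finset.sum_congr rfl fun i _ => ?_
  have e1 := f_sum_zero S C (fun A => ((x - y) (i, A) : ℂ))
  have e2 : ∑ A, ∑ B, ((S.f C A B : ℂ) * (x (i, A) : ℂ) * ((pdr i B (rad g) (x - y) : ℝ) : ℂ) -
      (S.f C A B : ℂ) * (y (i, A) : ℂ) * ((pdr i B (rad g) (x - y) : ℝ) : ℂ)) =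
      ((2 * deriv g (‖x - y‖ ^ 2) : ℝ) : ℂ) * ∑ A, ∑ B, (S.f C A B : ℂ) *
        (((x - y) (i, A) : ℂ) * ((x - y) (i, B) : ℂ)) := by
    rw [Finset.mul_sum]
    refine Finset.sum_congr rfl fun A _ => ?_
    rw [Finset.mul_sum]
    refine Finset.sum_congr rfl fun B _ => ?_
    rw [pdr_rad hg]
    simp only [PiLp.sub_apply]
    push_cast
    ring
  rw [e1, mul_zero] at e2
  simp only [Finset.sum_sub_distrib] at e2
  exact (sub_eq_zero.1 e2).symm

lemma ker_J (hg : ContDiff ℝ ∞ g) (k l : Fin 9) (A : Fin dc) (x y : (Cfg dc)) :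
    (y (k, A) : ℂ) * ((pdr l A (rad g) (x - y) : ℝ) : ℂ) -
      (y (l, A) : ℂ) * ((pdr k A (rad g) (x - y) : ℝ) : ℂ) =
    (x (k, A) : ℂ) * ((pdr l A (rad g) (x - y) : ℝ) : ℂ) -
      (x (l, A) : ℂ) * ((pdr k A (rad g) (x - y) : ℝ) : ℂ) := by
  rw [pdr_rad hg, pdr_rad hg]
  simp only [PiLp.sub_apply]
  push_cast
  ring

lemma G_mo_zero [CompleteSpace F] (hΨ : MemLp Ψ 2 (volume : Measure (Cfg dc))) (h : S.wG Ψ)
    (hg : ContDiff ℝ ∞ g) (hc : HasCompactSupport (rad (dc := dc) g)) (C : Fin dc) (x : (Cfg dc)) :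
    S.G C (mo (rad g) Ψ) x = 0 := by
  have hρ := contDiff_rad (dc := dc) hg
  have i1 : ∀ i B, Integrable (fun y => pdr i B (rad g) (x - y) • Ψ y) := fun i B =>
    integrable_mo (contDiff_pdr' hρ i B).continuous (hcs_pdr hc i B) (locInt hΨ) x
  have i6 : ∀ (c : ℂ) i B, Integrable (fun y => c • (pdr i B (rad g) (x - y) • Ψ y)) :=
    fun c i B => (i1 i B).smul c
  have i0 := integrable_mo hρ.continuous hc (locInt hΨ) x
  have i2 : Integrable (fun y => S.cS C ((rad g) (x - y) • Ψ y)) := (S.cS C).integrable_comp i0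
  have i3 : Integrable (fun y => (-Complex.I) • ∑ i, ∑ A, ∑ B,
      ((S.f C A B : ℂ) * (x (i, A) : ℂ)) • (pdr i B (rad g) (x - y) • Ψ y)) :=
    (integrable_finsetSum _ fun i _ => integrable_finsetSum _ fun A _ =>
      integrable_finsetSum _ fun B _ => i6 _ i B).smul _
  have i4 : Integrable (fun y => (-Complex.I) • ∑ i, ∑ A, ∑ B,
      ((S.f C A B : ℂ) * (x (i, A) : ℂ)) • (pdr i B (rad g) (x - y) • Ψ y) +
      S.cS C ((rad g) (x - y) • Ψ y)) := i3.add i2
  have e1 : S.G C (mo (rad g) Ψ) x = ∫ y, ((-Complex.I) • ∑ i, ∑ A, ∑ B,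
      ((S.f C A B : ℂ) * (x (i, A) : ℂ)) • (pdr i B (rad g) (x - y) • Ψ y) +
      S.cS C ((rad g) (x - y) • Ψ y)) := by
    rw [integral_add i3 i2, integral_smul, integral_finsetSum _ fun i _ =>
      integrable_finsetSum _ fun A _ => integrable_finsetSum _ fun B _ => i6 _ i B,
      (S.cS C).integral_comp_comm i0]
    simp only [Setup.G, pd_mo hρ hc hΨ]
    congr 2
    refine Finset.sum_congr rfl fun i _ => ?_
    rw [integral_finsetSum _ fun A _ => integrable_finsetSum _ fun B _ => i6 _ i B]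
    refine Finset.sum_congr rfl fun A _ => ?_
    rw [integral_finsetSum _ fun B _ => i6 _ i B]
    refine Finset.sum_congr rfl fun B _ => ?_
    rw [integral_smul]
    rfl
  rw [e1]
  refine ext_inner_left ℂ fun v => ?_
  rw [← integral_inner i4 v, inner_zero_right, ← h C _ (Tst_kernel hρ hc x v)]
  refine integral_congr_ae (Eventually.of_forall fun y => ?_)
  have e2 : S.G C (fun y => ((rad g (x - y) : ℝ) : ℂ) • v) y =
      (Complex.I * ∑ i, ∑ A, ∑ B, (S.f C A B : ℂ) * (x (i, A) : ℂ) *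
        ((pdr i B (rad g) (x - y) : ℝ) : ℂ)) • v + ((rad g (x - y) : ℝ) : ℂ) • S.cS C v := by
    simp only [Setup.G, pd_kernel hρ, map_smul]
    congr 1
    rw [← ker_G hg C x y, mul_smul, Finset.sum_smul, neg_smul, ← smul_neg]
    congr 1
    rw [← Finset.sum_neg_distrib]
    refine Finset.sum_congr rfl fun i _ => ?_
    rw [Finset.sum_smul, ← Finset.sum_neg_distrib]
    refine Finset.sum_congr rfl fun A _ => ?_
    rw [Finset.sum_smul, ← Finset.sum_neg_distrib]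
    refine Finset.sum_congr rfl fun B _ => ?_
    rw [smul_smul, mul_neg, neg_smul, neg_neg]
  have e3 : (-Complex.I) • ∑ i, ∑ A, ∑ B,
      ((S.f C A B : ℂ) * (x (i, A) : ℂ)) • (pdr i B (rad g) (x - y) • Ψ y) =
      (-Complex.I * ∑ i, ∑ A, ∑ B, (S.f C A B : ℂ) * (x (i, A) : ℂ) *
        ((pdr i B (rad g) (x - y) : ℝ) : ℂ)) • Ψ y := by
    rw [mul_smul, Finset.sum_smul]
    congr 1
    refine Finset.sum_congr rfl fun i _ => ?_
    rw [Finset.sum_smul]
    refine Finset.sum_congr rfl fun A _ => ?_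
    rw [Finset.sum_smul]
    refine Finset.sum_congr rfl fun B _ => ?_
    rw [← Complex.coe_smul, smul_smul]
  have e4 : (starRingEnd ℂ) (∑ i, ∑ A, ∑ B, (S.f C A B : ℂ) * (x (i, A) : ℂ) *
        ((pdr i B (rad g) (x - y) : ℝ) : ℂ)) = ∑ i, ∑ A, ∑ B, (S.f C A B : ℂ) * (x (i, A) : ℂ) *
        ((pdr i B (rad g) (x - y) : ℝ) : ℂ) := by
    simp only [map_sum, map_mul, Complex.conj_ofReal]
  simp only
  rw [e2, e3, ← Complex.coe_smul, map_smul]
  simp only [inner_add_left, inner_add_right, inner_smul_left, inner_smul_right, map_mul,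
    Complex.conj_I, Complex.conj_ofReal, S.cS_symm, e4]

lemma J_mo_zero [CompleteSpace F] (hΨ : MemLp Ψ 2 (volume : Measure (Cfg dc))) (h : S.wJ Ψ)
    (hg : ContDiff ℝ ∞ g) (hc : HasCompactSupport (rad (dc := dc) g)) {k l : Fin 9} (hkl : Same k l)
    (x : (Cfg dc)) : S.J k l (mo (rad g) Ψ) x = 0 := by
  have hρ := contDiff_rad (dc := dc) hg
  have i1 : ∀ i B, Integrable (fun y => pdr i B (rad g) (x - y) • Ψ y) := fun i B =>
    integrable_mo (contDiff_pdr' hρ i B).continuous (hcs_pdr hc i B) (locInt hΨ) x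
  have i6 : ∀ (c : ℂ) i B, Integrable (fun y => c • (pdr i B (rad g) (x - y) • Ψ y)) :=
    fun c i B => (i1 i B).smul c
  have i0 := integrable_mo hρ.continuous hc (locInt hΨ) x
  have i2 : Integrable (fun y => S.Skl k l ((rad g) (x - y) • Ψ y)) :=
    (S.Skl k l).integrable_comp i0
  have i5 : ∀ A, Integrable (fun y => (x (k, A) : ℂ) • (pdr l A (rad g) (x - y) • Ψ y) -
      (x (l, A) : ℂ) • (pdr k A (rad g) (x - y) • Ψ y)) := fun A =>
    (i6 _ l A).sub (i6 _ k A)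
  have i3 : Integrable (fun y => (-Complex.I) • ∑ A, ((x (k, A) : ℂ) •
      (pdr l A (rad g) (x - y) • Ψ y) - (x (l, A) : ℂ) • (pdr k A (rad g) (x - y) • Ψ y))) :=
    (integrable_finsetSum _ fun A _ => i5 A).smul _
  have i4 : Integrable (fun y => (-Complex.I) • ∑ A, ((x (k, A) : ℂ) •
      (pdr l A (rad g) (x - y) • Ψ y) - (x (l, A) : ℂ) • (pdr k A (rad g) (x - y) • Ψ y)) +
      S.Skl k l ((rad g) (x - y) • Ψ y)) := i3.add i2
  have e1 : S.J k l (mo (rad g) Ψ) x = ∫ y, ((-Complex.I) • ∑ A, ((x (k, A) : ℂ) •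
      (pdr l A (rad g) (x - y) • Ψ y) - (x (l, A) : ℂ) • (pdr k A (rad g) (x - y) • Ψ y)) +
      S.Skl k l ((rad g) (x - y) • Ψ y)) := by
    rw [integral_add i3 i2, integral_smul, integral_finsetSum _ fun A _ => i5 A,
      (S.Skl k l).integral_comp_comm i0]
    simp only [Setup.J, pd_mo hρ hc hΨ]
    congr 2
    refine Finset.sum_congr rfl fun A _ => ?_
    rw [integral_sub (i6 _ l A) (i6 _ k A), integral_smul, integral_smul]
    rfl
  rw [e1]
  refine ext_inner_left ℂ fun v => ?_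
  rw [← integral_inner i4 v, inner_zero_right, ← h k l hkl _ (Tst_kernel hρ hc x v)]
  refine integral_congr_ae (Eventually.of_forall fun y => ?_)
  have e2 : S.J k l (fun y => ((rad g (x - y) : ℝ) : ℂ) • v) y =
      (Complex.I * ∑ A, ((x (k, A) : ℂ) * ((pdr l A (rad g) (x - y) : ℝ) : ℂ) -
        (x (l, A) : ℂ) * ((pdr k A (rad g) (x - y) : ℝ) : ℂ))) • v +
        ((rad g (x - y) : ℝ) : ℂ) • S.Skl k l v := by
    simp only [Setup.J, pd_kernel hρ, map_smul]
    congr 1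
    rw [mul_smul, Finset.sum_smul, neg_smul, ← smul_neg]
    congr 1
    rw [← Finset.sum_neg_distrib]
    refine Finset.sum_congr rfl fun A _ => ?_
    rw [← ker_J hg k l A x y, sub_smul, smul_smul, smul_smul, mul_neg, mul_neg, neg_smul,
      neg_smul]
    abel
  have e3 : (-Complex.I) • ∑ A, ((x (k, A) : ℂ) •
      (pdr l A (rad g) (x - y) • Ψ y) - (x (l, A) : ℂ) • (pdr k A (rad g) (x - y) • Ψ y)) =
      (-Complex.I * ∑ A, ((x (k, A) : ℂ) * ((pdr l A (rad g) (x - y) : ℝ) : ℂ) -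
        (x (l, A) : ℂ) * ((pdr k A (rad g) (x - y) : ℝ) : ℂ))) • Ψ y := by
    rw [mul_smul, Finset.sum_smul]
    congr 1
    refine Finset.sum_congr rfl fun A _ => ?_
    rw [← Complex.coe_smul, ← Complex.coe_smul, smul_smul, smul_smul, sub_smul]
  have e4 : (starRingEnd ℂ) (∑ A, ((x (k, A) : ℂ) * ((pdr l A (rad g) (x - y) : ℝ) : ℂ) -
        (x (l, A) : ℂ) * ((pdr k A (rad g) (x - y) : ℝ) : ℂ))) =
        ∑ A, ((x (k, A) : ℂ) * ((pdr l A (rad g) (x - y) : ℝ) : ℂ) -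
        (x (l, A) : ℂ) * ((pdr k A (rad g) (x - y) : ℝ) : ℂ)) := by
    simp only [map_sum, map_mul, map_sub, Complex.conj_ofReal]
  simp only
  rw [e2, e3, ← Complex.coe_smul, map_smul]
  simp only [inner_add_left, inner_add_right, inner_smul_left, inner_smul_right, map_mul,
    Complex.conj_I, Complex.conj_ofReal, S.Skl_symm, e4]

end Vale.Agent.P353.Z.U.InvL
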