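import Vale.Agent.P353.Z.LimL2
import Vale.Agent.P353.Z.Energy

/-! # P353, general `N`: BMN deformation, definitions

Notation in the comments: `I3 = {0,1,2}`, `I6 = {3,…,8}`, `Γ = γ^0 γ^1 γ^2`. Colour index in `Fin d`,
structure constants `κ f_{ABC}`. -/

open MeasureTheory Filter Topology
open scoped ContDiff

namespace Vale.Agent.P353.Z

variable {d : ℕ} {F : Type*} [NormedAddCommGroup F] [InnerProductSpace ℂ F]

/-- block weights: `2` on `I3`, `1` on `I6` -/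
noncomputable def aw (i : Fin 9) : ℝ := if i.val < 3 then 2 else 1

/-- `k ≠ l` lie in the same block -/
def Same (k l : Fin 9) : Prop := k ≠ l ∧ (k.val < 3 ↔ l.val < 3)

/-- coefficients of the rotation generators in the anticommutator of the supercharges -/
noncomputable def rc (i j : Fin 9) : ℝ :=
  if i.val < 3 ∧ j.val < 3 then 2 else if 3 ≤ i.val ∧ 3 ≤ j.val then -1 else 0

/-- action of a `d × d` matrix on the colour index -/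
noncomputable def ro (O : Matrix (Fin d) (Fin d) ℝ) (x : Cfg d) : Cfg d :=
  WithLp.toLp 2 fun p => ∑ B, O p.2 B * x (p.1, B)

namespace Setup

variable (S : Setup d F)

/-- `∑ f_{ABC} x_0^A x_1^B x_2^C` -/
noncomputable def det3 (x : Cfg d) : ℝ :=
  ∑ A, ∑ B, ∑ C, S.f A B C * x (0, A) * x (1, B) * x (2, C)

/-- irreducibility of the Clifford module -/
def Irr : Prop := ∀ W : Submodule ℂ F, (∀ α A, ∀ v ∈ W, S.th α A v ∈ W) → W = ⊥ ∨ W = ⊤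

/-- `Γ = γ^0 γ^1 γ^2` -/
noncomputable def Gam : Matrix (Fin 16) (Fin 16) ℂ := S.g 0 * S.g 1 * S.g 2

/-- `FG = i θ Γ θ` -/
noncomputable def FG : F →L[ℂ] F := Complex.I • S.tot S.Gam

/-- `M_β(x) = ∑ a_i x_i^A (γ^i Γ θ^A)_β` -/
noncomputable def MM (β : Fin 16) (x : Cfg d) : F →L[ℂ] F :=
  ∑ i, ∑ A, ((aw i * x (i, A) : ℝ) : ℂ) • S.vec (S.g i * S.Gam) A β

/-- free supercharge `-i (γ^i θ^A)_β ∂_i^A` -/
noncomputable def Q0 (β : Fin 16) (u : Cfg d → F) (x : Cfg d) : F :=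
  (-Complex.I) • ∑ i, ∑ A, S.vec (S.g i) A β (pd i A u x)

/-- BMN supercharge `Q_β + m M_β` -/
noncomputable def Qm (m : ℝ) (β : Fin 16) (u : Cfg d → F) (x : Cfg d) : F :=
  S.Q β u x + (m : ℂ) • S.MM β x (u x)

/-- BMN potential -/
noncomputable def Vm (m : ℝ) (x : Cfg d) : ℝ :=
  S.V x + 6 * m * S.κ * S.det3 x + m ^ 2 / 2 * ∑ i, ∑ A, (aw i * x (i, A)) ^ 2

/-- BMN Hamiltonian `H_m = (1/16) ∑ Q_β²` in explicit form -/
noncomputable def Hm (m : ℝ) (u : Cfg d → F) (x : Cfg d) : F :=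
  (-(1 / 2) : ℂ) • (∑ i, ∑ A, pd i A (pd i A u) x) + ((S.Vm m x : ℝ) : ℂ) • u x + S.Fx x (u x)
    - ((3 / 4 * m : ℝ) : ℂ) • S.FG (u x)

/-- gauge and `Spin(3) × Spin(6)` invariant test functions -/
def Inv (u : Cfg d → F) : Prop :=
  Tst u ∧ (∀ C x, S.G C u x = 0) ∧ ∀ k l, Same k l → ∀ x, S.J k l u x = 0

/-- weak gauge invariance -/
def wG (Ψ : Cfg d → F) : Prop := ∀ C, ∀ ζ, Tst ζ → ∫ x, inner ℂ (S.G C ζ x) (Ψ x) = 0

/-- weak `Spin(3) × Spin(6)` invariance -/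
def wJ (Ψ : Cfg d → F) : Prop :=
  ∀ k l, Same k l → ∀ ζ, Tst ζ → ∫ x, inner ℂ (S.J k l ζ x) (Ψ x) = 0

/-- `Q_β Ψ = Φ` weakly -/
def wQ (m : ℝ) (β : Fin 16) (Ψ Φ : Cfg d → F) : Prop :=
  ∀ ζ, Tst ζ → ∫ x, inner ℂ (S.Qm m β ζ x) (Ψ x) = ∫ x, inner ℂ (ζ x) (Φ x)

/-- invariant zero modes of the BMN model -/
def Em (m : ℝ) (Ψ : Cfg d → F) : Prop :=
  MemLp Ψ 2 (volume : Measure (Cfg d)) ∧ S.wG Ψ ∧ S.wJ Ψ ∧ ∀ β, S.wQ m β Ψ (fun _ => 0)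

/-- strong limits in the graph norm: `u_n → Ψ`, `Q_β u_n → Φ_β` -/
def Str (m : ℝ) (Ψ : Cfg d → F) (Φ : Fin 16 → Cfg d → F) : Prop :=
  ∃ u : ℕ → Cfg d → F, (∀ n, Tst (u n)) ∧ L2t u Ψ ∧ ∀ β, L2t (fun n => S.Qm m β (u n)) (Φ β)

/-- weak eigenfunctions of `∑ Q_β²` with eigenvalue `e` -/
def wE (m e : ℝ) (Ψ : Cfg d → F) : Prop :=
  ∀ ζ, Tst ζ → ∫ x, inner ℂ (∑ β, S.Qm m β (S.Qm m β ζ) x) (Ψ x) =
    (e : ℂ) * ∫ x, inner ℂ (ζ x) (Ψ x)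

/-- there is a `k` dimensional space of invariant test functions with
`∑ ‖Q_β u‖² < c ‖u‖²` -/
def Low (k : ℕ) (m c : ℝ) : Prop :=
  ∃ u : Fin k → Cfg d → F, (∀ j, S.Inv (u j)) ∧ ∀ a : Fin k → ℂ, a ≠ 0 →
    ∑ β, nsq (S.Qm m β (fun x => ∑ j, a j • u j x)) < c * nsq (fun x => ∑ j, a j • u j x)

/-- the zero set of the potential `V_m` -/
def wells (m : ℝ) : Set (Cfg d) := {x | S.Vm m x = 0}

/-- distance to the wells -/
noncomputable def dm (m : ℝ) (x : Cfg d) : ℝ := Metric.infDist x (S.wells m)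

/-- matrix of `ad a` -/
noncomputable def adm (a : Fin d → ℝ) : Matrix (Fin d) (Fin d) ℝ :=
  Matrix.of fun A C => ∑ B, S.f A B C * a B

/-- the colour group: orthogonal matrices preserving the structure constants and the norm of all
gauge invariant test functions (a compact group containing all `exp (ad a)`) -/
def grp : Set (Matrix (Fin d) (Fin d) ℝ) :=
  {O | O.transpose * O = 1 ∧
    (∀ A B C, ∑ A', ∑ B', ∑ C', O A' A * O B' B * O C' C * S.f A' B' C' = S.f A B C) ∧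
    ∀ u : Cfg d → F, Tst u → (∀ C x, S.G C u x = 0) → ∀ x, ‖u (ro O x)‖ = ‖u x‖}

/-- the orbit of `ξ` under the colour group -/
def Orb (ξ : Cfg d) : Set (Cfg d) := {x | ∃ O ∈ S.grp, x = ro O ξ}

/-- `S` has at most `n` orbits of zeros of `V_1` -/
def OrbCount (n : ℕ) : Prop := ∃ ξ : Fin n → Cfg d, (∀ j, S.Vm 1 (ξ j) = 0) ∧
  ∀ x, S.Vm 1 x = 0 → ∃ j, x ∈ S.Orb (ξ j)

/-- derivative of `W_β` at `ξ` in direction `x` -/
noncomputable def DW (ξ : Cfg d) (β : Fin 16) (x : Cfg d) : F →L[ℂ] F :=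
  (S.κ : ℂ) • ∑ A, ∑ B, ∑ C, ∑ i, ∑ j,
    ((S.f A B C : ℂ) * (ξ (i, B) : ℂ) * (x (j, C) : ℂ)) • S.vec (S.g2 i j) A β

/-- linearised supercharge at `ξ` (for `m = 1`) -/
noncomputable def Qlin (ξ : Cfg d) (β : Fin 16) (u : Cfg d → F) (x : Cfg d) : F :=
  S.Q0 β u x + S.MM β x (u x) + S.DW ξ β x (u x)

/-- the inclusion of `I3` into `Fin 9` -/
def c3 (k : Fin 3) : Fin 9 := ⟨k.val, by omega⟩

/-- the square terms `F_{ij} + 2 m x_k`, `(i,j,k)` cyclic in `I3` -/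
noncomputable def GG (m : ℝ) (k : Fin 3) (A : Fin d) (x : Cfg d) : ℝ :=
  S.FF A (c3 (k + 1)) (c3 (k + 2)) x + 2 * m * x (c3 k, A)

/-- linearisation of `F_{ij}` at `ξ` -/
noncomputable def LF (ξ : Cfg d) (A : Fin d) (i j : Fin 9) (x : Cfg d) : ℝ :=
  S.κ * ∑ B, ∑ C, S.f A B C * (ξ (i, B) * x (j, C) + x (i, B) * ξ (j, C))

/-- linearisation of `GG 1` at `ξ` -/
noncomputable def LG (ξ : Cfg d) (k : Fin 3) (A : Fin d) (x : Cfg d) : ℝ :=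
  S.LF ξ A (c3 (k + 1)) (c3 (k + 2)) x + 2 * x (c3 k, A)

/-- quadratic part of `w ↦ V_1(ξ + w)` at a zero `ξ` of `V_1` -/
noncomputable def hq (ξ x : Cfg d) : ℝ :=
  (1 / 2) * (∑ k, ∑ A, S.LG ξ k A x ^ 2) +
    (1 / 2) * (∑ i : Fin 9, ∑ A, if i.val < 3 then 0 else x (i, A) ^ 2) +
    (1 / 4) * (∑ i : Fin 9, ∑ j : Fin 9, ∑ A,
      if i.val < 3 ∧ j.val < 3 then 0 else S.LF ξ A i j x ^ 2)

/-- `x` is orthogonal to the infinitesimal gauge rotations of `ξ` -/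
def Perp (ξ x : Cfg d) : Prop := ∀ C, ∑ i, ∑ A, ∑ B, S.f C A B * ξ (i, A) * x (i, B) = 0

/-- fermionic mass term at `ξ`, `t` = trace of the square root of the Hessian -/
noncomputable def Nx (t : ℝ) (ξ : Cfg d) : F →L[ℂ] F :=
  ((t / 2 : ℝ) : ℂ) • 1 + S.Fx ξ - (3 / 4 : ℂ) • S.FG

/-- `K` is the positive square root of the Hessian of `V_1` at `ξ` -/
structure IsK (ξ : Cfg d) (K : Cfg d →L[ℝ] Cfg d) : Prop where
  symm : ∀ x y, inner ℝ (K x) y = inner ℝ x (K y)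
  pos : ∀ x, 0 ≤ inner ℝ x (K x)
  sq : ∀ x, ‖K x‖ ^ 2 = 2 * S.hq ξ x

end Setup

/-- trace of `K` -/
noncomputable def trK (K : Cfg d →L[ℝ] Cfg d) : ℝ :=
  ∑ i, ∑ A, K (EuclideanSpace.single (i, A) 1) (i, A)

end Vale.Agent.P353.Z
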