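import Vale.Agent.P353.Z.U.MollRad
import Vale.Agent.P353.Z.U.Defs
import Vale.Agent.P353.Z.U.EsaBase

/-! # Invariance of radial mollifications -/

open MeasureTheory Filter Topology
open scoped ContDiff

namespace Vale.Agent.P353.Z.Moll

variable {dc : ℕ}

variable {F : Type*} [NormedAddCommGroup F] [InnerProductSpace ℂ F] {ε : ℝ} {g : ℝ → ℝ}

lemma pd_mo {ρ : (Cfg dc) → ℝ} (hρ : ContDiff ℝ ∞ ρ) (hc : HasCompactSupport ρ) {f : (Cfg dc) → F}
    (hf : LocallyIntegrable f volume) (i : Fin 9) (A : Fin dc) (x : (Cfg dc)) :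
    pd i A (mo ρ f) x = mo (pdr i A ρ) f x := by
  rw [pd, fderiv_mo hρ hc hf]
  rfl

lemma inner_mo {ρ : (Cfg dc) → ℝ} (hρ : Continuous ρ) (hc : HasCompactSupport ρ) [CompleteSpace F]
    {f : (Cfg dc) → F} (hf : LocallyIntegrable f volume) (v : F) (x : (Cfg dc)) :
    inner ℂ v (mo ρ f x) = ∫ y, ((ρ (x - y) : ℝ) : ℂ) * inner ℂ v (f y) := by
  unfold mo
  rw [← integral_inner (integrable_mo hρ hc hf x)]
  refine integral_congr_ae (Eventually.of_forall fun y => ?_)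
  simp only
  rw [← Complex.coe_smul, inner_smul_right]

/-- the test function `y ↦ ρ(x - y) v` -/
noncomputable def tz (ρ : (Cfg dc) → ℝ) (x : (Cfg dc)) (v : F) (y : (Cfg dc)) : F := ((ρ (x - y) : ℝ) : ℂ) • v

lemma Tst_tz {ρ : (Cfg dc) → ℝ} (hρ : ContDiff ℝ ∞ ρ) (hc : HasCompactSupport ρ) (x : (Cfg dc)) (v : F) :
    Setup.Tst (tz ρ x v) := by
  have h1 : ContDiff ℝ ∞ (fun y : (Cfg dc) => ρ (x - y)) := hρ.comp (contDiff_const.sub contDiff_id)
  have h2 : HasCompactSupport (fun y : (Cfg dc) => ρ (x - y)) :=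
    hc.comp_homeomorph (Homeomorph.subLeft x)
  refine ⟨(Setup.contDiff_ofReal h1).smul contDiff_const, h2.mono ?_⟩
  intro y hy
  simp only [Function.mem_support, tz] at hy ⊢
  intro h0
  exact hy (by rw [h0]; simp)

lemma pd_tz {ρ : (Cfg dc) → ℝ} (hρ : ContDiff ℝ ∞ ρ) (x : (Cfg dc)) (v : F) (i : Fin 9) (A : Fin dc)
    (y : (Cfg dc)) : pd i A (tz ρ x v) y = -((((pdr i A ρ (x - y)) : ℝ) : ℂ) • v) := by
  have h1 : ContDiff ℝ ∞ (fun y : (Cfg dc) => ρ (x - y)) := hρ.comp (contDiff_const.sub contDiff_id)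
  have h2 : fderiv ℝ (fun y : (Cfg dc) => ρ (x - y)) y (EuclideanSpace.single (i, A) (1 : ℝ)) =
      - pdr i A ρ (x - y) := by
    have h3 : HasFDerivAt (fun y : (Cfg dc) => x - y) (-(ContinuousLinearMap.id ℝ (Cfg dc))) y :=
      (hasFDerivAt_id y).const_sub x
    have h4 := ((hρ.differentiable (by simp)) (x - y)).hasFDerivAt.comp y h3
    have h5 : fderiv ℝ (fun y : (Cfg dc) => ρ (x - y)) y = _ := h4.fderiv
    rw [h5]
    simp [pdr]
  have h6 := pd_rsmul (i := i) (A := A) (φ := fun y : (Cfg dc) => ρ (x - y)) (u := fun _ => v) (x := y)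
    ((h1.differentiable (by simp)) y) (differentiableAt_const v)
  have h7 : pd i A (fun _ : (Cfg dc) => v) y = 0 := by simp [pd]
  rw [h7, smul_zero, add_zero] at h6
  have h8 : pd i A (tz ρ x v) y = _ := h6
  rw [h8, h2]
  push_cast
  rw [neg_smul]

/-- first order operator with real linear coefficients -/
noncomputable def Dop (c : (Cfg dc) → Fin 9 → Fin dc → ℝ) (T : F →L[ℂ] F) (u : (Cfg dc) → F) (x : (Cfg dc)) : F :=
  (-Complex.I) • ∑ i, ∑ B, ((c x i B : ℝ) : ℂ) • pd i B u x + T (u x)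

lemma Dop_mo [CompleteSpace F] {ρ : (Cfg dc) → ℝ} (hρ : ContDiff ℝ ∞ ρ) (hc : HasCompactSupport ρ)
    (c : (Cfg dc) → Fin 9 → Fin dc → ℝ) (T : F →L[ℂ] F) {f : (Cfg dc) → F}
    (hf : LocallyIntegrable f volume) (x : (Cfg dc)) :
    Dop c T (mo ρ f) x = ∫ y, ((-Complex.I) • ∑ i, ∑ B, ((c x i B : ℝ) : ℂ) •
      pdr i B ρ (x - y) • f y + T (ρ (x - y) • f y)) := by
  have i1 : ∀ i B, Integrable (fun y => pdr i B ρ (x - y) • f y) := fun i B =>
    integrable_mo (esa_pdr_smooth hρ i B).continuous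
      (hc.fderiv_apply (𝕜 := ℝ) (EuclideanSpace.single (i, B) (1 : ℝ) : (Cfg dc))) hf x
  have i2 : Integrable (fun y => ρ (x - y) • f y) := integrable_mo hρ.continuous hc hf x
  have j1 : ∀ i B, Integrable (fun y => ((c x i B : ℝ) : ℂ) • pdr i B ρ (x - y) • f y) :=
    fun i B => (i1 i B).smul _
  have j2 : ∀ i, Integrable (fun y => ∑ B, ((c x i B : ℝ) : ℂ) • pdr i B ρ (x - y) • f y) :=
    fun i => integrable_finsetSum _ fun B _ => j1 i B
  have j3 : Integrable (fun y => (-Complex.I) • ∑ i, ∑ B, ((c x i B : ℝ) : ℂ) •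
      pdr i B ρ (x - y) • f y) := (integrable_finsetSum _ fun i _ => j2 i).smul (-Complex.I)
  have j4 : Integrable (fun y => T (ρ (x - y) • f y)) := T.integrable_comp i2
  rw [integral_add j3 j4, integral_smul, integral_finsetSum _ fun i _ => j2 i, Dop]
  have e1 : ∀ i, ∫ y, ∑ B, ((c x i B : ℝ) : ℂ) • pdr i B ρ (x - y) • f y =
      ∑ B, ((c x i B : ℝ) : ℂ) • pd i B (mo ρ f) x := by
    intro i
    rw [integral_finsetSum _ fun B _ => j1 i B]
    refine Finset.sum_congr rfl fun B _ => ?_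
    rw [integral_smul, pd_mo hρ hc hf]
    rfl
  have e2 : ∫ y, T (ρ (x - y) • f y) = T (mo ρ f x) := T.integral_comp_comm i2
  simp only [e1, e2]

/-- invariance of the mollification -/
lemma Dop_mo_eq_zero [CompleteSpace F] {g : ℝ → ℝ} (hg : ContDiff ℝ ∞ g)
    (hc : HasCompactSupport (rad (dc := dc) g)) {c : (Cfg dc) → Fin 9 → Fin dc → ℝ} {T : F →L[ℂ] F}
    (hT : ∀ v w, inner ℂ (T v) w = inner ℂ v (T w))
    (hlin : ∀ x y i B, c x i B - c y i B = c (x - y) i B)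
    (hrot : ∀ z : (Cfg dc), ∑ i, ∑ B, c z i B * z (i, B) = 0)
    {Ψ : (Cfg dc) → F} (hΨ : LocallyIntegrable Ψ volume)
    (hw : ∀ ζ, Setup.Tst ζ → ∫ x, inner ℂ (Dop c T ζ x) (Ψ x) = 0) (x : (Cfg dc)) :
    Dop c T (mo (rad g) Ψ) x = 0 := by
  have hρ : ContDiff ℝ ∞ (rad (dc := dc) g) := contDiff_rad hg
  have i1 : ∀ i B, Integrable (fun y => pdr i B (rad g) (x - y) • Ψ y) := fun i B =>
    integrable_mo (esa_pdr_smooth hρ i B).continuous
      (hc.fderiv_apply (𝕜 := ℝ) (EuclideanSpace.single (i, B) (1 : ℝ) : (Cfg dc))) hΨ x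
  have i2 : Integrable (fun y => rad g (x - y) • Ψ y) := integrable_mo hρ.continuous hc hΨ x
  have i3 : Integrable (fun y => (-Complex.I) • ∑ i, ∑ B, ((c x i B : ℝ) : ℂ) •
      pdr i B (rad g) (x - y) • Ψ y + T (rad g (x - y) • Ψ y)) := by
    refine Integrable.add ?_ (T.integrable_comp i2)
    exact (integrable_finsetSum _ fun i _ => integrable_finsetSum _ fun B _ =>
      (i1 i B).smul _).smul (-Complex.I)
  refine ext_inner_left ℂ fun v => ?_
  rw [inner_zero_right, Dop_mo hρ hc c T hΨ x, ← integral_inner i3,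
    ← hw (tz (rad g) x v) (Tst_tz hρ hc x v)]
  refine integral_congr_ae (Eventually.of_forall fun y => ?_)
  have hrad : ∀ i B, pdr i B (rad g) (x - y) = 2 * deriv g (‖x - y‖ ^ 2) * (x - y) (i, B) :=
    fun i B => pdr_rad hg i B (x - y)
  have hkey : ∑ i, ∑ B, c x i B * pdr i B (rad g) (x - y) =
      ∑ i, ∑ B, c y i B * pdr i B (rad g) (x - y) := by
    rw [← sub_eq_zero, ← Finset.sum_sub_distrib]
    have h1 : ∀ i, (∑ B, c x i B * pdr i B (rad g) (x - y)) -
        ∑ B, c y i B * pdr i B (rad g) (x - y) =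
        2 * deriv g (‖x - y‖ ^ 2) * ∑ B, c (x - y) i B * (x - y) (i, B) := by
      intro i
      rw [← Finset.sum_sub_distrib, Finset.mul_sum]
      refine Finset.sum_congr rfl fun B _ => ?_
      rw [← sub_mul, hlin, hrad]
      ring
    simp only [h1, ← Finset.mul_sum, hrot, mul_zero]
  have hkeyC : ∑ i, ∑ B, ((c x i B : ℝ) : ℂ) * ((pdr i B (rad g) (x - y) : ℝ) : ℂ) =
      ∑ i, ∑ B, ((c y i B : ℝ) : ℂ) * ((pdr i B (rad g) (x - y) : ℝ) : ℂ) := by
    exact_mod_cast congrArg (fun r : ℝ => (r : ℂ)) hkey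
  have hL : inner ℂ v ((-Complex.I) • ∑ i, ∑ B, ((c x i B : ℝ) : ℂ) •
      pdr i B (rad g) (x - y) • Ψ y + T (rad g (x - y) • Ψ y)) =
      (-Complex.I) * ((∑ i, ∑ B, ((c x i B : ℝ) : ℂ) * ((pdr i B (rad g) (x - y) : ℝ) : ℂ)) *
        inner ℂ v (Ψ y)) + ((rad g (x - y) : ℝ) : ℂ) * inner ℂ (T v) (Ψ y) := by
    simp only [← Complex.coe_smul (E := F), map_smul, inner_add_right, inner_smul_right, inner_sum,
      ← hT, Finset.sum_mul]
    congr 2
    refine Finset.sum_congr rfl fun i _ => Finset.sum_congr rfl fun B _ => ?_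
    ring
  have hR : inner ℂ (Dop c T (tz (rad g) x v) y) (Ψ y) =
      (-Complex.I) * ((∑ i, ∑ B, ((c y i B : ℝ) : ℂ) * ((pdr i B (rad g) (x - y) : ℝ) : ℂ)) *
        inner ℂ v (Ψ y)) + ((rad g (x - y) : ℝ) : ℂ) * inner ℂ (T v) (Ψ y) := by
    have e1 : ∀ i B, pd i B (tz (rad g) x v) y = -((((pdr i B (rad g) (x - y)) : ℝ) : ℂ) • v) :=
      fun i B => pd_tz hρ x v i B y
    simp only [Dop, e1, tz, map_smul, inner_add_left, inner_smul_left, sum_inner, inner_neg_left,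
      Complex.conj_ofReal, map_neg, Complex.conj_I, smul_neg, Finset.sum_mul]
    rw [add_left_inj]
    simp only [neg_neg, neg_mul, Finset.mul_sum]
    refine Finset.sum_congr rfl fun i _ => Finset.sum_congr rfl fun B _ => ?_
    ring
  simp only
  rw [hL, hR, hkeyC]

/-- radial multipliers commute -/
lemma Dop_rad {h : ℝ → ℝ} (hh : ContDiff ℝ ∞ h) {c : (Cfg dc) → Fin 9 → Fin dc → ℝ} {T : F →L[ℂ] F}
    (hrot : ∀ z : (Cfg dc), ∑ i, ∑ B, c z i B * z (i, B) = 0) {u : (Cfg dc) → F} {x : (Cfg dc)}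
    (hu : DifferentiableAt ℝ u x) :
    Dop c T (fun y => ((rad h y : ℝ) : ℂ) • u y) x = ((rad h x : ℝ) : ℂ) • Dop c T u x := by
  have e : ∀ i B, pd i B (fun y => ((rad h y : ℝ) : ℂ) • u y) x =
      ((2 * deriv h (‖x‖ ^ 2) * x (i, B) : ℝ) : ℂ) • u x + ((rad h x : ℝ) : ℂ) • pd i B u x := by
    intro i B
    rw [pd_rsmul ((contDiff_rad hh).differentiable (by simp) x) hu]
    have := pdr_rad hh i B x
    rw [pdr] at this
    rw [this]
  have h2 : ∑ i, ∑ B, (((c x i B : ℝ) : ℂ) • ((2 * deriv h (‖x‖ ^ 2) * x (i, B) : ℝ) : ℂ) • u x) =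
      0 := by
    have h3 : ∑ i, ∑ B, (((c x i B : ℝ) : ℂ) * ((2 * deriv h (‖x‖ ^ 2) * x (i, B) : ℝ) : ℂ)) =
        0 := by
      have h4 : ∑ i, ∑ B, (c x i B * (2 * deriv h (‖x‖ ^ 2) * x (i, B))) = 0 := by
        have h5 : ∀ i, ∑ B, (c x i B * (2 * deriv h (‖x‖ ^ 2) * x (i, B))) =
            2 * deriv h (‖x‖ ^ 2) * ∑ B, c x i B * x (i, B) := by
          intro i
          rw [Finset.mul_sum]
          exact Finset.sum_congr rfl fun B _ => by ring
        simp only [h5, ← Finset.mul_sum, hrot, mul_zero]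
      exact_mod_cast congrArg (fun r : ℝ => (r : ℂ)) h4
    simp only [smul_smul, ← Finset.sum_smul, h3, zero_smul]
  simp only [Dop, e, smul_add, Finset.sum_add_distrib, h2, zero_add, map_smul]
  congr 1
  simp only [Finset.smul_sum, smul_smul]
  refine Finset.sum_congr rfl fun i _ => Finset.sum_congr rfl fun B _ => ?_
  congr 1
  ring

/-- coefficients of `G_C` -/
noncomputable def gco (S : Setup dc F) (C : Fin dc) (x : (Cfg dc)) (i : Fin 9) (B : Fin dc) : ℝ :=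
  ∑ A, (S.f C A B) * x (i, A)

/-- coefficients of `J_{kl}` -/
noncomputable def jco (k l : Fin 9) (x : (Cfg dc)) (i : Fin 9) (B : Fin dc) : ℝ :=
  (if i = l then x (k, B) else 0) - (if i = k then x (l, B) else 0)

lemma G_eq_Dop (S : Setup dc F) (C : Fin dc) (u : (Cfg dc) → F) (x : (Cfg dc)) :
    S.G C u x = Dop (gco S C) (S.cS C) u x := by
  rw [Setup.G, Dop]
  congr 2
  refine Finset.sum_congr rfl fun i _ => ?_
  rw [Finset.sum_comm]
  refine Finset.sum_congr rfl fun B _ => ?_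
  rw [gco, Complex.ofReal_sum, Finset.sum_smul]
  refine Finset.sum_congr rfl fun A _ => ?_
  push_cast
  rfl

lemma J_eq_Dop (S : Setup dc F) (k l : Fin 9) (u : (Cfg dc) → F) (x : (Cfg dc)) :
    S.J k l u x = Dop (jco k l) (S.Skl k l) u x := by
  rw [Setup.J, Dop]
  congr 2
  rw [Finset.sum_comm]
  refine Finset.sum_congr rfl fun B _ => ?_
  simp only [jco, Complex.ofReal_sub, sub_smul, Finset.sum_sub_distrib]
  congr 1
  · rw [Finset.sum_eq_single l]
    · simp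
    · intro i _ hi; simp [hi]
    · intro h; exact absurd (Finset.mem_univ _) h
  · rw [Finset.sum_eq_single k]
    · simp
    · intro i _ hi; simp [hi]
    · intro h; exact absurd (Finset.mem_univ _) h

lemma gco_lin (S : Setup dc F) (C : Fin dc) (x y : (Cfg dc)) (i : Fin 9) (B : Fin dc) :
    gco S C x i B - gco S C y i B = gco S C (x - y) i B := by
  simp only [gco, ← Finset.sum_sub_distrib, PiLp.sub_apply]
  exact Finset.sum_congr rfl fun A _ => by ring

lemma gco_rot (S : Setup dc F) (C : Fin dc) (z : (Cfg dc)) :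
    ∑ i, ∑ B, gco S C z i B * z (i, B) = 0 := by
  refine Finset.sum_eq_zero fun i _ => ?_
  have h : ∑ B, gco S C z i B * z (i, B) = - ∑ B, gco S C z i B * z (i, B) := by
    simp only [gco, Finset.sum_mul]
    conv_lhs => rw [Finset.sum_comm]
    rw [← Finset.sum_neg_distrib]
    refine Finset.sum_congr rfl fun A _ => ?_
    rw [← Finset.sum_neg_distrib]
    refine Finset.sum_congr rfl fun B _ => ?_
    rw [S.f_swap' C A B]
    ring
  linarith

lemma jco_lin (k l : Fin 9) (x y : (Cfg dc)) (i : Fin 9) (B : Fin dc) :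
    jco k l x i B - jco k l y i B = jco k l (x - y) i B := by
  simp only [jco, PiLp.sub_apply]
  split_ifs <;> ring

lemma jco_rot (k l : Fin 9) (z : (Cfg dc)) : ∑ i, ∑ B, jco k l z i B * z (i, B) = 0 := by
  rw [Finset.sum_comm]
  refine Finset.sum_eq_zero fun B _ => ?_
  simp only [jco, sub_mul, ite_mul, zero_mul, Finset.sum_sub_distrib, Finset.sum_ite_eq',
    Finset.mem_univ, if_true]
  ring

variable {ε : ℝ} (S : Setup dc F)

/-- gauge invariance of the cut off mollification -/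
lemma G_mo [CompleteSpace F] {g h : ℝ → ℝ} (hg : ContDiff ℝ ∞ g) (hh : ContDiff ℝ ∞ h)
    (hc : HasCompactSupport (rad (dc := dc) g)) {Ψ : (Cfg dc) → F} (hΨ : LocallyIntegrable Ψ volume)
    (hw : S.wG Ψ) (C : Fin dc) (x : (Cfg dc)) :
    S.G C (fun y => ((rad h y : ℝ) : ℂ) • mo (rad g) Ψ y) x = 0 := by
  rw [G_eq_Dop, Dop_rad hh (gco_rot S C)
    (((contDiff_mo (contDiff_rad hg) hc hΨ).differentiable (by simp)) x),
    Dop_mo_eq_zero hg hc (S.cS_symm C) (gco_lin S C) (gco_rot S C) hΨ ?_ x, smul_zero]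
  intro ζ hζ
  have := hw C ζ hζ
  simpa only [G_eq_Dop] using this

/-- rotation invariance of the cut off mollification -/
lemma J_mo [CompleteSpace F] {g h : ℝ → ℝ} (hg : ContDiff ℝ ∞ g) (hh : ContDiff ℝ ∞ h)
    (hc : HasCompactSupport (rad (dc := dc) g)) {Ψ : (Cfg dc) → F} (hΨ : LocallyIntegrable Ψ volume)
    {k l : Fin 9} (hw : ∀ ζ, Setup.Tst ζ → ∫ x, inner ℂ (S.J k l ζ x) (Ψ x) = 0) (x : (Cfg dc)) :
    S.J k l (fun y => ((rad h y : ℝ) : ℂ) • mo (rad g) Ψ y) x = 0 := by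
  rw [J_eq_Dop, Dop_rad hh (jco_rot k l)
    (((contDiff_mo (contDiff_rad hg) hc hΨ).differentiable (by simp)) x),
    Dop_mo_eq_zero hg hc (S.Skl_symm k l) (jco_lin k l) (jco_rot k l) hΨ ?_ x, smul_zero]
  intro ζ hζ
  have := hw ζ hζ
  simpa only [J_eq_Dop] using this

end Vale.Agent.P353.Z.Moll
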