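import Vale.Agent.P353.Z.U.Moll
import Vale.Agent.P353.Z.Rad

/-! # Radial mollifiers and radial cutoff functions on `(Cfg dc)` -/

open MeasureTheory Filter Topology
open scoped ContDiff

namespace Vale.Agent.P353.Z.Moll

variable {dc : ℕ}

/-- profile of the radial mollifier -/
noncomputable def gm (c ε : ℝ) (s : ℝ) : ℝ := c * Real.smoothTransition (1 - s / ε ^ 2)

lemma contDiff_gm (c ε : ℝ) : ContDiff ℝ ∞ (gm c ε) := by
  unfold gm
  exact contDiff_const.mul (Real.smoothTransition.contDiff.comp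
    (contDiff_const.sub (contDiff_id.div_const _)))

lemma gm_zero {c ε : ℝ} (hε : 0 < ε) {x : (Cfg dc)} (hx : ε ≤ ‖x‖) : rad (gm c ε) x = 0 := by
  unfold rad gm
  rw [Real.smoothTransition.zero_of_nonpos, mul_zero]
  have : 1 ≤ ‖x‖ ^ 2 / ε ^ 2 := by
    rw [le_div_iff₀ (by positivity), one_mul]
    exact pow_le_pow_left₀ hε.le hx 2
  linarith

lemma hcs_gm {c ε : ℝ} (hε : 0 < ε) : HasCompactSupport (rad (dc := dc) (gm c ε)) := by
  refine HasCompactSupport.intro (isCompact_closedBall (0 : (Cfg dc)) ε) fun x hx => ?_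
  rw [Metric.mem_closedBall, dist_zero_right, not_le] at hx
  exact gm_zero hε hx.le

/-- existence of radial mollifiers -/
lemma exists_mol {ε : ℝ} (hε : 0 < ε) :
    ∃ g : ℝ → ℝ, ContDiff ℝ ∞ g ∧ IsMol ε (rad (dc := dc) g) := by
  have hpos : 0 < ∫ x, rad (dc := dc) (gm 1 ε) x := by
    refine (contDiff_rad (contDiff_gm 1 ε)).continuous.integral_pos_of_hasCompactSupport_nonneg_nonzero
      (hcs_gm hε) (fun x => ?_) (x := 0) ?_
    · unfold rad gm
      exact mul_nonneg zero_le_one (Real.smoothTransition.nonneg _)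
    · have : rad (gm 1 ε) (0 : (Cfg dc)) = 1 := by
        unfold rad gm
        rw [Real.smoothTransition.one_of_one_le (by simp), mul_one]
      rw [this]
      exact one_ne_zero
  obtain ⟨c, hc⟩ : ∃ c, c = (∫ x, rad (dc := dc) (gm 1 ε) x)⁻¹ := ⟨_, rfl⟩
  have hc0 : 0 < c := hc ▸ inv_pos.2 hpos
  refine ⟨gm c ε, contDiff_gm c ε, ⟨contDiff_rad (contDiff_gm c ε), hcs_gm hε, fun x => ?_,
    fun x hx => gm_zero hε hx, ?_⟩⟩
  · unfold rad gm
    exact mul_nonneg hc0.le (Real.smoothTransition.nonneg _)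
  · have e : ∀ x : (Cfg dc), rad (gm c ε) x = c * rad (gm 1 ε) x := by
      intro x
      unfold rad gm
      ring
    simp only [e]
    rw [integral_const_mul, hc, inv_mul_cancel₀ hpos.ne']

/-- radial cutoff functions: `1` for `‖x‖ ≤ R/2`, `0` for `‖x‖ ≥ R`, gradient `≤ K/R` -/
structure IsRC (K R : ℝ) (h : ℝ → ℝ) : Prop where
  contDiff : ContDiff ℝ ∞ h
  nonneg : ∀ {n : ℕ} (x : Cfg n), 0 ≤ rad h x
  le_one : ∀ {n : ℕ} (x : Cfg n), rad h x ≤ 1
  one : ∀ {n : ℕ} (x : Cfg n), ‖x‖ ≤ R / 2 → rad h x = 1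
  zero : ∀ {n : ℕ} (x : Cfg n), R ≤ ‖x‖ → rad h x = 0
  grad : ∀ {n : ℕ} (j : Fin 9) (B : Fin n) (x : Cfg n), |pdr j B (rad h) x| ≤ K / R
  grad0 : ∀ {n : ℕ} (j : Fin 9) (B : Fin n) (x : Cfg n), ‖x‖ < R / 2 → pdr j B (rad h) x = 0

lemma exists_rc : ∃ K : ℝ, 0 ≤ K ∧ ∀ R : ℝ, 0 < R → ∃ h : ℝ → ℝ, IsRC K R h := by
  -- bound of the derivative of `smoothTransition`
  obtain ⟨K₀, hK₀⟩ : ∃ K₀, ∀ s : ℝ, |deriv Real.smoothTransition s| ≤ K₀ := by
    have hc : Continuous (deriv Real.smoothTransition) :=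
      (Real.smoothTransition.contDiff (n := 1)).continuous_deriv (by simp)
    have hs : HasCompactSupport (deriv Real.smoothTransition) := by
      refine HasCompactSupport.intro (isCompact_Icc (a := (0 : ℝ)) (b := 1)) fun s hs => ?_
      rw [Set.mem_Icc, not_and_or, not_le, not_le] at hs
      rcases hs with h | h
      · have : Real.smoothTransition =ᶠ[𝓝 s] fun _ => 0 := by
          filter_upwards [isOpen_Iio.mem_nhds h] with y hy
          exact Real.smoothTransition.zero_of_nonpos (le_of_lt hy)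
        rw [this.deriv_eq]
        simp
      · have : Real.smoothTransition =ᶠ[𝓝 s] fun _ => 1 := by
          filter_upwards [isOpen_Ioi.mem_nhds h] with y hy
          exact Real.smoothTransition.one_of_one_le (le_of_lt hy)
        rw [this.deriv_eq]
        simp
    obtain ⟨C, hC⟩ := hs.exists_bound_of_continuous hc
    exact ⟨C, hC⟩
  have hK0 : 0 ≤ K₀ := (abs_nonneg _).trans (hK₀ 0)
  refine ⟨8 / 3 * K₀, by positivity, fun R hR => ?_⟩
  obtain ⟨h, hh⟩ : ∃ h : ℝ → ℝ, h = fun s => Real.smoothTransition (4 / 3 * (1 - s / R ^ 2)) :=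
    ⟨_, rfl⟩
  have hcd : ContDiff ℝ ∞ h := by
    rw [hh]
    exact Real.smoothTransition.contDiff.comp
      (contDiff_const.mul (contDiff_const.sub (contDiff_id.div_const _)))
  have hone : ∀ {n : ℕ} (x : Cfg n), ‖x‖ ≤ R / 2 → rad h x = 1 := by
    intro n x hx
    rw [rad, hh]
    refine Real.smoothTransition.one_of_one_le ?_
    have h1 : ‖x‖ ^ 2 / R ^ 2 ≤ 1 / 4 := by
      rw [div_le_iff₀ (by positivity)]
      have := pow_le_pow_left₀ (norm_nonneg x) hx 2
      linarith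
    linarith
  have hzero : ∀ {n : ℕ} (x : Cfg n), R ≤ ‖x‖ → rad h x = 0 := by
    intro n x hx
    rw [rad, hh]
    refine Real.smoothTransition.zero_of_nonpos ?_
    have h1 : 1 ≤ ‖x‖ ^ 2 / R ^ 2 := by
      rw [le_div_iff₀ (by positivity), one_mul]
      exact pow_le_pow_left₀ hR.le hx 2
    linarith
  have hder : ∀ s, deriv h s = deriv Real.smoothTransition (4 / 3 * (1 - s / R ^ 2)) *
      (-(4 / 3) / R ^ 2) := by
    intro s
    have h1 : HasDerivAt (fun s : ℝ => 4 / 3 * (1 - s / R ^ 2)) (-(4 / 3) / R ^ 2) s := by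
      have h2 := (((hasDerivAt_id s).div_const (R ^ 2)).const_sub 1).const_mul (4 / 3)
      refine h2.congr_deriv ?_
      ring
    have h3 : HasDerivAt Real.smoothTransition
        (deriv Real.smoothTransition (4 / 3 * (1 - s / R ^ 2))) (4 / 3 * (1 - s / R ^ 2)) :=
      (((Real.smoothTransition.contDiff (n := 1)).differentiable (by simp)) _).hasDerivAt
    rw [hh]
    exact (h3.comp s h1).deriv
  refine ⟨h, ⟨hcd, fun {n} x => ?_, fun {n} x => ?_, hone, hzero, fun {n} j B x => ?_,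
    fun {n} j B x hx => ?_⟩⟩
  · rw [rad, hh]; exact Real.smoothTransition.nonneg _
  · rw [rad, hh]; exact Real.smoothTransition.le_one _
  · by_cases hx : ‖x‖ ≤ R
    · rw [pdr_rad hcd, hder, abs_mul, abs_mul, abs_mul, abs_div, abs_neg]
      have h1 := hK₀ (4 / 3 * (1 - ‖x‖ ^ 2 / R ^ 2))
      have h2 : |x (j, B)| ≤ R := by
        have := PiLp.norm_apply_le x (j, B)
        rw [Real.norm_eq_abs] at this
        exact this.trans hx
      have h3 : |(2 : ℝ)| = 2 := abs_of_pos (by norm_num)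
      have h4 : |(4 / 3 : ℝ)| = 4 / 3 := abs_of_pos (by norm_num)
      have h5 : |R ^ 2| = R ^ 2 := abs_of_pos (by positivity)
      rw [h3, h4, h5]
      calc 2 * (|deriv Real.smoothTransition (4 / 3 * (1 - ‖x‖ ^ 2 / R ^ 2))| *
            (4 / 3 / R ^ 2)) * |x (j, B)|
          ≤ 2 * (K₀ * (4 / 3 / R ^ 2)) * R := by gcongr
        _ = 8 / 3 * K₀ / R := by field_simp; ring
    · push Not at hx
      have h1 : rad h =ᶠ[𝓝 x] fun _ => 0 := by
        have : {y : Cfg n | R < ‖y‖} ∈ 𝓝 x := (isOpen_lt continuous_const continuous_norm).mem_nhds hx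
        filter_upwards [this] with y hy
        exact hzero y (le_of_lt hy)
      rw [pdr, h1.fderiv_eq]
      simp only [fderiv_fun_const, Pi.zero_apply, _root_.zero_apply, abs_zero]
      positivity
  · have h1 : rad h =ᶠ[𝓝 x] fun _ => 1 := by
      have : {y : Cfg n | ‖y‖ < R / 2} ∈ 𝓝 x := (isOpen_lt continuous_norm continuous_const).mem_nhds hx
      filter_upwards [this] with y hy
      exact hone y (le_of_lt hy)
    rw [pdr, h1.fderiv_eq]
    simp

end Vale.Agent.P353.Z.Moll
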