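import Vale.Agent.P353.Z.U.QmBase
import Vale.Agent.P353.Z.U.MollRad
import Vale.Agent.P353.Z.U.Sym
import Vale.Agent.P353.Z.U.EsaBase
import Vale.Agent.P353.Z.U.MollInv

/-! # P353, uniqueness: weak = strong for invariant zero modes (helper349) -/

open MeasureTheory Filter Topology
open scoped ContDiff

namespace Vale.Agent.P353.Z.U

variable {dc : ℕ}

variable {F : Type*} [NormedAddCommGroup F] [InnerProductSpace ℂ F]

namespace WS

open Vale.Agent.P353.Z.Moll Vale.Agent.P353.Z.U.HB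

lemma integral_inner_left [CompleteSpace F] {f : (Cfg dc) → F} (hf : Integrable f volume) (c : F) :
    ∫ x, inner ℂ (f x) c = inner ℂ (∫ x, f x) c := by
  rw [← inner_conj_symm, ← integral_inner hf c, ← integral_conj]
  simp only [inner_conj_symm]

/-- mollification is symmetric (on test functions) -/
lemma mo_symm_tst [CompleteSpace F] {ρ : (Cfg dc) → ℝ} (hρ : Continuous ρ) (hc : HasCompactSupport ρ)
    (he : ∀ x, ρ (-x) = ρ x) {a b : (Cfg dc) → F} (ha : Setup.Tst a) (hb : Setup.Tst b) :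
    ∫ x, inner ℂ (a x) (mo ρ b x) = ∫ x, inner ℂ (mo ρ a x) (b x) := by
  have hLa : LocallyIntegrable a volume := ha.1.continuous.locallyIntegrable
  have hLb : LocallyIntegrable b volume := hb.1.continuous.locallyIntegrable
  have h1 : ∀ x, inner ℂ (a x) (mo ρ b x) = ∫ t, inner ℂ (a x) (ρ (x - t) • b t) := by
    intro x
    rw [mo, ← integral_inner (integrable_mo hρ hc hLb x)]
  have h2 : ∀ t, inner ℂ (mo ρ a t) (b t) = ∫ x, inner ℂ (a x) (ρ (x - t) • b t) := by
    intro t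
    rw [mo, ← integral_inner_left (integrable_mo hρ hc hLa t)]
    refine integral_congr_ae (Eventually.of_forall fun x => ?_)
    have h3 : ρ (t - x) = ρ (x - t) := by rw [← he (x - t), neg_sub]
    simp only [h3]
    rw [← Complex.coe_smul, ← Complex.coe_smul, inner_smul_left, inner_smul_right,
      Complex.conj_ofReal]
  simp only [h1, h2]
  refine integral_integral_swap_of_hasCompactSupport
    (f := fun x t => (inner ℂ (a x) (ρ (x - t) • b t) : ℂ)) ?_ ?_
  · have h4 : Continuous fun p : (Cfg dc) × (Cfg dc) => (inner ℂ (a p.1) (ρ (p.1 - p.2) • b p.2) : ℂ) := by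
      refine Continuous.inner (ha.1.continuous.comp continuous_fst) ?_
      exact (hρ.comp (continuous_fst.sub continuous_snd)).smul (hb.1.continuous.comp continuous_snd)
    exact h4
  · refine HasCompactSupport.intro (K := tsupport a ×ˢ tsupport b)
      (ha.2.isCompact.prod hb.2.isCompact) ?_
    rintro ⟨x, t⟩ hx
    simp only [Function.uncurry_apply_pair]
    rw [Set.mem_prod, not_and_or] at hx
    rcases hx with h | h
    · rw [image_eq_zero_of_notMem_tsupport h, inner_zero_left]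
    · rw [image_eq_zero_of_notMem_tsupport (f := b) h, smul_zero, inner_zero_right]

lemma mo_Tst {ρ : (Cfg dc) → ℝ} (hρ : ContDiff ℝ ∞ ρ) (hc : HasCompactSupport ρ) {u : (Cfg dc) → F}
    (hu : Setup.Tst u) : Setup.Tst (mo ρ u) := by
  refine ⟨contDiff_mo hρ hc hu.1.continuous.locallyIntegrable, ?_⟩
  rw [mo_eq_conv']
  exact hc.convolution _ hu.2

/-- limits of mollified test functions -/
lemma L2t_mo {ε : ℝ} {ρ : (Cfg dc) → ℝ} (h : IsMol ε ρ) {w : ℕ → (Cfg dc) → F} {Ψ : (Cfg dc) → F}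
    (hw : L2t w Ψ) : L2t (fun n => mo ρ (w n)) (mo ρ Ψ) := by
  refine ⟨fun n => (nsq_mo_le h (hw.mem n)).1, (nsq_mo_le h hw.mem').1, ?_⟩
  have h1 : ∀ n, nsq (fun x => mo ρ (w n) x - mo ρ Ψ x) ≤ nsq (fun x => w n x - Ψ x) := by
    intro n
    have h2 : (fun x => mo ρ (w n) x - mo ρ Ψ x) = mo ρ (fun x => w n x - Ψ x) := by
      funext x
      rw [mo_sub h.contDiff.continuous h.hcs (locInt (hw.mem n)) (locInt hw.mem')]
    rw [h2]
    exact (nsq_mo_le h ((hw.mem n).sub hw.mem')).2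
  exact squeeze_zero (fun n => nsq_nonneg _) h1 hw.lim

omit [InnerProductSpace ℂ F] in
lemma L2t_const {a : (Cfg dc) → F} (ha : MemLp a 2 (volume : Measure (Cfg dc))) : L2t (fun _ => a) a :=
  ⟨fun _ => ha, ha, by simp [nsq]⟩

/-- mollification is symmetric -/
lemma mo_symm [CompleteSpace F] {ε : ℝ} {ρ : (Cfg dc) → ℝ} (h : IsMol ε ρ)
    (he : ∀ x, ρ (-x) = ρ x) {a Ψ : (Cfg dc) → F} (ha : Setup.Tst a) {w : ℕ → (Cfg dc) → F}
    (hw : ∀ n, Setup.Tst (w n)) (hl : L2t w Ψ) :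
    ∫ x, inner ℂ (a x) (mo ρ Ψ x) = ∫ x, inner ℂ (mo ρ a x) (Ψ x) := by
  have h1 := (L2t_const ha.memLp).lim_inner (L2t_mo h hl)
  have h2 := (L2t_const (nsq_mo_le h ha.memLp).1).lim_inner hl
  refine tendsto_nhds_unique h1 (h2.congr fun n => ?_)
  exact (mo_symm_tst h.contDiff.continuous h.hcs he ha (hw n)).symm

lemma pd_mo {ρ : (Cfg dc) → ℝ} (hρ : ContDiff ℝ ∞ ρ) {u : (Cfg dc) → F} (hu : Setup.Tst u)
    (i : Fin 9) (A : Fin dc) (x : (Cfg dc)) : pd i A (mo ρ u) x = mo ρ (pd i A u) x := by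
  have h1 := hu.2.hasFDerivAt_convolution_right
    (ContinuousLinearMap.lsmul ℝ ℝ : ℝ →L[ℝ] F →L[ℝ] F)
    (hρ.continuous.locallyIntegrable (μ := volume)) (hu.1.of_le (by simp)) x
  rw [← mo_eq_conv'] at h1
  have h2 := h1.fderiv
  unfold pd
  rw [h2, convolution_precompR_apply _ hρ.continuous.locallyIntegrable (hu.2.fderiv ℝ)
    (hu.1.continuous_fderiv (by simp)), mo_eq_conv']

variable (S : Setup dc F)

lemma G_rad {h : ℝ → ℝ} (hh : ContDiff ℝ ∞ h) (C : Fin dc) (u : (Cfg dc) → F) (x : (Cfg dc))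
    (hu : DifferentiableAt ℝ u x) :
    S.G C (fun y => ((rad h y : ℝ) : ℂ) • u y) x = ((rad h x : ℝ) : ℂ) • S.G C u x := by
  rw [G_eq_Dop, Dop_rad hh (gco_rot S C) hu, ← G_eq_Dop]

lemma J_rad {h : ℝ → ℝ} (hh : ContDiff ℝ ∞ h) (k l : Fin 9) (u : (Cfg dc) → F) (x : (Cfg dc))
    (hu : DifferentiableAt ℝ u x) :
    S.J k l (fun y => ((rad h y : ℝ) : ℂ) • u y) x = ((rad h x : ℝ) : ℂ) • S.J k l u x := by
  rw [J_eq_Dop, Dop_rad hh (jco_rot k l) hu, ← J_eq_Dop]

lemma G_mo_zero [CompleteSpace F] {g : ℝ → ℝ} {Ψ : (Cfg dc) → F}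
    (hΨ : MemLp Ψ 2 (volume : Measure (Cfg dc))) (hw : S.wG Ψ) (hg : ContDiff ℝ ∞ g)
    (hc : HasCompactSupport (rad (dc := dc) g)) (C : Fin dc) (x : (Cfg dc)) :
    S.G C (mo (rad g) Ψ) x = 0 := by
  rw [G_eq_Dop, Dop_mo_eq_zero hg hc (S.cS_symm C) (gco_lin S C) (gco_rot S C) (locInt hΨ) ?_ x]
  intro ζ hζ
  have := hw C ζ hζ
  simpa only [G_eq_Dop] using this

lemma J_mo_zero [CompleteSpace F] {g : ℝ → ℝ} {Ψ : (Cfg dc) → F}
    (hΨ : MemLp Ψ 2 (volume : Measure (Cfg dc))) (hw : S.wJ Ψ) (hg : ContDiff ℝ ∞ g)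
    (hc : HasCompactSupport (rad (dc := dc) g)) {k l : Fin 9} (hkl : Same k l) (x : (Cfg dc)) :
    S.J k l (mo (rad g) Ψ) x = 0 := by
  rw [J_eq_Dop, Dop_mo_eq_zero hg hc (S.Skl_symm k l) (jco_lin k l) (jco_rot k l) (locInt hΨ) ?_ x]
  intro ζ hζ
  have := hw k l hkl ζ hζ
  simpa only [J_eq_Dop] using this

lemma contDiff_Fx : ContDiff ℝ ∞ S.Fx := by
  unfold Setup.Fx
  refine ContDiff.const_smul _ (ContDiff.sum fun q _ => ContDiff.sum fun A _ =>
    ContDiff.sum fun B _ => ContDiff.sum fun C _ => ?_)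
  exact (contDiff_const.mul (Setup.contDiff_ofReal (Setup.contDiff_coord _))).smul contDiff_const

lemma contDiff_esaW (m : ℝ) : ContDiff ℝ ∞ (S.esaW m) := by
  unfold Setup.esaW
  refine ContDiff.sub (ContDiff.add ?_ ((contDiff_Fx S).const_smul (16 : ℂ))) contDiff_const
  exact (Setup.contDiff_ofReal (contDiff_const.add
    (contDiff_const.mul (S.esa_contDiff_Vm m)))).smul contDiff_const

/-- Laplacian -/
noncomputable def lap (u : (Cfg dc) → F) (x : (Cfg dc)) : F := ∑ i, ∑ A, pd i A (pd i A u) x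

lemma Tst_lap {u : (Cfg dc) → F} (hu : Setup.Tst u) : Setup.Tst (lap u) :=
  Tst_sum _ fun i _ => Tst_sum _ fun A _ => (hu.pd i A).pd i A

lemma mo_add {ρ : (Cfg dc) → ℝ} (hρ : Continuous ρ) (hc : HasCompactSupport ρ) {f g : (Cfg dc) → F}
    (hf : LocallyIntegrable f volume) (hg : LocallyIntegrable g volume) (x : (Cfg dc)) :
    mo ρ (fun y => f y + g y) x = mo ρ f x + mo ρ g x := by
  unfold mo
  rw [← integral_add (integrable_mo hρ hc hf x) (integrable_mo hρ hc hg x)]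
  simp only [smul_add]

lemma mo_csmul {ρ : (Cfg dc) → ℝ} (c : ℂ) {f : (Cfg dc) → F} (x : (Cfg dc)) :
    mo ρ (fun y => c • f y) x = c • mo ρ f x := by
  unfold mo
  rw [← integral_smul]
  refine integral_congr_ae (Eventually.of_forall fun y => ?_)
  simp only [smul_comm c]

lemma mo_sum {ι : Type*} (s : Finset ι) {ρ : (Cfg dc) → ℝ} (hρ : Continuous ρ)
    (hc : HasCompactSupport ρ) {f : ι → (Cfg dc) → F} (hf : ∀ i, Setup.Tst (f i)) (x : (Cfg dc)) :
    mo ρ (fun y => ∑ i ∈ s, f i y) x = ∑ i ∈ s, mo ρ (f i) x := by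
  unfold mo
  simp only [Finset.smul_sum]
  exact integral_finsetSum _ fun i _ => integrable_mo hρ hc (hf i).1.continuous.locallyIntegrable x

lemma lap_mo {ρ : (Cfg dc) → ℝ} (hρ : ContDiff ℝ ∞ ρ) (hc : HasCompactSupport ρ) {u : (Cfg dc) → F}
    (hu : Setup.Tst u) (x : (Cfg dc)) : lap (mo ρ u) x = mo ρ (lap u) x := by
  unfold lap
  rw [mo_sum _ hρ.continuous hc fun i => Tst_sum _ fun A _ => (hu.pd i A).pd i A]
  refine Finset.sum_congr rfl fun i _ => ?_
  rw [mo_sum _ hρ.continuous hc fun A => (hu.pd i A).pd i A]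
  refine Finset.sum_congr rfl fun A _ => ?_
  rw [← pd_mo hρ (hu.pd i A)]
  congr 1
  funext y
  exact pd_mo hρ hu i A y

lemma HH_eq (h7 : A7Stmt S) (m : ℝ) {u : (Cfg dc) → F} (hu : ContDiff ℝ ∞ u) (x : (Cfg dc)) :
    HH S m u x = S.esaW m x (u x) - (8 : ℂ) • lap u x - u x := by
  rw [lap, ← S.esa_L_eq h7 m hu x]
  unfold HH
  abel

/-- the commutator of the Hamiltonian with a mollifier -/
lemma HH_mo [CompleteSpace F] (h7 : A7Stmt S) (m : ℝ) {ρ : (Cfg dc) → ℝ} (hρ : ContDiff ℝ ∞ ρ)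
    (hc : HasCompactSupport ρ) {u : (Cfg dc) → F} (hu : Setup.Tst u) (x : (Cfg dc)) :
    HH S m (mo ρ u) x = mo ρ (HH S m u) x +
      ∫ t, ρ (x - t) • (S.esaW m x - S.esaW m t) (u t) := by
  have hLu : LocallyIntegrable u volume := hu.1.continuous.locallyIntegrable
  have hW : Setup.Tst (fun t => S.esaW m t (u t)) := Setup.Tst.clm (contDiff_esaW S m) hu
  have hLW := hW.1.continuous.locallyIntegrable (μ := (volume : Measure (Cfg dc)))
  have hLl := (Tst_lap hu).1.continuous.locallyIntegrable (μ := (volume : Measure (Cfg dc)))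
  have hl8 : LocallyIntegrable (fun t => (8 : ℂ) • lap u t) volume :=
    (Tst_csmul (8 : ℂ) (Tst_lap hu)).1.continuous.locallyIntegrable
  have h1 : mo ρ (HH S m u) x =
      mo ρ (fun t => S.esaW m t (u t)) x - (8 : ℂ) • mo ρ (lap u) x - mo ρ u x := by
    have e : HH S m u = fun t => (S.esaW m t (u t) - (8 : ℂ) • lap u t) - u t :=
      funext fun t => HH_eq S h7 m hu.1 t
    have hd : LocallyIntegrable (fun t => S.esaW m t (u t) - (8 : ℂ) • lap u t) volume :=
      hLW.sub hl8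
    rw [e, mo_sub hρ.continuous hc hd hLu, mo_sub hρ.continuous hc hLW hl8, mo_csmul]
  have h2 : ∫ t, ρ (x - t) • (S.esaW m x - S.esaW m t) (u t) =
      S.esaW m x (mo ρ u x) - mo ρ (fun t => S.esaW m t (u t)) x := by
    have h3 : S.esaW m x (mo ρ u x) = ∫ t, ρ (x - t) • S.esaW m x (u t) := by
      unfold mo
      have h4 : ∫ t, (S.esaW m x) (ρ (x - t) • u t) = S.esaW m x (∫ t, ρ (x - t) • u t) :=
        (S.esaW m x).integral_comp_comm (integrable_mo hρ.continuous hc hLu x)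
      rw [← h4]
      refine integral_congr_ae (Eventually.of_forall fun t => ?_)
      simp only
      rw [← Complex.coe_smul, ← Complex.coe_smul, (S.esaW m x).map_smul]
    rw [h3]
    unfold mo
    have hi : Integrable (fun t => ρ (x - t) • S.esaW m x (u t)) := by
      have hT : Setup.Tst (fun t => S.esaW m x (u t)) := Setup.Tst.clm contDiff_const hu
      exact integrable_mo hρ.continuous hc hT.1.continuous.locallyIntegrable x
    rw [← integral_sub hi (integrable_mo hρ.continuous hc hLW x)]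
    refine integral_congr_ae (Eventually.of_forall fun t => ?_)
    simp only [_root_.sub_apply, smul_sub]
  rw [h1, h2, HH_eq S h7 m (contDiff_mo hρ hc hLu), lap_mo hρ hc hu]
  abel

lemma D_norm {χ : (Cfg dc) → ℝ} {κ : ℝ} (hκ : ∀ j B x, |pdr j B χ x| ≤ κ) (β : Fin 16)
    (x : (Cfg dc)) : ‖S.esaD χ β x‖ ≤ κ * S.esaC β := by
  unfold Setup.esaD Setup.esaC
  rw [norm_smul, Complex.norm_I, one_mul]
  refine (norm_sum_le _ _).trans ?_
  rw [Finset.mul_sum]
  refine Finset.sum_le_sum fun i _ => ?_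
  refine (norm_sum_le _ _).trans ?_
  rw [Finset.mul_sum]
  refine Finset.sum_le_sum fun A _ => ?_
  rw [norm_smul, Complex.norm_real, Real.norm_eq_abs]
  exact mul_le_mul_of_nonneg_right (hκ i A x) (norm_nonneg _)

lemma HH_symm (m : ℝ) {u v : (Cfg dc) → F} (hu : Setup.Tst u) (hv : ContDiff ℝ ∞ v) :
    ∫ x, inner ℂ (HH S m u x) (v x) = ∫ x, inner ℂ (u x) (HH S m v x) := by
  simp only [HH, sum_inner, inner_sum]
  rw [integral_finsetSum _ fun β _ => (Tst_Qm S m β (Tst_Qm S m β hu)).inner_int hv.continuous,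
    integral_finsetSum _ fun β _ =>
      hu.inner_int (contDiff_Qm S m β (contDiff_Qm S m β hv)).continuous]
  refine Finset.sum_congr rfl fun β _ => ?_
  rw [HB.Qm_symm S m β (Tst_Qm S m β hu) hv, HB.Qm_symm S m β hu (contDiff_Qm S m β hv)]

/-- localisation identity -/
lemma loc_energy (m : ℝ) {χ : (Cfg dc) → ℝ} (hχ : ContDiff ℝ ∞ χ) (hχc : HasCompactSupport χ)
    {v : (Cfg dc) → F} (hv : ContDiff ℝ ∞ v) :
    ∑ β, nsq (S.Qm m β (fun x => ((χ x : ℝ) : ℂ) • v x)) =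
      (∫ x, inner ℂ (((χ x : ℝ) : ℂ) • ((χ x : ℝ) : ℂ) • v x) (HH S m v x)).re +
        ∑ β, ∫ x, ‖S.esaD χ β x (v x)‖ ^ 2 := by
  set u1 : (Cfg dc) → F := fun x => ((χ x : ℝ) : ℂ) • v x with hu1
  set u2 : (Cfg dc) → F := fun x => ((χ x : ℝ) : ℂ) • u1 x with hu2
  have hT1 : Setup.Tst u1 := by
    refine ⟨(Setup.contDiff_ofReal hχ).smul hv, hχc.mono ?_⟩
    intro x hx
    simp only [Function.mem_support] at hx ⊢
    intro h0
    exact hx (by simp [hu1, h0])
  have hT2 : Setup.Tst u2 := hT1.rsmul hχ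
  have hχd : ∀ x, DifferentiableAt ℝ χ x := fun x => hχ.differentiable (by simp) x
  have hvd : ∀ x, DifferentiableAt ℝ v x := fun x => hv.differentiable (by simp) x
  have q1 : ∀ β x, S.Qm m β u1 x = ((χ x : ℝ) : ℂ) • S.Qm m β v x - S.esaD χ β x (v x) :=
    fun β x => S.esa_Qm_smul m β χ v x (hχd x) (hvd x)
  have q2 : ∀ β x, S.Qm m β u2 x = ((χ x : ℝ) : ℂ) • S.Qm m β u1 x -
      ((χ x : ℝ) : ℂ) • S.esaD χ β x (v x) := fun β x => by
    rw [hu2, S.esa_Qm_smul m β χ u1 x (hχd x) (hT1.diff x), hu1]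
    simp only [map_smul]
  have hpt : ∀ β x, ‖S.Qm m β u1 x‖ ^ 2 =
      (inner ℂ (S.Qm m β u2 x) (S.Qm m β v x)).re + ‖S.esaD χ β x (v x)‖ ^ 2 := by
    intro β x
    rw [q2, q1]
    set a := S.Qm m β v x
    set b := S.esaD χ β x (v x)
    have e1 : ‖((χ x : ℝ) : ℂ) • a - b‖ ^ 2 = (χ x) ^ 2 * ‖a‖ ^ 2 -
        2 * (χ x * (inner ℂ b a : ℂ).re) + ‖b‖ ^ 2 := by
      rw [← re_inner_self, inner_sub_left, inner_sub_right, inner_sub_right, inner_smul_left,
        inner_smul_right, inner_smul_left, inner_smul_right, Complex.conj_ofReal]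
      have h1 : (inner ℂ a b : ℂ).re = (inner ℂ b a : ℂ).re := by
        rw [← inner_conj_symm, Complex.conj_re]
      simp only [Complex.sub_re, Complex.re_ofReal_mul, re_inner_self, h1]
      ring
    rw [e1, inner_sub_left, inner_smul_left, inner_smul_left, inner_sub_left, inner_smul_left,
      Complex.conj_ofReal]
    simp only [Complex.sub_re, Complex.re_ofReal_mul, re_inner_self]
    ring
  have hDc : ∀ β, Continuous (fun x => S.esaD χ β x (v x)) := fun β =>
    (Setup.contDiff_clm_apply' (S.esa_contDiff_D hχ β) hv).continuous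
  have hDs : ∀ β, HasCompactSupport (fun x => S.esaD χ β x (v x)) := by
    intro β
    refine HasCompactSupport.intro' (K := tsupport χ) hχc (isClosed_tsupport χ) ?_
    intro x hx
    have h0 : ∀ i A, pdr i A χ x = 0 := by
      intro i A
      have : fderiv ℝ χ x = 0 := by
        by_contra hne
        exact hx ((tsupport_fderiv_subset ℝ (f := χ)) (subset_tsupport _ hne))
      simp [pdr, this]
    simp [Setup.esaD, h0]
  have hDi : ∀ β, Integrable (fun x => ‖S.esaD χ β x (v x)‖ ^ 2) := fun β =>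
    memLp_norm_sq_int ((hDc β).memLp_of_hasCompactSupport (hDs β))
  have hQi : ∀ β, Integrable (fun x => inner ℂ (S.Qm m β u2 x) (S.Qm m β v x)) := fun β =>
    (Tst_Qm S m β hT2).inner_int (contDiff_Qm S m β hv).continuous
  have hmain : ∀ β, nsq (S.Qm m β u1) = (∫ x, inner ℂ (u2 x) (S.Qm m β (S.Qm m β v) x)).re +
      ∫ x, ‖S.esaD χ β x (v x)‖ ^ 2 := by
    intro β
    rw [← HB.Qm_symm S m β hT2 (contDiff_Qm S m β hv), nsq]
    simp only [hpt β]
    have hre : Integrable (fun x => (inner ℂ (S.Qm m β u2 x) (S.Qm m β v x)).re) := (hQi β).re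
    rw [integral_add hre (hDi β)]
    congr 1
    exact integral_re (hQi β)
  have hQQ : ∀ β, Integrable (fun x => inner ℂ (u2 x) (S.Qm m β (S.Qm m β v) x)) := fun β =>
    hT2.inner_int (contDiff_Qm S m β (contDiff_Qm S m β hv)).continuous
  have hsum : ∫ x, inner ℂ (u2 x) (HH S m v x) =
      ∑ β, ∫ x, inner ℂ (u2 x) (S.Qm m β (S.Qm m β v) x) := by
    rw [← integral_finsetSum _ fun β _ => hQQ β]
    refine integral_congr_ae (Filter.Eventually.of_forall fun x => ?_)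
    simp only [HH, inner_sum]
  change ∑ β, nsq (S.Qm m β u1) = (∫ x, inner ℂ (u2 x) (HH S m v x)).re + _
  rw [hsum, Complex.re_sum, ← Finset.sum_add_distrib]
  exact Finset.sum_congr rfl fun β _ => hmain β

/-- the error term of the mollified equation -/
lemma err_bound [CompleteSpace F] (h7 : A7Stmt S) (m : ℝ) {Ψ : (Cfg dc) → F} {w : ℕ → (Cfg dc) → F}
    (hw : ∀ n, Setup.Tst (w n)) (hl : L2t w Ψ)
    (h0 : ∀ φ, S.Inv φ → ∫ x, inner ℂ (HH S m φ x) (Ψ x) = 0)
    {ε η : ℝ} (hη : 0 ≤ η) {ρ : (Cfg dc) → ℝ} (h : IsMol ε ρ) (he : ∀ x, ρ (-x) = ρ x)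
    {u : (Cfg dc) → F} (hu : Setup.Tst u) (hui : S.Inv (mo ρ u))
    (hb : ∀ x t, ρ (x - t) ≠ 0 → u t ≠ 0 → ‖S.esaW m x - S.esaW m t‖ ≤ η) :
    ‖∫ x, inner ℂ (u x) (HH S m (mo ρ Ψ) x)‖ ≤ η * (Real.sqrt (nsq u) * Real.sqrt (nsq Ψ)) := by
  set E : (Cfg dc) → F := fun x => ∫ t, ρ (x - t) • (S.esaW m x - S.esaW m t) (u t) with hE
  have hmoT : Setup.Tst (mo ρ u) := mo_Tst h.contDiff h.hcs hu
  have hHT : Setup.Tst (HH S m u) := Tst_HH S m hu
  have hEe : E = fun x => HH S m (mo ρ u) x - mo ρ (HH S m u) x := by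
    funext x
    rw [HH_mo S h7 m h.contDiff h.hcs hu x]
    simp only [hE]
    abel
  have hET : Setup.Tst E := by
    rw [hEe]
    exact (Tst_HH S m hmoT).sub (mo_Tst h.contDiff h.hcs hHT)
  have hEb : ∀ x, ‖E x‖ ≤ η * mo ρ (fun t => ‖u t‖) x := by
    intro x
    have hi : Integrable (fun t => ρ (x - t) • ‖u t‖) :=
      integrable_mo h.contDiff.continuous h.hcs (hu.1.continuous.norm.locallyIntegrable) x
    have e : η * mo ρ (fun t => ‖u t‖) x = ∫ t, η * (ρ (x - t) • ‖u t‖) := by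
      rw [integral_const_mul]; rfl
    rw [e]
    refine norm_integral_le_of_norm_le (hi.const_mul _) (Eventually.of_forall fun t => ?_)
    rw [norm_smul, Real.norm_of_nonneg (h.nonneg _), smul_eq_mul]
    by_cases h1 : ρ (x - t) = 0
    · rw [h1]; simp
    · by_cases h2 : u t = 0
      · rw [h2]; simp
      · calc ρ (x - t) * ‖(S.esaW m x - S.esaW m t) (u t)‖ ≤ ρ (x - t) * (η * ‖u t‖) := by
              refine mul_le_mul_of_nonneg_left ?_ (h.nonneg _)
              exact ((S.esaW m x - S.esaW m t).le_opNorm _).trans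
                (mul_le_mul_of_nonneg_right (hb x t h1 h2) (norm_nonneg _))
          _ = _ := by ring
  have hEn := (nsq_le_mo h hu.memLp hET.1.continuous.aestronglyMeasurable hEb).2
  have h1 : ∫ x, inner ℂ (u x) (HH S m (mo ρ Ψ) x) = - ∫ x, inner ℂ (E x) (Ψ x) := by
    have hsm : ContDiff ℝ ∞ (mo ρ Ψ) := contDiff_mo h.contDiff h.hcs (locInt hl.mem')
    rw [← HH_symm S m hu hsm, mo_symm h he hHT hw hl]
    have h2 : ∫ x, inner ℂ (E x) (Ψ x) = (∫ x, inner ℂ (HH S m (mo ρ u) x) (Ψ x)) -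
        ∫ x, inner ℂ (mo ρ (HH S m u) x) (Ψ x) := by
      rw [← integral_sub (integrable_inner_memLp (Tst_HH S m hmoT).memLp hl.mem')
        (integrable_inner_memLp (mo_Tst h.contDiff h.hcs hHT).memLp hl.mem')]
      refine integral_congr_ae (Eventually.of_forall fun x => ?_)
      simp only [hEe, inner_sub_left]
    rw [h2, h0 _ hui]
    ring
  rw [h1, norm_neg]
  refine (cs_inner hET.memLp hl.mem').trans ?_
  rw [← mul_assoc]
  refine mul_le_mul_of_nonneg_right ?_ (Real.sqrt_nonneg _)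
  calc Real.sqrt (∫ x, ‖E x‖ ^ 2) ≤ Real.sqrt (η ^ 2 * nsq u) := Real.sqrt_le_sqrt hEn
    _ = η * Real.sqrt (nsq u) := by
        rw [Real.sqrt_mul (sq_nonneg _), Real.sqrt_sq hη]

omit [InnerProductSpace ℂ F] in
/-- cutoffs converge -/
lemma cut_tendsto {Ψ : (Cfg dc) → F} (hΨ : MemLp Ψ 2 (volume : Measure (Cfg dc))) {K : ℝ}
    {h : ℕ → ℝ → ℝ} (hh : ∀ n : ℕ, IsRC K ((n : ℝ) + 1) (h n)) [NormedSpace ℂ F] :
    Tendsto (fun n => nsq (fun x => ((rad (h n) x : ℝ) : ℂ) • Ψ x - Ψ x)) atTop (𝓝 0) := by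
  have h1 : ∀ n x, ‖((rad (h n) x : ℝ) : ℂ) • Ψ x - Ψ x‖ ^ 2 ≤ ‖Ψ x‖ ^ 2 := by
    intro n x
    have e : ((rad (h n) x : ℝ) : ℂ) • Ψ x - Ψ x = ((rad (h n) x - 1 : ℝ) : ℂ) • Ψ x := by
      push_cast
      rw [sub_smul, one_smul]
    rw [e, norm_smul, Complex.norm_real, mul_pow, Real.norm_eq_abs, sq_abs]
    have h2 : (rad (h n) x - 1) ^ 2 ≤ 1 := by
      have h3 := (hh n).nonneg x
      have h4 := (hh n).le_one x
      nlinarith
    calc (rad (h n) x - 1) ^ 2 * ‖Ψ x‖ ^ 2 ≤ 1 * ‖Ψ x‖ ^ 2 := by gcongr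
      _ = _ := one_mul _
  have h2 : ∀ x, Tendsto (fun n => ‖((rad (h n) x : ℝ) : ℂ) • Ψ x - Ψ x‖ ^ 2) atTop (𝓝 0) := by
    intro x
    refine tendsto_const_nhds.congr' ?_
    filter_upwards [Filter.eventually_ge_atTop ⌈2 * ‖x‖⌉₊] with n hn
    have hx : ‖x‖ ≤ ((n : ℝ) + 1) / 2 := by
      have := Nat.ceil_le.mp hn
      linarith
    rw [(hh n).one x hx]
    simp
  have h3 := tendsto_integral_of_dominated_convergence (μ := (volume : Measure (Cfg dc)))
    (F := fun n x => ‖((rad (h n) x : ℝ) : ℂ) • Ψ x - Ψ x‖ ^ 2) (f := fun _ => (0 : ℝ))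
    (fun x => ‖Ψ x‖ ^ 2) ?_ (memLp_norm_sq_int hΨ) ?_ (Eventually.of_forall h2)
  · simpa [nsq] using h3
  · intro n
    refine ((AEStronglyMeasurable.sub ?_ hΨ.1).norm).pow 2
    exact (Complex.continuous_ofReal.comp (contDiff_rad (hh n).contDiff).continuous
      ).aestronglyMeasurable.smul hΨ.1
  · intro n
    refine Eventually.of_forall fun x => ?_
    rw [Real.norm_of_nonneg (by positivity)]
    exact h1 n x

lemma wG_of_lim {Ψ : (Cfg dc) → F} {w : ℕ → (Cfg dc) → F} (hw : ∀ n, S.Inv (w n)) (hl : L2t w Ψ) :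
    S.wG Ψ := by
  intro C ζ hζ
  have h1 := (L2t_const (hζ.G S C).memLp).lim_inner hl
  refine tendsto_nhds_unique h1 (tendsto_const_nhds.congr fun n => ?_)
  rw [G_symm S C ζ (w n) hζ (hw n).1.1]
  simp [(hw n).2.1]

lemma wJ_of_lim {Ψ : (Cfg dc) → F} {w : ℕ → (Cfg dc) → F} (hw : ∀ n, S.Inv (w n)) (hl : L2t w Ψ) :
    S.wJ Ψ := by
  intro k l hkl ζ hζ
  have h1 := (L2t_const (hζ.J S k l).memLp).lim_inner hl
  refine tendsto_nhds_unique h1 (tendsto_const_nhds.congr fun n => ?_)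
  rw [J_symm S k l ζ (w n) hζ (hw n).1.1]
  simp [(hw n).2.2 k l hkl]

lemma Inv_rad {f : ℝ → ℝ} (hf : ContDiff ℝ ∞ f) (hc : HasCompactSupport (rad (dc := dc) f)) {u : (Cfg dc) → F}
    (hu : ContDiff ℝ ∞ u) (hG : ∀ C x, S.G C u x = 0)
    (hJ : ∀ k l, Same k l → ∀ x, S.J k l u x = 0) :
    S.Inv (fun y => ((rad f y : ℝ) : ℂ) • u y) := by
  have hd : ∀ x, DifferentiableAt ℝ u x := fun x => (hu.differentiable (by simp)) x
  refine ⟨⟨(Setup.contDiff_ofReal (contDiff_rad hf)).smul hu, hc.mono ?_⟩, fun C x => ?_,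
    fun k l h x => ?_⟩
  · intro x hx
    simp only [Function.mem_support] at hx ⊢
    intro h0
    exact hx (by simp [h0])
  · rw [G_rad S hf C u x (hd x), hG, smul_zero]
  · rw [J_rad S hf k l u x (hd x), hJ k l h, smul_zero]

lemma Inv_mo [CompleteSpace F] {g : ℝ → ℝ} (hg : ContDiff ℝ ∞ g) (hc : HasCompactSupport (rad (dc := dc) g))
    {u : (Cfg dc) → F} (hu : S.Inv u) : S.Inv (mo (rad g) u) := by
  have hl : L2t (fun _ : ℕ => u) u := L2t_const hu.1.memLp
  exact ⟨mo_Tst (contDiff_rad hg) hc hu.1,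
    fun C x => G_mo_zero S hu.1.memLp (wG_of_lim S (fun _ => hu) hl) hg hc C x,
    fun k l h x => J_mo_zero S hu.1.memLp (wJ_of_lim S (fun _ => hu) hl) hg hc h x⟩

end WS

open WS Vale.Agent.P353.Z.Moll Vale.Agent.P353.Z.U.HB in
/-- **weak = strong** -/
theorem ws [CompleteSpace F] (S : Setup dc F) (h7 : A7Stmt S) : WSStmt S := by
  rintro m Ψ ⟨w, hw, hl⟩ h0
  have hΨ : MemLp Ψ 2 (volume : Measure (Cfg dc)) := hl.mem'
  have hwT : ∀ n, Setup.Tst (w n) := fun n => (hw n).1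
  have hwG := wG_of_lim S hw hl
  have hwJ := wJ_of_lim S hw hl
  set N : ℝ := nsq Ψ with hN
  have hN0 : 0 ≤ N := nsq_nonneg _
  set C1 : ℝ := ∑ β, S.esaC β ^ 2 with hC1
  have hC10 : 0 ≤ C1 := Finset.sum_nonneg fun β _ => sq_nonneg _
  obtain ⟨K, hK, hcut⟩ := exists_rc
  have hcut' : ∀ n : ℕ, ∃ h : ℝ → ℝ, IsRC K ((n : ℝ) + 1) h := fun n => hcut _ (by positivity)
  choose h hh using hcut'
  have key : ∀ η : ℝ, 0 < η → ∃ u, S.Inv u ∧ nsq (fun x => u x - Ψ x) ≤ η ∧
      ∑ β, nsq (S.Qm m β u) ≤ η := by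
    intro η hη
    have h1 : Tendsto (fun n : ℕ => (K / ((n : ℝ) + 1)) ^ 2 * C1 * N) atTop (𝓝 0) := by
      have := (tendsto_one_div_add_atTop_nhds_zero_nat (𝕜 := ℝ)).const_mul K
      rw [mul_zero] at this
      have h2 := ((this.pow 2).mul_const C1).mul_const N
      have h3 : (0 : ℝ) ^ 2 * C1 * N = 0 := by ring
      rw [h3] at h2
      refine h2.congr fun n => ?_
      rw [mul_one_div]
    have hη8 : 0 < η / 8 := by positivity
    obtain ⟨n, hn1, hn2⟩ := ((h1.eventually (gt_mem_nhds (half_pos hη))).and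
      ((cut_tendsto hΨ hh).eventually (gt_mem_nhds hη8))).exists
    set R : ℝ := (n : ℝ) + 1 with hR
    have hR0 : 0 < R := by positivity
    set χ : (Cfg dc) → ℝ := rad (h n) with hχ
    have hc := hh n
    have hχs : ContDiff ℝ ∞ χ := contDiff_rad hc.contDiff
    have hχc : HasCompactSupport χ := by
      refine HasCompactSupport.intro (isCompact_closedBall (0 : (Cfg dc)) R) fun x hx => ?_
      rw [Metric.mem_closedBall, dist_zero_right, not_le] at hx
      exact hc.zero x hx.le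
    set η' : ℝ := η / (2 * (N + 1)) with hη'
    have hη'0 : 0 < η' := by positivity
    have huc := (isCompact_closedBall (0 : (Cfg dc)) (R + 1)).uniformContinuousOn_of_continuous
      (S.esa_W_continuous m).continuousOn
    obtain ⟨δ, hδ, hδ'⟩ := Metric.uniformContinuousOn_iff.mp huc η' hη'0
    obtain ⟨ε₀, hε₀, happ⟩ := mo_approx hΨ hη8
    set ε : ℝ := min (min δ 1) ε₀ with hε
    have hε0 : 0 < ε := lt_min (lt_min hδ one_pos) hε₀
    obtain ⟨g, hg, hmol⟩ := exists_mol hε0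
    set ρ : (Cfg dc) → ℝ := rad g with hρ
    have heven : ∀ x, ρ (-x) = ρ x := fun x => by simp [hρ, rad]
    set v : (Cfg dc) → F := mo ρ Ψ with hv
    have hvs : ContDiff ℝ ∞ v := contDiff_mo hmol.contDiff hmol.hcs (locInt hΨ)
    obtain ⟨hvm, hvN⟩ := nsq_mo_le hmol hΨ
    have hvG : ∀ C x, S.G C v x = 0 := fun C x => G_mo_zero S hΨ hwG hg hmol.hcs C x
    have hvJ : ∀ k l, Same k l → ∀ x, S.J k l v x = 0 := fun k l hkl x =>
      J_mo_zero S hΨ hwJ hg hmol.hcs hkl x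
    set u : (Cfg dc) → F := fun x => ((χ x : ℝ) : ℂ) • v x with hu
    have hui : S.Inv u := Inv_rad S hc.contDiff hχc hvs hvG hvJ
    set u2 : (Cfg dc) → F := fun x => ((χ x : ℝ) : ℂ) • u x with hu2
    have hu2i : S.Inv u2 := Inv_rad S hc.contDiff hχc hui.1.1 hui.2.1 hui.2.2
    have hle : ∀ {a : (Cfg dc) → F}, MemLp a 2 (volume : Measure (Cfg dc)) →
        nsq (fun x => ((χ x : ℝ) : ℂ) • a x) ≤ nsq a := by
      intro a ha
      refine integral_mono_of_nonneg (Eventually.of_forall fun x => by positivity)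
        (memLp_norm_sq_int ha) (Eventually.of_forall fun x => ?_)
      simp only
      rw [norm_smul, Complex.norm_real, Real.norm_of_nonneg (hc.nonneg x), mul_pow]
      have h2 : χ x ^ 2 ≤ 1 := pow_le_one₀ (hc.nonneg x) (hc.le_one x)
      calc χ x ^ 2 * ‖a x‖ ^ 2 ≤ 1 * ‖a x‖ ^ 2 := by gcongr
        _ = _ := one_mul _
    refine ⟨u, hui, ?_, ?_⟩
    · -- `L²` distance
      have m1 : MemLp (fun x => v x - Ψ x) 2 (volume : Measure (Cfg dc)) := hvm.sub hΨ
      have m3 : MemLp (fun x => ((χ x : ℝ) : ℂ) • Ψ x) 2 (volume : Measure (Cfg dc)) := by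
        refine hΨ.of_le ((Complex.continuous_ofReal.comp hχs.continuous
          ).aestronglyMeasurable.smul hΨ.1) (Eventually.of_forall fun x => ?_)
        rw [norm_smul, Complex.norm_real, Real.norm_of_nonneg (hc.nonneg x)]
        exact mul_le_of_le_one_left (norm_nonneg _) (hc.le_one x)
      have m4 : MemLp (fun x => ((χ x : ℝ) : ℂ) • v x) 2 (volume : Measure (Cfg dc)) := hui.1.memLp
      have m2 : MemLp (fun x => ((χ x : ℝ) : ℂ) • (v x - Ψ x)) 2 (volume : Measure (Cfg dc)) := by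
        have := m4.sub m3
        refine this.ae_eq (Eventually.of_forall fun x => ?_)
        simp only [Pi.sub_apply, smul_sub]
      have e : (fun x => u x - Ψ x) = fun x => ((χ x : ℝ) : ℂ) • (v x - Ψ x) +
          (((χ x : ℝ) : ℂ) • Ψ x - Ψ x) := by
        funext x
        rw [smul_sub]
        abel
      have h2 := nsq_add_le m2 (m3.sub hΨ)
      have h3 := hle m1
      have h4 := happ ε (min_le_right _ _) ρ hmol
      rw [e]
      have h5 : nsq (fun x => ((χ x : ℝ) : ℂ) • (v x - Ψ x) + (((χ x : ℝ) : ℂ) • Ψ x - Ψ x)) ≤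
          2 * nsq (fun x => ((χ x : ℝ) : ℂ) • (v x - Ψ x)) +
          2 * nsq (fun x => ((χ x : ℝ) : ℂ) • Ψ x - Ψ x) := h2
      linarith
    · -- energy
      rw [loc_energy S m hχs hχc hvs]
      have h2 : ‖∫ x, inner ℂ (u2 x) (HH S m v x)‖ ≤
          η' * (Real.sqrt (nsq u2) * Real.sqrt (nsq Ψ)) := by
        refine err_bound S h7 m hwT hl h0 hη'0.le hmol heven hu2i.1 (Inv_mo S hg hmol.hcs hu2i)
          fun x t hxt ht => ?_
        have h3 : ‖x - t‖ < ε := by
          by_contra h4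
          exact hxt (hmol.supp _ (not_lt.mp h4))
        have h5 : dist x t < δ := by
          rw [dist_eq_norm]
          exact h3.trans_le ((min_le_left _ _).trans (min_le_left _ _))
        have h6 : ‖t‖ ≤ R := by
          by_contra h4
          apply ht
          have h7 : χ t = 0 := hc.zero t (not_le.mp h4).le
          simp only [hu2]
          rw [h7]
          simp
        have h7 : ‖x‖ ≤ R + 1 := by
          have h8 : ‖x - t‖ < 1 := h3.trans_le ((min_le_left _ _).trans (min_le_right _ _))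
          have h9 : ‖x‖ ≤ ‖x - t‖ + ‖t‖ := by
            have := norm_add_le (x - t) t
            simpa using this
          linarith
        have h9 := hδ' x (by simpa using h7) t (by simpa using h6.trans (by linarith)) h5
        rw [dist_eq_norm] at h9
        exact h9.le
      have h3 : nsq u2 ≤ N := (hle hui.1.memLp).trans ((hle hvm).trans hvN)
      have h4 : Real.sqrt (nsq u2) * Real.sqrt (nsq Ψ) ≤ N := by
        calc Real.sqrt (nsq u2) * Real.sqrt (nsq Ψ) ≤ Real.sqrt N * Real.sqrt N := by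
              gcongr
          _ = N := Real.mul_self_sqrt hN0
      have h5 : η' * (Real.sqrt (nsq u2) * Real.sqrt (nsq Ψ)) ≤ η / 2 := by
        calc η' * (Real.sqrt (nsq u2) * Real.sqrt (nsq Ψ)) ≤ η' * (N + 1) := by
              gcongr
              linarith
          _ = η / 2 := by rw [hη']; field_simp
      have h6 : ∑ β, ∫ x, ‖S.esaD χ β x (v x)‖ ^ 2 ≤ (K / R) ^ 2 * C1 * N := by
        have h3 : ∀ β, ∫ x, ‖S.esaD χ β x (v x)‖ ^ 2 ≤ (K / R * S.esaC β) ^ 2 * N := by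
          intro β
          refine (nsq_op_le (fun x => D_norm S (fun j B x => hc.grad j B x) β x) hvm).trans ?_
          exact mul_le_mul_of_nonneg_left hvN (sq_nonneg _)
        refine (Finset.sum_le_sum fun β _ => h3 β).trans (le_of_eq ?_)
        rw [hC1, Finset.mul_sum, Finset.sum_mul]
        refine Finset.sum_congr rfl fun β _ => ?_
        ring
      have h7 := (Complex.re_le_norm (∫ x, inner ℂ (u2 x) (HH S m v x))).trans (h2.trans h5)
      change (∫ x, inner ℂ (u2 x) (HH S m v x)).re + _ ≤ η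
      linarith
  have hpos : ∀ n : ℕ, (0 : ℝ) < 1 / ((n : ℝ) + 1) := fun n => by positivity
  choose u hu1 hu2 hu3 using fun n : ℕ => key _ (hpos n)
  have ht := tendsto_one_div_add_atTop_nhds_zero_nat (𝕜 := ℝ)
  refine ⟨u, hu1, ⟨fun n => (hu1 n).1.memLp, hΨ, ?_⟩, ?_⟩
  · exact squeeze_zero (fun n => nsq_nonneg _) hu2 ht
  · exact squeeze_zero (fun n => Finset.sum_nonneg fun β _ => nsq_nonneg _) hu3 ht


end Vale.Agent.P353.Z.U
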