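import Vale.Agent.P353.Z.U.GamLem

/-! # P353, uniqueness for general `N`: statements of part A (algebra)

Every `…Stmt` is a proposition; a prover delivers `theorem … : …Stmt …` in a file of its own. -/

open MeasureTheory Filter Topology
open scoped ContDiff

namespace Vale.Agent.P353.Z.U

variable {d : ℕ}

variable {F : Type*} [NormedAddCommGroup F] [InnerProductSpace ℂ F]

/-- **A-F10** (ten dimensional Fierz identity)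
`∑_i (γ^i_{αβ} γ^i_{γδ} + γ^i_{βγ} γ^i_{αδ} + γ^i_{γα} γ^i_{βδ}) = δ_{αβ}δ_{γδ} + δ_{βγ}δ_{αδ} + δ_{γα}δ_{βδ}`.
PROOF (norm trick). All entries are real, let `T_{αβγδ}` = LHS - RHS; show `∑ T² = 0`.
With `E_{αβγδ} = ∑_i γ^i_{αβ}γ^i_{γδ} - δ_{αβ}δ_{γδ}`, `T = E_{αβγδ}+E_{βγαδ}+E_{γααβ…}` (cyclic in
`αβγ`), so `∑T² = 3 ∑ E_{αβγδ}² + 6 ∑ E_{αβγδ}E_{βγαδ}`.  `∑E² = ∑_{ij} (tr γ^iγ^j)² - 0 + 256`
`= 9·256 + 256 - 2·∑_i (tr γ^i)² = 2560`, using `tr γ^i = 0`, and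
`∑E_{αβγδ}E_{βγαδ} = ∑_{ij} tr(γ^iγ^jγ^iγ^j)-type contractions = tr ∑_{ij} γ^iγ^jγ^iγ^j - 2 ∑_i tr(γ^iγ^i) + 16`
`= 16(9 - 72) - 2·144 + 16 = -1280`. Sum: `3·2560 - 6·1280 = 0`. -/
def F10Stmt (S : Setup d F) : Prop := ∀ α β γ δ : Fin 16,
  ∑ i, (S.g i α β * S.g i γ δ + S.g i β γ * S.g i α δ + S.g i γ α * S.g i β δ) =
    (if α = β ∧ γ = δ then 1 else 0) + (if β = γ ∧ α = δ then 1 else 0) +
      (if γ = α ∧ β = δ then 1 else 0)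

/-- **A-FBMN** (the Fierz identity behind the BMN deformation), verified numerically:
`-i ∑_{i,A} a_i [(γ^iθ^A)_α (γ^iΓθ^A)_β + (γ^iθ^A)_β (γ^iΓθ^A)_α]`
`   = ∑_{ij} rc_{ij} (Γγ^{ij})_{αβ} S_{ij} - (3/2) δ_{αβ} iθΓθ`.
PROOF. Both sides are `∑_A θ^A K θ^A`-type (`K` = 16×16 matrix depending on `α,β`) plus a scalar:
LHS `= -i∑ a_i ∑_{γδ} (γ^i_{αγ}(γ^iΓ)_{βδ} + (α↔β)) θ_γθ_δ`, RHS = `∑_{ij} rc_{ij}(Γγ^{ij})_{αβ}(-i/4)(γ^{ij})_{γδ}θ_γθ_δ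
 - (3/2)δ_{αβ} i Γ_{γδ}θ_γθ_δ`.
The scalar part vanishes since `∑_i a_i (γ^i (γ^iΓ)ᵀ)_{αβ} + sym = -∑a_i(γ^iΓγ^i) + sym` is symmetric part of
an antisymmetric matrix (`γ^iΓγ^i = ±Γ`), i.e. `0`. The antisymmetric (in `γδ`) part of the coefficient
gives the identity of c-numbers
`(1/2)∑_i a_i[γ^i_{αγ}(γ^iΓ)_{βδ} - γ^i_{αδ}(γ^iΓ)_{βγ} + (α↔β)] = (1/4)∑ rc_{ij}(Γγ^{ij})_{αβ}(γ^{ij})_{γδ}·… + (3/2)δ_{αβ}Γ_{γδ}`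
(multiply out the factor `-i`). It can be derived from **A-F10** by multiplication with `Γ` on some
indices, or by the norm trick: the sum over all indices of the square of the difference is a
combination of traces of products of gamma matrices and equals `0`; or use completeness: contract
both sides in `γδ` with `Γ`, `γ^{kl}`, `Γγ^k`, … (the antisymmetric 16×16 matrices are spanned by
`γ^{kl}` (36) and `γ^{klm}` (84)). Any rigorous method is fine, e.g. an explicit proof on a concrete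
representation is NOT enough unless unitary equivalence of representations is also proved. -/
def FBmnStmt (S : Setup d F) : Prop := ∀ α β : Fin 16,
  (-Complex.I) • ∑ i, ∑ A, (aw i : ℂ) •
      (S.vec (S.g i) A α * S.vec (S.g i * S.Gam) A β +
        S.vec (S.g i) A β * S.vec (S.g i * S.Gam) A α) =
    (∑ i, ∑ j, ((rc i j : ℂ) * (S.Gam * S.g2 i j) α β) • S.Skl i j) -
      (if α = β then (3 / 2 : ℂ) • S.FG else 0)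

/-- **A1a** the anticommutator of the undeformed supercharges, for all `α, β`:
`Q_αQ_β u + Q_βQ_α u = 2 δ_{αβ} H_0 u + 2κ ∑_{j,C} γ^j_{αβ} x_j^C G_C u`, where `H_0 = Hm 0`.
PROOF. second order: `-{(γ^iθ^A)_α,(γ^jθ^B)_β}∂∂ = -δ_{αβ}Δ` (symmetrise in `(i,A),(j,B)`).
First order: `-i({(γ^iθ^A)_α, W_β} + {(γ^iθ^A)_β, W_α})∂_i^A` with
`{(γ^iθ^A)_α,(γ^{jk}θ^B)_β} = δ_{AB}(γ^i(γ^{jk})ᵀ)_{αβ} = -δ_{AB}(γ^iγ^{jk})_{αβ}`; symmetrised in `α,β`: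
`-(γ^iγ^{jk} - γ^{jk}γ^i) = -2(δ_{ij}γ^k - δ_{ik}γ^j)`; this is the orbital part of `2κγ^jx_jG`.
Zero order from `∂W`: `-i(γ^iθ^A)_α(∂_i^AW_β) + (α↔β)`, `∂_j^B W_β = κ ε_{ABD} x_l^D (γ^{jl}θ^A)_β`
(`fderiv_W`); by **A-F10** it equals `2δ_{αβ}F(x) + 2κγ^j_{αβ}x_j^C 𝒮_C`.
`{W_α,W_β} = ½·F^A_{ij}F^A_{kl}(γ^{ij}(γ^{kl})ᵀ)-symmetrised = 2δ_{αβ}V` (the 4-form part
vanishes by the Jacobi identity `ε_{ABC}ε_{ADE}`-type and the antisymmetry, as in the landed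
`Energy.lean` for the sum over `α=β`). -/
def A1aStmt (S : Setup d F) : Prop := ∀ (α β : Fin 16) (u : (Cfg d) → F), ContDiff ℝ ∞ u → ∀ x,
  S.Q α (S.Q β u) x + S.Q β (S.Q α u) x = (if α = β then (2 : ℂ) • S.Hm 0 u x else 0) +
    (2 * S.κ : ℂ) • ∑ j, ∑ C, (S.g j α β * (x (j, C) : ℂ)) • S.G C u x

/-- **A1b** the part linear in `m`:
`Q_α(M_βu) + M_αQ_βu + Q_β(M_αu) + M_βQ_αu = ∑_{ij} rc_{ij}(Γγ^{ij})_{αβ}J_{ij}u`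
`  + 2δ_{αβ}(6κ det3 - (3/4) iθΓθ) u`.
PROOF. First order: `-i∑ ({(γ^iθ^A)_α,(γ^jΓθ^A)_β} a_j x_j^A ∂_i^A + (α↔β))`,
`{(γ^iθ^A)_α,(γ^jΓθ^A)_β} = (γ^iΓᵀγ^j)_{αβ} = -(γ^iΓγ^j)_{αβ}`, symmetrised: `-(γ^iΓγ^j)+…`: for
`i,j` in the same block `-(γ^iΓγ^j) - (γ^iΓγ^j)ᵀ = -γ^iΓγ^j + γ^jΓγ^i = ∓2Γγ^{ij}`, for different
blocks it is `0` (then `γ^iΓγ^j` is antisymmetric up to sign: check).  Orbital part of the
`J_{ij}`. `-i(γ^iθ^A)_α(∂_i^AM_β) + sym`: **A-FBMN** (Note `∂_i^A M_β = a_i(γ^iΓθ^A)_β`.)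
Zero order `{W_α,M_β}+{W_β,M_α}`: `½F^A_{ij}a_kx_k^A[(γ^{ij}(γ^kΓ)ᵀ) + sym]`; for `i,j,k ∈ I3` all
different it gives `2δ_{αβ}·6κ det3`-part, all other parts vanish: the terms with `k=i` by
antisymmetry/`x_i·(x_i×x_j)=0`, the totally antisymmetric mixed parts because `ε_{ABC}x_i^Ax_j^Bx_k^C` is
totally antisymmetric and `a_k` is summed over the three positions with signs: for one index in
`I3`, two in `I6`: coefficient `a_{I3} - 2a_{I6} = 0`; two in `I3`, one in `I6`: symmetrised matrix vanishes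
or cancels similarly (`(γ^{ij}Γγ^k)` symmetric part), three in `I6`: the symmetrised matrix vanishes. -/
def A1bStmt (S : Setup d F) : Prop := ∀ (α β : Fin 16) (u : (Cfg d) → F), ContDiff ℝ ∞ u → ∀ x,
  S.Q α (fun y => S.MM β y (u y)) x + S.MM α x (S.Q β u x) +
    S.Q β (fun y => S.MM α y (u y)) x + S.MM β x (S.Q α u x) =
  (∑ i, ∑ j, ((rc i j : ℂ) * (S.Gam * S.g2 i j) α β) • S.J i j u x) +
    (if α = β then (2 : ℂ) • (((6 * S.κ * S.det3 x : ℝ) : ℂ) • u x - (3 / 4 : ℂ) • S.FG (u x)) else 0)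

/-- **A1** the full anticommutator
`Q_αQ_β + Q_βQ_α = 2δ_{αβ}H_m + m∑ rc_{ij}(Γγ^{ij})_{αβ}J_{ij} + 2κ∑γ^j_{αβ}x_j^CG_C` for `Q = Qm m`.
PROOF: A1a + m A1b + m²{M_α,M_β}, `{M_α,M_β} = δ_{αβ}∑(a_ix_i^A)²` (from `CS.vec_anti`, `Γ² = -1`,
`Γᵀ = -Γ`). -/
def A1Stmt (S : Setup d F) : Prop := ∀ (m : ℝ) (α β : Fin 16) (u : (Cfg d) → F), ContDiff ℝ ∞ u → ∀ x,
  S.Qm m α (S.Qm m β u) x + S.Qm m β (S.Qm m α u) x =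
    (if α = β then (2 : ℂ) • S.Hm m u x else 0) +
    (m : ℂ) • (∑ i, ∑ j, ((rc i j : ℂ) * (S.Gam * S.g2 i j) α β) • S.J i j u x) +
    (2 * S.κ : ℂ) • ∑ j, ∑ C, (S.g j α β * (x (j, C) : ℂ)) • S.G C u x

/-- **A2** `[J_kl, Q_α] = (i/2)(γ^{kl}Q)_α` for `k,l` in the same block. -/
def A2Stmt (S : Setup d F) : Prop := ∀ (m : ℝ) (k l : Fin 9), Same k l → ∀ (α : Fin 16) (u : (Cfg d) → F),
  ContDiff ℝ ∞ u → ∀ x, S.J k l (S.Qm m α u) x - S.Qm m α (S.J k l u) x =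
    (Complex.I / 2) • ∑ β, S.g2 k l α β • S.Qm m β u x

/-- **A3** `[G_C, Q_α] = 0` -/
def A3Stmt (S : Setup d F) : Prop := ∀ (m : ℝ) (C : Fin d) (α : Fin 16) (u : (Cfg d) → F),
  ContDiff ℝ ∞ u → ∀ x, S.G C (S.Qm m α u) x = S.Qm m α (S.G C u) x

/-- **A4** `[H_m, Q_α] = -(im/2)(ΓQ)_α - iκ∑_C θ_α^C G_C`.
PROOF from A1–A3: `16H = ∑_β Q_β²` (A1 with `α=β` summed: `tr(Γγ^{ij}) = 0`, `tr γ^j = 0`), so
`16[H,Q_γ] = ∑_β [Q_β, {Q_β,Q_γ}] = 2[Q_γ,H] + ∑_β [Q_β, m∑rc(Γγ^{ij})_{βγ}J_{ij} + 2κ∑γ^j_{βγ}x_j^CG_C]`,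
hence `18[H,Q_γ] = …`; `∑_β(Γγ^{ij})_{βγ}[Q_β,J_{ij}] = -(i/2)((Γγ^{ij})ᵀγ^{ij}Q)_γ = -(i/2)(γ^{ij}Γγ^{ij}Q)_γ`
`= (i/2)(ΓQ)_γ` for `i≠j` in one block; total `(i/2)m(6·2 - 30)(ΓQ)_γ = -9im(ΓQ)_γ`;
`[Q_β, x_j^C] = -i(γ^jθ^C)_β`, `∑_βγ^j_{βγ}(γ^jθ^C)_β` summed over `j` `= 9θ_γ^C`, giving `-18iκθ^C_γG_C`. -/
def A4Stmt (S : Setup d F) : Prop := ∀ (m : ℝ) (α : Fin 16) (u : (Cfg d) → F), ContDiff ℝ ∞ u → ∀ x,
  S.Hm m (S.Qm m α u) x - S.Qm m α (S.Hm m u) x =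
    (-(Complex.I * m / 2)) • (∑ β, S.Gam α β • S.Qm m β u x)
      - (Complex.I * S.κ) • ∑ C, S.th α C (S.G C u x)

/-- **A5** spinors for the gap argument: there are `ζ, η ∈ ℂ^16`, `ζ ≠ 0`, `η ≠ 0`, with `iΓζ = ζ`, `iΓη = η`,
`⟨η,ζ⟩ = 0`, `∑_{kl} rc_{kl} (ζ†Γγ^{kl}ζ) (-i/2) γ^{kl}η = -5 |ζ|² η`.
PROOF. The matrices `iΓ`, `iγ^{12}` (indices `1,2 ∈ I3`), `iγ^{34}, iγ^{56}, iγ^{78}` commute, are Hermitian with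
square `1`. (0-based indices: `I3 = {0,1,2}`.) Take a joint eigenvector `ζ` with `iΓζ = ζ` (exists:
`iΓ ≠ -1` since it is traceless, then diagonalise the others), eigenvalues `s_0,…,s_3 = ±1`. Then
`ζ†Γγ^{kl}ζ = -iζ†γ^{kl}ζ` vanishes unless `{k,l}` is one of the four planes (the other `γ^{kl}`
anticommute with one of the four matrices). Put `η = γ^{01}ζ` or `γ^{02}ζ` (which anticommutes with
`iγ^{12}` and commutes with the rest); then `iΓη = η`, `⟨η,ζ⟩=0`, and the sum is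
`∑_{planes} 2 rc (−i)(−i s_p)(−i/2)… η` with `iγ^{12}η = -s_0η`, `iγ^{p}η = s_pη`:
contributions: plane `12`: `-2`, planes in `I6`: `-1` each — total `-5` (verified numerically). -/
def A5Stmt (S : Setup d F) : Prop := ∃ ζ η : Fin 16 → ℂ, ζ ≠ 0 ∧ η ≠ 0 ∧
  (∀ α, Complex.I * ∑ β, S.Gam α β * ζ β = ζ α) ∧ (∀ α, Complex.I * ∑ β, S.Gam α β * η β = η α) ∧
  ∑ α, (starRingEnd ℂ) (η α) * ζ α = 0 ∧
  ∀ α, ∑ k, ∑ l, (rc k l : ℂ) * (∑ β, ∑ γ, (starRingEnd ℂ) (ζ β) * (S.Gam * S.g2 k l) β γ * ζ γ) *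
    (-Complex.I / 2) * (∑ β, S.g2 k l α β * η β) =
      -5 * (∑ β, (starRingEnd ℂ) (ζ β) * ζ β) * η α

/-- **A6** energy formula. For test functions
`∑_β‖Q_βu‖² = 8∑‖∂_i^Au‖² + 16∫V_m|u|² + 16 Re∫⟨u,F(x)u⟩ - 12m Re∫⟨u,iθΓθ u⟩`.
PROOF: integrate by parts (`Ana.lean`), `∑_β‖Q_βu‖² = ∑_β⟨u,Q_βQ_βu⟩`, use A1 with `α=β`, or directly:
`∑_β Q_β² = 16 H_m` only needs the diagonal computations (landed for `m=0` in `Energy.lean`). -/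
def A6Stmt (S : Setup d F) : Prop := ∀ (m : ℝ) (u : (Cfg d) → F), Setup.Tst u →
  ∑ β, nsq (S.Qm m β u) = 8 * ∑ i, ∑ A, nsq (pd i A u) + 16 * (∫ x, S.Vm m x * ‖u x‖ ^ 2) +
    16 * (∫ x, inner ℂ (u x) (S.Fx x (u x))).re - 12 * m * (∫ x, inner ℂ (u x) (S.FG (u x))).re

/-- **A7** `∑_β Q_βQ_β = 16 H_m` pointwise on smooth functions. -/
def A7Stmt (S : Setup d F) : Prop := ∀ (m : ℝ) (u : (Cfg d) → F), ContDiff ℝ ∞ u → ∀ x,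
  ∑ β, S.Qm m β (S.Qm m β u) x = (16 : ℂ) • S.Hm m u x

/-- **A8** free energy: `∑_β‖Q0_βu‖² = 8∑‖∂_i^Au‖²` -/
def A8Stmt (S : Setup d F) : Prop := ∀ (u : (Cfg d) → F), Setup.Tst u →
  ∑ β, nsq (S.Q0 β u) = 8 * ∑ i, ∑ A, nsq (pd i A u)

end Vale.Agent.P353.Z.U
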