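import Vale.Agent.P353.Z.U.StmtB
import Vale.Agent.P353.Z.U.StmtC
import Vale.Agent.P353.Z.U.StmtD

/-! # P353, general `N`: assembly of the bound -/

open MeasureTheory Filter Topology
open scoped ContDiff

namespace Vale.Agent.P353.Z.U

variable {d : ℕ} {F : Type*} [NormedAddCommGroup F] [InnerProductSpace ℂ F]

theorem bound_of {S : Setup d F} (hB : ∀ k, ThmBStmt S k) (hC : ∀ n, ThmCStmt S n)
    (hD : ∀ k, SmallStmt S k) : BoundStmt S := by
  intro hirr hne n hn Ψ hΨ hlin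
  obtain ⟨m, hm, hlow⟩ := hD (n + 1) Ψ hΨ hlin
  obtain ⟨m', hm', h3⟩ := hC n hirr hne hn
  obtain ⟨ε, hε, hnl⟩ := h3 m' le_rfl
  exact hnl (hB (n + 1) m hm hlow m' hm' ε hε)

end Vale.Agent.P353.Z.U
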