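import Vale.Agent.P353.BFSS
import Vale.Agent.P353.Z.U.Final

/-! # P353, general `N`: statements relating the model `BFSS.Model N d F` to `Setup d F` -/

open MeasureTheory Filter Topology
open scoped ContDiff

namespace Vale.Agent.P353.Z.U

variable {N d : ℕ} {F : Type*} [NormedAddCommGroup F] [InnerProductSpace ℂ F]

/-- `S` is the abstract setup of the model `M` -/
structure Rep (M : BFSS.Model N d F) (S : Setup d F) : Prop where
  hκ : S.κ = 1
  hf : S.f = M.f
  hg : ∀ i α β, S.g i α β = (M.γ i α β : ℂ)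
  hth : S.th = M.θ

/-- **M-Set** every model has a setup. PROOF: `f_{ABC} = -i tr([T_A,T_B]T_C)` is totally antisymmetric (trace cyclicity), Jacobi from the
Jacobi identity of commutators and linear independence of the `T_A` (`T_orthonormal`). (The `N = 2` version: `Gauge.lean` `f_swap`,
`f_cyc`, `BridgeA.lean` `Model.toSetup`, where the sign `sgnM` is not needed here.) -/
def SetStmt (M : BFSS.Model N d F) : Prop := ∃ S : Setup d F, Rep M S

/-- **M-Gauss** infinitesimal gauge invariance of core functions.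
PROOF. For a traceless Hermitian `H = ∑h_AT_A` put `g_H(t) = exp(itH) ∈ SU(N)`, `E_H(t) = exp(±it∑h_C𝒮_C)` (`𝒮_C = S.cS C`, sign as needed):
`E_H(t)θ^AE_H(t)⁻¹` solves the same linear ODE as `S(g_H(t))θ^AS(g_H(t))⁻¹`, so `S(g_H(t)) = λ_H(t)E_H(t)` (Schur, `θ_irreducible`),
`λ_H : ℝ → U(1)` a continuous homomorphism, `λ_H(t) = e^{iμ(H)t}`. (1) `μ(VHV*) = μ(H)` for `V ∈ SU(N)` (conjugate by `S(V)`; `E` is built from
bilinears in `θ`, so `S(V)E_H(t)S(V)⁻¹ = E_{VHV*}(t)`); (2) `μ(H+H') = μ(H)+μ(H')` if `[H,H'] = 0`. (3) For diagonal `H` the sum over the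
cyclic permutations `P^jHP^{-j}`, `j < N`, is `0` (trace 0), so `Nμ(H) = 0`; permutation matrices times a phase are in `SU(N)`.
(4) a general `H` is unitarily diagonalisable. Hence `μ = 0`, `S(g_H(t)) = E_H(t)`, and differentiating `u(g_H(t)·x) = S(g_H(t))u(x)`
at `t = 0` gives `∑h_CG_Cu = 0`. (The `N = 2` version is `Gauge.lean`, theorem `gauss_law`.) -/
def GaussStmt (M : BFSS.Model N d F) : Prop := ∀ S : Setup d F, Rep M S →
  ∀ u, M.IsCore u → ∀ C x, S.G C u x = 0

/-- **M-Bridge** zero-energy states are zero modes of the setup. PROOF as `BridgeB.lean` (`isZM_of_zeroEnergy`), `BFSSLight.lean`. -/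
def BridgeStmt (M : BFSS.Model N d F) : Prop := ∀ S : Setup d F, Rep M S →
  ∀ Ψ (hΨ : MemLp Ψ 2 (volume : Measure (Cfg d))), M.IsZeroEnergyState Ψ → S.IsZM (hΨ.toLp Ψ)

/-- **M-Ad** the adjoint matrices of `SU(N)` are in the colour group. PROOF. Orthogonality, invariance of `f`: from `adCoeff`. Norms: every
`U ∈ SU(N)` is a phase times `exp(iH)` with `H` Hermitian traceless (diagonalise the unitary `U`), the adjoint action of `exp(itH)`
is `exp(t·ad h)`, which is in `grp` (`GrpExpStmt`-type ODE argument: `d/dt‖u(γ(t)x)‖² = 0` if `G_Cu = 0`). -/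
def AdStmt (M : BFSS.Model N d F) : Prop := ∀ S : Setup d F, Rep M S → ∀ U : BFSS.SU N,
  (Matrix.of fun B A => BFSS.adCoeff M.T U B A) ∈ S.grp

/-- **M-Count** the zeros of `V_1` form at most `p(N)` orbits. PROOF. For a zero `ξ` put `J_k = -½∑_Aξ_{kA}T_A`, `k ∈ I3`: Hermitian
`N×N` matrices with `[J_i,J_j] = iJ_k` (cyclic) (from `F_{ij}(ξ) = -2ξ_k`, `SqStmt`), `ξ_a = 0` for `a ∈ I6`. A Hermitian triple of this kind on a
finite dimensional Hilbert space is an orthogonal sum of irreducible ones generated by highest weight vectors, with the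
multiset of dimensions a partition of `N` (`IsSl2Triple`, `HasPrimitiveVectorWith`); two triples with the same multiset are unitarily
equivalent, by `U ∈ U(N)`, w.l.o.g. `SU(N)`; then `ξ' = ro (adCoeff U) ξ`, in the same orbit by M-Ad. -/
def CountStmt (M : BFSS.Model N d F) : Prop := ∀ S : Setup d F, Rep M S →
  S.OrbCount (Fintype.card (Nat.Partition N))

end Vale.Agent.P353.Z.U
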