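import Vale.Agent.P353.Z.U.Defs

open MeasureTheory Filter Topology
open scoped ContDiff Matrix

namespace Vale.Agent.P353.Z

variable {dc : ℕ}

variable {F : Type*} [NormedAddCommGroup F] [InnerProductSpace ℂ F]

namespace Setup

variable (S : Setup dc F)

lemma g_sq' (i : Fin 9) : S.g i * S.g i = 1 := S.g_sqE i

lemma g_ac {i j : Fin 9} (h : i ≠ j) : S.g i * S.g j = -(S.g j * S.g i) := by
  have h1 := S.g_anti i j
  rw [if_neg h] at h1
  exact eq_neg_of_add_eq_zero_left h1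

lemma Gam_transpose : S.Gamᵀ = -S.Gam := by
  unfold Gam
  rw [Matrix.transpose_mul, Matrix.transpose_mul, S.g_symm, S.g_symm, S.g_symm]
  have h01 : S.g 0 * S.g 1 = -(S.g 1 * S.g 0) := S.g_ac (by decide)
  have h02 : S.g 0 * S.g 2 = -(S.g 2 * S.g 0) := S.g_ac (by decide)
  have h12 : S.g 1 * S.g 2 = -(S.g 2 * S.g 1) := S.g_ac (by decide)
  calc S.g 2 * (S.g 1 * S.g 0) = S.g 2 * S.g 1 * S.g 0 := by rw [mul_assoc]
    _ = -(S.g 1 * S.g 2) * S.g 0 := by rw [h12, neg_neg]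
    _ = -(S.g 1 * (S.g 2 * S.g 0)) := by rw [neg_mul, mul_assoc]
    _ = S.g 1 * (S.g 0 * S.g 2) := by rw [h02, mul_neg]
    _ = S.g 1 * S.g 0 * S.g 2 := by rw [mul_assoc]
    _ = -(S.g 0 * S.g 1 * S.g 2) := by rw [h01, neg_mul, neg_neg]

lemma Gam_sq : S.Gam * S.Gam = -1 := by
  have h : S.Gam * S.Gam = -(S.Gam * S.Gamᵀ) := by rw [Gam_transpose, mul_neg, neg_neg]
  rw [h]
  congr 1
  unfold Gam
  rw [Matrix.transpose_mul, Matrix.transpose_mul, S.g_symm, S.g_symm, S.g_symm]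
  calc S.g 0 * S.g 1 * S.g 2 * (S.g 2 * (S.g 1 * S.g 0))
      = S.g 0 * S.g 1 * (S.g 2 * S.g 2) * (S.g 1 * S.g 0) := by simp only [mul_assoc]
    _ = S.g 0 * (S.g 1 * S.g 1) * S.g 0 := by rw [S.g_sq' 2]; simp only [mul_one, mul_assoc]
    _ = 1 := by rw [S.g_sq' 1, mul_one, S.g_sq' 0]

/-- `γ^i` commutes with `Γ` for `i ∈ I3` -/
lemma g_Gam_comm {i : Fin 9} (hi : i.val < 3) : S.g i * S.Gam = S.Gam * S.g i := by
  have h01 : S.g 0 * S.g 1 = -(S.g 1 * S.g 0) := S.g_ac (by decide)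
  have h02 : S.g 0 * S.g 2 = -(S.g 2 * S.g 0) := S.g_ac (by decide)
  have h12 : S.g 1 * S.g 2 = -(S.g 2 * S.g 1) := S.g_ac (by decide)
  have hi' : i = 0 ∨ i = 1 ∨ i = 2 := by
    rcases i with ⟨i, h⟩
    simp only at hi
    interval_cases i
    · left; rfl
    · right; left; rfl
    · right; right; rfl
  unfold Gam
  rcases hi' with rfl | rfl | rfl
  · calc S.g 0 * (S.g 0 * S.g 1 * S.g 2) = S.g 0 * (S.g 0 * S.g 1 * S.g 2) := rfl
      _ = S.g 0 * (S.g 1 * (S.g 2 * S.g 0)) := by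
          congr 1
          calc S.g 0 * S.g 1 * S.g 2 = -(S.g 1 * S.g 0) * S.g 2 := by rw [h01]
            _ = -(S.g 1 * (S.g 0 * S.g 2)) := by rw [neg_mul, mul_assoc]
            _ = S.g 1 * (S.g 2 * S.g 0) := by rw [h02, mul_neg, neg_neg]
      _ = S.g 0 * S.g 1 * S.g 2 * S.g 0 := by simp only [mul_assoc]
  · calc S.g 1 * (S.g 0 * S.g 1 * S.g 2) = S.g 1 * S.g 0 * (S.g 1 * S.g 2) := by
          simp only [mul_assoc]
      _ = -(S.g 0 * S.g 1) * (S.g 1 * S.g 2) := by rw [h01, neg_neg]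
      _ = S.g 0 * S.g 1 * S.g 2 * S.g 1 := by
          rw [h12]; simp only [mul_assoc, mul_neg, neg_mul, neg_neg]
  · calc S.g 2 * (S.g 0 * S.g 1 * S.g 2) = S.g 2 * S.g 0 * S.g 1 * S.g 2 := by
          simp only [mul_assoc]
      _ = S.g 0 * S.g 1 * S.g 2 * S.g 2 := by
          congr 1
          calc S.g 2 * S.g 0 * S.g 1 = -(S.g 0 * S.g 2) * S.g 1 := by rw [h02, neg_neg]
            _ = -(S.g 0 * (S.g 2 * S.g 1)) := by rw [neg_mul, mul_assoc]
            _ = S.g 0 * S.g 1 * S.g 2 := by rw [mul_assoc (S.g 0), h12, mul_neg]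

/-- `γ^i` anticommutes with `Γ` for `i ∈ I6` -/
lemma g_Gam_anti {i : Fin 9} (hi : 3 ≤ i.val) : S.g i * S.Gam = -(S.Gam * S.g i) := by
  have h0 : S.g i * S.g 0 = -(S.g 0 * S.g i) := S.g_ac (by rintro rfl; simp at hi)
  have h1 : S.g i * S.g 1 = -(S.g 1 * S.g i) := S.g_ac (by rintro rfl; simp at hi)
  have h2 : S.g i * S.g 2 = -(S.g 2 * S.g i) := S.g_ac (by
    rintro rfl
    have : ((2 : Fin 9) : ℕ) = 2 := rfl
    omega)
  unfold Gam
  calc S.g i * (S.g 0 * S.g 1 * S.g 2) = S.g i * S.g 0 * (S.g 1 * S.g 2) := by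
        simp only [mul_assoc]
    _ = -(S.g 0 * (S.g i * S.g 1) * S.g 2) := by rw [h0]; simp only [mul_assoc, neg_mul]
    _ = S.g 0 * S.g 1 * (S.g i * S.g 2) := by
        rw [h1]; simp only [mul_assoc, mul_neg, neg_mul, neg_neg]
    _ = -(S.g 0 * S.g 1 * S.g 2 * S.g i) := by rw [h2]; simp only [mul_assoc, mul_neg]

lemma Gam_comm_g2 {k l : Fin 9} (h : Same k l) : S.g2 k l * S.Gam = S.Gam * S.g2 k l := by
  unfold CS.g2
  rw [Matrix.smul_mul, Matrix.mul_smul]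
  congr 1
  rw [sub_mul, mul_sub]
  rcases lt_or_ge k.val 3 with hk | hk
  · have hl : l.val < 3 := h.2.mp hk
    rw [mul_assoc, S.g_Gam_comm hl, ← mul_assoc, S.g_Gam_comm hk, mul_assoc (S.g l),
      S.g_Gam_comm hk, ← mul_assoc (S.g l), S.g_Gam_comm hl]
    simp only [mul_assoc]
  · have hl : 3 ≤ l.val := by
      by_contra hh
      exact absurd (h.2.mpr (by omega)) (by omega)
    rw [mul_assoc, S.g_Gam_anti hl, mul_neg, ← mul_assoc, S.g_Gam_anti hk, mul_assoc (S.g l),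
      S.g_Gam_anti hk, mul_neg, ← mul_assoc (S.g l), S.g_Gam_anti hl]
    simp only [mul_assoc, neg_mul, neg_neg]

/-- entries of `Γ` are real -/
lemma Gam_real (α β : Fin 16) : (S.Gam α β).im = 0 := by
  unfold Gam
  have h : ∀ (P Q : Matrix (Fin 16) (Fin 16) ℂ), (∀ a b, (P a b).im = 0) →
      (∀ a b, (Q a b).im = 0) → ∀ a b, ((P * Q) a b).im = 0 := by
    intro P Q hP hQ a b
    rw [Matrix.mul_apply, Complex.im_sum]
    refine Finset.sum_eq_zero fun c _ => ?_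
    rw [Complex.mul_im, hP, hQ]
    simp
  exact h _ _ (h _ _ (S.g_real 0) (S.g_real 1)) (S.g_real 2) α β

end Setup
end Vale.Agent.P353.Z
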