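import Vale.Agent.P353.Z.U.StmtC

/-! # P353, uniqueness for `N = 2`: the vacuum lemma (C-Vac) -/

namespace Vale.Agent.P353.Z.U

variable {dc : ℕ}

variable {F : Type*} [NormedAddCommGroup F] [InnerProductSpace ℂ F]

/-- `θ(a) v` -/
noncomputable def VacT (S : Setup dc F) (a : Fin 16 × Fin dc → ℂ) (v : F) : F :=
  ∑ p : Fin 16 × Fin dc, a p • S.th p.1 p.2 v

variable (S : Setup dc F)

theorem VacT_add_left (a b : Fin 16 × Fin dc → ℂ) (v : F) :
    VacT S (a + b) v = VacT S a v + VacT S b v := by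
  unfold VacT
  rw [← Finset.sum_add_distrib]
  exact Finset.sum_congr rfl fun p _ => add_smul _ _ _

theorem VacT_smul_left (c : ℂ) (a : Fin 16 × Fin dc → ℂ) (v : F) :
    VacT S (c • a) v = c • VacT S a v := by
  unfold VacT
  rw [Finset.smul_sum]
  exact Finset.sum_congr rfl fun p _ => by rw [Pi.smul_apply, smul_eq_mul, mul_smul]

theorem VacT_zero_left (v : F) : VacT S 0 v = 0 := by
  simp [VacT]

theorem VacT_add (a : Fin 16 × Fin dc → ℂ) (v w : F) :
    VacT S a (v + w) = VacT S a v + VacT S a w := by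
  unfold VacT
  rw [← Finset.sum_add_distrib]
  exact Finset.sum_congr rfl fun p _ => by rw [map_add, smul_add]

theorem VacT_smul (a : Fin 16 × Fin dc → ℂ) (c : ℂ) (v : F) :
    VacT S a (c • v) = c • VacT S a v := by
  unfold VacT
  rw [Finset.smul_sum]
  exact Finset.sum_congr rfl fun p _ => by rw [map_smul, smul_comm]

theorem VacT_zero (a : Fin 16 × Fin dc → ℂ) : VacT S a 0 = 0 := by
  simp [VacT]

theorem VacT_single (p : Fin 16 × Fin dc) (v : F) :
    VacT S (Pi.single p 1) v = S.th p.1 p.2 v := by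
  unfold VacT
  rw [Finset.sum_eq_single p (fun q _ hq => by rw [Pi.single_eq_of_ne hq, zero_smul])
    (fun h => absurd (Finset.mem_univ p) h), Pi.single_eq_same, one_smul]

theorem VacT_th_anti (p q : Fin 16 × Fin dc) (v : F) :
    S.th p.1 p.2 (S.th q.1 q.2 v) + S.th q.1 q.2 (S.th p.1 p.2 v) = if p = q then v else 0 := by
  have h := congrArg (fun A : F →L[ℂ] F => A v) (S.th_anti p.1 p.2 q.1 q.2)
  simp only [ContinuousLinearMap.add_apply, ContinuousLinearMap.mul_apply] at h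
  rw [h]
  by_cases hpq : p = q
  · subst hpq
    simp
  · rw [if_neg hpq, if_neg (fun h => hpq (Prod.ext h.1 h.2))]
    rfl

/-- `{θ(a), θ(b)} = ∑ a_p b_p` -/
theorem VacT_anti (a b : Fin 16 × Fin dc → ℂ) (v : F) :
    VacT S a (VacT S b v) + VacT S b (VacT S a v) = (∑ p, a p * b p) • v := by
  have h1 : VacT S a (VacT S b v) = ∑ p, ∑ q, (a p * b q) • S.th p.1 p.2 (S.th q.1 q.2 v) := by
    unfold VacT
    refine Finset.sum_congr rfl fun p _ => ?_
    rw [map_sum, Finset.smul_sum]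
    refine Finset.sum_congr rfl fun q _ => ?_
    rw [map_smul, mul_smul]
  have h2 : VacT S b (VacT S a v) = ∑ p, ∑ q, (a p * b q) • S.th q.1 q.2 (S.th p.1 p.2 v) := by
    unfold VacT
    rw [Finset.sum_comm]
    refine Finset.sum_congr rfl fun q _ => ?_
    rw [map_sum, Finset.smul_sum]
    refine Finset.sum_congr rfl fun p _ => ?_
    rw [map_smul, mul_comm (a p), mul_smul]
  rw [h1, h2, ← Finset.sum_add_distrib, Finset.sum_smul]
  refine Finset.sum_congr rfl fun p _ => ?_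
  rw [← Finset.sum_add_distrib]
  simp only [← smul_add, VacT_th_anti]
  rw [Finset.sum_eq_single p (fun q _ hq => by rw [if_neg (Ne.symm hq), smul_zero])
    (fun h => absurd (Finset.mem_univ p) h), if_pos rfl]

/-- `θ(a)† = θ(ā)` -/
theorem VacT_adj (a : Fin 16 × Fin dc → ℂ) (v w : F) :
    inner ℂ (VacT S a v) w = inner ℂ v (VacT S (fun p => (starRingEnd ℂ) (a p)) w) := by
  unfold VacT
  rw [sum_inner, inner_sum]
  refine Finset.sum_congr rfl fun p _ => ?_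
  rw [inner_smul_left, inner_smul_right, S.th_sa]

/-- existence of a vector killed by finitely many elements -/
theorem Vac_exists_aux {𝒜 : Submodule ℂ (Fin 16 × Fin dc → ℂ)}
    (hi : ∀ a ∈ 𝒜, ∀ b ∈ 𝒜, ∑ p, a p * b p = 0) (hF : ∃ v : F, v ≠ 0)
    (s : Finset (Fin 16 × Fin dc → ℂ)) (hs : (s : Set (Fin 16 × Fin dc → ℂ)) ⊆ 𝒜) :
    ∃ v : F, v ≠ 0 ∧ ∀ a ∈ s, VacT S a v = 0 := by
  classical
  induction s using Finset.induction_on with
  | empty =>
    obtain ⟨v, hv⟩ := hF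
    exact ⟨v, hv, fun a ha => absurd ha (Finset.notMem_empty a)⟩
  | insert a s _ ih =>
    have hsub : (s : Set (Fin 16 × Fin dc → ℂ)) ⊆ 𝒜 := fun b hb =>
      hs (Finset.mem_coe.2 (Finset.mem_insert_of_mem (Finset.mem_coe.1 hb)))
    have ha : a ∈ 𝒜 := hs (Finset.mem_coe.2 (Finset.mem_insert_self a s))
    obtain ⟨v, hv, hvs⟩ := ih hsub
    by_cases h0 : VacT S a v = 0
    · refine ⟨v, hv, fun b hb => ?_⟩
      rcases Finset.mem_insert.1 hb with rfl | hb
      · exact h0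
      · exact hvs b hb
    · refine ⟨VacT S a v, h0, fun b hb => ?_⟩
      rcases Finset.mem_insert.1 hb with rfl | hb
      · have h1 := VacT_anti S b b v
        rw [hi b ha b ha, zero_smul, ← two_smul ℂ] at h1
        exact (smul_eq_zero.1 h1).resolve_left two_ne_zero
      · have h1 := VacT_anti S b a v
        rw [hvs b hb, VacT_zero, add_zero, hi b (hsub (Finset.mem_coe.2 hb)) a ha, zero_smul] at h1
        exact h1

theorem Vac_exists {𝒜 : Submodule ℂ (Fin 16 × Fin dc → ℂ)}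
    (hi : ∀ a ∈ 𝒜, ∀ b ∈ 𝒜, ∑ p, a p * b p = 0) (hF : ∃ v : F, v ≠ 0) :
    ∃ v : F, v ≠ 0 ∧ ∀ a ∈ 𝒜, VacT S a v = 0 := by
  obtain ⟨s, hs⟩ : 𝒜.FG := IsNoetherian.noetherian 𝒜
  obtain ⟨v, hv, hvs⟩ := Vac_exists_aux S hi hF s (by rw [← hs]; exact Submodule.subset_span)
  refine ⟨v, hv, fun a ha => ?_⟩
  rw [← hs] at ha
  refine Submodule.span_induction (p := fun a _ => VacT S a v = 0) (fun a ha => hvs a ha)
    (VacT_zero_left S v) (fun a b _ _ ha hb => ?_) (fun c a _ ha => ?_) ha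
  · rw [VacT_add_left, ha, hb, add_zero]
  · rw [VacT_smul_left, ha, smul_zero]

/-- uniqueness of the vacuum -/
theorem Vac_unique (hirr : S.Irr) {𝒜 : Submodule ℂ (Fin 16 × Fin dc → ℂ)}
    (hmax : ∀ z : Fin 16 × Fin dc → ℂ, ∃ a ∈ 𝒜, ∃ b ∈ 𝒜, z = a + fun p => (starRingEnd ℂ) (b p))
    {Ω v : F} (hΩ : Ω ≠ 0) (hΩA : ∀ a ∈ 𝒜, VacT S a Ω = 0) (hv : ∀ a ∈ 𝒜, VacT S a v = 0)
    (hort : inner ℂ v Ω = 0) : v = 0 := by
  -- submodules stable under the creation operators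
  obtain ⟨P, hP⟩ : ∃ P : Submodule ℂ F → Prop, P = fun W => Ω ∈ W ∧
    ∀ b ∈ 𝒜, ∀ y ∈ W, VacT S (fun p => (starRingEnd ℂ) (b p)) y ∈ W := ⟨_, rfl⟩
  obtain ⟨W, hW⟩ : ∃ W : Submodule ℂ F, W = sInf {W | P W} := ⟨_, rfl⟩
  have hWle : ∀ W', P W' → W ≤ W' := fun W' h => by rw [hW]; exact sInf_le h
  have hWΩ : Ω ∈ W := by
    rw [hW, Submodule.mem_sInf]
    intro W' h
    have h' : P W' := h
    rw [hP] at h'
    exact h'.1
  have hWb : ∀ b ∈ 𝒜, ∀ y ∈ W, VacT S (fun p => (starRingEnd ℂ) (b p)) y ∈ W := by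
    intro b hb y hy
    rw [hW, Submodule.mem_sInf]
    intro W' h
    have h' : P W' := h
    have hyW' := hWle W' h' hy
    rw [hP] at h'
    exact h'.2 b hb y hyW'
  have hWa : ∀ a ∈ 𝒜, ∀ y ∈ W, VacT S a y ∈ W := by
    let W' : Submodule ℂ F :=
      { carrier := {y | y ∈ W ∧ ∀ a ∈ 𝒜, VacT S a y ∈ W}
        zero_mem' := ⟨W.zero_mem, fun a _ => by rw [VacT_zero]; exact W.zero_mem⟩
        add_mem' := fun {y z} hy hz => ⟨W.add_mem hy.1 hz.1, fun a ha => by
          rw [VacT_add]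
          exact W.add_mem (hy.2 a ha) (hz.2 a ha)⟩
        smul_mem' := fun c y hy => ⟨W.smul_mem c hy.1, fun a ha => by
          rw [VacT_smul]
          exact W.smul_mem c (hy.2 a ha)⟩ }
    have h1 : W ≤ W' := by
      apply hWle
      rw [hP]
      refine ⟨⟨hWΩ, fun a ha => by rw [hΩA a ha]; exact W.zero_mem⟩, fun b hb y hy => ?_⟩
      refine ⟨hWb b hb y hy.1, fun a ha => ?_⟩
      have h2 := VacT_anti S a (fun p => (starRingEnd ℂ) (b p)) y
      rw [eq_sub_of_add_eq h2]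
      exact W.sub_mem (W.smul_mem _ hy.1) (hWb b hb _ (hy.2 a ha))
    intro a ha y hy
    exact (h1 hy).2 a ha
  have hWth : ∀ α A, ∀ y ∈ W, S.th α A y ∈ W := by
    intro α A y hy
    obtain ⟨a, ha, b, hb, hab⟩ := hmax (Pi.single (α, A) 1)
    have h1 := VacT_single S (α, A) y
    rw [hab, VacT_add_left] at h1
    have h2 : S.th α A y = VacT S a y + VacT S (fun p => (starRingEnd ℂ) (b p)) y := h1.symm
    rw [h2]
    exact W.add_mem (hWa a ha y hy) (hWb b hb y hy)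
  have htop : W = ⊤ := by
    rcases hirr W hWth with h | h
    · rw [h, Submodule.mem_bot] at hWΩ
      exact absurd hWΩ hΩ
    · exact h
  let V : Submodule ℂ F :=
    { carrier := {y | inner ℂ v y = 0}
      zero_mem' := inner_zero_right v
      add_mem' := fun {y z} (hy : inner ℂ v y = 0) (hz : inner ℂ v z = 0) => by
        change inner ℂ v (y + z) = 0
        rw [inner_add_right, hy, hz, add_zero]
      smul_mem' := fun c y (hy : inner ℂ v y = 0) => by
        change inner ℂ v (c • y) = 0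
        rw [inner_smul_right, hy, mul_zero] }
  have h1 : W ≤ V := by
    apply hWle
    rw [hP]
    refine ⟨hort, fun b hb y _ => ?_⟩
    change inner ℂ v (VacT S (fun p => (starRingEnd ℂ) (b p)) y) = 0
    rw [← VacT_adj, hv b hb, inner_zero_left]
  have h2 : v ∈ V := h1 (by rw [htop]; exact Submodule.mem_top)
  have h3 : inner ℂ v v = (0 : ℂ) := h2
  exact inner_self_eq_zero.1 h3

/-- **C-Vac** -/
theorem vac (S : Setup dc F) : VacStmt S := by
  intro hirr hF 𝒜 hi hmax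
  obtain ⟨v, hv, hvA⟩ := Vac_exists S hi hF
  have hn : ‖v‖ ≠ 0 := norm_ne_zero_iff.2 hv
  have hΩA : ∀ a ∈ 𝒜, VacT S a ((‖v‖ : ℂ)⁻¹ • v) = 0 := by
    intro a ha
    rw [VacT_smul, hvA a ha, smul_zero]
  have hΩn : ‖(‖v‖ : ℂ)⁻¹ • v‖ = 1 := by
    rw [norm_smul, norm_inv, Complex.norm_real, norm_norm, inv_mul_cancel₀ hn]
  refine ⟨(‖v‖ : ℂ)⁻¹ • v, hΩn, hΩA, fun w hw => ?_⟩
  obtain ⟨Ω, hΩ⟩ : ∃ Ω : F, Ω = (‖v‖ : ℂ)⁻¹ • v := ⟨_, rfl⟩
  rw [← hΩ] at hΩA hΩn ⊢
  have hΩ0 : Ω ≠ 0 := fun h => by rw [h, norm_zero] at hΩn; exact zero_ne_one hΩn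
  have hw' : ∀ a ∈ 𝒜, VacT S a w = 0 := hw
  have h1 : w - (inner ℂ Ω w) • Ω = 0 := by
    refine Vac_unique S hirr hmax hΩ0 hΩA (fun a ha => ?_) ?_
    · have e : w - (inner ℂ Ω w) • Ω = w + (-(inner ℂ Ω w)) • Ω := by
        rw [neg_smul, sub_eq_add_neg]
      rw [e, VacT_add, VacT_smul, hw' a ha, hΩA a ha, smul_zero, add_zero]
    · rw [inner_sub_left, inner_smul_left, inner_self_eq_norm_sq_to_K, hΩn, inner_conj_symm]
      simp
  exact ⟨inner ℂ Ω w, sub_eq_zero.1 h1⟩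

end Vale.Agent.P353.Z.U
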