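import Vale.Agent.P353.Z.U.Hes

/-! # P353, general `N`: C-Crit and C-Inv -/

open MeasureTheory Filter Topology
open scoped ContDiff Matrix Kronecker

namespace Vale.Agent.P353.Z.U

variable {d : ℕ} {F : Type*} [NormedAddCommGroup F] [InnerProductSpace ℂ F]

namespace InvPf

section ring

variable {R : Type*} [Ring R] {a b c : R}

lemma r0 (ha : a * a = 1) (hab : a * b = -(b * a)) (hac : a * c = -(c * a)) :
    a * b * c * a = b * c := by
  have h1 : c * a = -(a * c) := by rw [hac, neg_neg]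
  have h2 : b * a = -(a * b) := by rw [hab, neg_neg]
  calc a * b * c * a = a * b * (c * a) := by rw [mul_assoc (a * b)]
    _ = -(a * (b * a) * c) := by rw [h1]; noncomm_ring
    _ = a * a * b * c := by rw [h2]; noncomm_ring
    _ = b * c := by rw [ha, one_mul]

lemma r1 (hb : b * b = 1) (hac : a * c = -(c * a))
    (hbc : b * c = -(c * b)) : a * b * c * b = c * a := by
  have h1 : c * b = -(b * c) := by rw [hbc, neg_neg]
  calc a * b * c * b = a * b * (c * b) := by rw [mul_assoc (a * b)]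
    _ = -(a * (b * b) * c) := by rw [h1]; noncomm_ring
    _ = c * a := by rw [hb, mul_one, hac, neg_neg]

lemma r2 (hc : c * c = 1) : a * b * c * c = a * b := by
  rw [mul_assoc (a * b), hc, mul_one]

/-- `(bc)(bc) = -1` -/
lemma q0 (hb : b * b = 1) (hc : c * c = 1) (hbc : b * c = -(c * b)) :
    b * c * (b * c) = -1 := by
  have h1 : c * b = -(b * c) := by rw [hbc, neg_neg]
  calc b * c * (b * c) = b * (c * b) * c := by noncomm_ring
    _ = -(b * b * (c * c)) := by rw [h1]; noncomm_ring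
    _ = -1 := by rw [hb, hc, one_mul]

/-- `(bc)(ca) = ba` -/
lemma q1 (hc : c * c = 1) : b * c * (c * a) = b * a := by
  calc b * c * (c * a) = b * (c * c) * a := by noncomm_ring
    _ = b * a := by rw [hc, mul_one]

/-- `(ca)(bc) = ab` -/
lemma q2 (hc : c * c = 1) (hac : a * c = -(c * a)) (hbc : b * c = -(c * b)) :
    c * a * (b * c) = a * b := by
  have h1 : c * a = -(a * c) := by rw [hac, neg_neg]
  have h2 : c * b = -(b * c) := by rw [hbc, neg_neg]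
  calc c * a * (b * c) = -(a * (c * b) * c) := by rw [h1]; noncomm_ring
    _ = a * b * (c * c) := by rw [h2]; noncomm_ring
    _ = a * b := by rw [hc, mul_one]

end ring

/-- real gamma matrices -/
noncomputable def gr (S : Setup d F) (i : Fin 9) : Matrix (Fin 16) (Fin 16) ℝ :=
  (S.g i).map Complex.re

lemma gr_map (S : Setup d F) (i : Fin 9) : (gr S i).map (Complex.ofRealHom) = S.g i := by
  ext α β
  simp only [gr, Matrix.map_apply, Complex.ofRealHom_eq_coe]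
  apply Complex.ext
  · simp
  · simp [S.g_real i α β]

lemma map_inj {M N : Matrix (Fin 16) (Fin 16) ℝ}
    (h : M.map (Complex.ofRealHom) = N.map (Complex.ofRealHom)) : M = N := by
  ext α β
  have := congrFun (congrFun h α) β
  simpa using this

lemma gr_sq (S : Setup d F) (i : Fin 9) : gr S i * gr S i = 1 := by
  apply map_inj
  rw [Matrix.map_mul, gr_map, S.g_sqE]
  simp

lemma neg_map' (M : Matrix (Fin 16) (Fin 16) ℝ) :
    (-M).map (Complex.ofRealHom) = -(M.map (Complex.ofRealHom)) := by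
  ext α β
  simp only [Matrix.map_apply, Matrix.neg_apply, map_neg]

lemma gr_ac (S : Setup d F) {i j : Fin 9} (h : i ≠ j) : gr S i * gr S j = -(gr S j * gr S i) := by
  apply map_inj
  rw [neg_map', Matrix.map_mul, Matrix.map_mul, gr_map, gr_map, S.g_ac h]

lemma gr_symm (S : Setup d F) (i : Fin 9) : (gr S i)ᵀ = gr S i := by
  ext α β
  have h := congrFun (congrFun (S.g_symm i) α) β
  simp only [Matrix.transpose_apply] at h
  simp only [gr, Matrix.transpose_apply, Matrix.map_apply, h]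

/-- real `Γ` -/
noncomputable def Gr (S : Setup d F) : Matrix (Fin 16) (Fin 16) ℝ := gr S 0 * gr S 1 * gr S 2

lemma Gr_map (S : Setup d F) : (Gr S).map (Complex.ofRealHom) = S.Gam := by
  unfold Gr Setup.Gam
  rw [Matrix.map_mul, Matrix.map_mul, gr_map, gr_map, gr_map]

lemma Gr_transpose (S : Setup d F) : (Gr S)ᵀ = -Gr S := by
  apply map_inj
  rw [neg_map', Gr_map, ← S.Gam_transpose, ← Gr_map]
  rfl

lemma Gr_sq (S : Setup d F) : Gr S * Gr S = -1 := by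
  apply map_inj
  rw [Matrix.map_mul, Gr_map, S.Gam_sq]
  ext α β
  by_cases h : α = β
  · subst h; simp
  · simp [h]

lemma n01 : (0 : Fin 9) ≠ 1 := by decide
lemma n02 : (0 : Fin 9) ≠ 2 := by decide
lemma n12 : (1 : Fin 9) ≠ 2 := by decide

lemma G0 (S : Setup d F) : Gr S * gr S 0 = gr S 1 * gr S 2 :=
  r0 (gr_sq S 0) (gr_ac S n01) (gr_ac S n02)

lemma G1 (S : Setup d F) : Gr S * gr S 1 = gr S 2 * gr S 0 :=
  r1 (gr_sq S 1) (gr_ac S n02) (gr_ac S n12)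

lemma G2 (S : Setup d F) : Gr S * gr S 2 = gr S 0 * gr S 1 := r2 (gr_sq S 2)

/-- colour matrices `D_q` -/
noncomputable def Dq (S : Setup d F) (ξ : Cfg d) (q : Fin 9) : Matrix (Fin d) (Fin d) ℝ :=
  Matrix.of fun A B => S.κ / 2 * ∑ C, S.f A B C * ξ (q, C)

lemma Dq_transpose (S : Setup d F) (ξ : Cfg d) (q : Fin 9) : (Dq S ξ q)ᵀ = -Dq S ξ q := by
  ext A B
  simp only [Dq, Matrix.transpose_apply, Matrix.of_apply, Matrix.neg_apply]
  rw [← mul_neg, ← Finset.sum_neg_distrib]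
  congr 1
  refine Finset.sum_congr rfl fun C _ => ?_
  rw [S.f_swap B A C]
  ring

lemma jac2 (S : Setup d F) (A B C C' : Fin d) :
    ∑ E, (S.f A E C * S.f E B C' - S.f A E C' * S.f E B C) = -∑ E, S.f A B E * S.f E C C' := by
  have h := S.f_jac C A B C'
  have h2 : ∑ E, (S.f A E C * S.f E B C' - S.f A E C' * S.f E B C) + ∑ E, S.f A B E * S.f E C C'
      = 0 := by
    rw [← h, ← Finset.sum_add_distrib]
    refine Finset.sum_congr rfl fun E _ => ?_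
    have e1 : S.f C A E = S.f A E C := S.f_cyc C A E
    have e2 : S.f B C E = S.f E B C := by rw [S.f_cyc E B C]
    have e3 : S.f E A C' = -S.f A E C' := S.f_swap E A C'
    rw [e1, e2, e3]
    ring
  linarith

lemma Dq_comm (S : Setup d F) (ξ : Cfg d) {i j k : Fin 9}
    (h : ∀ E, S.FF E i j ξ = -2 * ξ (k, E)) :
    Dq S ξ i * Dq S ξ j - Dq S ξ j * Dq S ξ i = Dq S ξ k := by
  ext A B
  have hk : ∀ E, ξ (k, E) = -(S.κ / 2) * ∑ C, ∑ C', S.f E C C' * ξ (i, C) * ξ (j, C') := by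
    intro E
    have := h E
    unfold Setup.FF at this
    linarith
  have hR : Dq S ξ k A B = S.κ ^ 2 / 4 * ∑ C, ∑ C', (ξ (i, C) * ξ (j, C')) *
      (-∑ E, S.f A B E * S.f E C C') := by
    simp only [Dq, Matrix.of_apply, hk]
    have e1 : ∑ E, S.f A B E * (-(S.κ / 2) * ∑ C, ∑ C', S.f E C C' * ξ (i, C) * ξ (j, C')) =
        (S.κ / 2) * ∑ E, ∑ C, ∑ C', (ξ (i, C) * ξ (j, C')) * (-(S.f A B E * S.f E C C')) := by
      rw [Finset.mul_sum]
      refine Finset.sum_congr rfl fun E _ => ?_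
      simp only [Finset.mul_sum]
      refine Finset.sum_congr rfl fun C _ => Finset.sum_congr rfl fun C' _ => ?_
      ring
    rw [e1, Finset.sum_comm]
    have e2 : ∀ C, ∑ E, ∑ C', (ξ (i, C) * ξ (j, C')) * (-(S.f A B E * S.f E C C')) =
        ∑ C', (ξ (i, C) * ξ (j, C')) * (-∑ E, S.f A B E * S.f E C C') := by
      intro C
      rw [Finset.sum_comm]
      refine Finset.sum_congr rfl fun C' _ => ?_
      rw [← Finset.sum_neg_distrib, Finset.mul_sum]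
    rw [Finset.sum_congr rfl fun C _ => e2 C]
    ring
  have hL : (Dq S ξ i * Dq S ξ j - Dq S ξ j * Dq S ξ i) A B = S.κ ^ 2 / 4 * ∑ C, ∑ C',
      (ξ (i, C) * ξ (j, C')) * ∑ E, (S.f A E C * S.f E B C' - S.f A E C' * S.f E B C) := by
    simp only [Matrix.sub_apply, Matrix.mul_apply, Dq, Matrix.of_apply]
    have e1 : ∀ E, (S.κ / 2 * ∑ C, S.f A E C * ξ (i, C)) * (S.κ / 2 * ∑ C', S.f E B C' * ξ (j, C'))
        = S.κ ^ 2 / 4 * ∑ C, ∑ C', (ξ (i, C) * ξ (j, C')) * (S.f A E C * S.f E B C') := by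
      intro E
      have : (∑ C, S.f A E C * ξ (i, C)) * (∑ C', S.f E B C' * ξ (j, C')) =
          ∑ C, ∑ C', (ξ (i, C) * ξ (j, C')) * (S.f A E C * S.f E B C') := by
        rw [Finset.sum_mul_sum]
        refine Finset.sum_congr rfl fun C _ => Finset.sum_congr rfl fun C' _ => ?_
        ring
      rw [← this]
      ring
    have e2 : ∀ E, (S.κ / 2 * ∑ C', S.f A E C' * ξ (j, C')) * (S.κ / 2 * ∑ C, S.f E B C * ξ (i, C))
        = S.κ ^ 2 / 4 * ∑ C, ∑ C', (ξ (i, C) * ξ (j, C')) * (S.f A E C' * S.f E B C) := by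
      intro E
      have : (∑ C', S.f A E C' * ξ (j, C')) * (∑ C, S.f E B C * ξ (i, C)) =
          ∑ C, ∑ C', (ξ (i, C) * ξ (j, C')) * (S.f A E C' * S.f E B C) := by
        rw [Finset.sum_mul_sum, Finset.sum_comm]
        refine Finset.sum_congr rfl fun C _ => Finset.sum_congr rfl fun C' _ => ?_
        ring
      rw [← this]
      ring
    rw [Finset.sum_congr rfl fun E _ => e1 E, Finset.sum_congr rfl fun E _ => e2 E,
      ← Finset.mul_sum, ← Finset.mul_sum, ← mul_sub]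
    congr 1
    rw [← Finset.sum_sub_distrib]
    have e3 : ∀ E, (∑ C, ∑ C', (ξ (i, C) * ξ (j, C')) * (S.f A E C * S.f E B C')) -
        (∑ C, ∑ C', (ξ (i, C) * ξ (j, C')) * (S.f A E C' * S.f E B C)) =
        ∑ C, ∑ C', (ξ (i, C) * ξ (j, C')) * (S.f A E C * S.f E B C' - S.f A E C' * S.f E B C) := by
      intro E
      rw [← Finset.sum_sub_distrib]
      refine Finset.sum_congr rfl fun C _ => ?_
      rw [← Finset.sum_sub_distrib]
      refine Finset.sum_congr rfl fun C' _ => ?_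
      ring
    rw [Finset.sum_congr rfl fun E _ => e3 E, Finset.sum_comm]
    refine Finset.sum_congr rfl fun C _ => ?_
    rw [Finset.sum_comm]
    refine Finset.sum_congr rfl fun C' _ => ?_
    rw [Finset.mul_sum]
  rw [hL, hR]
  congr 1
  refine Finset.sum_congr rfl fun C _ => Finset.sum_congr rfl fun C' _ => ?_
  rw [jac2]

/-- the algebra of `Y = ∑ s_q ⊗ D_q` -/
lemma core {s0 s1 s2 : Matrix (Fin 16) (Fin 16) ℝ} {D0 D1 D2 : Matrix (Fin d) (Fin d) ℝ}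
    (h00 : s0 * s0 = -1) (h11 : s1 * s1 = -1) (h22 : s2 * s2 = -1)
    (h01 : s0 * s1 = -s2) (h10 : s1 * s0 = s2) (h12 : s1 * s2 = -s0) (h21 : s2 * s1 = s0)
    (h20 : s2 * s0 = -s1) (h02 : s0 * s2 = s1)
    (c01 : D0 * D1 - D1 * D0 = D2) (c12 : D1 * D2 - D2 * D1 = D0) (c20 : D2 * D0 - D0 * D2 = D1) :
    (s0 ⊗ₖ D0 + s1 ⊗ₖ D1 + s2 ⊗ₖ D2) * (s0 ⊗ₖ D0 + s1 ⊗ₖ D1 + s2 ⊗ₖ D2) +
      (s0 ⊗ₖ D0 + s1 ⊗ₖ D1 + s2 ⊗ₖ D2) =
      -((1 : Matrix (Fin 16) (Fin 16) ℝ) ⊗ₖ (D0 * D0 + D1 * D1 + D2 * D2)) := by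
  simp only [add_mul, mul_add, ← Matrix.mul_kronecker_mul, h00, h11, h22, h01, h10, h12, h21,
    h20, h02]
  ext ⟨α, A⟩ ⟨β, B⟩
  have e01 := congrFun (congrFun c01 A) B
  have e12 := congrFun (congrFun c12 A) B
  have e20 := congrFun (congrFun c20 A) B
  simp only [Matrix.sub_apply] at e01 e12 e20
  simp only [Matrix.add_apply, Matrix.neg_apply, Matrix.kroneckerMap_apply]
  linear_combination (-s2 α β) * e01 - s0 α β * e12 - s1 α β * e20

/-- positivity -/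
lemma pos {D : Matrix (Fin d) (Fin d) ℝ} (hD : Dᵀ = -D) (z : Fin 16 × Fin d → ℝ) :
    z ⬝ᵥ (((1 : Matrix (Fin 16) (Fin 16) ℝ) ⊗ₖ (D * D)).mulVec z) ≤ 0 := by
  set E : Matrix (Fin 16 × Fin d) (Fin 16 × Fin d) ℝ :=
    (1 : Matrix (Fin 16) (Fin 16) ℝ) ⊗ₖ D with hE
  have h1 : (1 : Matrix (Fin 16) (Fin 16) ℝ) ⊗ₖ (D * D) = E * E := by
    rw [hE, ← Matrix.mul_kronecker_mul, one_mul]
  have h2 : Eᵀ = -E := by
    ext ⟨α, A⟩ ⟨β, B⟩
    have := congrFun (congrFun hD A) B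
    simp only [Matrix.transpose_apply, Matrix.neg_apply] at this
    simp only [hE, Matrix.transpose_apply, Matrix.neg_apply, Matrix.kroneckerMap_apply, this,
      Matrix.one_apply]
    by_cases h : α = β
    · simp [h]
    · simp [h, Ne.symm h]
  have h3 : z ⬝ᵥ (E * E).mulVec z = -((E.mulVec z) ⬝ᵥ (E.mulVec z)) := by
    rw [← Matrix.mulVec_mulVec, Matrix.dotProduct_mulVec, ← Matrix.mulVec_transpose, h2,
      Matrix.neg_mulVec, neg_dotProduct]
  rw [h1, h3]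
  have : 0 ≤ (E.mulVec z) ⬝ᵥ (E.mulVec z) := by
    rw [dotProduct]
    exact Finset.sum_nonneg fun i _ => mul_self_nonneg _
  linarith

/-- the matrix `R` -/
noncomputable def RR (S : Setup d F) (ξ : Cfg d) : Matrix (Fin 16 × Fin d) (Fin 16 × Fin d) ℝ :=
  ∑ q, gr S q ⊗ₖ Dq S ξ q - (3 / 4 : ℝ) • (Gr S ⊗ₖ (1 : Matrix (Fin d) (Fin d) ℝ))

lemma RR_transpose (S : Setup d F) (ξ : Cfg d) : (RR S ξ)ᵀ = -RR S ξ := by
  ext ⟨α, A⟩ ⟨β, B⟩
  have h1 : ∀ q, Dq S ξ q B A = -Dq S ξ q A B := fun q => by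
    have := congrFun (congrFun (Dq_transpose S ξ q) A) B
    simpa only [Matrix.transpose_apply, Matrix.neg_apply] using this
  have h2 : ∀ q, gr S q β α = gr S q α β := fun q => by
    have := congrFun (congrFun (gr_symm S q) α) β
    simpa only [Matrix.transpose_apply] using this
  have h3 : Gr S β α = -Gr S α β := by
    have := congrFun (congrFun (Gr_transpose S) α) β
    simpa only [Matrix.transpose_apply, Matrix.neg_apply] using this
  have h4 : (1 : Matrix (Fin d) (Fin d) ℝ) B A = (1 : Matrix (Fin d) (Fin d) ℝ) A B := by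
    by_cases h : A = B
    · rw [h]
    · rw [Matrix.one_apply_ne h, Matrix.one_apply_ne (Ne.symm h)]
  simp only [RR, Matrix.transpose_apply, Matrix.neg_apply, Matrix.sub_apply, Matrix.sum_apply,
    Matrix.smul_apply, Matrix.kroneckerMap_apply, h1, h2, h3, h4, mul_neg, neg_mul, smul_eq_mul,
    Finset.sum_neg_distrib]
  ring

lemma sum9 {M : Type*} [AddCommMonoid M] (g : Fin 9 → M) (h : ∀ i : Fin 9, ¬ i.val < 3 → g i = 0) :
    ∑ i, g i = g 0 + g 1 + g 2 := by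
  have key : ∀ i : Fin 9, i ∉ ({0, 1, 2} : Finset (Fin 9)) → ¬ i.val < 3 := by decide
  rw [← Finset.sum_subset (Finset.subset_univ ({0, 1, 2} : Finset (Fin 9)))
    (fun i _ hi => h i (key i hi))]
  rw [Finset.sum_insert (by decide), Finset.sum_insert (by decide), Finset.sum_singleton,
    add_assoc]

lemma cc0 (S : Setup d F) {ξ : Cfg d} (h : ∀ k A, S.GG 1 k A ξ = 0) (E : Fin d) :
    S.FF E 1 2 ξ = -2 * ξ (0, E) := by
  have h1 : S.FF E 1 2 ξ + 2 * 1 * ξ (0, E) = 0 := h 0 E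
  linarith

lemma cc1 (S : Setup d F) {ξ : Cfg d} (h : ∀ k A, S.GG 1 k A ξ = 0) (E : Fin d) :
    S.FF E 2 0 ξ = -2 * ξ (1, E) := by
  have h1 : S.FF E 2 0 ξ + 2 * 1 * ξ (1, E) = 0 := h 1 E
  linarith

lemma cc2 (S : Setup d F) {ξ : Cfg d} (h : ∀ k A, S.GG 1 k A ξ = 0) (E : Fin d) :
    S.FF E 0 1 ξ = -2 * ξ (2, E) := by
  have h1 : S.FF E 0 1 ξ + 2 * 1 * ξ (2, E) = 0 := h 2 E
  linarith

lemma RR_inj (S : Setup d F) {ξ : Cfg d} (h : ∀ k A, S.GG 1 k A ξ = 0)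
    (h3 : ∀ i : Fin 9, ∀ A, ¬ i.val < 3 → ξ (i, A) = 0) (z : Fin 16 × Fin d → ℝ)
    (hz : (RR S ξ).mulVec z = 0) : z = 0 := by
  set D0 := Dq S ξ 0 with hD0
  set D1 := Dq S ξ 1 with hD1
  set D2 := Dq S ξ 2 with hD2
  set s0 := gr S 1 * gr S 2 with hs0
  set s1 := gr S 2 * gr S 0 with hs1
  set s2 := gr S 0 * gr S 1 with hs2
  have c01 : D0 * D1 - D1 * D0 = D2 := Dq_comm S ξ (cc2 S h)
  have c12 : D1 * D2 - D2 * D1 = D0 := Dq_comm S ξ (cc0 S h)
  have c20 : D2 * D0 - D0 * D2 = D1 := Dq_comm S ξ (cc1 S h)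
  have a01 := gr_ac S n01
  have a02 := gr_ac S n02
  have a12 := gr_ac S n12
  have a10 := gr_ac S n01.symm
  have a20 := gr_ac S n02.symm
  have a21 := gr_ac S n12.symm
  have b0 := gr_sq S 0
  have b1 := gr_sq S 1
  have b2 := gr_sq S 2
  have h00 : s0 * s0 = -1 := q0 b1 b2 a12
  have h11 : s1 * s1 = -1 := q0 b2 b0 a20
  have h22 : s2 * s2 = -1 := q0 b0 b1 a01
  have h01 : s0 * s1 = -s2 := by rw [hs0, hs1, hs2, q1 b2, a10]
  have h12 : s1 * s2 = -s0 := by rw [hs0, hs1, hs2, q1 b0, a21]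
  have h20 : s2 * s0 = -s1 := by rw [hs0, hs1, hs2, q1 b1, a02]
  have h10 : s1 * s0 = s2 := q2 b2 a02 a12
  have h21 : s2 * s1 = s0 := q2 b0 a10 a20
  have h02 : s0 * s2 = s1 := q2 b1 a21 a01
  set Y : Matrix (Fin 16 × Fin d) (Fin 16 × Fin d) ℝ := s0 ⊗ₖ D0 + s1 ⊗ₖ D1 + s2 ⊗ₖ D2 with hY
  have hYY : Y * Y + Y = -((1 : Matrix (Fin 16) (Fin 16) ℝ) ⊗ₖ (D0 * D0 + D1 * D1 + D2 * D2)) :=
    core h00 h11 h22 h01 h10 h12 h21 h20 h02 c01 c12 c20
  have hsum : ∑ q, gr S q ⊗ₖ Dq S ξ q = gr S 0 ⊗ₖ D0 + gr S 1 ⊗ₖ D1 + gr S 2 ⊗ₖ D2 := by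
    refine sum9 (fun q => gr S q ⊗ₖ Dq S ξ q) fun i hi => ?_
    ext ⟨α, A⟩ ⟨β, B⟩
    simp only [Matrix.kroneckerMap_apply, Dq, Matrix.of_apply, h3 i _ hi, mul_zero,
      Finset.sum_const_zero, Matrix.zero_apply]
  have hPR : (Gr S ⊗ₖ (1 : Matrix (Fin d) (Fin d) ℝ)) * RR S ξ = Y + (3 / 4 : ℝ) • 1 := by
    rw [RR, hsum, mul_sub, mul_add, mul_add, Matrix.mul_smul]
    simp only [← Matrix.mul_kronecker_mul, one_mul, G0, G1, G2, Gr_sq]
    rw [hY, sub_eq_add_neg, ← smul_neg]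
    congr 2
    ext ⟨α, A⟩ ⟨β, B⟩
    simp only [Matrix.neg_apply, Matrix.kroneckerMap_apply, Matrix.one_apply, Prod.mk.injEq]
    by_cases hα : α = β <;> by_cases hA : A = B <;> simp [hα, hA]
  have hYz : Y.mulVec z + (3 / 4 : ℝ) • z = 0 := by
    have h1 : ((Gr S ⊗ₖ (1 : Matrix (Fin d) (Fin d) ℝ)) * RR S ξ).mulVec z = 0 := by
      rw [← Matrix.mulVec_mulVec, hz, Matrix.mulVec_zero]
    rw [hPR, Matrix.add_mulVec, Matrix.smul_mulVec, Matrix.one_mulVec] at h1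
    exact h1
  have hYz' : Y.mulVec z = -((3 / 4 : ℝ) • z) := eq_neg_of_add_eq_zero_left hYz
  have hYYz : (Y * Y + Y).mulVec z = -((3 / 16 : ℝ) • z) := by
    rw [Matrix.add_mulVec, ← Matrix.mulVec_mulVec, hYz', Matrix.mulVec_neg, Matrix.mulVec_smul,
      hYz']
    ext p
    simp only [Pi.add_apply, Pi.neg_apply, Pi.smul_apply, smul_eq_mul]
    ring
  have hsp : (1 : Matrix (Fin 16) (Fin 16) ℝ) ⊗ₖ (D0 * D0 + D1 * D1 + D2 * D2) =
      (1 : Matrix (Fin 16) (Fin 16) ℝ) ⊗ₖ (D0 * D0) + (1 : Matrix (Fin 16) (Fin 16) ℝ) ⊗ₖ (D1 * D1)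
        + (1 : Matrix (Fin 16) (Fin 16) ℝ) ⊗ₖ (D2 * D2) := by
    rw [Matrix.kronecker_add, Matrix.kronecker_add]
  have p0 := pos (Dq_transpose S ξ 0) z
  have p1 := pos (Dq_transpose S ξ 1) z
  have p2 := pos (Dq_transpose S ξ 2) z
  have hdot : z ⬝ᵥ (Y * Y + Y).mulVec z = -(3 / 16) * (z ⬝ᵥ z) := by
    rw [hYYz, dotProduct_neg, dotProduct_smul, smul_eq_mul]
    ring
  rw [hYY, hsp, Matrix.neg_mulVec, dotProduct_neg, Matrix.add_mulVec, Matrix.add_mulVec,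
    dotProduct_add, dotProduct_add] at hdot
  have hzz : 0 ≤ z ⬝ᵥ z := by
    rw [dotProduct]
    exact Finset.sum_nonneg fun i _ => mul_self_nonneg _
  have hzz0 : z ⬝ᵥ z = 0 := by linarith
  exact dotProduct_self_eq_zero.1 hzz0

lemma bil_exp (S : Setup d F) (N : Matrix (Fin 16) (Fin 16) ℂ) (A B : Fin d) :
    S.bil N A B = ∑ α, ∑ γ, N α γ • (S.th α A * S.th γ B) := by
  simp only [CS.bil, CS.vec, Finset.mul_sum, mul_smul_comm]

lemma kr (S : Setup d F) (M : Matrix (Fin 16) (Fin 16) ℂ) (K : Matrix (Fin d) (Fin d) ℂ) :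
    ∑ p : Fin 16 × Fin d, ∑ q : Fin 16 × Fin d, (M p.1 q.1 * K p.2 q.2) •
      (S.th p.1 p.2 * S.th q.1 q.2) = ∑ A, ∑ B, K A B • S.bil M A B := by
  simp only [Fintype.sum_prod_type, bil_exp, Finset.smul_sum, smul_smul]
  rw [Finset.sum_comm]
  refine Finset.sum_congr rfl fun A _ => ?_
  rw [Finset.sum_congr rfl fun α _ => Finset.sum_comm, Finset.sum_comm]
  refine Finset.sum_congr rfl fun B _ => Finset.sum_congr rfl fun α _ =>
    Finset.sum_congr rfl fun β _ => ?_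
  rw [mul_comm]

lemma RR_apply (S : Setup d F) (ξ : Cfg d) (p p' : Fin 16 × Fin d) :
    ((RR S ξ p p' : ℝ) : ℂ) = ∑ q, S.g q p.1 p'.1 * ((Dq S ξ q p.2 p'.2 : ℝ) : ℂ) -
      (3 / 4 : ℂ) * (S.Gam p.1 p'.1 * (1 : Matrix (Fin d) (Fin d) ℂ) p.2 p'.2) := by
  have h1 : ∀ q, S.g q p.1 p'.1 = ((gr S q p.1 p'.1 : ℝ) : ℂ) := fun q => by
    rw [← gr_map S q]; rfl
  have h2 : S.Gam p.1 p'.1 = ((Gr S p.1 p'.1 : ℝ) : ℂ) := by
    rw [← Gr_map S]; rfl
  have h3 : (1 : Matrix (Fin d) (Fin d) ℂ) p.2 p'.2 =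
      (((1 : Matrix (Fin d) (Fin d) ℝ) p.2 p'.2 : ℝ) : ℂ) := by
    by_cases h : p.2 = p'.2
    · simp [Matrix.one_apply, h]
    · simp [h]
  simp only [RR, Matrix.sub_apply, Matrix.sum_apply, Matrix.smul_apply, Matrix.kroneckerMap_apply,
    h1, h2, h3, smul_eq_mul]
  push_cast
  rfl

lemma op (S : Setup d F) (ξ : Cfg d) :
    S.Fx ξ - (3 / 4 : ℂ) • S.FG = Complex.I • ∑ p, ∑ p', ((RR S ξ p p' : ℝ) : ℂ) •
      (S.th p.1 p.2 * S.th p'.1 p'.2) := by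
  have h1 : ∑ p : Fin 16 × Fin d, ∑ p' : Fin 16 × Fin d, ((RR S ξ p p' : ℝ) : ℂ) •
      (S.th p.1 p.2 * S.th p'.1 p'.2) =
      ∑ q, ∑ A, ∑ B, ((Dq S ξ q A B : ℝ) : ℂ) • S.bil (S.g q) A B -
        (3 / 4 : ℂ) • ∑ A, ∑ B, (1 : Matrix (Fin d) (Fin d) ℂ) A B • S.bil S.Gam A B := by
    have e1 : ∀ q, ∑ A, ∑ B, ((Dq S ξ q A B : ℝ) : ℂ) • S.bil (S.g q) A B =
        ∑ p : Fin 16 × Fin d, ∑ p' : Fin 16 × Fin d,
          (S.g q p.1 p'.1 * ((Dq S ξ q p.2 p'.2 : ℝ) : ℂ)) •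
            (S.th p.1 p.2 * S.th p'.1 p'.2) := fun q =>
      (kr S (S.g q) ((Dq S ξ q).map (Complex.ofRealHom))).symm
    have e2 : ∑ q, ∑ p : Fin 16 × Fin d, ∑ p' : Fin 16 × Fin d,
          (S.g q p.1 p'.1 * ((Dq S ξ q p.2 p'.2 : ℝ) : ℂ)) •
            (S.th p.1 p.2 * S.th p'.1 p'.2) =
        ∑ p : Fin 16 × Fin d, ∑ p' : Fin 16 × Fin d, ∑ q,
          (S.g q p.1 p'.1 * ((Dq S ξ q p.2 p'.2 : ℝ) : ℂ)) •
            (S.th p.1 p.2 * S.th p'.1 p'.2) := by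
      rw [Finset.sum_comm]
      refine Finset.sum_congr rfl fun p _ => ?_
      rw [Finset.sum_comm]
    rw [Finset.sum_congr rfl fun q _ => e1 q, e2, ← kr S S.Gam 1, Finset.smul_sum,
      ← Finset.sum_sub_distrib]
    refine Finset.sum_congr rfl fun p _ => ?_
    rw [Finset.smul_sum, ← Finset.sum_sub_distrib]
    refine Finset.sum_congr rfl fun p' _ => ?_
    rw [RR_apply, sub_smul, Finset.sum_smul, smul_smul]
  have h2 : ∑ A, ∑ B, (1 : Matrix (Fin d) (Fin d) ℂ) A B • S.bil S.Gam A B = S.tot S.Gam := by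
    unfold CS.tot
    refine Finset.sum_congr rfl fun A _ => ?_
    rw [Finset.sum_eq_single A]
    · simp
    · intro B _ hB
      simp [Ne.symm hB]
    · simp
  rw [h1, h2, smul_sub]
  congr 1
  · unfold Setup.Fx
    rw [Finset.smul_sum, Finset.smul_sum]
    refine Finset.sum_congr rfl fun q _ => ?_
    rw [Finset.smul_sum, Finset.smul_sum]
    refine Finset.sum_congr rfl fun A _ => ?_
    rw [Finset.smul_sum, Finset.smul_sum]
    refine Finset.sum_congr rfl fun B _ => ?_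
    rw [← Finset.sum_smul, smul_smul, smul_smul]
    congr 1
    simp only [Dq, Matrix.of_apply]
    push_cast
    ring
  · unfold Setup.FG
    rw [smul_comm]

end InvPf

/-- **C-Inv** -/
theorem inv (S : Setup d F) : InvStmt S := by
  intro ξ hξ
  obtain ⟨h1, h2, -⟩ := hes_zero S hξ
  refine ⟨InvPf.RR S ξ, InvPf.RR_transpose S ξ, InvPf.RR_inj S h1 h2, fun v => ?_⟩
  have := congrArg (fun T : F →L[ℂ] F => T v) (InvPf.op S ξ)
  simpa only [_root_.sub_apply, _root_.smul_apply, _root_.sum_apply,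
    _root_.mul_apply_eq_comp] using this

namespace InvPf

lemma gG0 (S : Setup d F) : S.g 0 * S.Gam = S.g 1 * S.g 2 := by
  rw [S.g_Gam_comm (i := 0) (by decide)]
  exact r0 (S.g_sq' 0) (S.g_ac n01) (S.g_ac n02)

lemma gG1 (S : Setup d F) : S.g 1 * S.Gam = S.g 2 * S.g 0 := by
  rw [S.g_Gam_comm (i := 1) (by decide)]
  exact r1 (S.g_sq' 1) (S.g_ac n02) (S.g_ac n12)

lemma gG2 (S : Setup d F) : S.g 2 * S.Gam = S.g 0 * S.g 1 := by
  rw [S.g_Gam_comm (i := 2) (by decide)]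
  exact r2 (S.g_sq' 2)

lemma g2_ne (S : Setup d F) {i j : Fin 9} (h : i ≠ j) : S.g2 i j = S.g i * S.g j := by
  unfold CS.g2
  have h1 : S.g j * S.g i = -(S.g i * S.g j) := S.g_ac h.symm
  rw [h1, sub_neg_eq_add, ← two_smul ℂ (S.g i * S.g j), smul_smul]
  norm_num

end InvPf

/-- **C-Crit** -/
theorem crit (S : Setup d F) : CritStmt S := by
  intro ξ hξ β
  obtain ⟨h1, h2, h3⟩ := hes_zero S hξ
  have hW : S.W β ξ = ∑ A, (((-2 * ξ (0, A) : ℝ) : ℂ) • S.vec (S.g 0 * S.Gam) A β +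
      ((-2 * ξ (1, A) : ℝ) : ℂ) • S.vec (S.g 1 * S.Gam) A β +
      ((-2 * ξ (2, A) : ℝ) : ℂ) • S.vec (S.g 2 * S.Gam) A β) := by
    unfold Setup.W
    rw [Finset.smul_sum]
    refine Finset.sum_congr rfl fun A _ => ?_
    have z1 : ∀ i : Fin 9, ¬ i.val < 3 →
        ∑ j, ((S.FF A i j ξ : ℝ) : ℂ) • S.vec (S.g2 i j) A β = 0 := fun i hi => by
      refine Finset.sum_eq_zero fun j _ => ?_
      rw [h3 i j A (fun h => hi h.1), Complex.ofReal_zero, zero_smul]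
    have z2 : ∀ i j : Fin 9, ¬ j.val < 3 →
        ((S.FF A i j ξ : ℝ) : ℂ) • S.vec (S.g2 i j) A β = 0 := fun i j hj => by
      rw [h3 i j A (fun h => hj h.2), Complex.ofReal_zero, zero_smul]
    rw [InvPf.sum9 _ z1, InvPf.sum9 _ (z2 0), InvPf.sum9 _ (z2 1), InvPf.sum9 _ (z2 2)]
    have d0 : ∀ i, S.FF A i i ξ = 0 := fun i => by linarith [hes_FF_swap S A i i ξ]
    rw [d0 0, d0 1, d0 2, hes_FF_swap S A 1 0, hes_FF_swap S A 2 1, hes_FF_swap S A 0 2,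
      InvPf.cc0 S h1, InvPf.cc1 S h1, InvPf.cc2 S h1, S.g2_swap 1 0, S.g2_swap 2 1,
      S.g2_swap 0 2, InvPf.g2_ne S InvPf.n01, InvPf.g2_ne S InvPf.n12,
      InvPf.g2_ne S InvPf.n02.symm, InvPf.gG0, InvPf.gG1, InvPf.gG2, S.vec_neg, S.vec_neg,
      S.vec_neg]
    push_cast
    module
  have hM : S.MM β ξ = ∑ A, (((2 * ξ (0, A) : ℝ) : ℂ) • S.vec (S.g 0 * S.Gam) A β +
      ((2 * ξ (1, A) : ℝ) : ℂ) • S.vec (S.g 1 * S.Gam) A β +
      ((2 * ξ (2, A) : ℝ) : ℂ) • S.vec (S.g 2 * S.Gam) A β) := by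
    unfold Setup.MM
    have z1 : ∀ i : Fin 9, ¬ i.val < 3 →
        ∑ A, ((aw i * ξ (i, A) : ℝ) : ℂ) • S.vec (S.g i * S.Gam) A β = 0 := fun i hi => by
      refine Finset.sum_eq_zero fun A _ => ?_
      rw [h2 i A hi, mul_zero, Complex.ofReal_zero, zero_smul]
    have w0 : aw 0 = 2 := rfl
    have w1 : aw 1 = 2 := rfl
    have w2 : aw 2 = 2 := rfl
    rw [InvPf.sum9 _ z1, w0, w1, w2, Finset.sum_add_distrib, Finset.sum_add_distrib]
  rw [hW, hM, ← Finset.sum_add_distrib]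
  refine Finset.sum_eq_zero fun A _ => ?_
  push_cast
  module

end Vale.Agent.P353.Z.U
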