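import Vale.Agent.P353.Z.U.StmtC

/-! # P353, general `N`: C-Sq, C-Tay, C-Hes -/

open MeasureTheory Filter Topology
open scoped ContDiff

namespace Vale.Agent.P353.Z.U

open Vale.Agent.P353.Z.Setup (c3)

variable {d : ℕ} {F : Type*} [NormedAddCommGroup F] [InnerProductSpace ℂ F]

/-! ### sums over `Fin 9` -/

theorem hes_sum9 (g : Fin 9 → ℝ) :
    ∑ i, g i = ∑ k, g (c3 k) + ∑ i : Fin 9, (if i.val < 3 then 0 else g i) := by
  simp [Fin.sum_univ_succ, c3]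
  ring

theorem hes_sum9' (g : Fin 9 → ℝ) :
    ∑ i : Fin 9, (if i.val < 3 then g i else 0) = ∑ k, g (c3 k) := by
  simp [Fin.sum_univ_succ, c3]

theorem hes_cyc (g : Fin 3 → Fin 3 → ℝ) (hg : ∀ i j, g i j = - g j i) :
    ∑ i, ∑ j, g i j ^ 2 = 2 * ∑ k : Fin 3, g (k + 1) (k + 2) ^ 2 := by
  have h00 : g 0 0 = 0 := by linarith [hg 0 0]
  have h11 : g 1 1 = 0 := by linarith [hg 1 1]
  have h22 : g 2 2 = 0 := by linarith [hg 2 2]
  have e1 : (0 : Fin 3) + 1 = 1 := rfl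
  have e2 : (0 : Fin 3) + 2 = 2 := rfl
  have e3 : (1 : Fin 3) + 1 = 2 := rfl
  have e4 : (1 : Fin 3) + 2 = 0 := rfl
  have e5 : (2 : Fin 3) + 1 = 0 := rfl
  have e6 : (2 : Fin 3) + 2 = 1 := rfl
  rw [Fin.sum_univ_three, Fin.sum_univ_three, Fin.sum_univ_three, Fin.sum_univ_three,
    Fin.sum_univ_three, e1, e2, e3, e4, e5, e6, h00, h11, h22, hg 1 0, hg 2 1, hg 2 0]
  ring

theorem hes_sq9 (g : Fin 9 → Fin 9 → ℝ) (hg : ∀ i j, g i j = - g j i) :
    ∑ i, ∑ j, g i j ^ 2 = 2 * (∑ k : Fin 3, g (c3 (k + 1)) (c3 (k + 2)) ^ 2) +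
      ∑ i : Fin 9, ∑ j : Fin 9, (if i.val < 3 ∧ j.val < 3 then 0 else g i j ^ 2) := by
  have h1 : ∀ i j : Fin 9, g i j ^ 2 =
      (if i.val < 3 then (if j.val < 3 then g i j ^ 2 else 0) else 0) +
      (if i.val < 3 ∧ j.val < 3 then 0 else g i j ^ 2) := by
    intro i j
    by_cases hi : i.val < 3 <;> by_cases hj : j.val < 3 <;> simp [hi, hj]
  have h2 : ∑ i : Fin 9, ∑ j : Fin 9,
      (if i.val < 3 then (if j.val < 3 then g i j ^ 2 else 0) else 0) =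
      ∑ k, ∑ l, g (c3 k) (c3 l) ^ 2 := by
    have h3 : ∀ i : Fin 9, ∑ j : Fin 9,
        (if i.val < 3 then (if j.val < 3 then g i j ^ 2 else 0) else 0) =
        if i.val < 3 then ∑ l, g i (c3 l) ^ 2 else 0 := by
      intro i
      by_cases hi : i.val < 3
      · simp only [if_pos hi]
        exact hes_sum9' fun j => g i j ^ 2
      · simp only [if_neg hi, Finset.sum_const_zero]
    simp only [h3]
    exact hes_sum9' fun i => ∑ l, g i (c3 l) ^ 2
  calc ∑ i, ∑ j, g i j ^ 2 = ∑ i : Fin 9, ∑ j : Fin 9,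
      ((if i.val < 3 then (if j.val < 3 then g i j ^ 2 else 0) else 0) +
      (if i.val < 3 ∧ j.val < 3 then 0 else g i j ^ 2)) :=
        Finset.sum_congr rfl fun i _ => Finset.sum_congr rfl fun j _ => h1 i j
    _ = _ := by
        simp only [Finset.sum_add_distrib]
        rw [h2, hes_cyc (fun k l => g (c3 k) (c3 l)) (fun k l => hg _ _)]

section

variable (S : Setup d F)

theorem hes_FF_swap (A : Fin d) (i j : Fin 9) (x : Cfg d) : S.FF A i j x = - S.FF A j i x := by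
  unfold Setup.FF
  rw [← mul_neg]
  congr 1
  rw [Finset.sum_comm, ← Finset.sum_neg_distrib]
  refine Finset.sum_congr rfl fun B _ => ?_
  rw [← Finset.sum_neg_distrib]
  refine Finset.sum_congr rfl fun C _ => ?_
  rw [S.f_swap' A B C]
  ring

/-- the cross term -/
theorem hes_cross (x : Cfg d) :
    ∑ k : Fin 3, ∑ A, S.FF A (c3 (k + 1)) (c3 (k + 2)) x * x (c3 k, A) =
      3 * S.κ * S.det3 x := by
  have e1 : (0 : Fin 3) + 1 = 1 := rfl
  have e2 : (0 : Fin 3) + 2 = 2 := rfl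
  have e3 : (1 : Fin 3) + 1 = 2 := rfl
  have e4 : (1 : Fin 3) + 2 = 0 := rfl
  have e5 : (2 : Fin 3) + 1 = 0 := rfl
  have e6 : (2 : Fin 3) + 2 = 1 := rfl
  have c0 : c3 0 = 0 := rfl
  have c1 : c3 1 = 1 := rfl
  have c2 : c3 2 = 2 := rfl
  have h0 : ∑ A, S.FF A 1 2 x * x (0, A) = S.κ * S.det3 x := by
    unfold Setup.FF Setup.det3
    rw [Finset.mul_sum]
    refine Finset.sum_congr rfl fun A _ => ?_
    rw [mul_assoc, Finset.sum_mul]
    congr 1
    refine Finset.sum_congr rfl fun B _ => ?_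
    rw [Finset.sum_mul]
    exact Finset.sum_congr rfl fun C _ => by ring
  have h1 : ∑ A, S.FF A 2 0 x * x (1, A) = S.κ * S.det3 x := by
    unfold Setup.FF Setup.det3
    have h3 : ∑ A, ∑ B, ∑ C, S.f A B C * x (0, A) * x (1, B) * x (2, C) =
        ∑ B, ∑ C, ∑ A, S.f B C A * x (2, C) * x (0, A) * x (1, B) := by
      rw [Finset.sum_comm]
      refine Finset.sum_congr rfl fun B _ => ?_
      rw [Finset.sum_comm]
      refine Finset.sum_congr rfl fun C _ => Finset.sum_congr rfl fun A _ => ?_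
      rw [S.f_cyc A B C]
      ring
    rw [h3, Finset.mul_sum]
    refine Finset.sum_congr rfl fun A _ => ?_
    rw [mul_assoc, Finset.sum_mul]
    congr 1
    refine Finset.sum_congr rfl fun B _ => ?_
    rw [Finset.sum_mul]
  have h2 : ∑ A, S.FF A 0 1 x * x (2, A) = S.κ * S.det3 x := by
    unfold Setup.FF Setup.det3
    have h3 : ∑ A, ∑ B, ∑ C, S.f A B C * x (0, A) * x (1, B) * x (2, C) =
        ∑ C, ∑ A, ∑ B, S.f C A B * x (0, A) * x (1, B) * x (2, C) := by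
      have h4 : ∀ A, ∑ B, ∑ C, S.f A B C * x (0, A) * x (1, B) * x (2, C) =
          ∑ C, ∑ B, S.f A B C * x (0, A) * x (1, B) * x (2, C) := fun A => Finset.sum_comm
      simp only [h4]
      rw [Finset.sum_comm]
      refine Finset.sum_congr rfl fun C _ => Finset.sum_congr rfl fun A _ =>
        Finset.sum_congr rfl fun B _ => ?_
      rw [S.f_cyc C A B]
    rw [h3, Finset.mul_sum]
    refine Finset.sum_congr rfl fun A _ => ?_
    rw [mul_assoc, Finset.sum_mul]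
    congr 1
    refine Finset.sum_congr rfl fun B _ => ?_
    rw [Finset.sum_mul]
  rw [Fin.sum_univ_three, e1, e2, e3, e4, e5, e6, c0, c1, c2, h0, h1, h2]
  ring

/-- **C-Sq** -/
theorem sq_stmt : SqStmt S := by
  intro m x
  have hV : S.V x = (1 / 4) * (∑ A, (2 * (∑ k : Fin 3, S.FF A (c3 (k + 1)) (c3 (k + 2)) x ^ 2) +
      ∑ i : Fin 9, ∑ j : Fin 9, (if i.val < 3 ∧ j.val < 3 then 0 else S.FF A i j x ^ 2))) := by
    unfold Setup.V
    congr 1
    exact Finset.sum_congr rfl fun A _ =>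
      hes_sq9 (fun i j => S.FF A i j x) (fun i j => hes_FF_swap S A i j x)
  have h3 : ∑ i : Fin 9, ∑ j : Fin 9, ∑ A,
      (if i.val < 3 ∧ j.val < 3 then 0 else S.FF A i j x ^ 2) =
      ∑ A, ∑ i : Fin 9, ∑ j : Fin 9,
        (if i.val < 3 ∧ j.val < 3 then 0 else S.FF A i j x ^ 2) := by
    have h4 : ∀ i : Fin 9, ∑ j : Fin 9, ∑ A,
        (if i.val < 3 ∧ j.val < 3 then 0 else S.FF A i j x ^ 2) =
        ∑ A, ∑ j : Fin 9, (if i.val < 3 ∧ j.val < 3 then 0 else S.FF A i j x ^ 2) :=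
      fun i => Finset.sum_comm
    simp only [h4]
    exact Finset.sum_comm
  have h5 : ∑ i : Fin 9, ∑ A, (aw i * x (i, A)) ^ 2 =
      4 * (∑ k : Fin 3, ∑ A, x (c3 k, A) ^ 2) +
        ∑ i : Fin 9, ∑ A, (if i.val < 3 then 0 else x (i, A) ^ 2) := by
    rw [hes_sum9 fun i => ∑ A, (aw i * x (i, A)) ^ 2]
    congr 1
    · rw [Finset.mul_sum]
      refine Finset.sum_congr rfl fun k _ => ?_
      rw [Finset.mul_sum]
      refine Finset.sum_congr rfl fun A _ => ?_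
      have : aw (c3 k) = 2 := if_pos k.isLt
      rw [this]
      ring
    · refine Finset.sum_congr rfl fun i _ => ?_
      by_cases hi : i.val < 3
      · simp only [if_pos hi, Finset.sum_const_zero]
      · simp only [if_neg hi]
        refine Finset.sum_congr rfl fun A _ => ?_
        have : aw i = 1 := if_neg hi
        rw [this]
        ring
  have h6 : ∑ k : Fin 3, ∑ A, S.GG m k A x ^ 2 =
      ∑ A, (∑ k : Fin 3, S.FF A (c3 (k + 1)) (c3 (k + 2)) x ^ 2) +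
        4 * m * (3 * S.κ * S.det3 x) + 4 * m ^ 2 * ∑ k : Fin 3, ∑ A, x (c3 k, A) ^ 2 := by
    rw [← hes_cross S x, Finset.sum_comm (f := fun (A : Fin d) (k : Fin 3) =>
      S.FF A (c3 (k + 1)) (c3 (k + 2)) x ^ 2), Finset.mul_sum, Finset.mul_sum,
      ← Finset.sum_add_distrib, ← Finset.sum_add_distrib]
    refine Finset.sum_congr rfl fun k _ => ?_
    rw [Finset.mul_sum, Finset.mul_sum, ← Finset.sum_add_distrib, ← Finset.sum_add_distrib]
    refine Finset.sum_congr rfl fun A _ => ?_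
    unfold Setup.GG
    ring
  unfold Setup.Vm
  rw [hV, h3, h5, h6, Finset.sum_add_distrib, ← Finset.mul_sum]
  ring

/-! ### Taylor expansion -/

theorem hes_FF_add (A : Fin d) (i j : Fin 9) (ξ w : Cfg d) :
    S.FF A i j (ξ + w) = S.FF A i j ξ + S.LF ξ A i j w + S.FF A i j w := by
  unfold Setup.FF Setup.LF
  rw [← mul_add, ← mul_add]
  congr 1
  rw [← Finset.sum_add_distrib, ← Finset.sum_add_distrib]
  refine Finset.sum_congr rfl fun B _ => ?_
  rw [← Finset.sum_add_distrib, ← Finset.sum_add_distrib]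
  refine Finset.sum_congr rfl fun C _ => ?_
  simp only [PiLp.add_apply]
  ring

/-- the squares vanish at a zero -/
theorem hes_zero {ξ : Cfg d} (h : S.Vm 1 ξ = 0) : (∀ k A, S.GG 1 k A ξ = 0) ∧
    (∀ i : Fin 9, ∀ A, ¬ i.val < 3 → ξ (i, A) = 0) ∧
    ∀ (i j : Fin 9) (A : Fin d), ¬ (i.val < 3 ∧ j.val < 3) → S.FF A i j ξ = 0 := by
  rw [sq_stmt S 1 ξ] at h
  have n1 : 0 ≤ ∑ k, ∑ A, S.GG 1 k A ξ ^ 2 :=
    Finset.sum_nonneg fun k _ => Finset.sum_nonneg fun A _ => sq_nonneg _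
  have m2 : ∀ (i : Fin 9) (A : Fin d), 0 ≤ (if i.val < 3 then 0 else ξ (i, A) ^ 2 : ℝ) := by
    intro i A
    split_ifs
    · exact le_rfl
    · exact sq_nonneg _
  have n2 : 0 ≤ ∑ i : Fin 9, ∑ A, (if i.val < 3 then 0 else ξ (i, A) ^ 2 : ℝ) :=
    Finset.sum_nonneg fun i _ => Finset.sum_nonneg fun A _ => m2 i A
  have m3 : ∀ (i j : Fin 9) (A : Fin d),
      0 ≤ (if i.val < 3 ∧ j.val < 3 then 0 else S.FF A i j ξ ^ 2 : ℝ) := by
    intro i j A
    split_ifs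
    · exact le_rfl
    · exact sq_nonneg _
  have n3 : 0 ≤ ∑ i : Fin 9, ∑ j : Fin 9, ∑ A,
      (if i.val < 3 ∧ j.val < 3 then 0 else S.FF A i j ξ ^ 2 : ℝ) :=
    Finset.sum_nonneg fun i _ => Finset.sum_nonneg fun j _ => Finset.sum_nonneg fun A _ => m3 i j A
  have z1 : ∑ k, ∑ A, S.GG 1 k A ξ ^ 2 = 0 := by linarith
  have z2 : ∑ i : Fin 9, ∑ A, (if i.val < 3 then 0 else ξ (i, A) ^ 2 : ℝ) = 0 := by linarith
  have z3 : ∑ i : Fin 9, ∑ j : Fin 9, ∑ A,
      (if i.val < 3 ∧ j.val < 3 then 0 else S.FF A i j ξ ^ 2 : ℝ) = 0 := by linarith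
  refine ⟨fun k A => ?_, fun i A hi => ?_, fun i j A hij => ?_⟩
  · have h1 := (Finset.sum_eq_zero_iff_of_nonneg
      (fun k _ => Finset.sum_nonneg fun A _ => sq_nonneg _)).1 z1 k (Finset.mem_univ _)
    have h2 := (Finset.sum_eq_zero_iff_of_nonneg (fun A _ => sq_nonneg _)).1 h1 A
      (Finset.mem_univ _)
    exact pow_eq_zero_iff two_ne_zero |>.1 h2
  · have h1 := (Finset.sum_eq_zero_iff_of_nonneg
      (fun i _ => Finset.sum_nonneg fun A _ => m2 i A)).1 z2 i (Finset.mem_univ _)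
    have h2 := (Finset.sum_eq_zero_iff_of_nonneg (fun A _ => m2 i A)).1 h1 A (Finset.mem_univ _)
    rw [if_neg hi] at h2
    exact pow_eq_zero_iff two_ne_zero |>.1 h2
  · have h1 := (Finset.sum_eq_zero_iff_of_nonneg (fun i _ => Finset.sum_nonneg fun j _ =>
      Finset.sum_nonneg fun A _ => m3 i j A)).1 z3 i (Finset.mem_univ _)
    have h2 := (Finset.sum_eq_zero_iff_of_nonneg (fun j _ =>
      Finset.sum_nonneg fun A _ => m3 i j A)).1 h1 j (Finset.mem_univ _)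
    have h3 := (Finset.sum_eq_zero_iff_of_nonneg (fun A _ => m3 i j A)).1 h2 A
      (Finset.mem_univ _)
    rw [if_neg hij] at h3
    exact pow_eq_zero_iff two_ne_zero |>.1 h3

/-- bound of the field strength -/
theorem hes_FF_le (A : Fin d) (i j : Fin 9) (w : Cfg d) :
    S.FF A i j w ^ 2 ≤ (S.κ * ∑ A, ∑ B, ∑ C, |S.f A B C|) ^ 2 * ‖w‖ ^ 4 := by
  have h1 : |S.FF A i j w| ≤ (S.κ * ∑ A, ∑ B, ∑ C, |S.f A B C|) * ‖w‖ ^ 2 := by
    unfold Setup.FF
    rw [abs_mul, abs_of_pos S.κ_pos, mul_assoc]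
    refine mul_le_mul_of_nonneg_left ?_ S.κ_pos.le
    have h2 : ∑ B, ∑ C, |S.f A B C| ≤ ∑ A, ∑ B, ∑ C, |S.f A B C| :=
      Finset.single_le_sum (f := fun A => ∑ B, ∑ C, |S.f A B C|)
        (fun A _ => Finset.sum_nonneg fun B _ => Finset.sum_nonneg fun C _ => abs_nonneg _)
        (Finset.mem_univ A)
    refine le_trans ?_ (mul_le_mul_of_nonneg_right h2 (sq_nonneg _))
    rw [Finset.sum_mul]
    refine (Finset.abs_sum_le_sum_abs _ _).trans (Finset.sum_le_sum fun B _ => ?_)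
    rw [Finset.sum_mul]
    refine (Finset.abs_sum_le_sum_abs _ _).trans (Finset.sum_le_sum fun C _ => ?_)
    rw [abs_mul, abs_mul, mul_assoc]
    refine mul_le_mul_of_nonneg_left ?_ (abs_nonneg _)
    have h3 : |w (i, B)| ≤ ‖w‖ := PiLp.norm_apply_le w (i, B)
    have h4 : |w (j, C)| ≤ ‖w‖ := PiLp.norm_apply_le w (j, C)
    calc |w (i, B)| * |w (j, C)| ≤ ‖w‖ * ‖w‖ :=
          mul_le_mul h3 h4 (abs_nonneg _) (norm_nonneg _)
      _ = ‖w‖ ^ 2 := by ring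
  calc S.FF A i j w ^ 2 = |S.FF A i j w| ^ 2 := (sq_abs _).symm
    _ ≤ ((S.κ * ∑ A, ∑ B, ∑ C, |S.f A B C|) * ‖w‖ ^ 2) ^ 2 :=
        pow_le_pow_left₀ (abs_nonneg _) h1 2
    _ = _ := by ring

/-- **C-Tay** -/
theorem tay_stmt : TayStmt S := by
  obtain ⟨K, hK⟩ : ∃ K : ℝ, K = (S.κ * ∑ A, ∑ B, ∑ C, |S.f A B C|) ^ 2 := ⟨_, rfl⟩
  have hK0 : 0 ≤ K := by rw [hK]; exact sq_nonneg _
  refine ⟨(1 / 2) * (∑ _k : Fin 3, ∑ _A : Fin d, K) +
    (1 / 4) * (∑ _i : Fin 9, ∑ _j : Fin 9, ∑ _A : Fin d, K), by positivity, fun ξ w h => ?_⟩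
  obtain ⟨h1, h2, h3⟩ := hes_zero S h
  have hle : ∀ A i j, S.FF A i j w ^ 2 ≤ K * ‖w‖ ^ 4 := fun A i j => by
    rw [hK]
    exact hes_FF_le S A i j w
  have t1 : (1 / 2) * (∑ k, ∑ A, S.LG ξ k A w ^ 2) - (∑ _k : Fin 3, ∑ _A : Fin d, K) * ‖w‖ ^ 4 ≤
      ∑ k, ∑ A, S.GG 1 k A (ξ + w) ^ 2 := by
    rw [Finset.mul_sum, Finset.sum_mul, ← Finset.sum_sub_distrib]
    refine Finset.sum_le_sum fun k _ => ?_
    rw [Finset.mul_sum, Finset.sum_mul, ← Finset.sum_sub_distrib]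
    refine Finset.sum_le_sum fun A _ => ?_
    have e : S.GG 1 k A (ξ + w) = S.LG ξ k A w + S.FF A (c3 (k + 1)) (c3 (k + 2)) w := by
      have h4 := h1 k A
      unfold Setup.GG at h4 ⊢
      unfold Setup.LG
      rw [hes_FF_add, PiLp.add_apply]
      linarith
    rw [e]
    nlinarith [hle A (c3 (k + 1)) (c3 (k + 2)),
      sq_nonneg (S.LG ξ k A w + 2 * S.FF A (c3 (k + 1)) (c3 (k + 2)) w)]
  have t2 : ∑ i : Fin 9, ∑ A, (if i.val < 3 then 0 else (ξ + w) (i, A) ^ 2 : ℝ) =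
      ∑ i : Fin 9, ∑ A, (if i.val < 3 then 0 else w (i, A) ^ 2 : ℝ) := by
    refine Finset.sum_congr rfl fun i _ => Finset.sum_congr rfl fun A _ => ?_
    by_cases hi : i.val < 3
    · rw [if_pos hi, if_pos hi]
    · rw [if_neg hi, if_neg hi, PiLp.add_apply, h2 i A hi, zero_add]
  have t3 : (1 / 2) * (∑ i : Fin 9, ∑ j : Fin 9, ∑ A,
      (if i.val < 3 ∧ j.val < 3 then 0 else S.LF ξ A i j w ^ 2)) -
      (∑ _i : Fin 9, ∑ _j : Fin 9, ∑ _A : Fin d, K) * ‖w‖ ^ 4 ≤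
      ∑ i : Fin 9, ∑ j : Fin 9, ∑ A,
        (if i.val < 3 ∧ j.val < 3 then 0 else S.FF A i j (ξ + w) ^ 2) := by
    rw [Finset.mul_sum, Finset.sum_mul, ← Finset.sum_sub_distrib]
    refine Finset.sum_le_sum fun i _ => ?_
    rw [Finset.mul_sum, Finset.sum_mul, ← Finset.sum_sub_distrib]
    refine Finset.sum_le_sum fun j _ => ?_
    rw [Finset.mul_sum, Finset.sum_mul, ← Finset.sum_sub_distrib]
    refine Finset.sum_le_sum fun A _ => ?_
    by_cases hij : i.val < 3 ∧ j.val < 3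
    · rw [if_pos hij, if_pos hij]
      have : 0 ≤ K * ‖w‖ ^ 4 := by positivity
      linarith
    · rw [if_neg hij, if_neg hij, hes_FF_add, h3 i j A hij, zero_add]
      nlinarith [hle A i j, sq_nonneg (S.LF ξ A i j w + 2 * S.FF A i j w)]
  have t4 : 0 ≤ ∑ i : Fin 9, ∑ A, (if i.val < 3 then 0 else w (i, A) ^ 2 : ℝ) := by
    refine Finset.sum_nonneg fun i _ => Finset.sum_nonneg fun A _ => ?_
    split_ifs
    · exact le_rfl
    · exact sq_nonneg _
  rw [sq_stmt S 1 (ξ + w), t2]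
  unfold Setup.hq
  nlinarith [t1, t3, t4]

/-! ### nondegeneracy -/

/-- `D_i = -(κ/2) ad ξ_i` -/
noncomputable def hesD (ξ : Cfg d) (k : Fin 3) : Matrix (Fin d) (Fin d) ℝ :=
  Matrix.of fun A C => -(S.κ / 2) * ∑ B, S.f A B C * ξ (c3 k, B)

theorem hesD_mulVec (ξ : Cfg d) (k : Fin 3) (v : Fin d → ℝ) (A : Fin d) :
    (hesD S ξ k).mulVec v A = -(S.κ / 2) * ∑ B, ∑ C, S.f A B C * ξ (c3 k, B) * v C := by
  rw [Finset.sum_comm, Finset.mul_sum]
  change ∑ C, (-(S.κ / 2) * ∑ B, S.f A B C * ξ (c3 k, B)) * v C = _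
  refine Finset.sum_congr rfl fun C _ => ?_
  rw [mul_assoc, Finset.sum_mul]

theorem hesD_transpose (ξ : Cfg d) (k : Fin 3) : (hesD S ξ k).transpose = - hesD S ξ k := by
  ext A C
  rw [Matrix.transpose_apply, Matrix.neg_apply, hesD, Matrix.of_apply, Matrix.of_apply,
    ← mul_neg, ← Finset.sum_neg_distrib]
  congr 1
  refine Finset.sum_congr rfl fun B _ => ?_
  rw [S.f_swap C B A, S.f_cyc B C A, S.f_cyc C A B]
  ring

theorem hesD_comm {ξ : Cfg d} (h : ∀ k A, S.GG 1 k A ξ = 0) (k : Fin 3) :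
    hesD S ξ (k + 1) * hesD S ξ (k + 2) - hesD S ξ (k + 2) * hesD S ξ (k + 1) = hesD S ξ k := by
  ext A C
  have hb : ∀ E, ∑ B, ∑ B', S.f E B B' * ξ (c3 (k + 1), B) * ξ (c3 (k + 2), B') =
      -(2 / S.κ) * ξ (c3 k, E) := by
    intro E
    have h1 := h k E
    unfold Setup.GG Setup.FF at h1
    have h2 := S.κ_pos.ne'
    field_simp
    linarith
  have hj : ∀ B B', ∑ E, (S.f A B E * S.f E B' C - S.f A B' E * S.f E B C) =
      - ∑ E, S.f B B' E * S.f E A C := by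
    intro B B'
    have h1 := S.f_jac A B B' C
    rw [← Finset.sum_neg_distrib, ← sub_eq_zero, ← Finset.sum_sub_distrib, ← h1]
    refine Finset.sum_congr rfl fun E _ => ?_
    rw [S.f_swap B' A E]
    ring
  have hexp : ∀ (p q : Fin 3), (hesD S ξ p * hesD S ξ q) A C = (S.κ ^ 2 / 4) *
      ∑ B, ∑ B', ξ (c3 p, B) * ξ (c3 q, B') * ∑ E, S.f A B E * S.f E B' C := by
    intro p q
    rw [Matrix.mul_apply]
    simp only [hesD, Matrix.of_apply]
    have h1 : ∀ E, -(S.κ / 2) * (∑ B, S.f A B E * ξ (c3 p, B)) *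
        (-(S.κ / 2) * ∑ B', S.f E B' C * ξ (c3 q, B')) = (S.κ ^ 2 / 4) *
        ∑ B, ∑ B', ξ (c3 p, B) * ξ (c3 q, B') * (S.f A B E * S.f E B' C) := by
      intro E
      have h2 : (∑ B, S.f A B E * ξ (c3 p, B)) * (∑ B', S.f E B' C * ξ (c3 q, B')) =
          ∑ B, ∑ B', ξ (c3 p, B) * ξ (c3 q, B') * (S.f A B E * S.f E B' C) := by
        rw [Finset.sum_mul_sum]
        exact Finset.sum_congr rfl fun B _ => Finset.sum_congr rfl fun B' _ => by ring
      rw [← h2]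
      ring
    simp only [h1]
    rw [← Finset.mul_sum, Finset.sum_comm]
    congr 1
    refine Finset.sum_congr rfl fun B _ => ?_
    rw [Finset.sum_comm]
    refine Finset.sum_congr rfl fun B' _ => ?_
    rw [Finset.mul_sum]
  have hsw : ∑ B, ∑ B', ξ (c3 (k + 2), B) * ξ (c3 (k + 1), B') * ∑ E, S.f A B E * S.f E B' C =
      ∑ B, ∑ B', ξ (c3 (k + 1), B) * ξ (c3 (k + 2), B') * ∑ E, S.f A B' E * S.f E B C := by
    rw [Finset.sum_comm]
    exact Finset.sum_congr rfl fun B _ => Finset.sum_congr rfl fun B' _ => by ring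
  rw [Matrix.sub_apply, hexp, hexp, hsw, ← mul_sub, ← Finset.sum_sub_distrib]
  have h3 : ∀ B, (∑ B', ξ (c3 (k + 1), B) * ξ (c3 (k + 2), B') * ∑ E, S.f A B E * S.f E B' C) -
      (∑ B', ξ (c3 (k + 1), B) * ξ (c3 (k + 2), B') * ∑ E, S.f A B' E * S.f E B C) =
      ∑ B', - ∑ E, (S.f E B B' * ξ (c3 (k + 1), B) * ξ (c3 (k + 2), B')) * S.f E A C := by
    intro B
    rw [← Finset.sum_sub_distrib]
    refine Finset.sum_congr rfl fun B' _ => ?_
    rw [← mul_sub, ← Finset.sum_sub_distrib, hj, mul_neg, Finset.mul_sum]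
    congr 1
    refine Finset.sum_congr rfl fun E _ => ?_
    rw [S.f_cyc B B' E, S.f_cyc B' E B]
    ring
  have h4 : ∑ B, ∑ B', - ∑ E, (S.f E B B' * ξ (c3 (k + 1), B) * ξ (c3 (k + 2), B')) *
      S.f E A C = (2 / S.κ) * ∑ E, ξ (c3 k, E) * S.f E A C := by
    have h5 : ∑ B, ∑ B', ∑ E, (S.f E B B' * ξ (c3 (k + 1), B) * ξ (c3 (k + 2), B')) *
        S.f E A C = ∑ E, (-(2 / S.κ) * ξ (c3 k, E)) * S.f E A C := by
      have h6 : ∀ B, ∑ B', ∑ E, (S.f E B B' * ξ (c3 (k + 1), B) * ξ (c3 (k + 2), B')) *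
          S.f E A C = ∑ E, (∑ B', S.f E B B' * ξ (c3 (k + 1), B) * ξ (c3 (k + 2), B')) *
          S.f E A C := by
        intro B
        rw [Finset.sum_comm]
        exact Finset.sum_congr rfl fun E _ => (Finset.sum_mul _ _ _).symm
      simp only [h6]
      rw [Finset.sum_comm]
      refine Finset.sum_congr rfl fun E _ => ?_
      rw [← Finset.sum_mul, hb]
    simp only [Finset.sum_neg_distrib]
    rw [h5, ← Finset.sum_neg_distrib, Finset.mul_sum]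
    exact Finset.sum_congr rfl fun E _ => by ring
  simp only [h3]
  rw [h4]
  simp only [hesD, Matrix.of_apply]
  have h7 : ∑ E, ξ (c3 k, E) * S.f E A C = - ∑ B, S.f A B C * ξ (c3 k, B) := by
    rw [← Finset.sum_neg_distrib]
    refine Finset.sum_congr rfl fun E _ => ?_
    rw [S.f_swap E A C]
    ring
  rw [h7]
  have h8 := S.κ_pos.ne'
  field_simp
  ring

/-- abstract core of the nondegeneracy -/
theorem hes_core (D0 D1 D2 : Matrix (Fin d) (Fin d) ℝ) (w0 w1 w2 : Fin d → ℝ)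
    (c1 : D2 * D0 - D0 * D2 = D1) (c2 : D0 * D1 - D1 * D0 = D2)
    (h0 : w0 = D1.mulVec w2 - D2.mulVec w1) (h1 : w1 = D2.mulVec w0 - D0.mulVec w2)
    (h2 : w2 = D0.mulVec w1 - D1.mulVec w0)
    (hd : D0.mulVec w0 + D1.mulVec w1 + D2.mulVec w2 = 0) :
    D0.mulVec (D0.mulVec w0) + D1.mulVec (D1.mulVec w0) + D2.mulVec (D2.mulVec w0) = 0 := by
  have e1 : D1.mulVec w2 = D1.mulVec (D0.mulVec w1) - D1.mulVec (D1.mulVec w0) := by
    conv_lhs => rw [h2]
    rw [Matrix.mulVec_sub]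
  have e2 : D2.mulVec w1 = D2.mulVec (D2.mulVec w0) - D2.mulVec (D0.mulVec w2) := by
    conv_lhs => rw [h1]
    rw [Matrix.mulVec_sub]
  have e3 : D0.mulVec (D1.mulVec w1) - D1.mulVec (D0.mulVec w1) = D2.mulVec w1 := by
    rw [Matrix.mulVec_mulVec, Matrix.mulVec_mulVec, ← Matrix.sub_mulVec, c2]
  have e4 : D2.mulVec (D0.mulVec w2) - D0.mulVec (D2.mulVec w2) = D1.mulVec w2 := by
    rw [Matrix.mulVec_mulVec, Matrix.mulVec_mulVec, ← Matrix.sub_mulVec, c1]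
  have e5 : D0.mulVec (D0.mulVec w0) + D0.mulVec (D1.mulVec w1) + D0.mulVec (D2.mulVec w2) = 0 := by
    rw [← Matrix.mulVec_add, ← Matrix.mulVec_add, hd, Matrix.mulVec_zero]
  funext A
  have e1' := congrFun e1 A
  have e2' := congrFun e2 A
  have e3' := congrFun e3 A
  have e4' := congrFun e4 A
  have e5' := congrFun e5 A
  have h0' := congrFun h0 A
  simp only [Pi.add_apply, Pi.sub_apply, Pi.zero_apply] at *
  linarith

theorem hes_pos (D0 D1 D2 : Matrix (Fin d) (Fin d) ℝ) (t0 : D0.transpose = -D0)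
    (t1 : D1.transpose = -D1) (t2 : D2.transpose = -D2) (w : Fin d → ℝ)
    (h : D0.mulVec (D0.mulVec w) + D1.mulVec (D1.mulVec w) + D2.mulVec (D2.mulVec w) = 0) :
    D0.mulVec w = 0 ∧ D1.mulVec w = 0 ∧ D2.mulVec w = 0 := by
  have key : ∀ D : Matrix (Fin d) (Fin d) ℝ, D.transpose = -D →
      w ⬝ᵥ D.mulVec (D.mulVec w) = -(D.mulVec w ⬝ᵥ D.mulVec w) := by
    intro D hD
    rw [Matrix.dotProduct_mulVec, ← Matrix.mulVec_transpose, hD, Matrix.neg_mulVec,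
      neg_dotProduct]
  have h1 : w ⬝ᵥ (D0.mulVec (D0.mulVec w) + D1.mulVec (D1.mulVec w) +
      D2.mulVec (D2.mulVec w)) = 0 := by
    rw [h, dotProduct_zero]
  rw [dotProduct_add, dotProduct_add, key D0 t0, key D1 t1, key D2 t2] at h1
  have n0 : 0 ≤ D0.mulVec w ⬝ᵥ D0.mulVec w := Finset.sum_nonneg fun i _ => mul_self_nonneg _
  have n1 : 0 ≤ D1.mulVec w ⬝ᵥ D1.mulVec w := Finset.sum_nonneg fun i _ => mul_self_nonneg _
  have n2 : 0 ≤ D2.mulVec w ⬝ᵥ D2.mulVec w := Finset.sum_nonneg fun i _ => mul_self_nonneg _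
  exact ⟨dotProduct_self_eq_zero.1 (by linarith), dotProduct_self_eq_zero.1 (by linarith),
    dotProduct_self_eq_zero.1 (by linarith)⟩

/-- the linearised equation -/
theorem hes_lin {ξ w : Cfg d} (h : ∀ k A, S.LG ξ k A w = 0) (k : Fin 3) :
    (fun A => w (c3 k, A)) = (hesD S ξ (k + 1)).mulVec (fun A => w (c3 (k + 2), A)) -
      (hesD S ξ (k + 2)).mulVec (fun A => w (c3 (k + 1), A)) := by
  funext A
  rw [Pi.sub_apply, hesD_mulVec, hesD_mulVec]
  have h1 := h k A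
  unfold Setup.LG Setup.LF at h1
  have h2 : ∑ B, ∑ C, S.f A B C * (ξ (c3 (k + 1), B) * w (c3 (k + 2), C) +
      w (c3 (k + 1), B) * ξ (c3 (k + 2), C)) =
      ∑ B, ∑ C, S.f A B C * ξ (c3 (k + 1), B) * w (c3 (k + 2), C) -
      ∑ B, ∑ C, S.f A B C * ξ (c3 (k + 2), B) * w (c3 (k + 1), C) := by
    rw [Finset.sum_comm (f := fun B C => S.f A B C * ξ (c3 (k + 2), B) * w (c3 (k + 1), C)),
      ← Finset.sum_sub_distrib]
    refine Finset.sum_congr rfl fun B _ => ?_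
    rw [← Finset.sum_sub_distrib]
    refine Finset.sum_congr rfl fun C _ => ?_
    rw [S.f_swap' A B C]
    ring
  rw [h2] at h1
  linarith

theorem hes_perp {ξ w : Cfg d} (h : S.Perp ξ w)
    (h2 : ∀ i : Fin 9, ∀ A, ¬ i.val < 3 → ξ (i, A) = 0) :
    (hesD S ξ 0).mulVec (fun A => w (c3 0, A)) + (hesD S ξ 1).mulVec (fun A => w (c3 1, A)) +
      (hesD S ξ 2).mulVec (fun A => w (c3 2, A)) = 0 := by
  funext C
  have h1 := h C
  rw [hes_sum9 fun i => ∑ A, ∑ B, S.f C A B * ξ (i, A) * w (i, B)] at h1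
  have h3 : ∑ i : Fin 9, (if i.val < 3 then 0 else
      ∑ A, ∑ B, S.f C A B * ξ (i, A) * w (i, B)) = 0 := by
    refine Finset.sum_eq_zero fun i _ => ?_
    by_cases hi : i.val < 3
    · rw [if_pos hi]
    · rw [if_neg hi]
      refine Finset.sum_eq_zero fun A _ => Finset.sum_eq_zero fun B _ => ?_
      rw [h2 i A hi, mul_zero, zero_mul]
  rw [h3, add_zero, Fin.sum_univ_three] at h1
  simp only [Pi.add_apply, Pi.zero_apply, hesD_mulVec]
  rw [← mul_add, ← mul_add, h1, mul_zero]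

/-- **C-Hes** -/
theorem hes_stmt : HesStmt S := by
  intro ξ w h hq hperp
  obtain ⟨z1, z2, z3⟩ := hes_zero S h
  -- consequences of `hq = 0`
  have m2 : ∀ (i : Fin 9) (A : Fin d), 0 ≤ (if i.val < 3 then 0 else w (i, A) ^ 2 : ℝ) := by
    intro i A
    split_ifs
    · exact le_rfl
    · exact sq_nonneg _
  have n1 : 0 ≤ ∑ k, ∑ A, S.LG ξ k A w ^ 2 :=
    Finset.sum_nonneg fun k _ => Finset.sum_nonneg fun A _ => sq_nonneg _
  have n2 : 0 ≤ ∑ i : Fin 9, ∑ A, (if i.val < 3 then 0 else w (i, A) ^ 2 : ℝ) :=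
    Finset.sum_nonneg fun i _ => Finset.sum_nonneg fun A _ => m2 i A
  have n3 : 0 ≤ ∑ i : Fin 9, ∑ j : Fin 9, ∑ A,
      (if i.val < 3 ∧ j.val < 3 then 0 else S.LF ξ A i j w ^ 2 : ℝ) := by
    refine Finset.sum_nonneg fun i _ => Finset.sum_nonneg fun j _ =>
      Finset.sum_nonneg fun A _ => ?_
    split_ifs
    · exact le_rfl
    · exact sq_nonneg _
  unfold Setup.hq at hq
  have q1 : ∑ k, ∑ A, S.LG ξ k A w ^ 2 = 0 := by linarith
  have q2 : ∑ i : Fin 9, ∑ A, (if i.val < 3 then 0 else w (i, A) ^ 2 : ℝ) = 0 := by linarith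
  have hLG : ∀ k A, S.LG ξ k A w = 0 := by
    intro k A
    have h1 := (Finset.sum_eq_zero_iff_of_nonneg
      (fun k _ => Finset.sum_nonneg fun A _ => sq_nonneg _)).1 q1 k (Finset.mem_univ _)
    have h2 := (Finset.sum_eq_zero_iff_of_nonneg (fun A _ => sq_nonneg _)).1 h1 A
      (Finset.mem_univ _)
    exact pow_eq_zero_iff two_ne_zero |>.1 h2
  have hw6 : ∀ i : Fin 9, ∀ A, ¬ i.val < 3 → w (i, A) = 0 := by
    intro i A hi
    have h1 := (Finset.sum_eq_zero_iff_of_nonneg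
      (fun i _ => Finset.sum_nonneg fun A _ => m2 i A)).1 q2 i (Finset.mem_univ _)
    have h2 := (Finset.sum_eq_zero_iff_of_nonneg (fun A _ => m2 i A)).1 h1 A (Finset.mem_univ _)
    rw [if_neg hi] at h2
    exact pow_eq_zero_iff two_ne_zero |>.1 h2
  have l0 := hes_lin S hLG 0
  have l1 := hes_lin S hLG 1
  have l2 := hes_lin S hLG 2
  have k0 := hesD_comm S z1 0
  have k1 := hesD_comm S z1 1
  have k2 := hesD_comm S z1 2
  have e1 : (0 : Fin 3) + 1 = 1 := rfl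
  have e2 : (0 : Fin 3) + 2 = 2 := rfl
  have e3 : (1 : Fin 3) + 1 = 2 := rfl
  have e4 : (1 : Fin 3) + 2 = 0 := rfl
  have e5 : (2 : Fin 3) + 1 = 0 := rfl
  have e6 : (2 : Fin 3) + 2 = 1 := rfl
  rw [e1, e2] at l0 k0
  rw [e3, e4] at l1 k1
  rw [e5, e6] at l2 k2
  have hp := hes_perp S hperp z2
  have t := hesD_transpose S ξ
  have hp1 : (hesD S ξ 1).mulVec (fun A => w (c3 1, A)) +
      (hesD S ξ 2).mulVec (fun A => w (c3 2, A)) +
      (hesD S ξ 0).mulVec (fun A => w (c3 0, A)) = 0 := by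
    rw [← hp]; abel
  have hp2 : (hesD S ξ 2).mulVec (fun A => w (c3 2, A)) +
      (hesD S ξ 0).mulVec (fun A => w (c3 0, A)) +
      (hesD S ξ 1).mulVec (fun A => w (c3 1, A)) = 0 := by
    rw [← hp]; abel
  have r0 := hes_pos _ _ _ (t 0) (t 1) (t 2) _ (hes_core _ _ _ _ _ _ k1 k2 l0 l1 l2 hp)
  have r1 := hes_pos _ _ _ (t 1) (t 2) (t 0) _ (hes_core _ _ _ _ _ _ k2 k0 l1 l2 l0 hp1)
  have r2 := hes_pos _ _ _ (t 2) (t 0) (t 1) _ (hes_core _ _ _ _ _ _ k0 k1 l2 l0 l1 hp2)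
  rw [r2.2.2, r1.2.1, sub_zero] at l0
  rw [r0.2.2, r2.2.1, sub_zero] at l1
  rw [r1.2.2, r0.2.1, sub_zero] at l2
  ext p
  obtain ⟨i, A⟩ := p
  rw [PiLp.zero_apply]
  by_cases hi : i.val < 3
  · obtain ⟨k, rfl⟩ : ∃ k : Fin 3, i = c3 k := ⟨⟨i.val, hi⟩, rfl⟩
    fin_cases k
    · exact congrFun l0 A
    · exact congrFun l1 A
    · exact congrFun l2 A
  · exact hw6 i A hi

end

end Vale.Agent.P353.Z.U
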