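import Vale.Agent.P353.Z.U.L1h

/-! # P353, C-L1 for general `N`: the data of the scalar Liouville lemma at a zero `ξ` of `V_1` -/

open MeasureTheory Filter Topology
open scoped ContDiff ComplexConjugate

namespace Vale.Agent.P353.Z.U

variable {dc : ℕ}

variable {F : Type*} [NormedAddCommGroup F] [InnerProductSpace ℂ F]

variable (S : Setup dc F)

/-- the gauge directions at `ξ` -/
noncomputable def l1tau (ξ : Cfg dc) (C : Fin dc) : Cfg dc :=
  ∑ i, ∑ A, ∑ B, (S.f C A B * ξ (i, A)) • l1e (i, B)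

theorem l1_inner_tau (ξ : Cfg dc) (C : Fin dc) (x : Cfg dc) : inner ℝ (l1tau S ξ C) x =
    ∑ i, ∑ A, ∑ B, S.f C A B * ξ (i, A) * x (i, B) := by
  unfold l1tau
  simp only [sum_inner, real_inner_smul_left]
  refine Finset.sum_congr rfl fun i _ => Finset.sum_congr rfl fun A _ =>
    Finset.sum_congr rfl fun B _ => ?_
  rw [real_inner_comm, l1_inner_e]

theorem l1_tau_apply (ξ : Cfg dc) (C : Fin dc) (j : Fin 9) (D : Fin dc) :
    l1tau S ξ C (j, D) = ∑ A, S.f C A D * ξ (j, A) := by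
  rw [← l1_inner_e (l1tau S ξ C), l1_inner_tau]
  simp only [l1e, PiLp.single_apply, Prod.mk.injEq]
  rw [Finset.sum_eq_single j]
  · refine Finset.sum_congr rfl fun A _ => ?_
    rw [Finset.sum_eq_single D]
    · simp
    · intro B _ hB
      simp [hB]
    · intro h; exact absurd (Finset.mem_univ _) h
  · intro i _ hi
    refine Finset.sum_eq_zero fun A _ => Finset.sum_eq_zero fun B _ => ?_
    simp [hi]
  · intro h; exact absurd (Finset.mem_univ _) h

theorem l1_jac (A B C D : Fin dc) : ∑ E, S.f A B E * S.f C D E =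
    ∑ E, S.f A C E * S.f B D E - ∑ E, S.f A D E * S.f B C E := by
  have h := S.f_jac A B C D
  simp only [Finset.sum_add_distrib] at h
  have e1 : ∀ E, S.f A B E * S.f E C D = S.f A B E * S.f C D E := fun E => by
    rw [S.f_cyc E C D]
  have e2 : ∀ E, S.f B C E * S.f E A D = S.f A D E * S.f B C E := fun E => by
    rw [S.f_cyc E A D]; ring
  have e3 : ∀ E, S.f C A E * S.f E B D = -(S.f A C E * S.f B D E) := fun E => by
    rw [S.f_cyc E B D, S.f_swap C A E]; ring
  simp only [e1, e2, e3, Finset.sum_neg_distrib] at h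
  linarith

theorem l1_LF_tau (ξ : Cfg dc) (C A : Fin dc) (i j : Fin 9) :
    S.LF ξ A i j (l1tau S ξ C) = ∑ E, S.f A C E * S.FF E i j ξ := by
  unfold Setup.LF Setup.FF
  simp only [l1_tau_apply]
  have hL : ∑ B, ∑ D, S.f A B D * (ξ (i, B) * ∑ E, S.f C E D * ξ (j, E) +
      (∑ E, S.f C E B * ξ (i, E)) * ξ (j, D)) =
      ∑ B, ∑ D, (∑ E, S.f A B E * S.f C D E - ∑ E, S.f A D E * S.f C B E) *
        (ξ (i, B) * ξ (j, D)) := by
    have h1 : ∑ B, ∑ D, S.f A B D * (ξ (i, B) * ∑ E, S.f C E D * ξ (j, E)) =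
        ∑ B, ∑ D, (∑ E, S.f A B E * S.f C D E) * (ξ (i, B) * ξ (j, D)) := by
      refine Finset.sum_congr rfl fun B _ => ?_
      simp only [Finset.mul_sum, Finset.sum_mul]
      rw [Finset.sum_comm]
      refine Finset.sum_congr rfl fun D _ => Finset.sum_congr rfl fun E _ => ?_
      ring
    have h2 : ∑ B, ∑ D, S.f A B D * ((∑ E, S.f C E B * ξ (i, E)) * ξ (j, D)) =
        -∑ B, ∑ D, (∑ E, S.f A D E * S.f C B E) * (ξ (i, B) * ξ (j, D)) := by
      rw [Finset.sum_comm]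
      conv_rhs => rw [Finset.sum_comm]
      rw [← Finset.sum_neg_distrib]
      refine Finset.sum_congr rfl fun D _ => ?_
      rw [← Finset.sum_neg_distrib]
      simp only [Finset.mul_sum, Finset.sum_mul]
      rw [Finset.sum_comm]
      refine Finset.sum_congr rfl fun B _ => ?_
      rw [← Finset.sum_neg_distrib]
      refine Finset.sum_congr rfl fun E _ => ?_
      rw [S.f_swap' A D E]
      ring
    simp only [mul_add, Finset.sum_add_distrib, sub_mul, Finset.sum_sub_distrib]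
    rw [h1, h2]
    ring
  rw [hL]
  have hR : ∑ E, S.f A C E * (S.κ * ∑ B, ∑ D, S.f E B D * ξ (i, B) * ξ (j, D)) =
      S.κ * ∑ B, ∑ D, (∑ E, S.f A C E * S.f B D E) * (ξ (i, B) * ξ (j, D)) := by
    simp only [Finset.mul_sum, Finset.sum_mul]
    rw [Finset.sum_comm]
    refine Finset.sum_congr rfl fun B _ => ?_
    rw [Finset.sum_comm]
    refine Finset.sum_congr rfl fun D _ => Finset.sum_congr rfl fun E _ => ?_
    rw [S.f_cyc E B D]
    ring
  rw [hR]
  congr 1
  refine Finset.sum_congr rfl fun B _ => Finset.sum_congr rfl fun D _ => ?_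
  rw [l1_jac S A C B D]

theorem l1_zero_parts (hSq : SqStmt S) {ξ : Cfg dc} (hξ : S.Vm 1 ξ = 0) :
    (∀ k A, S.GG 1 k A ξ = 0) ∧ (∀ (i : Fin 9) A, ¬ i.val < 3 → ξ (i, A) = 0) ∧
      ∀ (i j : Fin 9) A, ¬ (i.val < 3 ∧ j.val < 3) → S.FF A i j ξ = 0 := by
  have h := hSq 1 ξ
  rw [hξ] at h
  have p1 : 0 ≤ ∑ k, ∑ A, S.GG 1 k A ξ ^ 2 :=
    Finset.sum_nonneg fun _ _ => Finset.sum_nonneg fun _ _ => sq_nonneg _
  have p2 : 0 ≤ ∑ i : Fin 9, ∑ A, if i.val < 3 then 0 else ξ (i, A) ^ 2 :=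
    Finset.sum_nonneg fun _ _ => Finset.sum_nonneg fun _ _ => by split_ifs <;> positivity
  have p3 : 0 ≤ ∑ i : Fin 9, ∑ j : Fin 9, ∑ A,
      if i.val < 3 ∧ j.val < 3 then 0 else S.FF A i j ξ ^ 2 :=
    Finset.sum_nonneg fun _ _ => Finset.sum_nonneg fun _ _ => Finset.sum_nonneg fun _ _ => by
      split_ifs <;> positivity
  have q1 : ∑ k, ∑ A, S.GG 1 k A ξ ^ 2 = 0 := by linarith
  have q2 : (∑ i : Fin 9, ∑ A, if i.val < 3 then 0 else ξ (i, A) ^ 2) = 0 := by linarith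
  have q3 : (∑ i : Fin 9, ∑ j : Fin 9, ∑ A,
      if i.val < 3 ∧ j.val < 3 then 0 else S.FF A i j ξ ^ 2) = 0 := by linarith
  refine ⟨fun k A => ?_, fun i A hi => ?_, fun i j A hij => ?_⟩
  · rw [Finset.sum_eq_zero_iff_of_nonneg
      (fun _ _ => Finset.sum_nonneg fun _ _ => sq_nonneg _)] at q1
    have q := q1 k (Finset.mem_univ _)
    rw [Finset.sum_eq_zero_iff_of_nonneg (fun _ _ => sq_nonneg _)] at q
    exact pow_eq_zero_iff two_ne_zero |>.mp (q A (Finset.mem_univ _))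
  · rw [Finset.sum_eq_zero_iff_of_nonneg
      (fun _ _ => Finset.sum_nonneg fun _ _ => by split_ifs <;> positivity)] at q2
    have q := q2 i (Finset.mem_univ _)
    rw [Finset.sum_eq_zero_iff_of_nonneg (fun _ _ => by split_ifs <;> positivity)] at q
    have q' := q A (Finset.mem_univ _)
    rw [if_neg hi] at q'
    exact pow_eq_zero_iff two_ne_zero |>.mp q'
  · rw [Finset.sum_eq_zero_iff_of_nonneg
      (fun _ _ => Finset.sum_nonneg fun _ _ => Finset.sum_nonneg fun _ _ => by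
        split_ifs <;> positivity)] at q3
    have q := q3 i (Finset.mem_univ _)
    rw [Finset.sum_eq_zero_iff_of_nonneg
      (fun _ _ => Finset.sum_nonneg fun _ _ => by split_ifs <;> positivity)] at q
    have q' := q j (Finset.mem_univ _)
    rw [Finset.sum_eq_zero_iff_of_nonneg (fun _ _ => by split_ifs <;> positivity)] at q'
    have q'' := q' A (Finset.mem_univ _)
    rw [if_neg hij] at q''
    exact pow_eq_zero_iff two_ne_zero |>.mp q''

/-- the Hessian vanishes on the gauge directions -/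
theorem l1_hq_tau (hSq : SqStmt S) {ξ : Cfg dc} (hξ : S.Vm 1 ξ = 0) (C : Fin dc) :
    S.hq ξ (l1tau S ξ C) = 0 := by
  obtain ⟨h1, h2, h3⟩ := l1_zero_parts S hSq hξ
  have hG : ∀ k A, S.LG ξ k A (l1tau S ξ C) = 0 := by
    intro k A
    unfold Setup.LG
    rw [l1_LF_tau, l1_tau_apply]
    have e : ∑ E, S.f A C E * S.FF E (Setup.c3 (k + 1)) (Setup.c3 (k + 2)) ξ +
        2 * ∑ E, S.f C E A * ξ (Setup.c3 k, E) = ∑ E, S.f A C E * S.GG 1 k E ξ := by
      rw [Finset.mul_sum, ← Finset.sum_add_distrib]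
      refine Finset.sum_congr rfl fun E _ => ?_
      unfold Setup.GG
      rw [← S.f_cyc A C E]
      ring
    rw [e]
    exact Finset.sum_eq_zero fun E _ => by rw [h1, mul_zero]
  unfold Setup.hq
  have e1 : ∑ k, ∑ A, S.LG ξ k A (l1tau S ξ C) ^ 2 = 0 :=
    Finset.sum_eq_zero fun k _ => Finset.sum_eq_zero fun A _ => by rw [hG]; ring
  have e2 : (∑ i : Fin 9, ∑ A, if i.val < 3 then 0 else (l1tau S ξ C) (i, A) ^ 2) = 0 := by
    refine Finset.sum_eq_zero fun i _ => Finset.sum_eq_zero fun A _ => ?_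
    split_ifs with h
    · rfl
    · rw [l1_tau_apply, Finset.sum_eq_zero fun E _ => by rw [h2 i E h, mul_zero]]
      ring
  have e3 : (∑ i : Fin 9, ∑ j : Fin 9, ∑ A,
      if i.val < 3 ∧ j.val < 3 then 0 else S.LF ξ A i j (l1tau S ξ C) ^ 2) = 0 := by
    refine Finset.sum_eq_zero fun i _ => Finset.sum_eq_zero fun j _ =>
      Finset.sum_eq_zero fun A _ => ?_
    split_ifs with h
    · rfl
    · rw [l1_LF_tau, Finset.sum_eq_zero fun E _ => by rw [h3 i j E h, mul_zero]]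
      ring
  rw [e1, e2, e3]
  ring

theorem l1_K_tau (hSq : SqStmt S) {ξ : Cfg dc} (hξ : S.Vm 1 ξ = 0) {K : Cfg dc →L[ℝ] Cfg dc}
    (hK : S.IsK ξ K) (C : Fin dc) : K (l1tau S ξ C) = 0 := by
  have h := hK.sq (l1tau S ξ C)
  rw [l1_hq_tau S hSq hξ, mul_zero] at h
  exact norm_eq_zero.mp (pow_eq_zero_iff two_ne_zero |>.mp h)

/-- the space of gauge directions -/
noncomputable def l1T (ξ : Cfg dc) : Submodule ℝ (Cfg dc) :=
  Submodule.span ℝ (Set.range (l1tau S ξ))

theorem l1_K_T (hSq : SqStmt S) {ξ : Cfg dc} (hξ : S.Vm 1 ξ = 0) {K : Cfg dc →L[ℝ] Cfg dc}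
    (hK : S.IsK ξ K) {v : Cfg dc} (hv : v ∈ l1T S ξ) : K v = 0 := by
  refine Submodule.span_induction (p := fun v _ => K v = 0) ?_ ?_ ?_ ?_ hv
  · rintro _ ⟨C, rfl⟩
    exact l1_K_tau S hSq hξ hK C
  · exact map_zero K
  · intro x y _ _ hx hy
    rw [map_add, hx, hy, add_zero]
  · intro a x _ hx
    rw [map_smul, hx, smul_zero]

/-- a positive symmetric operator vanishes where its quadratic form vanishes -/
theorem l1_pos_zero {K : Cfg dc →L[ℝ] Cfg dc} (hs : ∀ x y, inner ℝ (K x) y = inner ℝ x (K y))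
    (hp : ∀ x, 0 ≤ inner ℝ x (K x)) {x : Cfg dc} (hx : inner ℝ x (K x) = 0) : K x = 0 := by
  set a : ℝ := ‖K x‖ ^ 2 with ha
  set C : ℝ := inner ℝ (K x) (K (K x)) with hC
  have hC0 : 0 ≤ C := hp (K x)
  have h1 : ∀ t : ℝ, 0 ≤ 2 * t * a + t ^ 2 * C := by
    intro t
    have h := hp (x + t • K x)
    rw [map_add, map_smul, inner_add_left, inner_add_right, inner_add_right, hx,
      real_inner_smul_left, real_inner_smul_left, real_inner_smul_right, real_inner_smul_right,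
      ← hs x (K x), real_inner_self_eq_norm_sq] at h
    rw [← ha, ← hC] at h
    linarith
  have h2 := h1 (-a / (C + 1))
  have hC1 : 0 < C + 1 := by linarith
  have h3 : 2 * (-a / (C + 1)) * a + (-a / (C + 1)) ^ 2 * C =
      -(a ^ 2 * (C + 2)) / (C + 1) ^ 2 := by
    field_simp
    ring
  rw [h3] at h2
  have h4 : a ^ 2 * (C + 2) ≤ 0 := by
    by_contra h5
    push Not at h5
    have : -(a ^ 2 * (C + 2)) / (C + 1) ^ 2 < 0 :=
      div_neg_of_neg_of_pos (by linarith) (by positivity)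
    linarith
  have h5 : a ^ 2 ≤ 0 := by
    by_contra h6
    push Not at h6
    have : 0 < a ^ 2 * (C + 2) := mul_pos h6 (by linarith)
    linarith
  have h6 : a = 0 := by
    have : a ^ 2 = 0 := le_antisymm h5 (sq_nonneg a)
    exact pow_eq_zero_iff two_ne_zero |>.mp this
  exact norm_eq_zero.mp (pow_eq_zero_iff two_ne_zero |>.mp h6)

/-- the rescaled orthonormal basis of the gauge directions -/
noncomputable def l1bas (ξ : Cfg dc) (j : Fin (Module.finrank ℝ (l1T S ξ))) : Cfg dc :=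
  Real.sqrt 2 • ((stdOrthonormalBasis ℝ (l1T S ξ) j : l1T S ξ) : Cfg dc)

theorem l1_bas_mem (ξ : Cfg dc) (j : Fin (Module.finrank ℝ (l1T S ξ))) :
    l1bas S ξ j ∈ l1T S ξ :=
  (l1T S ξ).smul_mem _ (stdOrthonormalBasis ℝ (l1T S ξ) j).2

theorem l1_bas_bas (ξ : Cfg dc) (i j : Fin (Module.finrank ℝ (l1T S ξ))) :
    inner ℝ (l1bas S ξ i) (l1bas S ξ j) = if i = j then 2 else 0 := by
  unfold l1bas
  rw [real_inner_smul_left, real_inner_smul_right, ← mul_assoc,
    Real.mul_self_sqrt (by norm_num), ← Submodule.coe_inner,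
    orthonormal_iff_ite.mp (stdOrthonormalBasis ℝ (l1T S ξ)).orthonormal i j]
  split_ifs <;> simp

theorem l1_perp (ξ : Cfg dc) {x : Cfg dc}
    (hx : ∀ j, inner ℝ (l1bas S ξ j) x = 0) : S.Perp ξ x := by
  have h1 : ∀ v : l1T S ξ, inner ℝ (v : Cfg dc) x = 0 := by
    intro v
    have h2 := (stdOrthonormalBasis ℝ (l1T S ξ)).sum_repr v
    have h3 : (v : Cfg dc) = ∑ j, (stdOrthonormalBasis ℝ (l1T S ξ)).repr v j •
        ((stdOrthonormalBasis ℝ (l1T S ξ) j : l1T S ξ) : Cfg dc) := by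
      conv_lhs => rw [← h2]
      simp
    rw [h3, sum_inner]
    refine Finset.sum_eq_zero fun j _ => ?_
    have h4 := hx j
    unfold l1bas at h4
    rw [real_inner_smul_left] at h4
    rw [real_inner_smul_left]
    rcases mul_eq_zero.mp h4 with h5 | h5
    · have : (0 : ℝ) < Real.sqrt 2 := Real.sqrt_pos.mpr (by norm_num)
      exact absurd h5 this.ne'
    · rw [h5, mul_zero]
  intro C
  rw [← l1_inner_tau]
  exact h1 ⟨l1tau S ξ C, Submodule.subset_span ⟨C, rfl⟩⟩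

theorem l1_exists_low (hHes : HesStmt S) {ξ : Cfg dc} (hξ : S.Vm 1 ξ = 0)
    {K : Cfg dc →L[ℝ] Cfg dc} (hK : S.IsK ξ K) : ∃ c : ℝ, 0 < c ∧ ∀ x,
      c * ‖x‖ ^ 2 ≤ inner ℝ x (K x) + (1 / 2) * ∑ j, inner ℝ (l1bas S ξ j) x ^ 2 := by
  let q : Cfg dc → ℝ := fun x => inner ℝ x (K x) + (1 / 2) * ∑ j, inner ℝ (l1bas S ξ j) x ^ 2
  have hq0 : ∀ x, q x = 0 → x = 0 := by
    intro x hx
    have p1 := hK.pos x
    have p2 : 0 ≤ ∑ j, inner ℝ (l1bas S ξ j) x ^ 2 := Finset.sum_nonneg fun _ _ => sq_nonneg _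
    have hx' : inner ℝ x (K x) + (1 / 2) * ∑ j, inner ℝ (l1bas S ξ j) x ^ 2 = 0 := hx
    have e1 : inner ℝ x (K x) = 0 := by linarith
    have e2 : ∑ j, inner ℝ (l1bas S ξ j) x ^ 2 = 0 := by linarith
    have e3 : ∀ j, inner ℝ (l1bas S ξ j) x = 0 := by
      intro j
      rw [Finset.sum_eq_zero_iff_of_nonneg (fun _ _ => sq_nonneg _)] at e2
      exact pow_eq_zero_iff two_ne_zero |>.mp (e2 j (Finset.mem_univ _))
    have e4 := l1_pos_zero hK.symm hK.pos e1
    have e5 := hK.sq x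
    rw [e4, norm_zero] at e5
    have e6 : S.hq ξ x = 0 := by
      have : (0 : ℝ) ^ 2 = 0 := by norm_num
      linarith
    exact hHes ξ x hξ e6 (l1_perp S ξ e3)
  have hqnn : ∀ x, 0 ≤ q x := fun x => by
    have p1 := hK.pos x
    have p2 : 0 ≤ ∑ j, inner ℝ (l1bas S ξ j) x ^ 2 := Finset.sum_nonneg fun _ _ => sq_nonneg _
    have : q x = inner ℝ x (K x) + (1 / 2) * ∑ j, inner ℝ (l1bas S ξ j) x ^ 2 := rfl
    rw [this]
    linarith
  have hqc : Continuous q := by
    have := K.continuous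
    fun_prop
  have hqs : ∀ (t : ℝ) x, q (t • x) = t ^ 2 * q x := by
    intro t x
    simp only [q, map_smul, real_inner_smul_left, real_inner_smul_right, mul_pow]
    rw [← Finset.mul_sum]
    ring
  rcases (Metric.sphere (0 : Cfg dc) 1).eq_empty_or_nonempty with he | hne
  · refine ⟨1, one_pos, fun x => ?_⟩
    have hx : x = 0 := by
      by_contra h
      have h1 : ‖x‖ ≠ 0 := norm_ne_zero_iff.mpr h
      have h2 : ‖x‖⁻¹ • x ∈ Metric.sphere (0 : Cfg dc) 1 := by
        rw [mem_sphere_zero_iff_norm, norm_smul, norm_inv, norm_norm, inv_mul_cancel₀ h1]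
      rw [he] at h2
      exact h2
    subst hx
    simp
  · obtain ⟨x0, hx0, hmin⟩ := (isCompact_sphere (0 : Cfg dc) 1).exists_isMinOn hne
      hqc.continuousOn
    have hx0n : ‖x0‖ = 1 := mem_sphere_zero_iff_norm.mp hx0
    have hpos : 0 < q x0 := by
      refine lt_of_le_of_ne (hqnn x0) fun h => ?_
      have := hq0 x0 h.symm
      rw [this, norm_zero] at hx0n
      exact zero_ne_one hx0n
    refine ⟨q x0, hpos, fun x => ?_⟩
    change q x0 * ‖x‖ ^ 2 ≤ q x
    by_cases hx : x = 0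
    · subst hx
      have := hqnn 0
      simpa using this
    · have h1 : ‖x‖ ≠ 0 := norm_ne_zero_iff.mpr hx
      have h2 : ‖x‖⁻¹ • x ∈ Metric.sphere (0 : Cfg dc) 1 := by
        rw [mem_sphere_zero_iff_norm, norm_smul, norm_inv, norm_norm, inv_mul_cancel₀ h1]
      have h3 : q x0 ≤ q (‖x‖⁻¹ • x) := hmin h2
      rw [hqs] at h3
      have h4 : q x = ‖x‖ ^ 2 * (‖x‖⁻¹ ^ 2 * q x) := by
        rw [← mul_assoc, ← mul_pow, mul_inv_cancel₀ h1]
        ring
      rw [h4, mul_comm (q x0)]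
      exact mul_le_mul_of_nonneg_left h3 (by positivity)

/-- the data at `ξ` -/
theorem l1_exists_data (hSq : SqStmt S) (hHes : HesStmt S) {ξ : Cfg dc} (hξ : S.Vm 1 ξ = 0)
    {K : Cfg dc →L[ℝ] Cfg dc} (hK : S.IsK ξ K) :
    ∃ D : L1D dc (Fin (Module.finrank ℝ (l1T S ξ))), D.A = K ∧ D.τ = l1bas S ξ := by
  obtain ⟨c, hc, hlow⟩ := l1_exists_low S hHes hξ hK
  exact ⟨{ A := K
           τ := l1bas S ξ
           symm := hK.symm
           Aτ := fun j => l1_K_T S hSq hξ hK (l1_bas_mem S ξ j)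
           ττ := l1_bas_bas S ξ
           c0 := c
           c0_pos := hc
           low := hlow
           pos := hK.pos }, rfl, rfl⟩

end Vale.Agent.P353.Z.U
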