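import Vale.Agent.P353.Z.U.L1k
import Vale.Agent.P353.Z.U.L1i

/-! # P353, C-L1 for general `N`: Liouville theorem at a zero `ξ` of `V_1` -/

open MeasureTheory Filter Topology
open scoped ContDiff ComplexConjugate

namespace Vale.Agent.P353.Z.U

variable {dc : ℕ}

variable {F : Type*} [NormedAddCommGroup F] [InnerProductSpace ℂ F]

variable (S : Setup dc F)

theorem l1_tst_eta {η : (Cfg dc) → ℂ} (hη : ContDiff ℝ ∞ η) (hs : HasCompactSupport η) (b : F) :
    Setup.Tst (fun x => η x • b) := by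
  refine ⟨hη.smul contDiff_const, hs.mono ?_⟩
  intro x hx
  simp only [Function.mem_support] at hx ⊢
  intro h0
  exact hx (by rw [h0, zero_smul])

theorem l1_pd_eta {η : (Cfg dc) → ℂ} (hη : ContDiff ℝ ∞ η) (b : F) (i : Fin 9) (A : Fin dc) (x : (Cfg dc)) :
    pd i A (fun y => η y • b) x = fderiv ℝ η x (l1e (i, A)) • b := by
  rw [pd_csmul (u := fun _ => b) (l1_diff hη x) (differentiableAt_const b)]
  have : pd i A (fun _ : (Cfg dc) => b) x = 0 := by simp [pd]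
  rw [this, smul_zero, add_zero]
  rfl

variable {ι : Type} [Fintype ι] [DecidableEq ι] (D : L1D dc ι)

theorem l1_fderiv_A1 (i : Fin 9) (A : Fin dc) (x : (Cfg dc)) :
    fderiv ℝ (fun y : (Cfg dc) => ((D.A y (i, A) : ℝ) : ℂ)) x (l1e (i, A)) =
      ((inner ℝ (D.A (l1e (i, A))) (l1e (i, A)) : ℝ) : ℂ) := by
  have h1 : (fun y : (Cfg dc) => ((D.A y (i, A) : ℝ) : ℂ)) =
      fun y => -(-((inner ℝ (D.A y) (l1e (i, A)) : ℝ) : ℂ)) := by
    funext y
    rw [neg_neg, l1_inner_e]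
  rw [h1, fderiv_fun_neg, neg_apply, L1D.fderiv_A, neg_neg]

theorem l1_H_eta (N N' : F →L[ℂ] F) {η : (Cfg dc) → ℂ} (hη : ContDiff ℝ ∞ η) {b : F} {μ : ℝ}
    (hb : N b + N' b = (μ : ℂ) • b) (x : (Cfg dc)) :
    l1H D N N' (fun y => η y • b) x = (8 * D.L0 (μ / 2) η x) • b := by
  have hA1 : ∀ i A, ContDiff ℝ ∞ (fun y : (Cfg dc) => ((D.A y (i, A) : ℝ) : ℂ)) := fun i A =>
    Setup.contDiff_ofReal (l1_contDiff_A1 D i A)
  have ha : ∀ i A, l1a D i A (fun y => η y • b) =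
      fun y => (fderiv ℝ η y (l1e (i, A)) + ((D.A y (i, A) : ℝ) : ℂ) * η y) • b := by
    intro i A; funext y
    rw [l1a, l1_pd_eta hη b i A y, smul_smul, ← add_smul]
  have hη1 : ∀ i A, ContDiff ℝ ∞ (fun y => fderiv ℝ η y (l1e (i, A)) + ((D.A y (i, A) : ℝ) : ℂ) * η y) :=
    fun i A => (l1_contDiff_dir hη _).add ((hA1 i A).mul hη)
  have hb2 : ∀ i A, l1b D i A (l1a D i A (fun y => η y • b)) x =
      (-fderiv ℝ (fun y => fderiv ℝ η y (l1e (i, A))) x (l1e (i, A)) +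
        (((D.A x (i, A) : ℝ) : ℂ) ^ 2 - ((inner ℝ (D.A (l1e (i, A))) (l1e (i, A)) : ℝ) : ℂ)) * η x) • b := by
    intro i A
    rw [ha i A, l1b, l1_pd_eta (hη1 i A) b i A x, smul_smul, ← neg_smul, ← add_smul]
    congr 1
    have d1 : DifferentiableAt ℝ (fun y => fderiv ℝ η y (l1e (i, A))) x :=
      l1_diff (l1_contDiff_dir hη _) x
    have d2 : DifferentiableAt ℝ (fun y => ((D.A y (i, A) : ℝ) : ℂ) * η y) x :=
      l1_diff ((hA1 i A).mul hη) x
    rw [fderiv_fun_add d1 d2, add_apply, l1_fderiv_mul (l1_diff (hA1 i A) x) (l1_diff hη x),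
      l1_fderiv_A1]
    ring
  unfold l1H
  simp only [hb2, map_smul, ← smul_add, hb, ← Finset.sum_smul]
  simp only [smul_smul, ← add_smul]
  congr 1
  unfold L1D.L0
  have e1 : ‖D.A x‖ ^ 2 = ∑ i, ∑ A, D.A x (i, A) ^ 2 := by
    rw [← real_inner_self_eq_norm_sq, l1_inner_sum, Fintype.sum_prod_type]
    exact Finset.sum_congr rfl fun i _ => Finset.sum_congr rfl fun A _ => by ring
  have e2 : D.tr = ∑ i, ∑ A, inner ℝ (D.A (l1e (i, A))) (l1e (i, A)) := by
    rw [L1D.tr, Fintype.sum_prod_type]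
  rw [e1, e2, Fintype.sum_prod_type]
  simp only [Finset.sum_add_distrib, Finset.sum_neg_distrib, ← Finset.sum_mul,
    Finset.sum_sub_distrib]
  push_cast
  ring

/-- scalar components of a growing function -/
theorem l1_gr_inner {u : (Cfg dc) → F} (h : L1Gr u) (b : F) : L1Gr (fun x => inner ℂ b (u x)) := by
  have hm : AEStronglyMeasurable (fun x => inner ℂ b (u x)) (volume : Measure (Cfg dc)) :=
    aestronglyMeasurable_const.inner h.meas
  have hle : ∀ x, ‖inner ℂ b (u x)‖ ^ 2 ≤ ‖b‖ ^ 2 * ‖u x‖ ^ 2 := fun x => by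
    rw [← mul_pow]
    exact pow_le_pow_left₀ (norm_nonneg _) (norm_inner_le_norm _ _) 2
  have hloc : ∀ s : ℝ, 0 < s →
      IntegrableOn (fun x => ‖inner ℂ b (u x)‖ ^ 2) (Metric.ball (0 : (Cfg dc)) s) := fun s hs => by
    refine ((h.loc s hs).const_mul (‖b‖ ^ 2)).mono' (hm.norm.pow 2).restrict
      (Eventually.of_forall fun x => ?_)
    rw [Real.norm_of_nonneg (by positivity)]
    exact hle x
  obtain ⟨K, p, hK⟩ := h.gr
  refine ⟨hm, hloc, ‖b‖ ^ 2 * K, p, fun s hs => ?_⟩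
  have hs0 : 0 < s := by linarith
  calc ∫ x in Metric.ball (0 : (Cfg dc)) s, ‖inner ℂ b (u x)‖ ^ 2
      ≤ ∫ x in Metric.ball (0 : (Cfg dc)) s, ‖b‖ ^ 2 * ‖u x‖ ^ 2 :=
        setIntegral_mono (hloc s hs0) ((h.loc s hs0).const_mul _) hle
    _ = ‖b‖ ^ 2 * ∫ x in Metric.ball (0 : (Cfg dc)) s, ‖u x‖ ^ 2 := integral_const_mul _ _
    _ ≤ ‖b‖ ^ 2 * (K * s ^ p) := mul_le_mul_of_nonneg_left (hK s hs) (by positivity)
    _ = _ := by ring

/-- the directional derivative along a gauge direction -/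
theorem l1_xi {ξ : Cfg dc} {η : (Cfg dc) → ℂ} (hη : ContDiff ℝ ∞ η) (b : F) (C : Fin dc)
    (x : (Cfg dc)) :
    (∑ i, ∑ A, ∑ B, ((S.f C A B : ℂ) * (ξ (i, A) : ℂ)) • pd i B (fun y => η y • b) x) =
      fderiv ℝ η x (l1tau S ξ C) • b := by
  simp only [l1_pd_eta hη]
  have h3 : fderiv ℝ η x (l1tau S ξ C) =
      ∑ i, ∑ A, ∑ B, ((S.f C A B : ℂ) * (ξ (i, A) : ℂ)) * fderiv ℝ η x (l1e (i, B)) := by
    unfold l1tau
    simp only [map_sum, map_smul]
    refine Finset.sum_congr rfl fun i _ => Finset.sum_congr rfl fun A _ =>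
      Finset.sum_congr rfl fun B _ => ?_
    rw [Complex.real_smul]
    push_cast
    rfl
  rw [h3]
  simp only [Finset.sum_smul, smul_smul]

/-- the weak gauge equation extends to all gauge directions -/
theorem l1_gauge {ξ : Cfg dc} {U : (Cfg dc) → ℂ} (hU : L1Gr U) {η : (Cfg dc) → ℂ}
    (hη : ContDiff ℝ ∞ η) (hs : HasCompactSupport η)
    (h : ∀ C, ∫ x, inner ℂ (fderiv ℝ η x (l1tau S ξ C)) (U x) = 0) {v : Cfg dc}
    (hv : v ∈ l1T S ξ) : ∫ x, inner ℂ (fderiv ℝ η x v) (U x) = 0 := by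
  refine Submodule.span_induction
    (p := fun v _ => ∫ x, inner ℂ (fderiv ℝ η x v) (U x) = 0) ?_ ?_ ?_ ?_ hv
  · rintro _ ⟨C, rfl⟩
    exact h C
  · simp
  · intro v w _ _ h1 h2
    have i1 : Integrable (fun x => inner ℂ (fderiv ℝ η x v) (U x)) :=
      hU.int_inner_cs (l1_contDiff_dir hη v).continuous (l1_hcs_dir hs v)
    have i2 : Integrable (fun x => inner ℂ (fderiv ℝ η x w) (U x)) :=
      hU.int_inner_cs (l1_contDiff_dir hη w).continuous (l1_hcs_dir hs w)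
    have e : ∀ x, inner ℂ (fderiv ℝ η x (v + w)) (U x) =
        inner ℂ (fderiv ℝ η x v) (U x) + inner ℂ (fderiv ℝ η x w) (U x) := fun x => by
      rw [map_add, inner_add_left]
    simp only [e]
    rw [integral_add i1 i2, h1, h2, add_zero]
  · intro a v _ h1
    have e : ∀ x, inner ℂ (fderiv ℝ η x (a • v)) (U x) =
        (a : ℂ) * inner ℂ (fderiv ℝ η x v) (U x) := fun x => by
      rw [map_smul, Complex.real_smul, ← smul_eq_mul, inner_smul_left, Complex.conj_ofReal]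
    simp only [e]
    rw [integral_const_mul, h1, mul_zero]

theorem l1_scalar {ξ : Cfg dc} {D : L1D dc (Fin (Module.finrank ℝ (l1T S ξ)))}
    (hτ : D.τ = l1bas S ξ) {N1 : F →L[ℂ] F} (hE : L1En S ξ D N1) (N' : F →L[ℂ] F)
    (hN : ∀ v w, inner ℂ (N' v) w = inner ℂ v (N1 w)) {u : (Cfg dc) → F} (hu : L1Gr u)
    (h1 : ∀ β ζ, Setup.Tst ζ → ∫ x, inner ℂ (S.Qlin ξ β ζ x) (u x) = 0)
    (h2 : ∀ (C : Fin dc) ζ, Setup.Tst ζ → ∫ x, inner ℂ
      (∑ i, ∑ A, ∑ B, ((S.f C A B : ℂ) * (ξ (i, A) : ℂ)) • pd i B ζ x) (u x) = 0)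
    {b : F} {μ : ℝ} (hb : N1 b + N' b = (μ : ℂ) • b) :
    L1Sol D (μ / 2) (fun x => inner ℂ b (u x)) := by
  refine ⟨l1_gr_inner hu b, fun η hη hs => ?_, fun j η hη hs => ?_⟩
  · have hζ := l1_tst_eta hη hs b
    have e1 : ∫ x, inner ℂ (l1H D N1 N' (fun y => η y • b) x) (u x) = 0 := by
      have e2 : ∀ x, inner ℂ (l1H D N1 N' (fun y => η y • b) x) (u x) =
          ∑ β, inner ℂ (S.Qlin ξ β (S.Qlin ξ β (fun y => η y • b)) x) (u x) := fun x => by
        rw [← l1_second hE N' hN hζ x, sum_inner]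
      simp only [e2]
      rw [integral_finsetSum _ fun β _ => l1_int_cs hu (l1_tst_Qlin S ξ (l1_tst_Qlin S ξ hζ β) β)]
      exact Finset.sum_eq_zero fun β _ => h1 β _ (l1_tst_Qlin S ξ hζ β)
    have e3 : ∀ x, inner ℂ (l1H D N1 N' (fun y => η y • b) x) (u x) =
        8 * inner ℂ (D.L0 (μ / 2) η x) (inner ℂ b (u x)) := fun x => by
      rw [l1_H_eta D N1 N' hη hb x, inner_smul_left, RCLike.inner_apply, map_mul, map_ofNat]
      ring
    simp only [e3] at e1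
    rw [integral_const_mul] at e1
    rcases mul_eq_zero.mp e1 with h | h
    · norm_num at h
    · exact h
  · have hζ := l1_tst_eta hη hs b
    rw [hτ]
    refine l1_gauge S (l1_gr_inner hu b) hη hs (fun C => ?_) (l1_bas_mem S ξ j)
    have e1 := h2 C _ hζ
    have e3 : ∀ x, inner ℂ (∑ i, ∑ A, ∑ B, ((S.f C A B : ℂ) * (ξ (i, A) : ℂ)) •
        pd i B (fun y => η y • b) x) (u x) =
        inner ℂ (fderiv ℝ η x (l1tau S ξ C)) (inner ℂ b (u x)) := fun x => by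
      rw [l1_xi S hη b C x, inner_smul_left, RCLike.inner_apply]
      ring
    simp only [e3] at e1
    exact e1

omit S in
theorem l1_eig [FiniteDimensional ℂ F] (T : F →ₗ[ℂ] F) (hT : T.IsSymmetric) :
    ∃ (n : ℕ) (b : OrthonormalBasis (Fin n) ℂ F) (μ : Fin n → ℝ),
      ∀ j, T (b j) = ((μ j : ℝ) : ℂ) • b j := by
  refine ⟨Module.finrank ℂ F, hT.eigenvectorBasis rfl, hT.eigenvalues rfl, fun j => ?_⟩
  have h := hT.apply_eigenvectorBasis rfl j
  rw [h]
  rfl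

/-- **C-L1** -/
theorem l1 [FiniteDimensional ℂ F] (hSq : SqStmt S) (hHes : HesStmt S) (hSqr : SqrStmt S)
    (hEn : EnStmt S) (hNpos : NposStmt S) (hQua : QuaStmt S) (hInv : InvStmt S) : L1Stmt S := by
  intro hIrr hne ξ hξ
  obtain ⟨K, hK⟩ := hSqr ξ
  obtain ⟨D, hDA, hDτ⟩ := l1_exists_data S hSq hHes hξ hK
  obtain ⟨R, hRt, hRi, hR⟩ := hInv ξ hξ
  have hcomp : CompleteSpace F := FiniteDimensional.complete ℂ F
  set N1 : F →L[ℂ] F := S.Nx (trK K) ξ with hN1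
  have hNR : ∀ v, N1 v = (((trK K / 2 : ℝ) : ℂ)) • v + Complex.I • ∑ p, ∑ q, (R p q : ℂ) •
      S.th p.1 p.2 (S.th q.1 q.2 v) := fun v => by
    rw [← hR v, hN1]
    simp only [Setup.Nx, _root_.sub_apply, _root_.add_apply, _root_.smul_apply,
      one_apply_eq_self]
    abel
  have hpos : ∀ v, 0 ≤ (inner ℂ v (N1 v)).re := hNpos ξ K hξ hK
  obtain ⟨Ω, hΩ, hker⟩ := hQua hIrr hne R (trK K / 2) hRt hRi fun v => by
    rw [← hNR v]
    exact hpos v
  have hker' : ∀ v, (inner ℂ v (N1 v)).re = 0 → ∃ c : ℂ, v = c • Ω := fun v hv =>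
    hker v (by rw [← hNR v]; exact hv)
  have hE : L1En S ξ D N1 := by
    intro v hv
    have := hEn ξ K hξ hK v hv
    rw [hDA]
    exact this
  refine ⟨fun x => Real.exp (-(1 / 2) * inner ℝ (K x) x), ?_, fun x => Real.exp_pos _, Ω, hΩ,
    fun u hum hloc hgr hQ hG => ?_⟩
  · have := K.continuous
    fun_prop
  have hu : L1Gr u := ⟨hum.aestronglyMeasurable, hloc, hgr⟩
  let N' : F →L[ℂ] F := ContinuousLinearMap.adjoint N1
  have hN' : ∀ v w, inner ℂ (N' v) w = inner ℂ v (N1 w) := fun v w =>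
    ContinuousLinearMap.adjoint_inner_left N1 w v
  have hN'' : ∀ v w, inner ℂ (N1 v) w = inner ℂ v (N' w) := fun v w => by
    rw [← inner_conj_symm, ← hN' w v, inner_conj_symm]
  let T : F →ₗ[ℂ] F := ((N1 + N' : F →L[ℂ] F) : F →ₗ[ℂ] F)
  have hTa : ∀ v, T v = N1 v + N' v := fun v => rfl
  have hT : T.IsSymmetric := by
    intro v w
    rw [hTa, hTa, inner_add_left, inner_add_right, hN', hN'', add_comm]
  obtain ⟨n, b, μ, hTb⟩ := l1_eig T hT
  have hb : ∀ j, N1 (b j) + N' (b j) = ((μ j : ℝ) : ℂ) • b j := fun j => by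
    rw [← hTa, hTb]
  have hμ : ∀ j, μ j = 2 * (inner ℂ (b j) (N1 (b j))).re := fun j => by
    have e1 : inner ℂ (b j) (N1 (b j) + N' (b j)) = ((μ j : ℝ) : ℂ) := by
      rw [hb j, inner_smul_right, inner_self_eq_norm_sq_to_K, b.norm_eq_one]
      simp
    have e2 : inner ℂ (b j) (N' (b j)) = conj (inner ℂ (b j) (N1 (b j))) := by
      rw [← hN'', inner_conj_symm]
    rw [inner_add_right, e2] at e1
    have e3 := congrArg Complex.re e1
    rw [Complex.add_re, Complex.conj_re, Complex.ofReal_re] at e3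
    linarith
  have hμ0 : ∀ j, 0 ≤ μ j := fun j => by rw [hμ j]; have := hpos (b j); linarith
  have hd : ∀ j, ∃ d : ℂ, μ j = 0 → b j = d • Ω := fun j => by
    by_cases h0 : μ j = 0
    · have h1 : (inner ℂ (b j) (N1 (b j))).re = 0 := by
        have := hμ j; linarith
      obtain ⟨d, hd⟩ := hker' _ h1
      exact ⟨d, fun _ => hd⟩
    · exact ⟨0, fun h => absurd h h0⟩
  choose d hd using hd
  have hc : ∀ j, ∃ c : ℂ, (0 < μ j / 2 → c = 0) ∧
      ∀ᵐ x ∂(volume : Measure (Cfg dc)), inner ℂ (b j) (u x) = c * D.GG x := fun j =>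
    (l1_scalar S hDτ hE N' hN' hu hQ hG (hb j)).liouville (by have := hμ0 j; linarith)
  choose c hc0 hc1 using hc
  refine ⟨∑ j, c j * d j, ?_⟩
  have hall : ∀ᵐ x ∂(volume : Measure (Cfg dc)), ∀ j, inner ℂ (b j) (u x) = c j * D.GG x :=
    ae_all_iff.mpr hc1
  filter_upwards [hall] with x hx
  have h1 : u x = ∑ j, inner ℂ (b j) (u x) • b j := (b.sum_repr' (u x)).symm
  rw [h1]
  have h2 : ∀ j, inner ℂ (b j) (u x) • b j = (c j * d j * D.GG x) • Ω := fun j => by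
    rw [hx j]
    rcases (hμ0 j).eq_or_lt with h0 | h0
    · have h3 : (c j * D.GG x) • b j = (c j * D.GG x) • (d j • Ω) :=
        congrArg (fun v => (c j * D.GG x) • v) (hd j h0.symm)
      rw [h3, smul_smul]
      congr 1
      ring
    · rw [hc0 j (by linarith)]
      simp
  simp only [h2]
  rw [← Finset.sum_smul, ← Finset.sum_mul, L1D.GG_eq, hDA]

end Vale.Agent.P353.Z.U
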