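import Vale.Agent.P353.Z.U.StmtC

/-! # P353, general `N`: C-Sqr and C-Npos -/

open MeasureTheory Filter Topology
open scoped ContDiff

namespace Vale.Agent.P353.Z.U

variable {d : ℕ} {F : Type*} [NormedAddCommGroup F] [InnerProductSpace ℂ F]

/-! ### C-Sqr -/

/-- quadratic forms of symmetric operators -/
def NposIsQ (q : Cfg d → ℝ) : Prop :=
  ∃ T : Cfg d →ₗ[ℝ] Cfg d, T.IsSymmetric ∧ ∀ x, inner ℝ x (T x) = q x

lemma nposIsQ_zero : NposIsQ (fun _ : Cfg d => (0 : ℝ)) :=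
  ⟨0, fun x y => by simp, fun x => by simp⟩

lemma nposIsQ_add {p q : Cfg d → ℝ} (hp : NposIsQ p) (hq : NposIsQ q) :
    NposIsQ (fun x => p x + q x) := by
  obtain ⟨T, hT, hT'⟩ := hp
  obtain ⟨U, hU, hU'⟩ := hq
  refine ⟨T + U, hT.add hU, fun x => ?_⟩
  rw [LinearMap.add_apply, inner_add_right, hT', hU']

lemma nposIsQ_smul {q : Cfg d → ℝ} (c : ℝ) (hq : NposIsQ q) : NposIsQ (fun x => c * q x) := by
  obtain ⟨U, hU, hU'⟩ := hq
  refine ⟨c • U, fun x y => ?_, fun x => ?_⟩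
  · rw [LinearMap.smul_apply, LinearMap.smul_apply, real_inner_smul_left, real_inner_smul_right,
      hU x y]
  · rw [LinearMap.smul_apply, real_inner_smul_right, hU']

lemma nposIsQ_sum {ι : Type*} (s : Finset ι) {q : ι → Cfg d → ℝ} (hq : ∀ i ∈ s, NposIsQ (q i)) :
    NposIsQ (fun x => ∑ i ∈ s, q i x) := by
  classical
  induction s using Finset.induction_on with
  | empty => simpa using nposIsQ_zero
  | insert a s ha ih =>
    simp only [Finset.sum_insert ha]
    exact nposIsQ_add (hq a (Finset.mem_insert_self a s))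
      (ih fun i hi => hq i (Finset.mem_insert_of_mem hi))

lemma nposIsQ_sq (l : Cfg d →ₗ[ℝ] ℝ) : NposIsQ (fun x => l x ^ 2) := by
  set a : Cfg d := (InnerProductSpace.toDual ℝ (Cfg d)).symm (LinearMap.toContinuousLinearMap l)
    with ha
  have hl : ∀ x, l x = inner ℝ a x := fun x => by
    rw [ha, InnerProductSpace.toDual_symm_apply]; rfl
  refine ⟨l.smulRight a, fun x y => ?_, fun x => ?_⟩
  · rw [LinearMap.smulRight_apply, LinearMap.smulRight_apply, real_inner_smul_left,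
      real_inner_smul_right, real_inner_comm a x, ← hl, ← hl]
    ring
  · rw [LinearMap.smulRight_apply, real_inner_smul_right, real_inner_comm a x, ← hl]
    ring

lemma nposIsQ_ite {c : Prop} [Decidable c] (l : Cfg d →ₗ[ℝ] ℝ) :
    NposIsQ (fun x => if c then 0 else l x ^ 2) := by
  by_cases h : c
  · simpa [h] using nposIsQ_zero
  · simpa [h] using nposIsQ_sq l

lemma npos_root {q : Cfg d → ℝ} (hq : NposIsQ q) (h0 : ∀ x, 0 ≤ q x) :
    ∃ K : Cfg d →L[ℝ] Cfg d, (∀ x y, inner ℝ (K x) y = inner ℝ x (K y)) ∧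
      (∀ x, 0 ≤ inner ℝ x (K x)) ∧ ∀ x, ‖K x‖ ^ 2 = q x := by
  obtain ⟨T, hT, hT'⟩ := hq
  set b := hT.eigenvectorBasis (n := Module.finrank ℝ (Cfg d)) rfl with hb
  set lam := hT.eigenvalues (n := Module.finrank ℝ (Cfg d)) rfl with hlam
  have hTb : ∀ i, T (b i) = lam i • b i := fun i => by
    exact hT.apply_eigenvectorBasis (n := Module.finrank ℝ (Cfg d)) rfl i
  have hlam0 : ∀ i, 0 ≤ lam i := by
    intro i
    have h1 := hT' (b i)
    rw [hTb, real_inner_smul_right, real_inner_self_eq_norm_sq, b.orthonormal.1 i] at h1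
    have h2 := h0 (b i)
    linarith
  have hexp : ∀ x y : Cfg d, inner ℝ x y = ∑ i, inner ℝ (b i) x * inner ℝ (b i) y := by
    intro x y
    rw [← b.sum_inner_mul_inner x y]
    refine Finset.sum_congr rfl fun i _ => ?_
    rw [real_inner_comm]
  set K : Cfg d →L[ℝ] Cfg d := ∑ i, Real.sqrt (lam i) • ((innerSL ℝ (b i)).smulRight (b i)) with hK
  have hKb : ∀ i x, inner ℝ (b i) (K x) = Real.sqrt (lam i) * inner ℝ (b i) x := by
    intro i x
    have h1 : K x = ∑ j, (Real.sqrt (lam j) * inner ℝ (b j) x) • b j := by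
      rw [hK]
      simp [_root_.sum_apply, smul_smul]
    rw [h1, inner_sum]
    rw [Finset.sum_eq_single i]
    · rw [real_inner_smul_right, real_inner_self_eq_norm_sq, b.orthonormal.1 i]
      ring
    · intro j _ hj
      rw [real_inner_smul_right, b.orthonormal.2 (Ne.symm hj), mul_zero]
    · simp
  refine ⟨K, fun x y => ?_, fun x => ?_, fun x => ?_⟩
  · rw [hexp, hexp]
    refine Finset.sum_congr rfl fun i _ => ?_
    rw [hKb, hKb]
    ring
  · rw [hexp]
    refine Finset.sum_nonneg fun i _ => ?_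
    rw [hKb]
    have : inner ℝ (b i) x * (Real.sqrt (lam i) * inner ℝ (b i) x) =
      Real.sqrt (lam i) * inner ℝ (b i) x ^ 2 := by ring
    rw [this]
    positivity
  · rw [← real_inner_self_eq_norm_sq, hexp, ← hT', hexp]
    refine Finset.sum_congr rfl fun i _ => ?_
    rw [hKb, ← hT (b i) x, hTb, real_inner_smul_left]
    have := Real.sq_sqrt (hlam0 i)
    calc Real.sqrt (lam i) * inner ℝ (b i) x * (Real.sqrt (lam i) * inner ℝ (b i) x)
        = Real.sqrt (lam i) ^ 2 * (inner ℝ (b i) x * inner ℝ (b i) x) := by ring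
      _ = _ := by rw [this]; ring

/-- `LF` as a linear map -/
noncomputable def nposLF (S : Setup d F) (ξ : Cfg d) (A : Fin d) (i j : Fin 9) :
    Cfg d →ₗ[ℝ] ℝ where
  toFun := S.LF ξ A i j
  map_add' x y := by
    simp only [Setup.LF, PiLp.add_apply]
    rw [← mul_add, ← Finset.sum_add_distrib]
    congr 1
    refine Finset.sum_congr rfl fun B _ => ?_
    rw [← Finset.sum_add_distrib]
    refine Finset.sum_congr rfl fun C _ => ?_
    ring
  map_smul' c x := by
    simp only [Setup.LF, PiLp.smul_apply, smul_eq_mul, RingHom.id_apply]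
    simp only [Finset.mul_sum]
    refine Finset.sum_congr rfl fun B _ => Finset.sum_congr rfl fun C _ => ?_
    ring

/-- `LG` as a linear map -/
noncomputable def nposLG (S : Setup d F) (ξ : Cfg d) (k : Fin 3) (A : Fin d) :
    Cfg d →ₗ[ℝ] ℝ :=
  nposLF S ξ A (Setup.c3 (k + 1)) (Setup.c3 (k + 2)) +
    (2 : ℝ) • (EuclideanSpace.proj (Setup.c3 k, A) : Cfg d →L[ℝ] ℝ).toLinearMap

lemma nposIsQ_hq (S : Setup d F) (ξ : Cfg d) : NposIsQ (fun x => 2 * S.hq ξ x) := by
  unfold Setup.hq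
  refine nposIsQ_smul 2 (nposIsQ_add (nposIsQ_add ?_ ?_) ?_)
  · refine nposIsQ_smul _ (nposIsQ_sum _ fun k _ => nposIsQ_sum _ fun A _ => ?_)
    exact nposIsQ_sq (nposLG S ξ k A)
  · refine nposIsQ_smul _ (nposIsQ_sum _ fun i _ => nposIsQ_sum _ fun A _ => ?_)
    exact nposIsQ_ite (EuclideanSpace.proj (i, A) : Cfg d →L[ℝ] ℝ).toLinearMap
  · refine nposIsQ_smul _ (nposIsQ_sum _ fun i _ => nposIsQ_sum _ fun j _ =>
      nposIsQ_sum _ fun A _ => ?_)
    exact nposIsQ_ite (nposLF S ξ A i j)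

lemma npos_hq_nonneg (S : Setup d F) (ξ x : Cfg d) : 0 ≤ S.hq ξ x := by
  unfold Setup.hq
  have h1 : 0 ≤ ∑ k, ∑ A, S.LG ξ k A x ^ 2 :=
    Finset.sum_nonneg fun k _ => Finset.sum_nonneg fun A _ => sq_nonneg _
  have h2 : 0 ≤ ∑ i : Fin 9, ∑ A, if i.val < 3 then 0 else x (i, A) ^ 2 :=
    Finset.sum_nonneg fun k _ => Finset.sum_nonneg fun A _ => by split_ifs <;> positivity
  have h3 : 0 ≤ ∑ i : Fin 9, ∑ j : Fin 9, ∑ A,
      if i.val < 3 ∧ j.val < 3 then 0 else S.LF ξ A i j x ^ 2 :=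
    Finset.sum_nonneg fun k _ => Finset.sum_nonneg fun A _ => Finset.sum_nonneg fun A _ => by
      split_ifs <;> positivity
  linarith

/-- **C-Sqr** -/
theorem sqr (S : Setup d F) : SqrStmt S := by
  intro ξ
  obtain ⟨K, h1, h2, h3⟩ := npos_root (nposIsQ_hq S ξ)
    (fun x => by have := npos_hq_nonneg S ξ x; positivity)
  exact ⟨K, h1, h2, h3⟩

/-! ### C-Npos -/

/-- the Gaussian `exp(-½⟨x,Kx⟩)` -/
noncomputable def nposE (K : Cfg d →L[ℝ] Cfg d) (x : Cfg d) : ℝ :=
  Real.exp (-(1 / 2) * inner ℝ x (K x))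

lemma nposE_pos (K : Cfg d →L[ℝ] Cfg d) (x : Cfg d) : 0 < nposE K x := Real.exp_pos _

lemma nposE_contDiff (K : Cfg d →L[ℝ] Cfg d) : ContDiff ℝ ∞ (nposE K) :=
  Real.contDiff_exp.comp (contDiff_const.mul (contDiff_id.inner ℝ K.contDiff))

lemma nposE_le_one {K : Cfg d →L[ℝ] Cfg d} (hK : ∀ x, 0 ≤ inner ℝ x (K x)) (x : Cfg d) :
    nposE K x ≤ 1 := by
  rw [nposE, Real.exp_le_one_iff]
  have := hK x
  linarith

lemma nposE_fderiv {K : Cfg d →L[ℝ] Cfg d} (hK : ∀ x y, inner ℝ (K x) y = inner ℝ x (K y))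
    (x : Cfg d) (i : Fin 9) (A : Fin d) :
    fderiv ℝ (nposE K) x (EuclideanSpace.single (i, A) 1) = - nposE K x * K x (i, A) := by
  have h1 : HasFDerivAt (fun y : Cfg d => inner ℝ y (K y))
      ((fderivInnerCLM ℝ (x, K x)).comp ((ContinuousLinearMap.id ℝ (Cfg d)).prod K)) x :=
    (hasFDerivAt_id x).inner ℝ K.hasFDerivAt
  have h2 := (h1.const_mul (-(1 / 2))).exp
  have h3 : fderiv ℝ (nposE K) x = _ := h2.fderiv
  rw [h3]
  have e1 : inner ℝ x (K (EuclideanSpace.single (i, A) 1)) = K x (i, A) := by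
    rw [← hK, EuclideanSpace.inner_single_right]; simp
  have e2 : inner ℝ (EuclideanSpace.single (i, A) (1 : ℝ)) (K x) = K x (i, A) := by
    rw [EuclideanSpace.inner_single_left]; simp
  simp [fderivInnerCLM_apply, e1, e2, nposE]
  ring

/-- local Gaussian masses -/
noncomputable def nposI (K : Cfg d →L[ℝ] Cfg d) (R : ℝ) : ℝ :=
  ∫ x in Metric.closedBall (0 : Cfg d) R, nposE K x ^ 2

lemma nposE_sq_cont (K : Cfg d →L[ℝ] Cfg d) : Continuous (fun x => nposE K x ^ 2) :=
  (nposE_contDiff K).continuous.pow 2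

lemma nposE_sq_intOn (K : Cfg d →L[ℝ] Cfg d) (R : ℝ) :
    IntegrableOn (fun x => nposE K x ^ 2) (Metric.closedBall (0 : Cfg d) R) :=
  (nposE_sq_cont K).continuousOn.integrableOn_compact (isCompact_closedBall _ _)

lemma nposI_pos (K : Cfg d →L[ℝ] Cfg d) {R : ℝ} (hR : 0 < R) : 0 < nposI K R := by
  rw [nposI, setIntegral_pos_iff_support_of_nonneg_ae
    (Eventually.of_forall fun x => sq_nonneg _) (nposE_sq_intOn K R)]
  have h1 : Function.support (fun x => nposE K x ^ 2) = Set.univ := by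
    ext x
    simp [(nposE_pos K x).ne']
  rw [h1, Set.univ_inter]
  exact Metric.measure_closedBall_pos _ _ hR

lemma nposI_le {K : Cfg d →L[ℝ] Cfg d} (hK : ∀ x, 0 ≤ inner ℝ x (K x)) :
    ∃ c : ℝ, 0 ≤ c ∧ ∀ R : ℝ, 0 < R → nposI K R ≤ c * R ^ (9 * d) := by
  refine ⟨(volume (Metric.ball (0 : Cfg d) 1)).toReal, ENNReal.toReal_nonneg, fun R hR => ?_⟩
  have h1 : nposI K R ≤ ∫ x in Metric.closedBall (0 : Cfg d) R, (1 : ℝ) := by
    refine setIntegral_mono_on (nposE_sq_intOn K R) ?_ measurableSet_closedBall fun x _ => ?_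
    · exact continuousOn_const.integrableOn_compact (isCompact_closedBall _ _)
    · have h2 := nposE_le_one hK x
      have h3 := (nposE_pos K x).le
      nlinarith
  refine h1.trans (le_of_eq ?_)
  rw [setIntegral_const, smul_eq_mul, mul_one, Measure.real,
    Measure.addHaar_closedBall _ _ hR.le, ENNReal.toReal_mul, ENNReal.toReal_ofReal (by positivity)]
  have : Module.finrank ℝ (Cfg d) = 9 * d := by simp
  rw [this]
  ring

lemma npos_growth {I : ℝ → ℝ} {c C ν : ℝ} {n : ℕ} (hν : 0 < ν) (hC : 0 ≤ C)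
    (hI : ∀ R, 0 < R → 0 < I R) (hle : ∀ R, 0 < R → I R ≤ c * R ^ n)
    (h : ∀ R, 0 < R → ν * I R ≤ C / R ^ 2 * I (2 * R)) : False := by
  set R₀ : ℝ := 1 + C / ν * 2 ^ (n + 1) with hR₀
  have hCν : 0 ≤ C / ν * 2 ^ (n + 1) := by positivity
  have hR1 : 1 ≤ R₀ := by linarith
  have hstep : ∀ R, R₀ ≤ R → I R * 2 ^ (n + 1) ≤ I (2 * R) := by
    intro R hR
    have hRpos : 0 < R := by linarith
    have h1 := h R hRpos
    have h2 := hI (2 * R) (by linarith)
    have h3 : C * 2 ^ (n + 1) ≤ ν * R ^ 2 := by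
      have h4 : C / ν * 2 ^ (n + 1) ≤ R ^ 2 := by nlinarith
      calc C * 2 ^ (n + 1) = ν * (C / ν * 2 ^ (n + 1)) := by field_simp
        _ ≤ ν * R ^ 2 := by gcongr
    have h5 : ν * I R * R ^ 2 ≤ C * I (2 * R) := by
      have : C / R ^ 2 * I (2 * R) = C * I (2 * R) / R ^ 2 := by ring
      rw [this, le_div_iff₀ (by positivity)] at h1
      exact h1
    have h6 : ν * R ^ 2 * (I R * 2 ^ (n + 1)) ≤ ν * R ^ 2 * I (2 * R) := by
      calc ν * R ^ 2 * (I R * 2 ^ (n + 1)) = (ν * I R * R ^ 2) * 2 ^ (n + 1) := by ring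
        _ ≤ (C * I (2 * R)) * 2 ^ (n + 1) := by gcongr
        _ = (C * 2 ^ (n + 1)) * I (2 * R) := by ring
        _ ≤ ν * R ^ 2 * I (2 * R) := by gcongr
    exact le_of_mul_le_mul_left h6 (by positivity)
  have hit : ∀ j : ℕ, I R₀ * (2 ^ (n + 1)) ^ j ≤ I (2 ^ j * R₀) := by
    intro j
    induction j with
    | zero => simp
    | succ j ih =>
      have h1 := hstep (2 ^ j * R₀) (by
        have : (1 : ℝ) ≤ 2 ^ j := one_le_pow₀ (by norm_num)
        nlinarith)
      calc I R₀ * (2 ^ (n + 1)) ^ (j + 1) = (I R₀ * (2 ^ (n + 1)) ^ j) * 2 ^ (n + 1) := by ring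
        _ ≤ I (2 ^ j * R₀) * 2 ^ (n + 1) := by gcongr
        _ ≤ I (2 * (2 ^ j * R₀)) := h1
        _ = I (2 ^ (j + 1) * R₀) := by ring_nf
  have hpos := hI R₀ (by linarith)
  obtain ⟨j, hj⟩ := pow_unbounded_of_one_lt (c * R₀ ^ n / I R₀) (one_lt_two (α := ℝ))
  rw [div_lt_iff₀ hpos] at hj
  have h1 := (hit j).trans (hle (2 ^ j * R₀) (by positivity))
  have h2 : I R₀ * (2 ^ (n + 1)) ^ j = (2 ^ j) ^ n * (2 ^ j * I R₀) := by
    have e : ((2 : ℝ) ^ (n + 1)) ^ j = (2 ^ j) ^ n * 2 ^ j := by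
      rw [← pow_mul, ← pow_mul, ← pow_add]
      congr 1
      ring
    rw [e]
    ring
  have h3 : c * (2 ^ j * R₀) ^ n = (2 ^ j) ^ n * (c * R₀ ^ n) := by
    rw [mul_pow, mul_left_comm]
  rw [h2, h3] at h1
  have h4 := le_of_mul_le_mul_left h1 (by positivity)
  linarith

lemma npos_pdr_zero {K R : ℝ} {χ : Cfg d → ℝ} (hχ : IsCut K R χ) (i : Fin 9) (A : Fin d)
    {x : Cfg d} (hx : 2 * R < ‖x‖) : pdr i A χ x = 0 := by
  have h1 : χ =ᶠ[𝓝 x] fun _ => 0 := by
    have : {y : Cfg d | 2 * R < ‖y‖} ∈ 𝓝 x :=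
      (isOpen_lt continuous_const continuous_norm).mem_nhds hx
    filter_upwards [this] with y hy
    exact hχ.2.2.2.2.2.1 y (le_of_lt hy)
  rw [pdr, h1.fderiv_eq]
  simp

lemma npos_pdr_sq {K₀ R : ℝ} (hR : 0 < R) {χ : Cfg d → ℝ} (hχ : IsCut K₀ R χ)
    (i : Fin 9) (A : Fin d) (x : Cfg d) : pdr i A χ x ^ 2 ≤ (K₀ / R) ^ 2 := by
  by_cases h : ‖x‖ < R
  · rw [hχ.2.2.2.2.2.2.2 i A x h]
    simp only [ne_eq, OfNat.ofNat_ne_zero, not_false_eq_true, zero_pow]
    positivity
  · push Not at h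
    rw [← sq_abs]
    have h1 := hχ.2.2.2.2.2.2.1 i A x
    have h2 : |pdr i A χ x| ≤ K₀ / R := by
      rw [le_div_iff₀ hR]
      exact (mul_le_mul_of_nonneg_left h (abs_nonneg _)).trans h1
    gcongr

/-- **C-Npos** -/
theorem npos (S : Setup d F) (hEn : EnStmt S) : NposStmt S := by
  intro ξ K hξ hK η
  by_contra hneg
  push Not at hneg
  obtain ⟨K₀, hK₀, hcut⟩ := exists_cut (d := d)
  obtain ⟨c, hc, hle⟩ := nposI_le hK.pos
  set ν : ℝ := -(inner ℂ η (S.Nx (trK K) ξ η)).re with hν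
  have hν0 : 0 < ν := by linarith
  refine npos_growth (I := nposI K) (c := c) (C := (9 * d) * (K₀ ^ 2 * ‖η‖ ^ 2) / 2) (ν := ν)
    (n := 9 * d) hν0 (by positivity) (fun R hR => nposI_pos K hR) hle fun R hR => ?_
  obtain ⟨χ, hχ⟩ := hcut R hR
  set v : Cfg d → F := fun x => ((χ x * nposE K x : ℝ) : ℂ) • η with hv
  have hprod : ContDiff ℝ ∞ (fun x => χ x * nposE K x) := hχ.1.mul (nposE_contDiff K)
  have hsuppP : HasCompactSupport (fun x => χ x * nposE K x) := hχ.2.1.mul_right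
  have htst : Setup.Tst v := by
    refine ⟨(Setup.contDiff_ofReal hprod).smul contDiff_const, ?_⟩
    refine hsuppP.mono fun x hx => ?_
    rw [Function.mem_support] at hx ⊢
    intro h0
    apply hx
    change ((χ x * nposE K x : ℝ) : ℂ) • η = 0
    rw [h0]; simp
  have hpd : ∀ i A, (fun x => pd i A v x + ((K x (i, A) : ℝ) : ℂ) • v x) =
      fun x => ((pdr i A χ x * nposE K x : ℝ) : ℂ) • η := by
    intro i A
    funext x
    have h1 : pd i A v x =
        ((fderiv ℝ (fun y => χ y * nposE K y) x (EuclideanSpace.single (i, A) 1) : ℝ) : ℂ) • η := by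
      rw [hv, pd_rsmul (hprod.differentiable (by simp) x) (differentiableAt_const η)]
      have : pd i A (fun _ : Cfg d => η) x = 0 := by simp [pd]
      rw [this, smul_zero, add_zero]
    have h2 : fderiv ℝ (fun y => χ y * nposE K y) x (EuclideanSpace.single (i, A) 1) =
        pdr i A χ x * nposE K x - K x (i, A) * (χ x * nposE K x) := by
      rw [fderiv_fun_mul (hχ.1.differentiable (by simp) x)
        ((nposE_contDiff K).differentiable (by simp) x)]
      simp only [_root_.add_apply, _root_.smul_apply, smul_eq_mul,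
        nposE_fderiv hK.symm, pdr]
      ring
    rw [h1, h2, hv, smul_smul, ← add_smul, ← Complex.ofReal_mul, ← Complex.ofReal_add]
    congr 2
    ring
  have hnsq : ∀ i A, nsq (fun x => pd i A v x + ((K x (i, A) : ℝ) : ℂ) • v x) ≤
      (K₀ / R) ^ 2 * ‖η‖ ^ 2 * nposI K (2 * R) := by
    intro i A
    rw [hpd, nsq, nposI, ← integral_const_mul, ← integral_indicator measurableSet_closedBall]
    refine integral_mono_of_nonneg (Eventually.of_forall fun x => by positivity) ?_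
      (Eventually.of_forall fun x => ?_)
    · refine IntegrableOn.integrable_indicator ?_ measurableSet_closedBall
      exact (nposE_sq_intOn K (2 * R)).const_mul _
    · beta_reduce
      rw [norm_smul, Complex.norm_real, Real.norm_eq_abs, mul_pow, sq_abs, mul_pow]
      by_cases hx : x ∈ Metric.closedBall (0 : Cfg d) (2 * R)
      · rw [Set.indicator_of_mem hx]
        have h1 := npos_pdr_sq hR hχ i A x
        calc pdr i A χ x ^ 2 * nposE K x ^ 2 * ‖η‖ ^ 2
            ≤ (K₀ / R) ^ 2 * nposE K x ^ 2 * ‖η‖ ^ 2 := by gcongr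
          _ = _ := by ring
      · rw [Set.indicator_of_notMem hx, npos_pdr_zero hχ i A]
        · simp
        · rw [Metric.mem_closedBall, dist_zero_right] at hx
          exact not_le.1 hx
  have hint : (∫ x, inner ℂ (v x) (S.Nx (trK K) ξ (v x))).re =
      -ν * ∫ x, (χ x * nposE K x) ^ 2 := by
    have h1 : ∀ x, inner ℂ (v x) (S.Nx (trK K) ξ (v x)) =
        (((χ x * nposE K x) ^ 2 : ℝ) : ℂ) * inner ℂ η (S.Nx (trK K) ξ η) := by
      intro x
      rw [hv]
      simp only [map_smul, inner_smul_left, inner_smul_right, Complex.conj_ofReal]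
      push_cast
      ring
    simp only [h1]
    rw [integral_mul_const, integral_complex_ofReal, Complex.re_ofReal_mul, hν]
    ring
  have hlow : nposI K R ≤ ∫ x, (χ x * nposE K x) ^ 2 := by
    rw [nposI, ← integral_indicator measurableSet_closedBall]
    refine integral_mono_of_nonneg (Eventually.of_forall fun x => ?_) ?_
      (Eventually.of_forall fun x => ?_)
    · exact Set.indicator_nonneg (fun x _ => sq_nonneg _) x
    · refine (hprod.continuous.pow 2).integrable_of_hasCompactSupport ?_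
      refine hsuppP.mono fun x hx => ?_
      rw [Function.mem_support] at hx ⊢
      intro h0
      apply hx
      change (χ x * nposE K x) ^ 2 = 0
      rw [show χ x * nposE K x = 0 from h0]
      simp
    · beta_reduce
      by_cases hx : x ∈ Metric.closedBall (0 : Cfg d) R
      · rw [Set.indicator_of_mem hx, hχ.2.2.2.2.1 x (by simpa using hx), one_mul]
      · rw [Set.indicator_of_notMem hx]
        positivity
  have hE := hEn ξ K hξ hK v htst
  have h0 : 0 ≤ ∑ β, nsq (S.Qlin ξ β v) := Finset.sum_nonneg fun β _ => nsq_nonneg _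
  have hsum : ∑ i : Fin 9, ∑ A : Fin d, nsq (fun x => pd i A v x + ((K x (i, A) : ℝ) : ℂ) • v x) ≤
      9 * d * ((K₀ / R) ^ 2 * ‖η‖ ^ 2 * nposI K (2 * R)) := by
    refine (Finset.sum_le_sum fun i _ => Finset.sum_le_sum fun A _ => hnsq i A).trans
      (le_of_eq ?_)
    simp
    ring
  rw [hint] at hE
  have h5 : ν * nposI K R ≤ ν * ∫ x, (χ x * nposE K x) ^ 2 := by gcongr
  have h6 : (9 * d) * (K₀ ^ 2 * ‖η‖ ^ 2) / 2 / R ^ 2 * nposI K (2 * R) =
      9 * d * ((K₀ / R) ^ 2 * ‖η‖ ^ 2 * nposI K (2 * R)) / 2 := by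
    field_simp
  rw [h6]
  linarith

end Vale.Agent.P353.Z.U
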