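import Vale.Agent.P353.Z.U.Grp

/-! # P353, general `N`: tubes around the orbit and balls (`PackStmt`) -/

set_option linter.all false

open MeasureTheory Filter Topology
open scoped ContDiff

namespace Vale.Agent.P353.Z.U

variable {dc : ℕ} {F : Type*} [NormedAddCommGroup F] [InnerProductSpace ℂ F] (S : Setup dc F)

/-- `ro O` as a linear isometry -/
noncomputable def pack_roL (O : Matrix (Fin dc) (Fin dc) ℝ) (h : O.transpose * O = 1) :
    Cfg dc →ₗᵢ[ℝ] Cfg dc where
  toFun := ro O
  map_add' x y := by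
    ext p
    simp [ro, mul_add, Finset.sum_add_distrib]
  map_smul' c x := by
    ext p
    simp only [ro, WithLp.ofLp_smul, Pi.smul_apply, smul_eq_mul, RingHom.id_apply, Finset.mul_sum]
    refine Finset.sum_congr rfl fun B _ => ?_
    ring
  norm_map' x := grp_norm h x

noncomputable def pack_roE (O : Matrix (Fin dc) (Fin dc) ℝ) (h : O.transpose * O = 1) : (Cfg dc) ≃ₗᵢ[ℝ] (Cfg dc) :=
  (pack_roL O h).toLinearIsometryEquiv rfl

lemma pack_roE_apply {O : Matrix (Fin dc) (Fin dc) ℝ} (h : O.transpose * O = 1) (x : (Cfg dc)) :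
    pack_roE O h x = ro O x := rfl

lemma pack_ball_integral {u : (Cfg dc) → F} {O : Matrix (Fin dc) (Fin dc) ℝ} (h : O.transpose * O = 1)
    (hi : ∀ x, ‖u (ro O x)‖ = ‖u x‖) (q : (Cfg dc)) (s : ℝ) :
    ∫ x in Metric.ball (ro O q) s, ‖u x‖ ^ 2 = ∫ x in Metric.ball q s, ‖u x‖ ^ 2 := by
  have h1 := (pack_roE O h).measurePreserving.setIntegral_preimage_emb
    (pack_roE O h).toHomeomorph.measurableEmbedding (fun x => ‖u x‖ ^ 2) (Metric.ball (ro O q) s)
  rw [← h1]
  have h2 : (pack_roE O h) ⁻¹' (Metric.ball (ro O q) s) = Metric.ball q s := by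
    ext x
    rw [Set.mem_preimage, Metric.mem_ball, Metric.mem_ball, ← pack_roE_apply h q,
      (pack_roE O h).dist_map]
  rw [h2]
  refine integral_congr_ae (Filter.Eventually.of_forall fun x => ?_)
  show ‖u (pack_roE O h x)‖ ^ 2 = _
  rw [pack_roE_apply, hi]

lemma pack_orb_compact (ξ : Cfg dc) : IsCompact (S.Orb ξ) := by
  have he : S.Orb ξ = (fun O : Matrix (Fin dc) (Fin dc) ℝ => ro O ξ) '' S.grp := by
    ext x
    constructor
    · rintro ⟨O, h1, h2⟩
      exact ⟨O, h1, h2.symm⟩
    · rintro ⟨O, h1, h2⟩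
      exact ⟨O, h1, h2.symm⟩
  rw [he]
  exact (grp_compact S).image (grp_ro_cont ξ)

/-- maximal separated subsets of compact sets -/
lemma pack_exists_net {K : Set (Cfg dc)} (hK : IsCompact K) {R : ℝ} (hR : 0 < R) :
    ∃ T : Finset (Cfg dc), (∀ p ∈ T, p ∈ K) ∧ (∀ p ∈ T, ∀ q ∈ T, p ≠ q → R ≤ dist p q) ∧
      ∀ p ∈ K, ∃ q ∈ T, dist p q < R := by
  classical
  obtain ⟨t, ht1, ht2, ht3⟩ := hK.finite_cover_balls (e := R / 2) (by positivity)
  set P : Finset (Cfg dc) → Prop := fun T => (∀ p ∈ T, p ∈ K) ∧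
    (∀ p ∈ T, ∀ q ∈ T, p ≠ q → R ≤ dist p q) with hP
  have hb : ∀ T, P T → T.card ≤ ht2.toFinset.card := by
    intro T hT
    have hc : ∀ p ∈ T, ∃ c ∈ ht2.toFinset, p ∈ Metric.ball c (R / 2) := by
      intro p hp
      have := ht3 (hT.1 p hp)
      simp only [Set.mem_iUnion] at this
      obtain ⟨c, hc, h⟩ := this
      exact ⟨c, by simpa using hc, h⟩
    choose! f hf1 hf2 using hc
    refine Finset.card_le_card_of_injOn f hf1 ?_
    intro p hp q hq hpq
    by_contra hne
    have h1 := hT.2 p hp q hq hne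
    have h2 := hf2 p hp
    have h3 := hf2 q hq
    rw [hpq] at h2
    rw [Metric.mem_ball] at h2 h3
    have := dist_triangle_right p q (f q)
    linarith
  have hex : ∃ T, P T ∧ ∀ T', P T' → T'.card ≤ T.card := by
    by_contra hcon
    push Not at hcon
    have : ∀ k : ℕ, ∃ T, P T ∧ k ≤ T.card := by
      intro k
      induction k with
      | zero => exact ⟨∅, ⟨by simp, by simp⟩, by simp⟩
      | succ k ih =>
        obtain ⟨T, hT, hk⟩ := ih
        obtain ⟨T', hT', hk'⟩ := hcon T hT
        exact ⟨T', hT', by omega⟩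
    obtain ⟨T, hT, hk⟩ := this (ht2.toFinset.card + 1)
    have := hb T hT
    omega
  obtain ⟨T, hT, hmax⟩ := hex
  refine ⟨T, hT.1, hT.2, fun p hp => ?_⟩
  by_contra hcon
  push Not at hcon
  have hpT : p ∉ T := fun h => by
    have := hcon p h
    rw [dist_self] at this
    linarith
  have h1 : P (insert p T) := by
    refine ⟨fun q hq => ?_, fun q hq r hr hqr => ?_⟩
    · rcases Finset.mem_insert.1 hq with h | h
      · rw [h]; exact hp
      · exact hT.1 q h
    · rcases Finset.mem_insert.1 hq with h | h <;> rcases Finset.mem_insert.1 hr with h' | h'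
      · exact absurd (h.trans h'.symm) hqr
      · rw [h]; exact hcon r h'
      · rw [h', dist_comm]; exact hcon q h
      · exact hT.2 q h r h' hqr
  have h2 := hmax _ h1
  rw [Finset.card_insert_of_notMem hpT] at h2
  omega

/-- packing bound -/
lemma pack_packing {T : Finset (Cfg dc)} {R s : ℝ} (hR : 0 < R) (hs : R ≤ s)
    (hsep : ∀ p ∈ T, ∀ q ∈ T, p ≠ q → R ≤ dist p q) (x : (Cfg dc)) :
    ∑ p ∈ T, (Metric.ball p s).indicator (fun _ => (1 : ℝ)) x ≤ (3 * s / R) ^ (9 * dc) := by
  classical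
  have hs0 : 0 < s := lt_of_lt_of_le hR hs
  set T' := T.filter fun p => dist x p < s with hT'
  have e : ∑ p ∈ T, (Metric.ball p s).indicator (fun _ => (1 : ℝ)) x = (T'.card : ℝ) := by
    rw [hT', Finset.card_filter]
    push_cast
    refine Finset.sum_congr rfl fun p _ => ?_
    rw [Set.indicator_apply]
    simp only [Metric.mem_ball]
  rw [e]
  have hdisj : (↑T' : Set (Cfg dc)).PairwiseDisjoint fun p => Metric.ball p (R / 2) := by
    intro p hp q hq hpq
    have hp' := (Finset.mem_filter.1 (Finset.mem_coe.1 hp)).1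
    have hq' := (Finset.mem_filter.1 (Finset.mem_coe.1 hq)).1
    refine Metric.ball_disjoint_ball ?_
    have := hsep p hp' q hq' hpq
    linarith
  have hsub : (⋃ p ∈ T', Metric.ball p (R / 2)) ⊆ Metric.ball x (s + R / 2) := by
    intro y hy
    simp only [Set.mem_iUnion] at hy
    obtain ⟨p, hp, hy⟩ := hy
    have hp' := (Finset.mem_filter.1 hp).2
    rw [Metric.mem_ball] at hy ⊢
    have := dist_triangle y p x
    rw [dist_comm x p] at hp'
    linarith
  have hvol := measure_mono (μ := (volume : Measure (Cfg dc))) hsub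
  rw [measure_biUnion_finset hdisj (fun p _ => measurableSet_ball)] at hvol
  have hfr : Module.finrank ℝ (Cfg dc) = (9 * dc) := by simp
  simp only [Measure.addHaar_ball_of_pos volume _ (show 0 < R / 2 by positivity),
    Measure.addHaar_ball_of_pos volume _ (show 0 < s + R / 2 by positivity), hfr, Finset.sum_const,
    nsmul_eq_mul] at hvol
  rw [← mul_assoc] at hvol
  have hb0 : (volume (Metric.ball (0 : (Cfg dc)) 1)) ≠ 0 := (Metric.measure_ball_pos _ _ one_pos).ne'
  have hbt : (volume (Metric.ball (0 : (Cfg dc)) 1)) ≠ ⊤ := measure_ball_lt_top.ne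
  rw [ENNReal.mul_le_mul_iff_left hb0 hbt, ← ENNReal.ofReal_natCast,
    ← ENNReal.ofReal_mul (Nat.cast_nonneg _), ENNReal.ofReal_le_ofReal_iff (by positivity)] at hvol
  have h3 : (T'.card : ℝ) ≤ ((s + R / 2) / (R / 2)) ^ (9 * dc) := by
    rw [div_pow, le_div_iff₀ (by positivity)]
    exact hvol
  refine h3.trans ?_
  refine pow_le_pow_left₀ (by positivity) ?_ (9 * dc)
  rw [div_le_div_iff₀ (by positivity) hR]
  nlinarith

/-- **C-Pack** -/
theorem pack : PackStmt S := by
  classical
  intro ξ R hR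
  obtain ⟨T, hT1, hT2, hT3⟩ := pack_exists_net (pack_orb_compact S ξ) hR
  have hmem : ξ ∈ S.Orb ξ := ⟨1, grp_one S, (grp_ro_one _).symm⟩
  have hTne : T.Nonempty := by
    obtain ⟨q, hq, -⟩ := hT3 _ hmem
    exact ⟨q, hq⟩
  refine ⟨T.card, by exact_mod_cast hTne.card_pos, fun u hu hi => ?_⟩
  have hint : Integrable (fun x => ‖u x‖ ^ 2) (volume : Measure (Cfg dc)) := hu.norm_sq_int
  have hball : ∀ p ∈ T, ∀ s, ∫ x in Metric.ball p s, ‖u x‖ ^ 2 =
      ∫ x in Metric.ball (ξ) s, ‖u x‖ ^ 2 := by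
    intro p hp s
    obtain ⟨O, h1, h3⟩ := hT1 p hp
    rw [h3]
    exact pack_ball_integral h1.1 (hi O h1) _ _
  have hsum : ∀ s, (T.card : ℝ) * ∫ x in Metric.ball (ξ) s, ‖u x‖ ^ 2 =
      ∫ x, ∑ p ∈ T, (Metric.ball p s).indicator (fun x => ‖u x‖ ^ 2) x := by
    intro s
    rw [integral_finset_sum _ fun p _ => hint.indicator measurableSet_ball]
    simp only [integral_indicator measurableSet_ball]
    rw [Finset.sum_congr rfl fun p hp => hball p hp s, Finset.sum_const, nsmul_eq_mul]
  constructor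
  · rw [hsum]
    refine integral_mono_of_nonneg (Filter.Eventually.of_forall fun x => ?_)
      (integrable_finset_sum _ fun p _ => hint.indicator measurableSet_ball)
      (Filter.Eventually.of_forall fun x => ?_)
    · show 0 ≤ ite _ _ _
      split_ifs <;> positivity
    · show ite _ _ _ ≤ _
      have hnn : ∀ p ∈ T, 0 ≤ (Metric.ball p (2 * R)).indicator (fun x => ‖u x‖ ^ 2) x :=
        fun p _ => Set.indicator_nonneg (fun _ _ => by positivity) _
      split_ifs with h
      · obtain ⟨p, hp, hpx⟩ := (pack_orb_compact S ξ).exists_infDist_eq_dist ⟨_, hmem⟩ x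
        obtain ⟨q, hq, hpq⟩ := hT3 p hp
        have hx : x ∈ Metric.ball q (2 * R) := by
          rw [Metric.mem_ball]
          have := dist_triangle x p q
          rw [hpx] at h
          linarith
        have h2 := Finset.single_le_sum hnn hq
        rw [Set.indicator_of_mem hx] at h2
        exact h2
      · exact Finset.sum_nonneg hnn
  · intro s hs
    rw [hsum]
    have h1 : (3 * s / R) ^ (9 * dc) * nsq u = ∫ x, (3 * s / R) ^ (9 * dc) * ‖u x‖ ^ 2 := by
      unfold nsq
      rw [integral_const_mul]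
    rw [h1]
    refine integral_mono (integrable_finset_sum _ fun p _ => hint.indicator measurableSet_ball)
      (hint.const_mul _) fun x => ?_
    have h2 : ∑ p ∈ T, (Metric.ball p s).indicator (fun x => ‖u x‖ ^ 2) x =
        (∑ p ∈ T, (Metric.ball p s).indicator (fun _ => (1 : ℝ)) x) * ‖u x‖ ^ 2 := by
      rw [Finset.sum_mul]
      refine Finset.sum_congr rfl fun p _ => ?_
      simp only [Set.indicator_apply]
      split_ifs <;> simp
    show ∑ p ∈ T, (Metric.ball p s).indicator (fun x => ‖u x‖ ^ 2) x ≤ _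
    rw [h2]
    exact mul_le_mul_of_nonneg_right (pack_packing hR hs hT2 x) (by positivity)

end Vale.Agent.P353.Z.U
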