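import Vale.Agent.P353.Z.RotF
import Vale.Agent.P353.Z.U.StmtD

/-! # P353, general `N`: zero modes are rotation invariant (D-J) -/

open MeasureTheory Filter Topology
open scoped ContDiff

namespace Vale.Agent.P353.Z.U

variable {d : ℕ} {F : Type*} [NormedAddCommGroup F] [InnerProductSpace ℂ F]

theorem zj [CompleteSpace F] (S : Setup d F) : ZJStmt S := by
  intro Ψ hΨ k l hkl ζ hζ
  obtain ⟨u, hu⟩ := hΨ
  exact weak_J S Ψ u hu k l hkl ζ hζ

end Vale.Agent.P353.Z.U
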