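import Vale.Agent.P353.Z.U.MGaussC

/-! # P353, general `N`: the Gauss law -/

open MeasureTheory Filter Topology
open scoped ContDiff

namespace Vale.Agent.P353.Z.U

variable {N d : ℕ} {F : Type*} [NormedAddCommGroup F] [InnerProductSpace ℂ F]

section

variable (M : P353.Model N d F)

/-- every traceless Hermitian matrix is conjugate to a diagonal one under `SU(N)` -/
lemma mg_diag (hN : 0 < N) (H : Matrix (Fin N) (Fin N) ℂ) (hH : H.conjTranspose = H)
    (htr : H.trace = 0) :
    ∃ (U : Matrix.specialUnitaryGroup (Fin N) ℂ) (x : mgH N), mgc U.val (mgd x) = H := by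
  have hH' : H.IsHermitian := hH
  obtain ⟨U, hU⟩ := mg_phase hN (hH'.eigenvectorUnitary : Matrix (Fin N) (Fin N) ℂ)
    hH'.eigenvectorUnitary.2
  have h1 : mgc (hH'.eigenvectorUnitary : Matrix (Fin N) (Fin N) ℂ)
      (Matrix.diagonal fun j => ((hH'.eigenvalues j : ℝ) : ℂ)) = H := by
    have h2 := hH'.spectral_theorem
    rw [Unitary.conjStarAlgAut_apply] at h2
    exact h2.symm
  have h3 : ∑ j, hH'.eigenvalues j = 0 := by
    have h4 := mgc_trace U (Matrix.diagonal fun j => ((hH'.eigenvalues j : ℝ) : ℂ))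
    rw [hU, h1, htr, Matrix.trace_diagonal, ← Complex.ofReal_sum] at h4
    exact_mod_cast h4.symm
  exact ⟨U, ⟨hH'.eigenvalues, h3⟩, by rw [hU]; exact h1⟩

/-- derivative of the adjoint action along the one parameter group generated by `T_C` -/
lemma mg_ad_deriv (C A B : Fin d) (U : Matrix.specialUnitaryGroup (Fin N) ℂ) (x : mgH N)
    (hx : mgc U.val (mgd x) = M.T C) :
    HasDerivAt (fun t : ℝ => P353.adCoeff M.T (U * mgtor (t • x) * U⁻¹) B A) (-(M.f C A B)) 0 := by
  have hU1 := (mg_unit U).1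
  have hU2 := (mg_unit U).2
  have hinv : (U⁻¹).val = U.val.conjTranspose := rfl
  set W0 : Matrix (Fin N) (Fin N) ℂ := U.val.conjTranspose * M.T A * U.val with hW0
  set L : Matrix (Fin N) (Fin N) ℂ →ₗ[ℂ] ℂ :=
    { toFun := fun W => (mgc U.val W * M.T B).trace
      map_add' := by
        intro X Y
        simp only [mgc, Matrix.mul_add, Matrix.add_mul, Matrix.trace_add]
      map_smul' := by
        intro c X
        simp only [mgc, Matrix.mul_smul, Matrix.smul_mul, Matrix.trace_smul, smul_eq_mul,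
          RingHom.id_apply] } with hL
  have hLa : ∀ W, L W = (mgc U.val W * M.T B).trace := fun W => rfl
  have e1 : ∀ t : ℝ, ((P353.adCoeff M.T (U * mgtor (t • x) * U⁻¹) B A : ℝ) : ℂ) =
      L (mgc (mgtorM (t • x)) W0) := by
    intro t
    rw [mg_ad, hLa]
    congr 2
    show (U.val * mgtorM (t • x) * U.val.conjTranspose) * M.T A *
      (U.val * mgtorM (t • x) * U.val.conjTranspose).conjTranspose = _
    rw [Matrix.conjTranspose_mul, Matrix.conjTranspose_mul, Matrix.conjTranspose_conjTranspose,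
      mgc, mgc, hW0]
    simp only [mul_assoc]
  have h1 := mg_deriv_lin L (mgc_tor_deriv x W0 0)
  have h0 : mgc (mgtorM ((0 : ℝ) • x)) W0 = W0 := by
    have h1 : mgtorM ((0 : ℝ) • x) = 1 := by
      rw [zero_smul]
      exact congrArg Subtype.val (mgtor_zero (N := N))
    rw [h1, mgc, Matrix.conjTranspose_one, one_mul, mul_one]
  have h2 : L (Complex.I • (mgd x * mgc (mgtorM ((0 : ℝ) • x)) W0 -
      mgc (mgtorM ((0 : ℝ) • x)) W0 * mgd x)) = ((-(M.f C A B) : ℝ) : ℂ) := by
    rw [h0, map_smul, hLa]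
    have e2 : mgc U.val (mgd x * W0 - W0 * mgd x) = M.T C * M.T A - M.T A * M.T C := by
      have e3 : mgc U.val (mgd x * W0) = M.T C * M.T A := by
        rw [← hx, mgc, mgc, hW0]
        calc U.val * (mgd x * (U.val.conjTranspose * M.T A * U.val)) * U.val.conjTranspose =
            U.val * mgd x * U.val.conjTranspose * M.T A * (U.val * U.val.conjTranspose) := by
              simp only [mul_assoc]
          _ = _ := by rw [hU2, mul_one]
      have e4 : mgc U.val (W0 * mgd x) = M.T A * M.T C := by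
        rw [← hx, mgc, mgc, hW0]
        calc U.val * (U.val.conjTranspose * M.T A * U.val * mgd x) * U.val.conjTranspose =
            (U.val * U.val.conjTranspose) * M.T A * (U.val * mgd x * U.val.conjTranspose) := by
              simp only [mul_assoc]
          _ = _ := by rw [hU2, one_mul]
      rw [← e3, ← e4]
      simp only [mgc, Matrix.mul_sub, Matrix.sub_mul]
    rw [e2]
    have h3 : ((M.T C * M.T A - M.T A * M.T C) * M.T B).trace =
        Complex.I * (M.f C A B : ℂ) := by
      rw [M.T_comm, Finset.sum_mul, Matrix.trace_sum]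
      simp only [Matrix.smul_mul, Matrix.trace_smul, M.T_orthonormal, smul_eq_mul, mul_ite,
        mul_one, mul_zero, Finset.sum_ite_eq', Finset.mem_univ, if_true]
    rw [h3, smul_eq_mul]
    push_cast
    linear_combination (M.f C A B : ℂ) * Complex.I_sq
  rw [h2] at h1
  have h4 := Complex.reCLM.hasFDerivAt.comp_hasDerivAt (0 : ℝ) h1
  have e5 : (fun t : ℝ => P353.adCoeff M.T (U * mgtor (t • x) * U⁻¹) B A) =
      (Complex.reCLM ∘ fun t : ℝ => L (mgc (mgtorM (t • x)) W0)) := by
    funext t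
    rw [Function.comp_apply, ← e1]
    simp
  rw [e5]
  refine h4.congr_deriv ?_
  simp

/-- the Gauss law, in the form `Z(T_C) u = - ∑ f_{CAB} x_i^A ∂_i^B u` -/
lemma mg_gauss [FiniteDimensional ℂ F] (u : Cfg d → F) (hu : M.IsCore u) (C : Fin d)
    (x : Cfg d) :
    ∑ i, ∑ A, ∑ B, ((M.f C A B : ℂ) * (x (i, A) : ℂ)) • P353.pd i B u x =
      - (mgz M (M.T C) (u x)) := by
  have hcs : CompleteSpace F := FiniteDimensional.complete ℂ F
  have hd : 0 < d := lt_of_le_of_lt (Nat.zero_le _) C.2
  obtain ⟨hN, -⟩ := mg_dim M hd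
  obtain ⟨hsm, -, hinv⟩ := hu
  obtain ⟨U, y, hy⟩ := mg_diag hN (M.T C) (M.T_hermitian C) (M.T_traceless C)
  have hud : HasFDerivAt u (fderiv ℝ u x) x := (hsm.differentiable (by simp) x).hasFDerivAt
  set g : ℝ → Matrix.specialUnitaryGroup (Fin N) ℂ := fun t => U * mgtor (t • y) * U⁻¹ with hg
  have hS : ∀ t, M.S (g t) = mgE (mgz M (M.T C)) t := by
    intro t
    rw [← hy]
    exact mgS_conj M hd U y t
  have hg0 : g 0 = 1 := by
    simp only [hg]
    rw [zero_smul, mgtor_zero, mul_one, mul_inv_cancel]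
  have hbasis : ∀ h : Fin 9 × Fin d → ℝ, (WithLp.toLp 2 h : Cfg d) =
      ∑ p, h p • (EuclideanSpace.single p (1 : ℝ) : Cfg d) := by
    intro h
    ext q
    rw [WithLp.ofLp_sum, Finset.sum_apply]
    simp [PiLp.single_apply]
  have hact : ∀ t, M.act (g t) x = ∑ p : Fin 9 × Fin d,
      (∑ A, P353.adCoeff M.T (g t) p.2 A * x (p.1, A)) • (EuclideanSpace.single p (1 : ℝ) : Cfg d) := by
    intro t
    rw [P353.Model.act, hbasis]
  have hda : HasDerivAt (fun t => M.act (g t) x) (∑ p : Fin 9 × Fin d,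
      (∑ A, -(M.f C A p.2) * x (p.1, A)) • (EuclideanSpace.single p (1 : ℝ) : Cfg d)) 0 := by
    have e : (fun t => M.act (g t) x) = fun t => ∑ p : Fin 9 × Fin d,
      (∑ A, P353.adCoeff M.T (g t) p.2 A * x (p.1, A)) •
        (EuclideanSpace.single p (1 : ℝ) : Cfg d) := funext hact
    rw [e]
    refine HasDerivAt.fun_sum fun p _ => HasDerivAt.smul_const ?_ _
    refine HasDerivAt.fun_sum fun A _ => HasDerivAt.mul_const ?_ _
    exact mg_ad_deriv M C A p.2 U y hy
  have hx0 : M.act (g 0) x = x := by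
    rw [hg0, P353.Model.act]
    ext p
    show ∑ A, P353.adCoeff M.T 1 p.2 A * x (p.1, A) = x p
    have h1 : ∀ A, P353.adCoeff M.T 1 p.2 A = if p.2 = A then 1 else 0 := by
      intro A
      unfold P353.adCoeff
      rw [show ((1 : Matrix.specialUnitaryGroup (Fin N) ℂ) : Matrix (Fin N) (Fin N) ℂ) = 1 from rfl,
        Matrix.conjTranspose_one, one_mul, mul_one, M.T_orthonormal]
      split_ifs <;> simp
    simp only [h1, ite_mul, one_mul, zero_mul, Finset.sum_ite_eq, Finset.mem_univ, if_true]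
  have hL : HasDerivAt (fun t => u (M.act (g t) x)) (fderiv ℝ u x (∑ p : Fin 9 × Fin d,
      (∑ A, -(M.f C A p.2) * x (p.1, A)) • (EuclideanSpace.single p (1 : ℝ) : Cfg d))) 0 := by
    have h2 : HasFDerivAt u (fderiv ℝ u x) (M.act (g 0) x) := by rw [hx0]; exact hud
    exact h2.comp_hasDerivAt (0 : ℝ) hda
  have hR : HasDerivAt (fun t => u (M.act (g t) x)) (mgz M (M.T C) (u x)) 0 := by
    have e : (fun t => u (M.act (g t) x)) = fun t => mgE (mgz M (M.T C)) t (u x) := by
      funext t
      rw [hinv, hS]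
    rw [e]
    have h2 := mgE_deriv (mgz M (M.T C)) 0
    rw [mgE_zero, mul_one] at h2
    exact ((ContinuousLinearMap.apply ℂ F (u x)).restrictScalars ℝ).hasFDerivAt.comp_hasDerivAt 0 h2
  have h3 := hL.unique hR
  rw [← h3, map_sum]
  have h4 : ∀ p : Fin 9 × Fin d, fderiv ℝ u x ((∑ A, -(M.f C A p.2) * x (p.1, A)) •
      (EuclideanSpace.single p (1 : ℝ) : Cfg d)) =
      - ∑ A, ((M.f C A p.2 : ℂ) * (x (p.1, A) : ℂ)) • P353.pd p.1 p.2 u x := by
    intro p
    rw [map_smul, ← Complex.coe_smul, ← Finset.sum_smul, ← neg_smul]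
    congr 1
    push_cast
    rw [← Finset.sum_neg_distrib]
    refine Finset.sum_congr rfl fun A _ => ?_
    ring
  simp only [h4]
  rw [Finset.sum_neg_distrib, neg_neg, Fintype.sum_prod_type]
  refine Finset.sum_congr rfl fun i _ => ?_
  rw [Finset.sum_comm]

end

/-- **M-Gauss** -/
theorem gaussLaw [FiniteDimensional ℂ F] (M : BFSS.Model N d F) : GaussStmt M := by
  intro S hrep u hu C x
  have hcore : M.toOld.IsCore u := hu
  have h1 := mg_gauss M.toOld u hcore C x
  have hf : S.f = M.toOld.f := hrep.hf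
  have hth : S.th = M.toOld.θ := hrep.hth
  have h2 : S.cS C = (-Complex.I) • mgz M.toOld (M.toOld.T C) := by
    have hb : ∀ D E, S.bil 1 D E = mgb M.toOld D E := by
      intro D E
      simp only [CS.bil, CS.vec_one, hth]
      rfl
    have ht : ∀ D E, (M.toOld.T C * (M.toOld.T D * M.toOld.T E -
        M.toOld.T E * M.toOld.T D)).trace = Complex.I * (M.f C D E : ℂ) := by
      intro D E
      rw [Matrix.trace_mul_comm]
      have h3 := mf_trace M D E C
      rw [← mf_cyc M C D E] at h3
      exact h3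
    rw [mgz_apply, Setup.cS]
    simp only [hb, ht, hf]
    rw [smul_smul, Finset.smul_sum, Finset.smul_sum]
    refine Finset.sum_congr rfl fun D _ => ?_
    rw [Finset.smul_sum, Finset.smul_sum]
    refine Finset.sum_congr rfl fun E _ => ?_
    rw [smul_smul, smul_smul]
    congr 1
    show -Complex.I / 2 * (M.f C D E : ℂ) = -Complex.I * (-Complex.I / 2) *
      (Complex.I * (M.f C D E : ℂ))
    linear_combination (-Complex.I / 2 * (M.f C D E : ℂ)) * Complex.I_sq
  rw [Setup.G, h2, hf, h1, _root_.smul_apply, smul_neg]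
  exact neg_add_cancel _

end Vale.Agent.P353.Z.U
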