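import Mathlib

/-! # P353, general `N`: finite dimensional Hermitian `sl₂` triples

Two Hermitian `sl₂` triples on inner product spaces of the same finite dimension with the same multiplicities of highest
weights are unitarily equivalent, and the multiplicities `μ_n` satisfy `∑ μ_n (n+1) = N`. -/

namespace Vale.Agent.P353.Z.U.Cnt

variable {E : Type*} [NormedAddCommGroup E] [InnerProductSpace ℂ E]

/-- a Hermitian `sl₂` triple on an inner product space -/
structure HTr (h e f : E →ₗ[ℂ] E) : Prop where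
  hs : ∀ x y, inner ℂ (h x) y = inner ℂ x (h y)
  ef : ∀ x y, inner ℂ (e x) y = inner ℂ x (f y)
  he : ∀ x, h (e x) = e (h x) + (2 : ℂ) • e x
  hf : ∀ x, h (f x) = f (h x) - (2 : ℂ) • f x
  hef : ∀ x, e (f x) = f (e x) + h x

/-- highest weight vectors of weight `n` -/
def hw (h e : E →ₗ[ℂ] E) (n : ℕ) : Submodule ℂ E :=
  LinearMap.ker e ⊓ Module.End.eigenspace h (n : ℂ)

lemma mem_hw {h e : E →ₗ[ℂ] E} {n : ℕ} {v : E} : v ∈ hw h e n ↔ e v = 0 ∧ h v = (n : ℂ) • v := by
  simp [hw, Submodule.mem_inf]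

/-- Gram coefficients -/
noncomputable def gc (m r : ℕ) : ℂ := ∏ k ∈ Finset.range r, (((k : ℂ) + 1) * ((m : ℂ) - k))

lemma gc_succ (m r : ℕ) : gc m (r + 1) = gc m r * (((r : ℂ) + 1) * ((m : ℂ) - r)) := by
  simp [gc, Finset.prod_range_succ]

lemma gc_ne {m r : ℕ} (hr : r ≤ m) : gc m r ≠ 0 := by
  unfold gc
  rw [Finset.prod_ne_zero_iff]
  intro k hk
  have hk' : k < m := lt_of_lt_of_le (Finset.mem_range.1 hk) hr
  refine mul_ne_zero (by exact_mod_cast Nat.succ_ne_zero k) ?_
  rw [sub_ne_zero]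
  exact_mod_cast hk'.ne'

lemma gc_zero {m r : ℕ} (hr : m < r) : gc m r = 0 := by
  unfold gc
  rw [Finset.prod_eq_zero_iff]
  exact ⟨m, Finset.mem_range.2 hr, by simp⟩

namespace HTr

variable {h e f : E →ₗ[ℂ] E} (T : HTr h e f)
include T

lemma fe (x y : E) : inner ℂ (f x) y = inner ℂ x (e y) := by
  rw [← inner_conj_symm, ← T.ef, inner_conj_symm]

lemma h_pow {v : E} {μ : ℂ} (hv : h v = μ • v) (k : ℕ) :
    h ((f ^ k) v) = (μ - 2 * k) • (f ^ k) v := by
  induction k with
  | zero => simpa using hv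
  | succ k ih =>
    rw [pow_succ', Module.End.mul_apply, T.hf, ih, map_smul, ← sub_smul]
    congr 1; push_cast; ring

lemma e_pow {v : E} {μ : ℂ} (hv : h v = μ • v) (he : e v = 0) (k : ℕ) :
    e ((f ^ (k + 1)) v) = (((k : ℂ) + 1) * (μ - k)) • (f ^ k) v := by
  induction k with
  | zero => simp [T.hef, he, hv]
  | succ k ih =>
    rw [pow_succ', Module.End.mul_apply, T.hef, ih, T.h_pow hv, map_smul, ← Module.End.mul_apply f,
      ← pow_succ', ← add_smul]
    congr 1; push_cast; ring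

lemma gram {n m : ℕ} {v w : E} (hv : v ∈ hw h e n) (hw' : w ∈ hw h e m) (r s : ℕ) :
    inner ℂ ((f ^ r) v) ((f ^ s) w) = if r = s then gc m r * inner ℂ v w else 0 := by
  rw [mem_hw] at hv hw'
  induction r generalizing s with
  | zero =>
    cases s with
    | zero => simp [gc]
    | succ s =>
      rw [if_neg (by omega), pow_succ', Module.End.mul_apply, ← T.ef]
      simp [hv.1]
  | succ r ih =>
    cases s with
    | zero =>
      rw [if_neg (by omega), pow_succ', Module.End.mul_apply, T.fe]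
      simp [hw'.1]
    | succ s =>
      rw [pow_succ' f r, Module.End.mul_apply, T.fe, T.e_pow hw'.2 hw'.1, inner_smul_right, ih s]
      by_cases hrs : r = s
      · subst hrs; rw [if_pos rfl, if_pos rfl, gc_succ]; ring
      · rw [if_neg hrs, if_neg (by omega), mul_zero]

lemma orth {n m : ℕ} {v w : E} (hv : v ∈ hw h e n) (hw' : w ∈ hw h e m) (hnm : n ≠ m) :
    inner ℂ v w = 0 := by
  rw [mem_hw] at hv hw'
  have h1 := T.hs v w
  rw [hv.2, hw'.2, inner_smul_left, inner_smul_right, Complex.conj_natCast] at h1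
  have h2 : ((n : ℂ) - m) * inner ℂ v w = 0 := by linear_combination h1
  rcases mul_eq_zero.1 h2 with h3 | h3
  · exact absurd (by exact_mod_cast sub_eq_zero.1 h3) hnm
  · exact h3

lemma pow_zero_of {n : ℕ} {v : E} (hv : v ∈ hw h e n) {r : ℕ} (hr : n < r) : (f ^ r) v = 0 := by
  have := T.gram hv hv r r
  rw [if_pos rfl, gc_zero hr, zero_mul] at this
  exact inner_self_eq_zero.1 this

/-- eigenvalues of lowering / raising chains: some power kills -/
lemma exists_pow_zero [FiniteDimensional ℂ E] {v : E} {μ : ℂ} (hv : h v = μ • v) :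
    ∃ k : ℕ, (e ^ k) v = 0 := by
  by_contra! hcon
  have hpow : ∀ k : ℕ, h ((e ^ k) v) = (μ + 2 * k) • (e ^ k) v := by
    intro k
    induction k with
    | zero => simpa using hv
    | succ k ih =>
      rw [pow_succ', Module.End.mul_apply, T.he, ih, map_smul, ← add_smul]
      congr 1; push_cast; ring
  have hfin : {μ : ℂ | Module.End.HasEigenvalue h μ}.Finite := Module.End.finite_hasEigenvalue h
  have hinj : Function.Injective (fun k : ℕ => μ + 2 * (k : ℂ)) := by
    intro a b hab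
    simpa using hab
  refine (Set.infinite_range_of_injective hinj) (hfin.subset ?_)
  rintro _ ⟨k, rfl⟩
  exact Module.End.hasEigenvalue_of_hasEigenvector
    ⟨Module.End.mem_eigenspace_iff.2 (hpow k), hcon k⟩

/-- weights of highest weight vectors are natural numbers -/
lemma weight_nat {v : E} {μ : ℂ} (hv0 : v ≠ 0) (hv : h v = μ • v) (he : e v = 0)
    [FiniteDimensional ℂ E] : ∃ n : ℕ, μ = n := by
  have h1 : ∃ k : ℕ, (f ^ k) v = 0 := by
    by_contra! hcon
    have hfin : {μ : ℂ | Module.End.HasEigenvalue h μ}.Finite := Module.End.finite_hasEigenvalue h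
    have hinj : Function.Injective (fun k : ℕ => μ - 2 * (k : ℂ)) := by
      intro a b hab
      simpa using hab
    refine (Set.infinite_range_of_injective hinj) (hfin.subset ?_)
    rintro _ ⟨k, rfl⟩
    exact Module.End.hasEigenvalue_of_hasEigenvector
      ⟨Module.End.mem_eigenspace_iff.2 (T.h_pow hv k), hcon k⟩
  obtain ⟨n, hn1, hn2⟩ := Nat.exists_not_and_succ_of_not_zero_of_exists
    (p := fun k => (f ^ k) v = 0) (by simpa using hv0) h1
  have h2 := T.e_pow hv he n
  rw [hn2, map_zero, eq_comm, smul_eq_zero] at h2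
  rcases h2 with h2 | h2
  · rcases mul_eq_zero.1 h2 with h3 | h3
    · exact absurd (by exact_mod_cast h3) (Nat.succ_ne_zero n)
    · exact ⟨n, sub_eq_zero.1 h3⟩
  · exact absurd h2 hn1

/-- an invariant nonzero subspace contains a highest weight vector -/
lemma exists_hw [FiniteDimensional ℂ E] (K : Submodule ℂ E) (hK : K ≠ ⊥)
    (Kh : ∀ x ∈ K, h x ∈ K) (Ke : ∀ x ∈ K, e x ∈ K) :
    ∃ n : ℕ, ∃ v ∈ K, v ≠ 0 ∧ v ∈ hw h e n := by
  have : Nontrivial K := Submodule.nontrivial_iff_ne_bot.2 hK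
  obtain ⟨μ, hμ⟩ := Module.End.exists_eigenvalue (h.restrict Kh)
  obtain ⟨w, hw1, hw0⟩ := hμ.exists_hasEigenvector
  have hw2 : h (w : E) = μ • (w : E) := by
    have := Module.End.mem_eigenspace_iff.1 hw1
    exact congrArg Subtype.val this
  have hw3 : (w : E) ≠ 0 := by simpa using hw0
  obtain ⟨k, hk1, hk2⟩ := Nat.exists_not_and_succ_of_not_zero_of_exists
    (p := fun k => (e ^ k) (w : E) = 0) (by simpa using hw3) (T.exists_pow_zero hw2)
  have hpow : ∀ k : ℕ, h ((e ^ k) (w : E)) = (μ + 2 * k) • (e ^ k) (w : E) := by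
    intro k
    induction k with
    | zero => simpa using hw2
    | succ k ih =>
      rw [pow_succ', Module.End.mul_apply, T.he, ih, map_smul, ← add_smul]
      congr 1; push_cast; ring
  have hKe : ∀ k : ℕ, (e ^ k) (w : E) ∈ K := by
    intro k
    induction k with
    | zero => simp
    | succ k ih => rw [pow_succ', Module.End.mul_apply]; exact Ke _ ih
  have he0 : e ((e ^ k) (w : E)) = 0 := by
    rw [← Module.End.mul_apply, ← pow_succ']; exact hk2
  obtain ⟨n, hn⟩ := T.weight_nat hk1 (hpow k) he0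
  exact ⟨n, _, hKe k, hk1, mem_hw.2 ⟨he0, by rw [hpow k, hn]⟩⟩

lemma weight_lt [FiniteDimensional ℂ E] {n : ℕ} {v : E} (hv : v ∈ hw h e n) (hv0 : v ≠ 0) :
    n < Module.finrank ℂ E := by
  have hli : LinearIndependent ℂ (fun r : Fin (n + 1) => (f ^ r.val) v) := by
    refine linearIndependent_of_ne_zero_of_inner_eq_zero ?_ ?_
    · intro r hr
      have h1 := T.gram hv hv r.val r.val
      rw [if_pos rfl, hr, inner_zero_left] at h1
      rcases mul_eq_zero.1 h1.symm with h2 | h2
      · exact gc_ne (Nat.lt_succ_iff.1 r.2) h2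
      · exact hv0 (inner_self_eq_zero.1 h2)
    · intro r s hrs
      show inner ℂ ((f ^ r.val) v) ((f ^ s.val) v) = 0
      rw [T.gram hv hv, if_neg]
      intro h1
      exact hrs (Fin.ext h1)
  have := hli.fintype_card_le_finrank
  rw [Fintype.card_fin] at this
  omega

/-- the span of all lowered highest weight vectors -/
lemma span_top [FiniteDimensional ℂ E] :
    Submodule.span ℂ {x : E | ∃ n : ℕ, ∃ v ∈ hw h e n, ∃ r : ℕ, x = (f ^ r) v} = ⊤ := by
  set S := Submodule.span ℂ {x : E | ∃ n : ℕ, ∃ v ∈ hw h e n, ∃ r : ℕ, x = (f ^ r) v} with hS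
  have Sf : ∀ x ∈ S, f x ∈ S := by
    intro x hx
    induction hx using Submodule.span_induction with
    | mem x hx =>
      obtain ⟨n, v, hv, r, rfl⟩ := hx
      rw [← Module.End.mul_apply, ← pow_succ']
      exact Submodule.subset_span ⟨n, v, hv, r + 1, rfl⟩
    | zero => rw [map_zero]; exact Submodule.zero_mem _
    | add x y _ _ hx hy => rw [map_add]; exact Submodule.add_mem _ hx hy
    | smul c x _ hx => rw [map_smul]; exact Submodule.smul_mem _ _ hx
  have Sh : ∀ x ∈ S, h x ∈ S := by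
    intro x hx
    induction hx using Submodule.span_induction with
    | mem x hx =>
      obtain ⟨n, v, hv, r, rfl⟩ := hx
      rw [T.h_pow (mem_hw.1 hv).2]
      exact Submodule.smul_mem _ _ (Submodule.subset_span ⟨n, v, hv, r, rfl⟩)
    | zero => rw [map_zero]; exact Submodule.zero_mem _
    | add x y _ _ hx hy => rw [map_add]; exact Submodule.add_mem _ hx hy
    | smul c x _ hx => rw [map_smul]; exact Submodule.smul_mem _ _ hx
  have Oh : ∀ x ∈ Sᗮ, h x ∈ Sᗮ := by
    intro x hx
    rw [Submodule.mem_orthogonal] at hx ⊢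
    intro y hy
    rw [← T.hs]
    exact hx _ (Sh y hy)
  have Oe : ∀ x ∈ Sᗮ, e x ∈ Sᗮ := by
    intro x hx
    rw [Submodule.mem_orthogonal] at hx ⊢
    intro y hy
    rw [← T.fe]
    exact hx _ (Sf y hy)
  by_contra hne
  have hO : Sᗮ ≠ ⊥ := fun h0 => hne ((Submodule.orthogonal_eq_bot_iff).1 h0)
  obtain ⟨n, v, hvK, hv0, hv⟩ := T.exists_hw Sᗮ hO Oh Oe
  have hvS : v ∈ S := Submodule.subset_span ⟨n, v, hv, 0, by simp⟩
  rw [Submodule.mem_orthogonal] at hvK
  exact hv0 (inner_self_eq_zero.1 (hvK v hvS))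

end HTr

/-- index type of a basis with multiplicities `μ` -/
abbrev Ix {N : ℕ} (μ : Fin N → ℕ) : Type := Σ n : Fin N, Fin (μ n) × Fin (n.val + 1)

theorem HTr.exists_basis [FiniteDimensional ℂ E] {h e f : E →ₗ[ℂ] E} (T : HTr h e f) {N : ℕ}
    (hN : Module.finrank ℂ E = N) (μ : Fin N → ℕ)
    (hμ : ∀ n : Fin N, Module.finrank ℂ (hw h e n.val) = μ n) :
    ∃ a : (n : Fin N) → Fin (μ n) → E, (∀ n k, a n k ∈ hw h e n.val) ∧
      (∀ n k l, inner ℂ (a n k) (a n l) = if k = l then (1 : ℂ) else 0) ∧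
      ∃ b : Module.Basis (Ix μ) ℂ E, ∀ i : Ix μ, b i = (f ^ i.2.2.val) (a i.1 i.2.1) := by
  let o : (n : Fin N) → OrthonormalBasis (Fin (μ n)) ℂ (hw h e n.val) := fun n =>
    (stdOrthonormalBasis ℂ (hw h e n.val)).reindex (finCongr (hμ n))
  let a : (n : Fin N) → Fin (μ n) → E := fun n k => (o n k : E)
  have ha1 : ∀ n k, a n k ∈ hw h e n.val := fun n k => (o n k).2
  have ha2 : ∀ n k l, inner ℂ (a n k) (a n l) = if k = l then (1 : ℂ) else 0 := by
    intro n k l
    have h1 := (orthonormal_iff_ite.1 (o n).orthonormal) k l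
    rw [Submodule.coe_inner] at h1
    exact h1
  refine ⟨a, ha1, ha2, ?_⟩
  have hli : LinearIndependent ℂ (fun i : Ix μ => (f ^ i.2.2.val) (a i.1 i.2.1)) := by
    refine linearIndependent_of_ne_zero_of_inner_eq_zero ?_ ?_
    · rintro ⟨n, k, r⟩ hr
      have h1 := T.gram (ha1 n k) (ha1 n k) r.val r.val
      simp only at hr
      rw [if_pos rfl, hr, inner_zero_left, ha2, if_pos rfl, mul_one] at h1
      exact gc_ne (Nat.lt_succ_iff.1 r.2) h1.symm
    · rintro ⟨n, k, r⟩ ⟨m, l, s⟩ hne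
      show inner ℂ ((f ^ r.val) (a n k)) ((f ^ s.val) (a m l)) = 0
      rw [T.gram (ha1 n k) (ha1 m l)]
      split_ifs with hrs
      · by_cases hnm : n = m
        · subst hnm
          rw [ha2, if_neg, mul_zero]
          intro hkl
          apply hne
          rw [hkl, Fin.ext hrs]
        · rw [T.orth (ha1 n k) (ha1 m l) (fun h1 => hnm (Fin.ext h1)), mul_zero]
      · rfl
  have hsp : ⊤ ≤ Submodule.span ℂ (Set.range (fun i : Ix μ => (f ^ i.2.2.val) (a i.1 i.2.1))) := by
    rw [← T.span_top, Submodule.span_le]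
    rintro x ⟨n, v, hv, r, rfl⟩
    by_cases hv0 : v = 0
    · rw [hv0, map_zero]; exact Submodule.zero_mem _
    have hnN : n < N := hN ▸ T.weight_lt hv hv0
    by_cases hr : n < r
    · rw [T.pow_zero_of hv hr]; exact Submodule.zero_mem _
    push Not at hr
    have hsum := (o ⟨n, hnN⟩).sum_repr ⟨v, hv⟩
    have hsum' : v = ∑ k, (o ⟨n, hnN⟩).repr ⟨v, hv⟩ k • a ⟨n, hnN⟩ k := by
      have := congrArg Subtype.val hsum
      rw [Submodule.coe_sum] at this
      exact this.symm
    rw [hsum', map_sum]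
    refine Submodule.sum_mem _ fun k _ => ?_
    rw [map_smul]
    refine Submodule.smul_mem _ _ (Submodule.subset_span ?_)
    exact ⟨⟨⟨n, hnN⟩, k, ⟨r, Nat.lt_succ_of_le hr⟩⟩, rfl⟩
  exact ⟨Module.Basis.mk hli hsp, fun i => by rw [Module.Basis.mk_apply]⟩

/-- the multiplicities determine the dimension -/
theorem HTr.sum_mult [FiniteDimensional ℂ E] {h e f : E →ₗ[ℂ] E} (T : HTr h e f) {N : ℕ}
    (hN : Module.finrank ℂ E = N) :
    ∑ n : Fin N, Module.finrank ℂ (hw h e n.val) * (n.val + 1) = N := by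
  obtain ⟨a, -, -, b, -⟩ := T.exists_basis hN (fun n => Module.finrank ℂ (hw h e n.val))
    (fun n => rfl)
  have h1 := Module.finrank_eq_card_basis b
  rw [hN, Fintype.card_sigma] at h1
  simpa [Fintype.card_prod, Fintype.card_fin] using h1.symm

/-- uniqueness -/
theorem HTr.equiv {E' : Type*} [NormedAddCommGroup E'] [InnerProductSpace ℂ E']
    [FiniteDimensional ℂ E] [FiniteDimensional ℂ E'] {h e f : E →ₗ[ℂ] E} (T : HTr h e f)
    {h' e' f' : E' →ₗ[ℂ] E'} (T' : HTr h' e' f') {N : ℕ}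
    (hN : Module.finrank ℂ E = N) (hN' : Module.finrank ℂ E' = N)
    (hmu : ∀ n : Fin N, Module.finrank ℂ (hw h e n.val) = Module.finrank ℂ (hw h' e' n.val)) :
    ∃ U : E ≃ₗᵢ[ℂ] E', (∀ x, U (h x) = h' (U x)) ∧ (∀ x, U (e x) = e' (U x)) ∧
      ∀ x, U (f x) = f' (U x) := by
  obtain ⟨a, ha1, ha2, b, hb⟩ := T.exists_basis hN (fun n => Module.finrank ℂ (hw h e n.val))
    (fun n => rfl)
  obtain ⟨a', ha1', ha2', b', hb'⟩ := T'.exists_basis hN'
    (fun n => Module.finrank ℂ (hw h e n.val)) (fun n => (hmu n).symm)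
  let L : E ≃ₗ[ℂ] E' := b.equiv b' (Equiv.refl _)
  have hL : ∀ i, L (b i) = b' i := fun i => by simp [L]
  have hpow : ∀ n k (r : ℕ), L ((f ^ r) (a n k)) = (f' ^ r) (a' n k) := by
    intro n k r
    by_cases hr : n.val < r
    · rw [T.pow_zero_of (ha1 n k) hr, T'.pow_zero_of (ha1' n k) hr, map_zero]
    · have h1 := hL ⟨n, k, ⟨r, by omega⟩⟩
      rw [hb, hb'] at h1
      exact h1
  have hgram : ∀ i j, inner ℂ (b' i) (b' j) = inner ℂ (b i) (b j) := by
    rintro ⟨n, k, r⟩ ⟨m, l, s⟩
    rw [hb, hb, hb', hb', T.gram (ha1 n k) (ha1 m l), T'.gram (ha1' n k) (ha1' m l)]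
    by_cases hnm : n = m
    · subst hnm
      rw [ha2, ha2']
    · rw [T.orth (ha1 n k) (ha1 m l) (fun h1 => hnm (Fin.ext h1)),
        T'.orth (ha1' n k) (ha1' m l) (fun h1 => hnm (Fin.ext h1))]
  have hinner1 : ∀ i y, inner ℂ (L (b i)) (L y) = inner ℂ (b i) y := by
    intro i y
    have : (innerₛₗ ℂ (L (b i))).comp L.toLinearMap = innerₛₗ ℂ (b i) := by
      refine b.ext fun j => ?_
      simp only [LinearMap.comp_apply, LinearEquiv.coe_coe, innerₛₗ_apply_apply, hL]
      exact hgram i j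
    exact LinearMap.congr_fun this y
  have hinner : ∀ x y, inner ℂ (L x) (L y) = inner ℂ x y := by
    intro x y
    have : (innerₛₗ ℂ (L y)).comp L.toLinearMap = innerₛₗ ℂ y := by
      refine b.ext fun j => ?_
      simp only [LinearMap.comp_apply, LinearEquiv.coe_coe, innerₛₗ_apply_apply]
      rw [← inner_conj_symm, hinner1, inner_conj_symm]
    have h1 := LinearMap.congr_fun this x
    simp only [LinearMap.comp_apply, LinearEquiv.coe_coe, innerₛₗ_apply_apply] at h1
    rw [← inner_conj_symm, h1, inner_conj_symm]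
  have hf1 : ∀ x, L (f x) = f' (L x) := by
    intro x
    have : L.toLinearMap.comp f = f'.comp L.toLinearMap := by
      refine b.ext fun j => ?_
      obtain ⟨n, k, r⟩ := j
      simp only [LinearMap.comp_apply, LinearEquiv.coe_coe, hb]
      rw [hpow, ← Module.End.mul_apply, ← pow_succ', hpow, ← Module.End.mul_apply, ← pow_succ']
    exact LinearMap.congr_fun this x
  have hh1 : ∀ x, L (h x) = h' (L x) := by
    intro x
    have : L.toLinearMap.comp h = h'.comp L.toLinearMap := by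
      refine b.ext fun j => ?_
      obtain ⟨n, k, r⟩ := j
      simp only [LinearMap.comp_apply, LinearEquiv.coe_coe, hb]
      rw [hpow, T.h_pow (mem_hw.1 (ha1 n k)).2, T'.h_pow (mem_hw.1 (ha1' n k)).2, map_smul, hpow]
    exact LinearMap.congr_fun this x
  have he1 : ∀ x, L (e x) = e' (L x) := by
    intro x
    refine ext_inner_right ℂ fun y => ?_
    obtain ⟨z, rfl⟩ := L.surjective y
    rw [hinner, T.ef, T'.ef, ← hf1, hinner]
  exact ⟨L.isometryOfInner hinner, hh1, he1, hf1⟩

end Vale.Agent.P353.Z.U.Cnt
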