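import Vale.Agent.P353.Z.U.MCountA

/-! # P353, general `N`: Hermitian `sl₂` triples of matrices and partitions -/

namespace Vale.Agent.P353.Z.U.Cnt

open Matrix

variable {N : ℕ}

/-- the linear map of a matrix on Euclidean space -/
noncomputable abbrev TL (A : Matrix (Fin N) (Fin N) ℂ) :
    EuclideanSpace ℂ (Fin N) →ₗ[ℂ] EuclideanSpace ℂ (Fin N) := Matrix.toEuclideanLin A

/-- angular momentum triple -/
structure JT (J : Fin 3 → Matrix (Fin N) (Fin N) ℂ) : Prop where
  herm : ∀ k, (J k).conjTranspose = J k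
  comm : ∀ k, J (k + 1) * J (k + 2) - J (k + 2) * J (k + 1) = Complex.I • J k

/-- the raising operator -/
noncomputable def Ep (J : Fin 3 → Matrix (Fin N) (Fin N) ℂ) : Matrix (Fin N) (Fin N) ℂ :=
  J 0 + Complex.I • J 1

/-- the lowering operator -/
noncomputable def Em (J : Fin 3 → Matrix (Fin N) (Fin N) ℂ) : Matrix (Fin N) (Fin N) ℂ :=
  J 0 - Complex.I • J 1

/-- the weight operator -/
noncomputable def Hh (J : Fin 3 → Matrix (Fin N) (Fin N) ℂ) : Matrix (Fin N) (Fin N) ℂ :=
  (2 : ℂ) • J 2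

lemma TL_mul (A B : Matrix (Fin N) (Fin N) ℂ) (x) : TL (A * B) x = TL A (TL B x) := by
  simp [TL, Matrix.toLpLin_apply, Matrix.mulVec_mulVec]

lemma TL_inner (A : Matrix (Fin N) (Fin N) ℂ) (x y) :
    inner ℂ (TL A x) y = inner ℂ x (TL A.conjTranspose y) := by
  rw [TL, TL, Matrix.toEuclideanLin_conjTranspose_eq_adjoint, LinearMap.adjoint_inner_right]

variable {J : Fin 3 → Matrix (Fin N) (Fin N) ℂ}

lemma JT.c01 (hJ : JT J) : J 0 * J 1 - J 1 * J 0 = Complex.I • J 2 := hJ.comm 2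
lemma JT.c12 (hJ : JT J) : J 1 * J 2 - J 2 * J 1 = Complex.I • J 0 := hJ.comm 0
lemma JT.c20 (hJ : JT J) : J 2 * J 0 - J 0 * J 2 = Complex.I • J 1 := hJ.comm 1

lemma JT.htr (hJ : JT J) : HTr (TL (Hh J)) (TL (Ep J)) (TL (Em J)) := by
  have hH : (Hh J).conjTranspose = Hh J := by
    simp [Hh, hJ.herm]
  have hE : (Ep J).conjTranspose = Em J := by
    simp [Ep, Em, hJ.herm, sub_eq_add_neg]
  have h1 : Hh J * Ep J = Ep J * Hh J + (2 : ℂ) • Ep J := by
    have e1 : Hh J * Ep J - Ep J * Hh J = (2 : ℂ) • (J 2 * J 0 - J 0 * J 2)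
        - (2 * Complex.I) • (J 1 * J 2 - J 2 * J 1) := by
      simp only [Hh, Ep, mul_add, add_mul, smul_mul_assoc, mul_smul_comm, smul_sub, smul_add,
        smul_smul]
      module
    rw [← sub_eq_iff_eq_add', e1, hJ.c20, hJ.c12, Ep, smul_smul, smul_smul, smul_add, smul_smul,
      mul_assoc, Complex.I_mul_I]
    module
  have h2 : Hh J * Em J = Em J * Hh J - (2 : ℂ) • Em J := by
    have e1 : Hh J * Em J - Em J * Hh J = (2 : ℂ) • (J 2 * J 0 - J 0 * J 2)
        + (2 * Complex.I) • (J 1 * J 2 - J 2 * J 1) := by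
      simp only [Hh, Em, mul_sub, sub_mul, smul_mul_assoc, mul_smul_comm, smul_sub,
        smul_smul]
      module
    have e2 : (2 : ℂ) • (J 2 * J 0 - J 0 * J 2) + (2 * Complex.I) • (J 1 * J 2 - J 2 * J 1) =
        -((2 : ℂ) • Em J) := by
      rw [hJ.c20, hJ.c12, Em, smul_smul, smul_smul, smul_sub, smul_smul, mul_assoc,
        Complex.I_mul_I]
      module
    rw [sub_eq_add_neg, ← e2, ← e1]
    abel
  have h3 : Ep J * Em J = Em J * Ep J + Hh J := by
    have e1 : Ep J * Em J - Em J * Ep J = (-2 * Complex.I) • (J 0 * J 1 - J 1 * J 0) := by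
      simp only [Em, Ep, mul_sub, sub_mul, mul_add, add_mul, smul_mul_assoc, mul_smul_comm,
        smul_sub, smul_add, smul_smul]
      module
    rw [← sub_eq_iff_eq_add', e1, hJ.c01, Hh, smul_smul, mul_assoc, Complex.I_mul_I]
    norm_num
  refine ⟨fun x y => ?_, fun x y => ?_, fun x => ?_, fun x => ?_, fun x => ?_⟩
  · rw [TL_inner, hH]
  · rw [TL_inner, hE]
  · rw [← TL_mul, ← TL_mul, h1]
    simp [TL, map_add]
  · rw [← TL_mul, ← TL_mul, h2]
    simp [TL, map_sub]
  · rw [← TL_mul, ← TL_mul, h3]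
    simp [TL, map_add]

/-- multiplicities -/
noncomputable def mlt (J : Fin 3 → Matrix (Fin N) (Fin N) ℂ) (n : Fin N) : ℕ :=
  Module.finrank ℂ (hw (TL (Hh J)) (TL (Ep J)) n.val)

lemma JT.sum_mlt (hJ : JT J) : ∑ n : Fin N, mlt J n * (n.val + 1) = N :=
  hJ.htr.sum_mult (by simp)

/-- the multiset of dimensions -/
def mparts (m : Fin N → ℕ) : Multiset ℕ := ∑ n : Fin N, Multiset.replicate (m n) (n.val + 1)

lemma count_mparts (m : Fin N → ℕ) (k : Fin N) : (mparts m).count (k.val + 1) = m k := by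
  unfold mparts
  rw [Multiset.count_sum', Finset.sum_eq_single k]
  · simp
  · intro b _ hb
    rw [Multiset.count_replicate, if_neg]
    intro h1
    exact hb (Fin.ext (by omega))
  · simp

lemma sum_mparts (m : Fin N → ℕ) : (mparts m).sum = ∑ n : Fin N, m n * (n.val + 1) := by
  unfold mparts
  rw [← Multiset.coe_sumAddMonoidHom, map_sum]
  simp

lemma pos_mparts (m : Fin N → ℕ) {i : ℕ} (hi : i ∈ mparts m) : 0 < i := by
  unfold mparts at hi
  rw [Multiset.mem_sum] at hi
  obtain ⟨n, _, hn⟩ := hi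
  rw [Multiset.eq_of_mem_replicate hn]
  omega

/-- the partition of an angular momentum triple -/
noncomputable def JT.part (hJ : JT J) : Nat.Partition N where
  parts := mparts (mlt J)
  parts_pos := fun hi => pos_mparts _ hi
  parts_sum := by rw [sum_mparts, hJ.sum_mlt]

lemma JT.mlt_eq {J' : Fin 3 → Matrix (Fin N) (Fin N) ℂ} (hJ : JT J) (hJ' : JT J')
    (h : hJ.part = hJ'.part) (n : Fin N) : mlt J n = mlt J' n := by
  have h1 : mparts (mlt J) = mparts (mlt J') := congrArg Nat.Partition.parts h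
  rw [← count_mparts (mlt J) n, h1, count_mparts]

/-- a unitary matrix can be multiplied by a phase to have determinant `1` -/
lemma exists_phase (u : Matrix (Fin N) (Fin N) ℂ) (hu : u.conjTranspose * u = 1) :
    ∃ c : ℂ, star c * c = 1 ∧ c ^ N * u.det = 1 := by
  have hd : star u.det * u.det = 1 := by
    rw [← Matrix.det_conjTranspose, ← Matrix.det_mul, hu, Matrix.det_one]
  have hd0 : u.det ≠ 0 := by
    rintro h0
    rw [h0, mul_zero] at hd
    exact zero_ne_one hd
  rcases Nat.eq_zero_or_pos N with h0 | h0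
  · subst h0
    exact ⟨1, by simp, by simp⟩
  · obtain ⟨c, hc⟩ := IsAlgClosed.exists_pow_nat_eq (u.det)⁻¹ h0
    refine ⟨c, ?_, by rw [hc, inv_mul_cancel₀ hd0]⟩
    have h1 : ‖u.det‖ = 1 := by
      have h2 : ‖star u.det * u.det‖ = 1 := by rw [hd, norm_one]
      rw [norm_mul, norm_star] at h2
      nlinarith [norm_nonneg u.det]
    have h3 : ‖c‖ ^ N = 1 := by rw [← norm_pow, hc, norm_inv, h1, inv_one]
    have h4 : ‖c‖ = 1 := (pow_eq_one_iff_of_nonneg (norm_nonneg c) h0.ne').1 h3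
    have h5 : star c * c = ((‖c‖ ^ 2 : ℝ) : ℂ) := by
      rw [Complex.star_def, mul_comm, Complex.mul_conj, Complex.normSq_eq_norm_sq]
    rw [h5, h4]; simp

/-- two angular momentum triples with the same partition are conjugate under `SU(N)` -/
theorem JT.conj {J' : Fin 3 → Matrix (Fin N) (Fin N) ℂ} (hJ : JT J) (hJ' : JT J')
    (h : hJ.part = hJ'.part) :
    ∃ V : Matrix.specialUnitaryGroup (Fin N) ℂ,
      ∀ k, J' k = V.val * J k * V.val.conjTranspose := by
  obtain ⟨U, hU1, hU2, hU3⟩ := hJ.htr.equiv hJ'.htr (N := N) (by simp) (by simp)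
    (fun n => hJ.mlt_eq hJ' h n)
  set u : Matrix (Fin N) (Fin N) ℂ := Matrix.toEuclideanLin.symm U.toLinearEquiv.toLinearMap with hu
  have huU : ∀ x, TL u x = U x := by
    intro x
    simp [TL, hu]
  have hinj : ∀ A B : Matrix (Fin N) (Fin N) ℂ, (∀ x, TL A x = TL B x) → A = B := by
    intro A B hAB
    exact Matrix.toEuclideanLin.injective (LinearMap.ext hAB)
  have huu : u.conjTranspose * u = 1 := by
    apply hinj
    intro x
    refine ext_inner_left ℂ fun y => ?_
    rw [TL_mul, ← TL_inner, huU, huU, LinearIsometryEquiv.inner_map_map]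
    simp [TL]
  have key : ∀ A A' : Matrix (Fin N) (Fin N) ℂ, (∀ x, U (TL A x) = TL A' (U x)) →
      u * A = A' * u := by
    intro A A' hA
    apply hinj
    intro x
    rw [TL_mul, TL_mul, huU, huU, hA]
  have k1 := key _ _ hU1
  have k2 := key _ _ hU2
  have k3 := key _ _ hU3
  obtain ⟨c, hc1, hc2⟩ := exists_phase u huu
  have hV : (c • u) ∈ Matrix.specialUnitaryGroup (Fin N) ℂ := by
    rw [Matrix.mem_specialUnitaryGroup_iff, Matrix.mem_unitaryGroup_iff', Matrix.star_eq_conjTranspose,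
      Matrix.conjTranspose_smul, Matrix.smul_mul, Matrix.mul_smul, smul_smul, hc1, one_smul, huu,
      Matrix.det_smul, Fintype.card_fin, hc2]
    exact ⟨rfl, rfl⟩
  have huu' : u * u.conjTranspose = 1 := mul_eq_one_comm.1 huu
  have hc1' : c * star c = 1 := by rw [mul_comm]; exact hc1
  have hconj : ∀ A A' : Matrix (Fin N) (Fin N) ℂ, u * A = A' * u →
      A' = (c • u) * A * (c • u).conjTranspose := by
    intro A A' hA
    rw [Matrix.conjTranspose_smul, Matrix.smul_mul, Matrix.smul_mul, Matrix.mul_smul, smul_smul,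
      hc1', one_smul, hA, mul_assoc, huu', mul_one]
  have hlin : ∀ k, u * J k = J' k * u := by
    have e0 : ∀ J : Fin 3 → Matrix (Fin N) (Fin N) ℂ,
        J 0 = (1 / 2 : ℂ) • (Ep J + Em J) := by
      intro J; simp only [Ep, Em]; module
    have e1 : ∀ J : Fin 3 → Matrix (Fin N) (Fin N) ℂ,
        J 1 = (-Complex.I / 2 : ℂ) • (Ep J - Em J) := by
      intro J
      have : Ep J - Em J = (2 * Complex.I) • J 1 := by simp only [Ep, Em]; module
      rw [this, smul_smul]
      have h2 : (-Complex.I / 2 : ℂ) * (2 * Complex.I) = 1 := by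
        ring_nf; simp
      rw [h2, one_smul]
    have e2 : ∀ J : Fin 3 → Matrix (Fin N) (Fin N) ℂ, J 2 = (1 / 2 : ℂ) • Hh J := by
      intro J; simp only [Hh]; module
    intro k
    fin_cases k
    · show u * J 0 = J' 0 * u
      rw [e0 J, e0 J', Matrix.mul_smul, Matrix.smul_mul, mul_add, add_mul, k2, k3]
    · show u * J 1 = J' 1 * u
      rw [e1 J, e1 J', Matrix.mul_smul, Matrix.smul_mul, mul_sub, sub_mul, k2, k3]
    · show u * J 2 = J' 2 * u
      rw [e2 J, e2 J', Matrix.mul_smul, Matrix.smul_mul, k1]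
  exact ⟨⟨c • u, hV⟩, fun k => hconj _ _ (hlin k)⟩

end Vale.Agent.P353.Z.U.Cnt
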