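import Vale.Agent.P353.Z.U.StmtA

/-! # P353, uniqueness for `N = 2`: the ten dimensional Fierz identity -/

open MeasureTheory Filter Topology
open scoped ContDiff Matrix

namespace Vale.Agent.P353.Z.U

variable {dc : ℕ}

variable {F : Type*} [NormedAddCommGroup F] [InnerProductSpace ℂ F]

/-- the gamma matrices and the unit matrix -/
noncomputable def f10N (S : Setup dc F) : Option (Fin 9) → Matrix (Fin 16) (Fin 16) ℂ
  | none => 1
  | some i => S.g i

/-- signs -/
noncomputable def f10w : Option (Fin 9) → ℂ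
  | none => -1
  | some _ => 1

/-- the tensor `∑ ± N ⊗ N` -/
noncomputable def f10E (S : Setup dc F) (a b c d : Fin 16) : ℂ :=
  ∑ μ, f10w μ * (f10N S μ a b * f10N S μ c d)

theorem f10_symm (S : Setup dc F) (μ : Option (Fin 9)) : (f10N S μ)ᵀ = f10N S μ := by
  cases μ with
  | none => exact Matrix.transpose_one
  | some i => exact S.g_symm i

theorem f10_real (S : Setup dc F) (μ : Option (Fin 9)) (a b : Fin 16) : (f10N S μ a b).im = 0 := by
  cases μ with
  | none =>
    change ((1 : Matrix (Fin 16) (Fin 16) ℂ) a b).im = 0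
    rw [Matrix.one_apply]
    split_ifs <;> simp
  | some i => exact S.g_real i a b

theorem f10_wreal (μ : Option (Fin 9)) : (f10w μ).im = 0 := by
  cases μ <;> simp [f10w]

theorem f10_trace_one (S : Setup dc F) (i : Fin 9) : (S.g i).trace = 0 := by
  obtain ⟨j, hj⟩ : ∃ j : Fin 9, i ≠ j := ⟨i + 1, by
    have : ∀ i : Fin 9, i ≠ i + 1 := by decide
    exact this i⟩
  have h1 : S.g i = S.g j * S.g j * S.g i := by rw [S.g_sq' j, one_mul]
  have h2 : (S.g j * S.g j * S.g i).trace = -(S.g j * S.g j * S.g i).trace := by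
    conv_lhs => rw [mul_assoc, S.g_ac hj.symm, mul_neg, Matrix.trace_neg, ← mul_assoc,
      Matrix.trace_mul_comm, ← mul_assoc]
  rw [h1]
  have h3 : (2 : ℂ) * (S.g j * S.g j * S.g i).trace = 0 := by linear_combination h2
  simpa using h3

theorem f10_trace (S : Setup dc F) (μ ν : Option (Fin 9)) :
    (f10N S μ * f10N S ν).trace = if μ = ν then 16 else 0 := by
  rcases μ with _ | i <;> rcases ν with _ | j
  · simp only [f10N, mul_one, if_true, CS.trace_one16]
  · simp only [f10N, one_mul, f10_trace_one, reduceCtorEq, if_false]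
  · simp only [f10N, mul_one, f10_trace_one, reduceCtorEq, if_false]
  · simp only [f10N, Option.some.injEq]
    exact S.trace_g_g i j

theorem f10_trace4 (S : Setup dc F) (μ ν : Option (Fin 9)) :
    (f10N S μ * f10N S ν * (f10N S μ * f10N S ν)).trace =
      if μ = none ∨ ν = none ∨ μ = ν then 16 else -16 := by
  rcases μ with _ | i <;> rcases ν with _ | j
  · simp only [f10N, mul_one, true_or, if_true, CS.trace_one16]
  · simp only [f10N, one_mul, true_or, if_true, S.g_sq', CS.trace_one16]
  · simp only [f10N, mul_one, true_or, or_true, if_true, S.g_sq', CS.trace_one16]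
  · simp only [f10N, reduceCtorEq, false_or, Option.some.injEq]
    by_cases h : i = j
    · subst h
      rw [if_pos rfl, S.g_sq', mul_one, CS.trace_one16]
    · rw [if_neg h]
      have h1 : S.g i * S.g j * (S.g i * S.g j) = -1 := by
        calc S.g i * S.g j * (S.g i * S.g j) = -(S.g j * S.g i) * (S.g i * S.g j) := by
              rw [S.g_ac h]
          _ = -(S.g j * (S.g i * S.g i) * S.g j) := by
              rw [neg_mul]; congr 1; simp only [mul_assoc]
          _ = -1 := by rw [S.g_sq', mul_one, S.g_sq']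
      rw [h1, Matrix.trace_neg, CS.trace_one16]

theorem f10_tr2 (S : Setup dc F) (μ ν : Option (Fin 9)) :
    ∑ a, ∑ b, f10N S μ a b * f10N S ν a b = (f10N S μ * f10N S ν).trace := by
  rw [Matrix.trace]
  refine Finset.sum_congr rfl fun a _ => ?_
  rw [Matrix.diag_apply, Matrix.mul_apply]
  refine Finset.sum_congr rfl fun b _ => ?_
  conv_lhs => rw [← f10_symm S ν, Matrix.transpose_apply]

theorem f10_tr4 (S : Setup dc F) (μ ν : Option (Fin 9)) :
    ∑ a, ∑ b, ∑ c, ∑ d, (f10N S μ a b * f10N S μ c d) * (f10N S ν b c * f10N S ν a d) =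
      (f10N S μ * f10N S ν * (f10N S μ * f10N S ν)).trace := by
  rw [Matrix.trace]
  refine Finset.sum_congr rfl fun a _ => ?_
  rw [Matrix.diag_apply, Matrix.mul_apply, Finset.sum_comm]
  refine Finset.sum_congr rfl fun c _ => ?_
  rw [Matrix.mul_apply, Matrix.mul_apply, Finset.sum_mul_sum]
  refine Finset.sum_congr rfl fun b _ => Finset.sum_congr rfl fun d _ => ?_
  have h1 : f10N S ν a d = f10N S ν d a := by
    conv_lhs => rw [← f10_symm S ν, Matrix.transpose_apply]
  rw [h1]
  ring

theorem f10_comm (f : Fin 16 → Option (Fin 9) → Option (Fin 9) → ℂ) :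
    ∑ d, ∑ μ, ∑ ν, f d μ ν = ∑ μ, ∑ ν, ∑ d, f d μ ν := by
  rw [Finset.sum_comm]
  exact Finset.sum_congr rfl fun _ _ => Finset.sum_comm

theorem f10_cyc (G : Fin 16 → Fin 16 → Fin 16 → Fin 16 → ℂ) :
    ∑ a, ∑ b, ∑ c, ∑ d, G b c a d = ∑ a, ∑ b, ∑ c, ∑ d, G a b c d := by
  rw [Finset.sum_comm]
  exact Finset.sum_congr rfl fun a _ => Finset.sum_comm

theorem f10_S1 (S : Setup dc F) :
    ∑ a, ∑ b, ∑ c, ∑ d, f10E S a b c d ^ 2 = 2560 := by
  have h1 : ∀ a b c d, f10E S a b c d ^ 2 = ∑ μ, ∑ ν, f10w μ * f10w ν *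
      ((f10N S μ a b * f10N S ν a b) * (f10N S μ c d * f10N S ν c d)) := by
    intro a b c d
    rw [f10E, sq, Finset.sum_mul_sum]
    refine Finset.sum_congr rfl fun μ _ => Finset.sum_congr rfl fun ν _ => ?_
    ring
  simp_rw [h1, f10_comm, ← Finset.mul_sum, ← Finset.sum_mul, f10_tr2, f10_trace]
  simp [Fintype.sum_option, f10w, Finset.sum_ite_eq]
  norm_num

theorem f10_S2 (S : Setup dc F) :
    ∑ a, ∑ b, ∑ c, ∑ d, f10E S a b c d * f10E S b c a d = -1280 := by
  have h1 : ∀ a b c d, f10E S a b c d * f10E S b c a d = ∑ μ, ∑ ν, f10w μ * f10w ν *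
      ((f10N S μ a b * f10N S μ c d) * (f10N S ν b c * f10N S ν a d)) := by
    intro a b c d
    rw [f10E, f10E, Finset.sum_mul_sum]
    refine Finset.sum_congr rfl fun μ _ => Finset.sum_congr rfl fun ν _ => ?_
    ring
  simp_rw [h1, f10_comm, ← Finset.mul_sum, f10_tr4, f10_trace4]
  have h2 : ∀ i j : Fin 9, (if i = j then (16 : ℂ) else -16) = -16 + if i = j then 32 else 0 := by
    intro i j
    by_cases h : i = j
    · simp [h]; norm_num
    · simp [h]
  simp [Fintype.sum_option, f10w, h2, Finset.sum_add_distrib]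
  norm_num

/-- the identity -/
theorem f10_zero (S : Setup dc F) (a b c d : Fin 16) :
    f10E S a b c d + f10E S b c a d + f10E S c a b d = 0 := by
  have hEre : ∀ a b c d, (f10E S a b c d).im = 0 := by
    intro a b c d
    rw [f10E, Complex.im_sum]
    refine Finset.sum_eq_zero fun μ _ => ?_
    simp [Complex.mul_im, f10_real, f10_wreal]
  have hsum : ∑ a, ∑ b, ∑ c, ∑ d,
      (f10E S a b c d + f10E S b c a d + f10E S c a b d) ^ 2 = 0 := by
    have e : ∀ a b c d, (f10E S a b c d + f10E S b c a d + f10E S c a b d) ^ 2 =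
        f10E S a b c d ^ 2 + f10E S b c a d ^ 2 + f10E S c a b d ^ 2 +
        2 * (f10E S a b c d * f10E S b c a d) + 2 * (f10E S b c a d * f10E S c a b d) +
        2 * (f10E S c a b d * f10E S a b c d) := by
      intro a b c d
      ring
    simp_rw [e, Finset.sum_add_distrib, ← Finset.mul_sum]
    have c1 := f10_cyc (fun a b c d => f10E S a b c d ^ 2)
    have c2 := f10_cyc (fun a b c d => f10E S b c a d ^ 2)
    have c3 := f10_cyc (fun a b c d => f10E S a b c d * f10E S b c a d)
    have c4 := f10_cyc (fun a b c d => f10E S b c a d * f10E S c a b d)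
    rw [c4, c3, c2, c1, f10_S1, f10_S2]
    norm_num
  -- real parts
  have hre : ∑ a, ∑ b, ∑ c, ∑ d,
      ((f10E S a b c d + f10E S b c a d + f10E S c a b d).re) ^ 2 = 0 := by
    have h1 := congrArg Complex.re hsum
    simp only [Complex.re_sum, Complex.zero_re] at h1
    rw [← h1]
    refine Finset.sum_congr rfl fun a _ => Finset.sum_congr rfl fun b _ =>
      Finset.sum_congr rfl fun c _ => Finset.sum_congr rfl fun d _ => ?_
    have h2 : (f10E S a b c d + f10E S b c a d + f10E S c a b d).im = 0 := by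
      simp only [Complex.add_im, hEre, add_zero]
    rw [sq (f10E S a b c d + f10E S b c a d + f10E S c a b d), Complex.mul_re, h2]
    ring
  have h1 := (Finset.sum_eq_zero_iff_of_nonneg (fun a _ => Finset.sum_nonneg fun b _ =>
    Finset.sum_nonneg fun c _ => Finset.sum_nonneg fun d _ => sq_nonneg _)).1 hre a
      (Finset.mem_univ _)
  have h2 := (Finset.sum_eq_zero_iff_of_nonneg (fun b _ =>
    Finset.sum_nonneg fun c _ => Finset.sum_nonneg fun d _ => sq_nonneg _)).1 h1 b
      (Finset.mem_univ _)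
  have h3 := (Finset.sum_eq_zero_iff_of_nonneg (fun c _ =>
    Finset.sum_nonneg fun d _ => sq_nonneg _)).1 h2 c (Finset.mem_univ _)
  have h4 := (Finset.sum_eq_zero_iff_of_nonneg (fun d _ => sq_nonneg _)).1 h3 d
    (Finset.mem_univ _)
  have h5 := pow_eq_zero_iff (two_ne_zero) |>.1 h4
  refine Complex.ext h5 ?_
  simp only [Complex.add_im, hEre, add_zero, Complex.zero_im]

/-- A-F10 -/
theorem f10 (S : Setup dc F) : F10Stmt S := by
  intro α β γ δ
  have h := f10_zero S α β γ δ
  have e : ∀ a b c d : Fin 16, f10E S a b c d =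
      (∑ i, S.g i a b * S.g i c d) - if a = b ∧ c = d then 1 else 0 := by
    intro a b c d
    rw [f10E, Fintype.sum_option]
    have h1 : f10w none * (f10N S none a b * f10N S none c d) =
        -(if a = b ∧ c = d then 1 else 0) := by
      change (-1 : ℂ) * ((1 : Matrix (Fin 16) (Fin 16) ℂ) a b *
        (1 : Matrix (Fin 16) (Fin 16) ℂ) c d) = _
      rw [Matrix.one_apply, Matrix.one_apply]
      by_cases h2 : a = b <;> by_cases h3 : c = d <;> simp [h2, h3]
    have h2 : ∀ i : Fin 9, f10w (some i) * (f10N S (some i) a b * f10N S (some i) c d) =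
        S.g i a b * S.g i c d := by
      intro i
      change (1 : ℂ) * (S.g i a b * S.g i c d) = _
      rw [one_mul]
    rw [h1]
    simp_rw [h2]
    ring
  rw [e, e, e] at h
  rw [Finset.sum_add_distrib, Finset.sum_add_distrib]
  linear_combination h

end Vale.Agent.P353.Z.U
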