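import Vale.Agent.P353.Z.U.StmtA
import Vale.Agent.P353.Z.U.FFten

open MeasureTheory Filter Topology Matrix
open scoped ContDiff

namespace Vale.Agent.P353.Z

variable {dc : ℕ}

variable {F : Type*} [NormedAddCommGroup F] [InnerProductSpace ℂ F]

namespace Setup

variable (S : Setup dc F)

/-- expansion of the product of two supercharges -/
lemma a1a_expand (a b : Fin 16) {u : (Cfg dc) → F} (hu : ContDiff ℝ ∞ u) (x : (Cfg dc)) :
    S.Q a (S.Q b u) x =
      -(∑ j, ∑ B, ∑ i, ∑ A, S.vec (S.g j) B a (S.vec (S.g i) A b (pd j B (pd i A u) x)))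
      + ((-Complex.I) • ∑ j, ∑ B, S.vec (S.g j) B a *
        (fderiv ℝ (S.W b) x (EuclideanSpace.single (j, B) (1 : ℝ)))) (u x)
      + (-Complex.I) • ∑ j, ∑ B, (S.vec (S.g j) B a * S.W b x + S.W a x * S.vec (S.g j) B b)
          (pd j B u x)
      + (S.W a x * S.W b x) (u x) := by
  conv_lhs => rw [Q]
  simp only [pd_Q S b hu]
  rw [Q]
  simp only [map_add, map_smul, map_sum, Finset.sum_add_distrib, smul_add,
    _root_.smul_apply, _root_.sum_apply, _root_.add_apply, mul_apply_eq_comp,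
    ← Finset.smul_sum, smul_smul]
  have hI : (-Complex.I) * (-Complex.I) = -1 := by
    rw [neg_mul_neg, Complex.I_mul_I]
  rw [hI, neg_one_smul]
  abel

lemma a1a_reindex {M : Type*} [AddCommMonoid M] (f : Fin 9 → Fin dc → Fin 9 → Fin dc → M) :
    ∑ j, ∑ B, ∑ i, ∑ A, f j B i A = ∑ j, ∑ B, ∑ i, ∑ A, f i A j B := by
  have e1 : ∀ (f : Fin 9 → Fin dc → Fin 9 → Fin dc → M), ∑ j, ∑ B, ∑ i, ∑ A, f j B i A =
      ∑ p : Fin 9 × Fin dc, ∑ q : Fin 9 × Fin dc, f p.1 p.2 q.1 q.2 := by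
    intro f
    simp only [Fintype.sum_prod_type]
  rw [e1 f, e1 (fun j B i A => f i A j B), Finset.sum_comm]

lemma a1a_g_anti_apply (i j : Fin 9) (a b : Fin 16) :
    (S.g i * S.g j) a b + (S.g j * S.g i) a b =
      if i = j then (if a = b then 2 else 0) else 0 := by
  have h := congrArg (fun M => M a b) (S.g_anti i j)
  simp only [Matrix.add_apply] at h
  rw [h]
  by_cases hij : i = j
  · simp only [hij, if_true]
    have h2 : (2 : Matrix (Fin 16) (Fin 16) ℂ) = (2 : ℂ) • 1 := by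
      rw [two_smul]; norm_num
    rw [h2, Matrix.smul_apply, Matrix.one_apply]
    by_cases hab : a = b <;> simp [hab]
  · simp [hij]

/-- the second order part -/
lemma a1a_second (a b : Fin 16) (D : Fin 9 → Fin dc → Fin 9 → Fin dc → F)
    (hD : ∀ i A j B, D i A j B = D j B i A) :
    ∑ j, ∑ B, ∑ i, ∑ A, S.vec (S.g j) B a (S.vec (S.g i) A b (D j B i A)) +
      ∑ j, ∑ B, ∑ i, ∑ A, S.vec (S.g j) B b (S.vec (S.g i) A a (D j B i A)) =
      if a = b then ∑ i, ∑ A, D i A i A else 0 := by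
  have h1 : ∑ j, ∑ B, ∑ i, ∑ A, S.vec (S.g j) B b (S.vec (S.g i) A a (D j B i A)) =
      ∑ j, ∑ B, ∑ i, ∑ A, S.vec (S.g i) A b (S.vec (S.g j) B a (D j B i A)) := by
    rw [a1a_reindex]
    refine Finset.sum_congr rfl fun j _ => Finset.sum_congr rfl fun B _ =>
      Finset.sum_congr rfl fun i _ => Finset.sum_congr rfl fun A _ => ?_
    rw [hD]
  rw [h1]
  simp only [← Finset.sum_add_distrib]
  have h2 : ∀ j B i A, S.vec (S.g j) B a (S.vec (S.g i) A b (D j B i A)) +
      S.vec (S.g i) A b (S.vec (S.g j) B a (D j B i A)) =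
      if B = A then ((S.g j * S.g i) a b) • D j B i A else 0 := by
    intro j B i A
    have h3 := S.vec_anti (S.g j) (S.g i) B A a b
    rw [S.g_symm] at h3
    have h4 := congrArg (fun T : F →L[ℂ] F => T (D j B i A)) h3
    simp only [_root_.add_apply, mul_apply_eq_comp] at h4
    rw [h4]
    by_cases hBA : B = A
    · simp [hBA]
    · simp [hBA]
  simp only [h2]
  have h5 : ∀ j B, ∑ i, ∑ A, (if B = A then ((S.g j * S.g i) a b) • D j B i A else 0) =
      ∑ i, ((S.g j * S.g i) a b) • D j B i B := by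
    intro j B
    refine Finset.sum_congr rfl fun i _ => ?_
    rw [Finset.sum_ite_eq]
    simp
  simp only [h5]
  have h6 : ∑ j, ∑ B, ∑ i, ((S.g j * S.g i) a b) • D j B i B =
      ∑ j, ∑ B, ∑ i, ((S.g i * S.g j) a b) • D j B i B := by
    have e : ∀ f : Fin 9 → Fin dc → Fin 9 → F, ∑ j, ∑ B, ∑ i, f j B i =
        ∑ B, ∑ j, ∑ i, f j B i := fun f => by rw [Finset.sum_comm]
    rw [e, e]
    refine Finset.sum_congr rfl fun B _ => ?_
    rw [Finset.sum_comm]
    refine Finset.sum_congr rfl fun j _ => Finset.sum_congr rfl fun i _ => ?_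
    rw [hD]
  have h7 : (2 : ℂ) • ∑ j, ∑ B, ∑ i, ((S.g j * S.g i) a b) • D j B i B =
      (2 : ℂ) • (if a = b then ∑ i, ∑ A, D i A i A else 0) := by
    rw [two_smul]
    nth_rewrite 2 [h6]
    simp only [← Finset.sum_add_distrib, ← add_smul, a1a_g_anti_apply]
    by_cases hab : a = b
    · simp only [hab, if_true, ite_smul, zero_smul, Finset.smul_sum]
      refine Finset.sum_congr rfl fun j _ => Finset.sum_congr rfl fun B _ => ?_
      rw [Finset.sum_ite_eq]
      simp
    · simp [hab]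
  have h8 := congrArg (fun w => (1 / 2 : ℂ) • w) h7
  simp only [smul_smul] at h8
  norm_num at h8
  exact h8

/-- `N_A = (1/2) F^A_{ij} γ^i γ^j` -/
lemma a1a_NA_eq (A : Fin dc) (x : (Cfg dc)) :
    S.NA A x = (1 / 2 : ℂ) • ∑ i, ∑ j, ((S.FF A i j x : ℝ) : ℂ) • (S.g i * S.g j) := by
  unfold NA
  congr 1
  have h1 : ∑ i, ∑ j, ((S.FF A i j x : ℝ) : ℂ) • (S.g j * S.g i) =
      -∑ i, ∑ j, ((S.FF A i j x : ℝ) : ℂ) • (S.g i * S.g j) := by
    rw [Finset.sum_comm, ← Finset.sum_neg_distrib]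
    refine Finset.sum_congr rfl fun i _ => ?_
    rw [← Finset.sum_neg_distrib]
    refine Finset.sum_congr rfl fun j _ => ?_
    rw [S.FF_swap A j i x, ← neg_smul]
    push_cast
    rfl
  have h2 : ∀ i j, ((S.FF A i j x : ℝ) : ℂ) • S.g2 i j =
      (1 / 2 : ℂ) • (((S.FF A i j x : ℝ) : ℂ) • (S.g i * S.g j)) -
        (1 / 2 : ℂ) • (((S.FF A i j x : ℝ) : ℂ) • (S.g j * S.g i)) := by
    intro i j
    rw [CS.g2, smul_comm, smul_sub, smul_sub]
  simp only [h2, Finset.sum_sub_distrib, ← Finset.smul_sum, h1]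
  rw [smul_neg, sub_neg_eq_add, ← add_smul]
  norm_num

/-- `γ^j N_B - N_B γ^j = 2 F^B_{jl} γ^l` -/
lemma a1a_comm (j : Fin 9) (B : Fin dc) (x : (Cfg dc)) :
    S.g j * S.NA B x - S.NA B x * S.g j =
      (2 : ℂ) • ∑ l, ((S.FF B j l x : ℝ) : ℂ) • S.g l := by
  have h1 : ∀ k l, S.g j * (S.g k * S.g l) - S.g k * S.g l * S.g j =
      (if j = k then (2 : ℂ) • S.g l else 0) - (if j = l then (2 : ℂ) • S.g k else 0) := by
    intro k l
    have e1 := S.g_swapE' j k
    have e2 := S.g_swapE' j l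
    have e3 : S.g j * (S.g k * S.g l) - S.g k * S.g l * S.g j =
        (S.g j * S.g k + S.g k * S.g j) * S.g l - S.g k * (S.g j * S.g l + S.g l * S.g j) := by
      noncomm_ring
    rw [e3, e1, e2, sub_add_cancel, sub_add_cancel]
    by_cases hjk : j = k <;> by_cases hjl : j = l <;> simp [hjk, hjl]
  rw [a1a_NA_eq, Matrix.mul_smul, Matrix.smul_mul, ← smul_sub]
  have h2 : S.g j * (∑ k, ∑ l, ((S.FF B k l x : ℝ) : ℂ) • (S.g k * S.g l)) -
      (∑ k, ∑ l, ((S.FF B k l x : ℝ) : ℂ) • (S.g k * S.g l)) * S.g j =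
      ∑ k, ∑ l, ((S.FF B k l x : ℝ) : ℂ) •
        ((if j = k then (2 : ℂ) • S.g l else 0) - (if j = l then (2 : ℂ) • S.g k else 0)) := by
    simp only [Matrix.mul_sum, Matrix.sum_mul, Matrix.mul_smul, Matrix.smul_mul,
      ← Finset.sum_sub_distrib, ← smul_sub, h1]
  rw [h2]
  have h3 : ∑ k, ∑ l, ((S.FF B k l x : ℝ) : ℂ) •
        ((if j = k then (2 : ℂ) • S.g l else 0) - (if j = l then (2 : ℂ) • S.g k else 0)) =
      (4 : ℂ) • ∑ l, ((S.FF B j l x : ℝ) : ℂ) • S.g l := by
    simp only [smul_sub, Finset.sum_sub_distrib]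
    have p1 : ∑ k, ∑ l, ((S.FF B k l x : ℝ) : ℂ) • (if j = k then (2 : ℂ) • S.g l else 0) =
        (2 : ℂ) • ∑ l, ((S.FF B j l x : ℝ) : ℂ) • S.g l := by
      rw [Finset.sum_eq_single j]
      · simp only [if_true, Finset.smul_sum]
        exact Finset.sum_congr rfl fun l _ => smul_comm _ _ _
      · intro k _ hk
        simp [Ne.symm hk]
      · intro h; exact absurd (Finset.mem_univ _) h
    have p2 : ∑ k, ∑ l, ((S.FF B k l x : ℝ) : ℂ) • (if j = l then (2 : ℂ) • S.g k else 0) =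
        -((2 : ℂ) • ∑ l, ((S.FF B j l x : ℝ) : ℂ) • S.g l) := by
      rw [Finset.sum_comm, Finset.sum_eq_single j]
      · simp only [if_true, Finset.smul_sum]
        rw [← Finset.sum_neg_distrib]
        refine Finset.sum_congr rfl fun l _ => ?_
        rw [S.FF_swap B l j x, smul_comm]
        push_cast
        rw [neg_smul, smul_neg]
      · intro k _ hk
        simp [Ne.symm hk]
      · intro h; exact absurd (Finset.mem_univ _) h
    rw [p1, p2, sub_neg_eq_add, ← add_smul]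
    norm_num
  rw [h3, smul_smul]
  norm_num

/-- the first order part -/
lemma a1a_first (a b : Fin 16) (j : Fin 9) (B : Fin dc) (x : (Cfg dc)) :
    (S.vec (S.g j) B a * S.W b x + S.W b x * S.vec (S.g j) B a) +
      (S.vec (S.g j) B b * S.W a x + S.W a x * S.vec (S.g j) B b) =
      (-(2 : ℂ) * ∑ l, ((S.FF B j l x : ℝ) : ℂ) * S.g l a b) • (1 : F →L[ℂ] F) := by
  have h : ∀ a b, S.vec (S.g j) B a * S.W b x + S.W b x * S.vec (S.g j) B a =
      (-((S.g j * S.NA B x) a b)) • (1 : F →L[ℂ] F) := by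
    intro a b
    rw [W_eq_NA, Finset.mul_sum, Finset.sum_mul, ← Finset.sum_add_distrib]
    simp only [S.vec_anti, NA_transpose, Matrix.mul_neg, Matrix.neg_apply]
    rw [Finset.sum_ite_eq]
    simp
  rw [h a b, h b a, ← add_smul]
  congr 1
  have h1 : (S.g j * S.NA B x) b a = -((S.NA B x * S.g j) a b) := by
    have h2 : (S.g j * S.NA B x) b a = ((S.g j * S.NA B x)ᵀ) a b := rfl
    rw [h2, Matrix.transpose_mul, NA_transpose, S.g_symm, Matrix.neg_mul, Matrix.neg_apply]
  rw [h1]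
  have h3 := congrArg (fun M => M a b) (S.a1a_comm j B x)
  simp only [Matrix.sub_apply, Matrix.smul_apply, Matrix.sum_apply, smul_eq_mul] at h3
  linear_combination -h3

/-- the slash of the positions of colour `B` -/
noncomputable def a1aX (B : Fin dc) (x : (Cfg dc)) : Matrix (Fin 16) (Fin 16) ℂ :=
  ∑ i, (x (i, B) : ℂ) • S.g i

/-- inner products of the positions -/
noncomputable def a1aG (x : Cfg dc) (B C : Fin dc) : ℂ := ∑ i : Fin 9, (x (i, B) : ℂ) * (x (i, C) : ℂ)

lemma a1aX_anti (B C : Fin dc) (x : (Cfg dc)) :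
    S.a1aX B x * S.a1aX C x + S.a1aX C x * S.a1aX B x = (2 * a1aG x B C) • 1 := by
  have h1 : S.a1aX C x * S.a1aX B x =
      ∑ i, ∑ j, ((x (i, B) : ℂ) * (x (j, C) : ℂ)) • (S.g j * S.g i) := by
    unfold a1aX
    rw [Finset.sum_mul_sum, Finset.sum_comm]
    refine Finset.sum_congr rfl fun i _ => Finset.sum_congr rfl fun j _ => ?_
    rw [smul_mul_smul_comm, mul_comm (x (j, C) : ℂ)]
  have h2 : S.a1aX B x * S.a1aX C x =
      ∑ i, ∑ j, ((x (i, B) : ℂ) * (x (j, C) : ℂ)) • (S.g i * S.g j) := by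
    unfold a1aX
    rw [Finset.sum_mul_sum]
    refine Finset.sum_congr rfl fun i _ => Finset.sum_congr rfl fun j _ => ?_
    rw [smul_mul_smul_comm]
  rw [h1, h2, ← Finset.sum_add_distrib]
  simp only [← Finset.sum_add_distrib, ← smul_add]
  have h3 : ∀ i j, S.g i * S.g j + S.g j * S.g i =
      if i = j then (2 : ℂ) • (1 : Matrix (Fin 16) (Fin 16) ℂ) else 0 := by
    intro i j
    rw [S.g_swapE' i j, sub_add_cancel]
  simp only [h3, smul_ite, smul_zero, Finset.sum_ite_eq, Finset.mem_univ, if_true, smul_smul]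
  rw [← Finset.sum_smul]
  congr 1
  unfold a1aG
  rw [Finset.mul_sum]
  refine Finset.sum_congr rfl fun i _ => ?_
  ring

lemma a1a_NA_X (A : Fin dc) (x : (Cfg dc)) :
    S.NA A x = (S.κ / 2 : ℂ) • ∑ B, ∑ C, (S.f A B C : ℂ) • (S.a1aX B x * S.a1aX C x) := by
  rw [a1a_NA_eq]
  have h2 : ∀ B C, S.a1aX B x * S.a1aX C x =
      ∑ i, ∑ j, ((x (i, B) : ℂ) * (x (j, C) : ℂ)) • (S.g i * S.g j) := by
    intro B C
    unfold a1aX
    rw [Finset.sum_mul_sum]
    refine Finset.sum_congr rfl fun i _ => Finset.sum_congr rfl fun j _ => ?_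
    rw [smul_mul_smul_comm]
  have h3 : ∑ i, ∑ j, ((S.FF A i j x : ℝ) : ℂ) • (S.g i * S.g j) =
      (S.κ : ℂ) • ∑ B, ∑ C, (S.f A B C : ℂ) • (S.a1aX B x * S.a1aX C x) := by
    simp only [h2, Finset.smul_sum, smul_smul]
    have h4 : ∀ i j, ((S.FF A i j x : ℝ) : ℂ) • (S.g i * S.g j) =
        ∑ B, ∑ C, ((S.κ : ℂ) * ((S.f A B C : ℂ) * ((x (i, B) : ℂ) * (x (j, C) : ℂ)))) •
          (S.g i * S.g j) := by
      intro i j
      simp only [← Finset.sum_smul]
      congr 1
      unfold FF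
      push_cast
      simp only [Finset.mul_sum]
      refine Finset.sum_congr rfl fun B _ => Finset.sum_congr rfl fun C _ => ?_
      ring
    simp only [h4]
    calc ∑ i, ∑ j, ∑ B, ∑ C, ((S.κ : ℂ) * ((S.f A B C : ℂ) * ((x (i, B) : ℂ) *
          (x (j, C) : ℂ)))) • (S.g i * S.g j)
        = ∑ i, ∑ B, ∑ j, ∑ C, ((S.κ : ℂ) * ((S.f A B C : ℂ) * ((x (i, B) : ℂ) *
          (x (j, C) : ℂ)))) • (S.g i * S.g j) :=
          Finset.sum_congr rfl fun i _ => Finset.sum_comm
      _ = ∑ B, ∑ i, ∑ j, ∑ C, ((S.κ : ℂ) * ((S.f A B C : ℂ) * ((x (i, B) : ℂ) *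
          (x (j, C) : ℂ)))) • (S.g i * S.g j) := Finset.sum_comm
      _ = ∑ B, ∑ i, ∑ C, ∑ j, ((S.κ : ℂ) * ((S.f A B C : ℂ) * ((x (i, B) : ℂ) *
          (x (j, C) : ℂ)))) • (S.g i * S.g j) :=
          Finset.sum_congr rfl fun B _ => Finset.sum_congr rfl fun i _ => Finset.sum_comm
      _ = ∑ B, ∑ C, ∑ i, ∑ j, ((S.κ : ℂ) * ((S.f A B C : ℂ) * ((x (i, B) : ℂ) *
          (x (j, C) : ℂ)))) • (S.g i * S.g j) :=
          Finset.sum_congr rfl fun B _ => Finset.sum_comm
  rw [h3, smul_smul]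
  congr 1
  ring

lemma a1a_cyc3 {M : Type*} [AddCommMonoid M] (g : Fin dc → Fin dc → Fin dc → M) :
    ∑ B, ∑ C, ∑ D, g C D B = ∑ B, ∑ C, ∑ D, g B C D := by
  rw [Finset.sum_comm]
  refine Finset.sum_congr rfl fun B _ => ?_
  rw [Finset.sum_comm]

lemma a1a_swap4 {M : Type*} [AddCommMonoid M] (g : Fin dc → Fin dc → Fin dc → Fin dc → M) :
    ∑ B, ∑ C, ∑ D, ∑ E, g D E B C = ∑ B, ∑ C, ∑ D, ∑ E, g B C D E := by
  have e1 : ∀ (g : Fin dc → Fin dc → Fin dc → Fin dc → M), ∑ B, ∑ C, ∑ D, ∑ E, g B C D E =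
      ∑ p : Fin dc × Fin dc, ∑ q : Fin dc × Fin dc, g p.1 p.2 q.1 q.2 := by
    intro g
    simp only [Fintype.sum_prod_type]
  rw [e1 g, e1 (fun B C D E => g D E B C), Finset.sum_comm]

lemma a1a_perm5 {M : Type*} [AddCommMonoid M] (g : Fin dc → Fin dc → Fin dc → Fin dc → Fin dc → M) :
    ∑ A, ∑ B, ∑ C, ∑ D, ∑ E, g A B C D E = ∑ B, ∑ C, ∑ D, ∑ E, ∑ A, g A B C D E := by
  rw [Finset.sum_comm]
  refine Finset.sum_congr rfl fun B _ => ?_
  rw [Finset.sum_comm]
  refine Finset.sum_congr rfl fun C _ => ?_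
  rw [Finset.sum_comm]
  refine Finset.sum_congr rfl fun D _ => ?_
  rw [Finset.sum_comm]

/-- quartic expressions with a coefficient tensor satisfying the Bianchi identity are scalars -/
lemma a1a_bianchi {R : Type*} [Ring R] [Algebra ℂ R] (X : Fin dc → R) (G : Fin dc → Fin dc → ℂ)
    (hX : ∀ B C, X B * X C + X C * X B = (2 * G B C) • 1) (hG : ∀ B C, G B C = G C B)
    (T : Fin dc → Fin dc → Fin dc → Fin dc → ℂ)
    (hT1 : ∀ B C D E, T C B D E = -T B C D E)
    (hT2 : ∀ B C D E, T D E B C = T B C D E)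
    (hT3 : ∀ B C D E, T B C D E + T C D B E + T D B C E = 0) :
    ∃ e : ℂ, ∑ B, ∑ C, ∑ D, ∑ E, T B C D E • (X B * X C * X D * X E) = e • 1 := by
  have hsw : ∀ B C, X B * X C = (2 * G B C) • 1 - X C * X B := fun B C => by
    rw [← hX B C, add_sub_cancel_right]
  obtain ⟨S0, hS0⟩ : ∃ S0, S0 = ∑ B, ∑ C, ∑ D, ∑ E, T B C D E • (X B * X C * X D * X E) :=
    ⟨_, rfl⟩
  obtain ⟨K, hK⟩ : ∃ K, K = ∑ B, ∑ C, ∑ D, ∑ E, (T B C D E * G D B) • (X C * X E) := ⟨_, rfl⟩
  have h1 : ∑ B, ∑ C, ∑ D, ∑ E, T B C D E • (X B * X C * X D * X E) +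
      ∑ B, ∑ C, ∑ D, ∑ E, T C D B E • (X B * X C * X D * X E) +
      ∑ B, ∑ C, ∑ D, ∑ E, T D B C E • (X B * X C * X D * X E) = 0 := by
    simp only [← Finset.sum_add_distrib, ← add_smul, hT3, zero_smul, Finset.sum_const_zero]
  have hL : ∑ B, ∑ C, ∑ D, ∑ E, (T B C D E * G D C) • (X B * X E) = -K := by
    rw [hK, Finset.sum_comm, ← Finset.sum_neg_distrib]
    refine Finset.sum_congr rfl fun B _ => ?_
    rw [← Finset.sum_neg_distrib]
    refine Finset.sum_congr rfl fun C _ => ?_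
    rw [← Finset.sum_neg_distrib]
    refine Finset.sum_congr rfl fun D _ => ?_
    rw [← Finset.sum_neg_distrib]
    refine Finset.sum_congr rfl fun E _ => ?_
    rw [hT1, neg_mul, neg_smul]
  have hN : ∑ B, ∑ C, ∑ D, ∑ E, (T B C D E * G C B) • (X D * X E) = 0 := by
    have h2 : ∑ B, ∑ C, ∑ D, ∑ E, (T B C D E * G C B) • (X D * X E) =
        -∑ B, ∑ C, ∑ D, ∑ E, (T B C D E * G C B) • (X D * X E) := by
      conv_lhs => rw [Finset.sum_comm]
      rw [← Finset.sum_neg_distrib]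
      refine Finset.sum_congr rfl fun B _ => ?_
      rw [← Finset.sum_neg_distrib]
      refine Finset.sum_congr rfl fun C _ => ?_
      rw [← Finset.sum_neg_distrib]
      refine Finset.sum_congr rfl fun D _ => ?_
      rw [← Finset.sum_neg_distrib]
      refine Finset.sum_congr rfl fun E _ => ?_
      rw [hT1, hG, neg_mul, neg_smul]
    have h3 := add_eq_zero_iff_eq_neg.2 h2
    rw [← two_smul ℂ] at h3
    have h4 := congrArg (fun w => (1 / 2 : ℂ) • w) h3
    simp only [smul_smul, smul_zero] at h4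
    norm_num at h4
    exact h4
  have h2 : ∑ B, ∑ C, ∑ D, ∑ E, T C D B E • (X B * X C * X D * X E) =
      S0 + (4 : ℂ) • K := by
    rw [a1a_cyc3 (fun b c d => ∑ E, T b c d E • (X d * X b * X c * X E))]
    have e : ∀ B C D E, T B C D E • (X D * X B * X C * X E) =
        T B C D E • (X B * X C * X D * X E) + (2 : ℂ) • ((T B C D E * G D B) • (X C * X E)) -
          (2 : ℂ) • ((T B C D E * G D C) • (X B * X E)) := by
      intro B C D E
      have e1 : X D * X B * X C * X E = X B * X C * X D * X E + (2 * G D B) • (X C * X E) -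
          (2 * G D C) • (X B * X E) := by
        rw [hsw D B]
        have e2 : ((2 * G D B) • (1 : R) - X B * X D) * X C * X E =
            (2 * G D B) • (X C * X E) - X B * (X D * X C) * X E := by
          simp only [sub_mul, smul_mul_assoc, one_mul, mul_assoc]
        rw [e2, hsw D C]
        simp only [sub_mul, mul_sub, smul_mul_assoc, mul_smul_comm, mul_one, mul_assoc]
        abel
      rw [e1]
      module
    simp only [e, Finset.sum_add_distrib, Finset.sum_sub_distrib, ← Finset.smul_sum, hL]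
    rw [← hS0, ← hK]
    module
  have h3 : ∑ B, ∑ C, ∑ D, ∑ E, T D B C E • (X B * X C * X D * X E) =
      S0 + (2 : ℂ) • K := by
    rw [← a1a_cyc3 (fun b c d => ∑ E, T d b c E • (X b * X c * X d * X E))]
    have e : ∀ B C D E, T B C D E • (X C * X D * X B * X E) =
        T B C D E • (X B * X C * X D * X E) + (2 : ℂ) • ((T B C D E * G D B) • (X C * X E)) -
          (2 : ℂ) • ((T B C D E * G C B) • (X D * X E)) := by
      intro B C D E
      have e1 : X C * X D * X B * X E = X B * X C * X D * X E + (2 * G D B) • (X C * X E) -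
          (2 * G C B) • (X D * X E) := by
        have e2 : X C * X D * X B * X E = X C * (X D * X B) * X E := by
          simp only [mul_assoc]
        rw [e2, hsw D B]
        have e3 : X C * ((2 * G D B) • (1 : R) - X B * X D) * X E =
            (2 * G D B) • (X C * X E) - (X C * X B) * X D * X E := by
          simp only [sub_mul, mul_sub, smul_mul_assoc, mul_smul_comm, mul_one, mul_assoc]
        rw [e3, hsw C B]
        simp only [sub_mul, smul_mul_assoc, one_mul, mul_assoc]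
        abel
      rw [e1]
      module
    simp only [e, Finset.sum_add_distrib, Finset.sum_sub_distrib, ← Finset.smul_sum, hN]
    rw [← hS0, ← hK]
    module
  have hK2 : K = ∑ B, ∑ C, ∑ D, ∑ E, (T B C D E * G D B) • (X E * X C) := by
    rw [hK, ← a1a_swap4 (fun B C D E => (T B C D E * G D B) • (X C * X E))]
    refine Finset.sum_congr rfl fun B _ => Finset.sum_congr rfl fun C _ =>
      Finset.sum_congr rfl fun D _ => Finset.sum_congr rfl fun E _ => ?_
    rw [hT2, hG B D]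
  have hK3 : (2 : ℂ) • K =
      (∑ B, ∑ C, ∑ D, ∑ E, (T B C D E * G D B) * (2 * G C E)) • (1 : R) := by
    rw [two_smul]
    nth_rewrite 2 [hK2]
    rw [hK]
    simp only [← Finset.sum_add_distrib, ← smul_add, hX, smul_smul, Finset.sum_smul]
  rw [h2, h3, ← hS0] at h1
  refine ⟨-∑ B, ∑ C, ∑ D, ∑ E, (T B C D E * G D B) * (2 * G C E), ?_⟩
  rw [← hS0, neg_smul, ← hK3]
  have h5 : (3 : ℂ) • S0 = (3 : ℂ) • -((2 : ℂ) • K) := by
    rw [← sub_eq_zero, ← h1]
    module
  have h6 := congrArg (fun w => (1 / 3 : ℂ) • w) h5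
  simp only [smul_smul] at h6
  norm_num at h6
  rw [h6]

lemma a1a_NA_sq (x : (Cfg dc)) :
    ∑ A, S.NA A x * S.NA A x =
      ((-(1 / 2) * ∑ A, ∑ i, ∑ j, (S.FF A i j x) ^ 2 : ℝ) : ℂ) • 1 := by
  have h : ∃ e : ℂ, ∑ A, S.NA A x * S.NA A x = e • 1 := by
    obtain ⟨e, he⟩ := a1a_bianchi (fun B => S.a1aX B x) (a1aG x)
      (fun B C => S.a1aX_anti B C x) (fun B C => by
        unfold a1aG
        exact Finset.sum_congr rfl fun i _ => mul_comm _ _)
      (fun B C D E => ∑ A, (S.f A B C : ℂ) * (S.f A D E : ℂ))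
      (fun B C D E => by
        rw [← Finset.sum_neg_distrib]
        refine Finset.sum_congr rfl fun A _ => ?_
        rw [S.f_swap' A B C]
        push_cast
        ring)
      (fun B C D E => Finset.sum_congr rfl fun A _ => mul_comm _ _)
      (fun B C D E => by
        have hj := S.f_jac B C D E
        rw [← Finset.sum_add_distrib, ← Finset.sum_add_distrib]
        rw [← Complex.ofReal_zero, ← hj]
        push_cast
        refine Finset.sum_congr rfl fun A _ => ?_
        rw [S.f_cyc A B C, S.f_cyc A C D, S.f_cyc A D B])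
    refine ⟨(S.κ / 2 : ℂ) * (S.κ / 2 : ℂ) * e, ?_⟩
    rw [mul_smul, ← he]
    have h2 : ∀ A, S.NA A x * S.NA A x = ((S.κ / 2 : ℂ) * (S.κ / 2 : ℂ)) •
        ∑ B, ∑ C, ∑ D, ∑ E, ((S.f A B C : ℂ) * (S.f A D E : ℂ)) •
          (S.a1aX B x * S.a1aX C x * S.a1aX D x * S.a1aX E x) := by
      intro A
      rw [a1a_NA_X, smul_mul_smul_comm]
      congr 1
      rw [Finset.sum_mul]
      refine Finset.sum_congr rfl fun B _ => ?_
      rw [Finset.sum_mul]
      refine Finset.sum_congr rfl fun C _ => ?_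
      rw [Finset.mul_sum]
      refine Finset.sum_congr rfl fun D _ => ?_
      rw [Finset.mul_sum]
      refine Finset.sum_congr rfl fun E _ => ?_
      rw [smul_mul_smul_comm, mul_assoc, mul_assoc, mul_assoc]
    rw [Finset.sum_congr rfl fun A _ => h2 A, ← Finset.smul_sum, a1a_perm5]
    refine congrArg (fun w => ((S.κ / 2 : ℂ) * (S.κ / 2 : ℂ)) • w) ?_
    refine Finset.sum_congr rfl fun B _ => Finset.sum_congr rfl fun C _ =>
      Finset.sum_congr rfl fun D _ => Finset.sum_congr rfl fun E _ => ?_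
    rw [Finset.sum_smul]
  obtain ⟨e, he⟩ := h
  have h3 : (∑ A, S.NA A x * S.NA A x).trace =
      ∑ A, ((-8 * ∑ i, ∑ j, (S.FF A i j x) ^ 2 : ℝ) : ℂ) := by
    rw [Matrix.trace_sum]
    exact Finset.sum_congr rfl fun A _ => S.trace_NA_NA A x
  rw [he, Matrix.trace_smul, CS.trace_one16, smul_eq_mul] at h3
  rw [he]
  congr 1
  push_cast at h3 ⊢
  rw [← Finset.mul_sum] at h3
  linear_combination (1 / 16) * h3

/-- the zero order part -/
lemma a1a_zero (a b : Fin 16) (x : (Cfg dc)) :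
    S.W a x * S.W b x + S.W b x * S.W a x =
      (if a = b then ((2 * S.V x : ℝ) : ℂ) else 0) • (1 : F →L[ℂ] F) := by
  have h1 : S.W a x * S.W b x + S.W b x * S.W a x =
      ∑ A, ∑ B, (if A = B then ((S.NA A x * (S.NA B x)ᵀ) a b) • (1 : F →L[ℂ] F) else 0) := by
    simp only [W_eq_NA, Finset.sum_mul_sum]
    have : ∑ A, ∑ B, S.vec (S.NA A x) A b * S.vec (S.NA B x) B a =
        ∑ A, ∑ B, S.vec (S.NA B x) B b * S.vec (S.NA A x) A a := Finset.sum_comm
    rw [this, ← Finset.sum_add_distrib]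
    simp only [← Finset.sum_add_distrib, S.vec_anti]
  rw [h1]
  simp only [Finset.sum_ite_eq, Finset.mem_univ, if_true, NA_transpose, Matrix.mul_neg,
    Matrix.neg_apply]
  rw [← Finset.sum_smul]
  congr 1
  have h2 := congrArg (fun M => M a b) (S.a1a_NA_sq x)
  simp only [Matrix.sum_apply, Matrix.smul_apply, Matrix.one_apply, smul_eq_mul] at h2
  rw [Finset.sum_neg_distrib, h2]
  by_cases hab : a = b
  · simp only [hab, if_true, mul_one, V]
    push_cast
    ring
  · simp [hab]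

lemma a1a_bil (N : Matrix (Fin 16) (Fin 16) ℂ) (A B : Fin dc) :
    S.bil N A B = ∑ c, ∑ d, N c d • (S.th c A * S.th d B) := by
  simp only [CS.bil, CS.vec, Finset.mul_sum, mul_smul_comm]

/-- the coefficients of the fermionic term -/
noncomputable def a1aK (a b : Fin 16) (l : Fin 9) (c d : Fin 16) : ℂ :=
  ∑ j, (S.g j a c * S.g2 j l b d + S.g j b c * S.g2 j l a d)

lemma a1a_g2_apply (j l : Fin 9) (b d : Fin 16) :
    S.g2 j l b d = (∑ e, S.g j b e * S.g l e d) - (if j = l then (if b = d then 1 else 0) else 0) := by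
  have h1 : S.g2 j l b d = (1 / 2 : ℂ) * ((S.g j * S.g l) b d - (S.g l * S.g j) b d) := by
    rw [CS.g2, Matrix.smul_apply, Matrix.sub_apply, smul_eq_mul]
  have h2 := S.a1a_g_anti_apply j l b d
  have h3 : (∑ e, S.g j b e * S.g l e d) = (S.g j * S.g l) b d := (Matrix.mul_apply).symm
  rw [h1, h3]
  by_cases hjl : j = l <;> by_cases hbd : b = d <;> simp only [hjl, hbd, if_true, if_false] at h2 ⊢
  all_goals linear_combination -(1 / 2) * h2

lemma a1a_g_sym (i : Fin 9) (a b : Fin 16) : S.g i a b = S.g i b a := by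
  have := congrArg (fun M => M b a) (S.g_symm i)
  exact this

lemma a1a_K (h : U.F10Stmt S) (a b : Fin 16) (l : Fin 9) (c d : Fin 16) :
    S.a1aK a b l c d + S.a1aK a b l d c =
      2 * (if a = b then S.g l c d else 0) - 2 * (S.g l a b * (if c = d then 1 else 0)) := by
  have hK : ∀ c d, S.a1aK a b l c d =
      (if a = b then S.g l c d else 0) + (if b = c then S.g l a d else 0) +
        (if c = a then S.g l b d else 0) - ∑ j, S.g j a b * (S.g j * S.g l) c d -
        (if b = d then S.g l a c else 0) - (if a = d then S.g l b c else 0) := by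
    intro c d
    have e1 : S.a1aK a b l c d = (∑ e, (∑ j, (S.g j a c * S.g j b e + S.g j b c * S.g j a e)) *
        S.g l e d) - (if b = d then S.g l a c else 0) - (if a = d then S.g l b c else 0) := by
      unfold a1aK
      simp only [a1a_g2_apply, mul_sub, Finset.sum_add_distrib, Finset.sum_sub_distrib]
      have e2 : ∀ (p q : Fin 16), ∑ j, S.g j p c * (if j = l then (if q = d then (1 : ℂ) else 0)
          else 0) = (if q = d then S.g l p c else 0) := by
        intro p q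
        rw [Finset.sum_eq_single l]
        · by_cases hq : q = d <;> simp [hq]
        · intro j _ hj; simp [hj]
        · intro hh; exact absurd (Finset.mem_univ _) hh
      rw [e2 a b, e2 b a]
      have e3 : ∀ p q : Fin 16, ∑ j, S.g j p c * ∑ e, S.g j q e * S.g l e d =
          ∑ e, (∑ j, S.g j p c * S.g j q e) * S.g l e d := by
        intro p q
        simp only [Finset.mul_sum, Finset.sum_mul]
        rw [Finset.sum_comm]
        refine Finset.sum_congr rfl fun e _ => Finset.sum_congr rfl fun j _ => ?_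
        ring
      rw [e3, e3]
      simp only [add_mul, Finset.sum_add_distrib]
      ring
    rw [e1]
    have e4 : ∀ e, ∑ j, (S.g j a c * S.g j b e + S.g j b c * S.g j a e) =
        (if a = b ∧ c = e then 1 else 0) + (if b = c ∧ a = e then 1 else 0) +
          (if c = a ∧ b = e then 1 else 0) - ∑ j, S.g j a b * S.g j c e := by
      intro e
      have h5 := h a b c e
      rw [← h5, ← Finset.sum_sub_distrib]
      refine Finset.sum_congr rfl fun j _ => ?_
      rw [S.a1a_g_sym j c a]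
      ring
    simp only [e4, sub_mul, add_mul, Finset.sum_sub_distrib, Finset.sum_add_distrib]
    have e5 : ∀ (p : Prop) [Decidable p] (q : Fin 16), ∑ e, (if p ∧ q = e then (1 : ℂ) else 0) *
        S.g l e d = (if p then S.g l q d else 0) := by
      intro p _ q
      by_cases hp : p <;> simp [hp]
    have e6 : ∑ e, (∑ j, S.g j a b * S.g j c e) * S.g l e d =
        ∑ j, S.g j a b * (S.g j * S.g l) c d := by
      simp only [Matrix.mul_apply, Finset.mul_sum, Finset.sum_mul]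
      rw [Finset.sum_comm]
      refine Finset.sum_congr rfl fun e _ => Finset.sum_congr rfl fun j _ => ?_
      ring
    rw [e5, e5, e5, e6]
  rw [hK, hK]
  have e7 : ∑ j, S.g j a b * (S.g j * S.g l) c d + ∑ j, S.g j a b * (S.g j * S.g l) d c =
      2 * (S.g l a b * (if c = d then 1 else 0)) := by
    rw [← Finset.sum_add_distrib]
    have e8 : ∀ j, S.g j a b * (S.g j * S.g l) c d + S.g j a b * (S.g j * S.g l) d c =
        if j = l then S.g j a b * (if c = d then 2 else 0) else 0 := by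
      intro j
      have e9 : (S.g j * S.g l) d c = (S.g l * S.g j) c d := by
        have : (S.g j * S.g l) d c = ((S.g j * S.g l)ᵀ) c d := rfl
        rw [this, Matrix.transpose_mul, S.g_symm, S.g_symm]
      rw [e9, ← mul_add, a1a_g_anti_apply]
      by_cases hj : j = l <;> simp [hj]
    simp only [e8]
    rw [Finset.sum_ite_eq']
    by_cases hcd : c = d <;> simp [hcd]
    ring
  rw [S.a1a_g_sym l d c]
  have s1 : (if d = a then S.g l b c else 0) = (if a = d then S.g l b c else 0) := by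
    simp only [eq_comm]
  have s2 : (if c = a then S.g l b d else 0) = (if a = c then S.g l b d else 0) := by
    simp only [eq_comm]
  rw [s1, s2]
  linear_combination -e7

/-- the zero order part coming from `∂W` -/
lemma a1a_ferm_aux (h : U.F10Stmt S) (a b : Fin 16) (l : Fin 9) (D : Fin dc) :
    ∑ A, ∑ B, (S.f A B D : ℂ) • ∑ j, (S.vec (S.g j) B a * S.vec (S.g2 j l) A b +
      S.vec (S.g j) B b * S.vec (S.g2 j l) A a) =
    ∑ A, ∑ B, (S.f A B D : ℂ) • ((if a = b then S.bil (S.g l) B A else 0) -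
      S.g l a b • S.bil 1 B A) := by
  have e1 : ∀ A B, ∑ j, (S.vec (S.g j) B a * S.vec (S.g2 j l) A b +
      S.vec (S.g j) B b * S.vec (S.g2 j l) A a) =
      ∑ c, ∑ d, S.a1aK a b l c d • (S.th c B * S.th d A) := by
    intro A B
    have e2 : ∀ p q : Fin 16, ∀ j, S.vec (S.g j) B p * S.vec (S.g2 j l) A q =
        ∑ c, ∑ d, (S.g j p c * S.g2 j l q d) • (S.th c B * S.th d A) := by
      intro p q j
      simp only [CS.vec, Finset.sum_mul_sum, smul_mul_smul_comm]
    simp only [e2, ← Finset.sum_add_distrib, ← add_smul]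
    unfold a1aK
    rw [Finset.sum_comm]
    refine Finset.sum_congr rfl fun c _ => ?_
    rw [Finset.sum_comm]
    refine Finset.sum_congr rfl fun d _ => ?_
    rw [← Finset.sum_smul]
  simp only [e1]
  have e3 : ∑ A, ∑ B, (S.f A B D : ℂ) • ∑ c, ∑ d, S.a1aK a b l c d • (S.th c B * S.th d A) =
      ∑ A, ∑ B, (S.f A B D : ℂ) • ∑ c, ∑ d, S.a1aK a b l d c • (S.th c B * S.th d A) := by
    rw [Finset.sum_comm]
    refine Finset.sum_congr rfl fun A _ => Finset.sum_congr rfl fun B _ => ?_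
    by_cases hAB : A = B
    · subst hAB
      have : S.f A A D = 0 := by linarith [S.f_swap A A D]
      rw [this]
      simp
    · have h1 : S.f B A D = -S.f A B D := S.f_swap B A D
      have h2 : ∑ c, ∑ d, S.a1aK a b l c d • (S.th c A * S.th d B) =
          -∑ c, ∑ d, S.a1aK a b l d c • (S.th c B * S.th d A) := by
        rw [Finset.sum_comm, ← Finset.sum_neg_distrib]
        refine Finset.sum_congr rfl fun c _ => ?_
        rw [← Finset.sum_neg_distrib]
        refine Finset.sum_congr rfl fun d _ => ?_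
        have h3 := S.th_anti d A c B
        rw [if_neg (fun hh => hAB hh.2)] at h3
        rw [eq_neg_of_add_eq_zero_left h3, smul_neg]
      rw [h1, h2]
      push_cast
      simp only [neg_smul, smul_neg, neg_neg]
  have e4 : (2 : ℂ) • ∑ A, ∑ B, (S.f A B D : ℂ) • ∑ c, ∑ d, S.a1aK a b l c d •
      (S.th c B * S.th d A) = (2 : ℂ) • ∑ A, ∑ B, (S.f A B D : ℂ) •
      ((if a = b then S.bil (S.g l) B A else 0) - S.g l a b • S.bil 1 B A) := by
    rw [two_smul]
    nth_rewrite 2 [e3]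
    simp only [← Finset.sum_add_distrib, ← smul_add, ← add_smul, S.a1a_K h, Finset.smul_sum]
    refine Finset.sum_congr rfl fun A _ => Finset.sum_congr rfl fun B _ => ?_
    rw [smul_comm (2 : ℂ)]
    simp only [← Finset.smul_sum (r := (S.f A B D : ℂ))]
    congr 1
    have e5 : S.bil 1 B A = ∑ c, ∑ d, (if c = d then (1 : ℂ) else 0) • (S.th c B * S.th d A) := by
      rw [a1a_bil]
      rfl
    have e6 : (if a = b then S.bil (S.g l) B A else 0) = ∑ c, ∑ d,
        (if a = b then S.g l c d else 0) • (S.th c B * S.th d A) := by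
      by_cases hab : a = b
      · simp only [hab, if_true, a1a_bil]
      · simp [hab]
    rw [e5, e6, Finset.smul_sum, ← Finset.sum_sub_distrib, Finset.smul_sum]
    refine Finset.sum_congr rfl fun c _ => ?_
    rw [Finset.smul_sum, ← Finset.sum_sub_distrib, Finset.smul_sum]
    refine Finset.sum_congr rfl fun d _ => ?_
    rw [sub_smul, smul_sub, smul_smul, smul_smul, smul_smul, mul_assoc]
  have e7 := congrArg (fun w => (1 / 2 : ℂ) • w) e4
  simp only [smul_smul] at e7
  norm_num at e7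
  exact e7

lemma a1a_ferm1 (a b : Fin 16) (x : (Cfg dc)) :
    ∑ j, ∑ B, (S.vec (S.g j) B a *
        (fderiv ℝ (S.W b) x (EuclideanSpace.single (j, B) (1 : ℝ))) + S.vec (S.g j) B b *
        (fderiv ℝ (S.W a) x (EuclideanSpace.single (j, B) (1 : ℝ)))) =
      (S.κ : ℂ) • ∑ l, ∑ D, (x (l, D) : ℂ) • ∑ A, ∑ B, (S.f A B D : ℂ) •
        ∑ j, (S.vec (S.g j) B a * S.vec (S.g2 j l) A b +
          S.vec (S.g j) B b * S.vec (S.g2 j l) A a) := by
  have e2 : ∀ j B, (S.vec (S.g j) B a *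
      (fderiv ℝ (S.W b) x (EuclideanSpace.single (j, B) (1 : ℝ))) + S.vec (S.g j) B b *
      (fderiv ℝ (S.W a) x (EuclideanSpace.single (j, B) (1 : ℝ)))) =
      (S.κ : ℂ) • ∑ A, ∑ l, ∑ D, (x (l, D) : ℂ) • (S.f A B D : ℂ) •
        (S.vec (S.g j) B a * S.vec (S.g2 j l) A b +
        S.vec (S.g j) B b * S.vec (S.g2 j l) A a) := by
    intro j B
    rw [fderiv_W, fderiv_W, mul_smul_comm, mul_smul_comm, ← smul_add]
    congr 1
    simp only [Finset.mul_sum, mul_smul_comm, ← Finset.sum_add_distrib, ← smul_add, smul_smul]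
    refine Finset.sum_congr rfl fun A _ => Finset.sum_congr rfl fun l _ =>
      Finset.sum_congr rfl fun D _ => ?_
    rw [mul_comm]
  simp only [e2, ← Finset.smul_sum (r := (S.κ : ℂ))]
  congr 1
  generalize hf : (fun (j : Fin 9) (B A : Fin dc) (l : Fin 9) (D : Fin dc) =>
    (S.vec (S.g j) B a * S.vec (S.g2 j l) A b + S.vec (S.g j) B b * S.vec (S.g2 j l) A a)) = f
  calc _ = ∑ j, ∑ B, ∑ A, ∑ l, ∑ D, (x (l, D) : ℂ) • (S.f A B D : ℂ) • f j B A l D := by
        simp only [← hf]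
    _ = ∑ j, ∑ B, ∑ l, ∑ A, ∑ D, (x (l, D) : ℂ) • (S.f A B D : ℂ) • f j B A l D :=
        Finset.sum_congr rfl fun j _ => Finset.sum_congr rfl fun B _ => Finset.sum_comm
    _ = ∑ j, ∑ l, ∑ B, ∑ A, ∑ D, (x (l, D) : ℂ) • (S.f A B D : ℂ) • f j B A l D :=
        Finset.sum_congr rfl fun j _ => Finset.sum_comm
    _ = ∑ l, ∑ j, ∑ B, ∑ A, ∑ D, (x (l, D) : ℂ) • (S.f A B D : ℂ) • f j B A l D :=
        Finset.sum_comm
    _ = ∑ l, ∑ j, ∑ D, ∑ A, ∑ B, (x (l, D) : ℂ) • (S.f A B D : ℂ) • f j B A l D := by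
        refine Finset.sum_congr rfl fun l _ => Finset.sum_congr rfl fun j _ => ?_
        rw [Finset.sum_comm]
        rw [Finset.sum_congr rfl fun A _ => Finset.sum_comm]
        rw [Finset.sum_comm]
    _ = ∑ l, ∑ D, ∑ j, ∑ A, ∑ B, (x (l, D) : ℂ) • (S.f A B D : ℂ) • f j B A l D :=
        Finset.sum_congr rfl fun l _ => Finset.sum_comm
    _ = ∑ l, ∑ D, ∑ A, ∑ j, ∑ B, (x (l, D) : ℂ) • (S.f A B D : ℂ) • f j B A l D :=
        Finset.sum_congr rfl fun l _ => Finset.sum_congr rfl fun D _ => Finset.sum_comm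
    _ = ∑ l, ∑ D, ∑ A, ∑ B, ∑ j, (x (l, D) : ℂ) • (S.f A B D : ℂ) • f j B A l D :=
        Finset.sum_congr rfl fun l _ => Finset.sum_congr rfl fun D _ =>
          Finset.sum_congr rfl fun A _ => Finset.sum_comm
    _ = _ := by
        simp only [← hf, Finset.smul_sum]

lemma a1a_ferm2 (a b : Fin 16) (x : (Cfg dc)) (l : Fin 9) (D : Fin dc) :
    (x (l, D) : ℂ) • ∑ A, ∑ B, (S.f A B D : ℂ) •
      ((if a = b then S.bil (S.g l) B A else 0) - S.g l a b • S.bil 1 B A) =
      (if a = b then -∑ A, ∑ B, ((S.f A B D : ℂ) * (x (l, D) : ℂ)) •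
        S.bil (S.g l) A B else 0) + (S.g l a b * (x (l, D) : ℂ)) •
          ∑ A, ∑ B, (S.f D A B : ℂ) • S.bil 1 A B := by
  have hs2 : ∀ A B : Fin dc, (S.f A B D : ℂ) = (S.f D A B : ℂ) := by
    intro A B
    have : S.f A B D = S.f D A B := (S.f_cyc D A B).symm
    rw [this]
  have hs : ∀ A B : Fin dc, (S.f A B D : ℂ) = -(S.f B A D : ℂ) := by
    intro A B
    have : S.f A B D = -S.f B A D := S.f_swap A B D
    rw [this]
    push_cast
    ring
  rw [Finset.sum_comm]
  simp only [Finset.smul_sum]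
  have t : ∀ A B : Fin dc, (x (l, D) : ℂ) • (S.f A B D : ℂ) •
      ((if a = b then S.bil (S.g l) B A else 0) - S.g l a b • S.bil 1 B A) =
      -(if a = b then ((S.f B A D : ℂ) * (x (l, D) : ℂ)) • S.bil (S.g l) B A else 0) +
        (S.g l a b * (x (l, D) : ℂ)) • (S.f D B A : ℂ) • S.bil 1 B A := by
    intro A B
    rw [hs A B, hs2 B A]
    by_cases hab : a = b
    · simp only [hab, if_true]
      module
    · simp only [hab, if_false]
      module
  simp only [t, Finset.sum_add_distrib]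
  congr 1
  by_cases hab : a = b
  · simp only [hab, if_true, Finset.sum_neg_distrib]
  · simp [hab]

/-- the zero order part coming from `∂W` -/
lemma a1a_ferm (h : U.F10Stmt S) (a b : Fin 16) (x : (Cfg dc)) :
    (-Complex.I) • ∑ j, ∑ B, (S.vec (S.g j) B a *
        (fderiv ℝ (S.W b) x (EuclideanSpace.single (j, B) (1 : ℝ))) + S.vec (S.g j) B b *
        (fderiv ℝ (S.W a) x (EuclideanSpace.single (j, B) (1 : ℝ)))) =
      (if a = b then (2 : ℂ) • S.Fx x else 0) +
        (2 * S.κ : ℂ) • ∑ l, ∑ D, (S.g l a b * (x (l, D) : ℂ)) • S.cS D := by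
  rw [S.a1a_ferm1]
  simp only [S.a1a_ferm_aux h]
  simp only [S.a1a_ferm2]
  simp only [Finset.sum_add_distrib]
  rw [smul_add, smul_add]
  congr 1
  · by_cases hab : a = b
    · simp only [hab, if_true, Fx, Finset.sum_neg_distrib, smul_neg, smul_smul, ← neg_smul]
      have e : ∑ l, ∑ D, ∑ A, ∑ B, ((S.f A B D : ℂ) * (x (l, D) : ℂ)) • S.bil (S.g l) A B =
          ∑ q, ∑ A, ∑ B, ∑ C, ((S.f A B C : ℂ) * (x (q, C) : ℂ)) • S.bil (S.g q) A B := by
        refine Finset.sum_congr rfl fun l _ => ?_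
        rw [Finset.sum_comm]
        refine Finset.sum_congr rfl fun A _ => ?_
        rw [Finset.sum_comm]
      rw [e]
      congr 1
      ring
    · simp [hab]
  · simp only [cS, smul_smul, Finset.smul_sum]
    refine Finset.sum_congr rfl fun l _ => Finset.sum_congr rfl fun D _ =>
      Finset.sum_congr rfl fun A _ => Finset.sum_congr rfl fun B _ => ?_
    congr 1
    ring

lemma a1a_first_sum (a b : Fin 16) (x : (Cfg dc)) (p : Fin 9 → Fin dc → F) :
    (-Complex.I) • ∑ j, ∑ B, (-(2 : ℂ) * ∑ l, ((S.FF B j l x : ℝ) : ℂ) * S.g l a b) • p j B =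
      (2 * S.κ : ℂ) • ∑ l, ∑ D, (S.g l a b * (x (l, D) : ℂ)) •
        ((-Complex.I) • ∑ i, ∑ A, ∑ B, ((S.f D A B : ℂ) * (x (i, A) : ℂ)) • p i B) := by
  have hs2 : ∀ A B D : Fin dc, (S.f B A D : ℂ) = -(S.f D A B : ℂ) := by
    intro A B D
    have : S.f B A D = -S.f D A B := by rw [S.f_swap B A D, S.f_cyc D A B]
    rw [this]
    push_cast
    ring
  have e1 : ∀ j B, (-(2 : ℂ) * ∑ l, ((S.FF B j l x : ℝ) : ℂ) * S.g l a b) • p j B =
      ∑ l, ∑ D, ∑ A, ((2 * S.κ : ℂ) * (S.g l a b * (x (l, D) : ℂ)) *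
        ((S.f D A B : ℂ) * (x (j, A) : ℂ))) • p j B := by
    intro j B
    simp only [← Finset.sum_smul]
    congr 1
    rw [Finset.mul_sum]
    refine Finset.sum_congr rfl fun l _ => ?_
    unfold FF
    push_cast
    rw [Finset.sum_comm, Finset.mul_sum, Finset.sum_mul, Finset.mul_sum]
    refine Finset.sum_congr rfl fun D _ => ?_
    rw [Finset.mul_sum, Finset.sum_mul, Finset.mul_sum]
    refine Finset.sum_congr rfl fun A _ => ?_
    rw [hs2 A B D]
    ring
  simp only [e1]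
  generalize hf : (fun (j : Fin 9) (B : Fin dc) (l : Fin 9) (D A : Fin dc) =>
    ((2 * S.κ : ℂ) * (S.g l a b * (x (l, D) : ℂ)) * ((S.f D A B : ℂ) * (x (j, A) : ℂ))) •
      p j B) = f
  have hr : (2 * S.κ : ℂ) • ∑ l, ∑ D, (S.g l a b * (x (l, D) : ℂ)) •
        ((-Complex.I) • ∑ i, ∑ A, ∑ B, ((S.f D A B : ℂ) * (x (i, A) : ℂ)) • p i B) =
      (-Complex.I) • ∑ l, ∑ D, ∑ i, ∑ A, ∑ B, f i B l D A := by
    simp only [← hf, Finset.smul_sum, smul_smul]
    refine Finset.sum_congr rfl fun l _ => Finset.sum_congr rfl fun D _ =>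
      Finset.sum_congr rfl fun i _ => Finset.sum_congr rfl fun A _ =>
      Finset.sum_congr rfl fun B _ => ?_
    congr 1
    ring
  rw [hr]
  congr 1
  calc _ = ∑ j, ∑ B, ∑ l, ∑ D, ∑ A, f j B l D A := by simp only [← hf]
    _ = ∑ j, ∑ l, ∑ B, ∑ D, ∑ A, f j B l D A :=
        Finset.sum_congr rfl fun j _ => Finset.sum_comm
    _ = ∑ l, ∑ j, ∑ B, ∑ D, ∑ A, f j B l D A := Finset.sum_comm
    _ = ∑ l, ∑ j, ∑ D, ∑ B, ∑ A, f j B l D A :=
        Finset.sum_congr rfl fun l _ => Finset.sum_congr rfl fun j _ => Finset.sum_comm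
    _ = ∑ l, ∑ D, ∑ j, ∑ B, ∑ A, f j B l D A :=
        Finset.sum_congr rfl fun l _ => Finset.sum_comm
    _ = ∑ l, ∑ D, ∑ j, ∑ A, ∑ B, f j B l D A :=
        Finset.sum_congr rfl fun l _ => Finset.sum_congr rfl fun D _ =>
          Finset.sum_congr rfl fun j _ => Finset.sum_comm

lemma a1a_arrange {M : Type*} [AddCommGroup M] {X1 X2 T1 T2 P1 P2 Z1 Z2 X Fp Cp V P : M}
    (hX : X1 + X2 = X) (hT : T1 + T2 = Fp + Cp) (hP : P1 + P2 = P) (hZ : Z1 + Z2 = V) :
    -X1 + T1 + P1 + Z1 + (-X2 + T2 + P2 + Z2) = -X + Fp + V + (P + Cp) := by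
  have h : Fp = T1 + T2 - Cp := by rw [hT]; abel
  rw [h, ← hX, ← hP, ← hZ]
  abel

/-- **A1a** the anticommutator of the undeformed supercharges -/
theorem a1a (h : U.F10Stmt S) : U.A1aStmt S := by
  intro a b u hu x
  rw [S.a1a_expand a b hu, S.a1a_expand b a hu]
  have hsec := S.a1a_second a b (fun j B i A => pd j B (pd i A u) x)
    (fun i A j B => pd_comm hu i j A B x)
  have hferm := congrArg (fun T : F →L[ℂ] F => T (u x)) (S.a1a_ferm h a b x)
  have hzero := congrArg (fun T : F →L[ℂ] F => T (u x)) (S.a1a_zero a b x)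
  have hfirst : (-Complex.I) • ∑ j, ∑ B, (S.vec (S.g j) B a * S.W b x +
        S.W a x * S.vec (S.g j) B b) (pd j B u x) +
      (-Complex.I) • ∑ j, ∑ B, (S.vec (S.g j) B b * S.W a x +
        S.W b x * S.vec (S.g j) B a) (pd j B u x) =
      (2 * S.κ : ℂ) • ∑ l, ∑ D, (S.g l a b * (x (l, D) : ℂ)) •
        ((-Complex.I) • ∑ i, ∑ A, ∑ B, ((S.f D A B : ℂ) * (x (i, A) : ℂ)) • pd i B u x) := by
    rw [← smul_add]
    simp only [← Finset.sum_add_distrib, ← _root_.add_apply]
    have f1 : ∀ j B, (S.vec (S.g j) B a * S.W b x + S.W a x * S.vec (S.g j) B b +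
        (S.vec (S.g j) B b * S.W a x + S.W b x * S.vec (S.g j) B a)) (pd j B u x) =
        (-(2 : ℂ) * ∑ l, ((S.FF B j l x : ℝ) : ℂ) * S.g l a b) • pd j B u x := by
      intro j B
      have f2 := congrArg (fun T : F →L[ℂ] F => T (pd j B u x)) (S.a1a_first a b j B x)
      simp only [_root_.add_apply, _root_.smul_apply] at f2 ⊢
      rw [one_apply_eq_self] at f2
      rw [← f2]
      abel
    simp only [f1]
    exact S.a1a_first_sum a b x (fun j B => pd j B u x)
  have hT : ((-Complex.I) • ∑ j, ∑ B, S.vec (S.g j) B a *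
        (fderiv ℝ (S.W b) x (EuclideanSpace.single (j, B) (1 : ℝ)))) (u x) +
      ((-Complex.I) • ∑ j, ∑ B, S.vec (S.g j) B b *
        (fderiv ℝ (S.W a) x (EuclideanSpace.single (j, B) (1 : ℝ)))) (u x) =
      (if a = b then (2 : ℂ) • S.Fx x (u x) else 0) +
        (2 * S.κ : ℂ) • ∑ l, ∑ D, (S.g l a b * (x (l, D) : ℂ)) • S.cS D (u x) := by
    rw [← _root_.add_apply, ← smul_add]
    simp only [← Finset.sum_add_distrib]
    refine hferm.trans ?_
    simp only [_root_.add_apply, _root_.smul_apply, _root_.sum_apply]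
    congr 1
    by_cases hab : a = b <;> simp [hab]
  have hZ : (S.W a x * S.W b x) (u x) + (S.W b x * S.W a x) (u x) =
      if a = b then ((2 * S.V x : ℝ) : ℂ) • u x else 0 := by
    rw [← _root_.add_apply]
    refine hzero.trans ?_
    by_cases hab : a = b <;> simp [hab]
  have hG : (2 * S.κ : ℂ) • ∑ j, ∑ C, (S.g j a b * (x (j, C) : ℂ)) • S.G C u x =
      (2 * S.κ : ℂ) • ∑ l, ∑ D, (S.g l a b * (x (l, D) : ℂ)) •
        ((-Complex.I) • ∑ i, ∑ A, ∑ B, ((S.f D A B : ℂ) * (x (i, A) : ℂ)) • pd i B u x) +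
      (2 * S.κ : ℂ) • ∑ l, ∑ D, (S.g l a b * (x (l, D) : ℂ)) • S.cS D (u x) := by
    rw [← smul_add]
    simp only [← Finset.sum_add_distrib, ← smul_add]
    rfl
  have hH : (if a = b then (2 : ℂ) • S.Hm 0 u x else 0) =
      -(if a = b then ∑ i, ∑ A, pd i A (pd i A u) x else 0) +
      (if a = b then (2 : ℂ) • S.Fx x (u x) else 0) +
      (if a = b then ((2 * S.V x : ℝ) : ℂ) • u x else 0) := by
    by_cases hab : a = b
    · simp only [hab, if_true]
      have hV : S.Vm 0 x = S.V x := by simp [Vm]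
      rw [Hm, hV]
      push_cast
      simp only [mul_zero, zero_smul, sub_zero, smul_add, smul_smul]
      module
    · simp [hab]
  rw [hG, hH]
  exact a1a_arrange hsec hT hfirst hZ

end Setup

/-- **A1a** without hypotheses -/
theorem U.a1a (S : Setup dc F) : U.A1aStmt S := S.a1a (U.f10 S)

end Vale.Agent.P353.Z
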