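import Vale.Agent.P353.Z.U.StmtC

/-! # P353, general `N`: simple ground state of a nondegenerate quadratic fermionic Hamiltonian -/

open MeasureTheory Filter Topology
open scoped ContDiff

namespace Vale.Agent.P353.Z.U

section Spec

variable {P : Type*} [Fintype P] [DecidableEq P]

/-- spectral decomposition of `i R` for a real antisymmetric invertible matrix -/
theorem qua_spec (R : Matrix P P ℝ) (hR : R.transpose = -R)
    (hinv : ∀ z : P → ℝ, R.mulVec z = 0 → z = 0) : ∃ (e : P → P → ℂ) (lam : P → ℝ),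
    (∀ p q, Complex.I * (R p q : ℂ) =
      ∑ j, (lam j : ℂ) * (e j p * (starRingEnd ℂ) (e j q))) ∧
    (∀ j, ∑ p, e j p * (starRingEnd ℂ) (e j p) = 1) ∧
    (∀ j, lam j ≠ 0) ∧
    (∀ i j, lam i + lam j ≠ 0 → ∑ p, e i p * e j p = 0) ∧
    (∀ z : P → ℂ, z = ∑ j, (∑ p, z p * (starRingEnd ℂ) (e j p)) • e j) := by
  obtain ⟨A, hAd⟩ : ∃ A : Matrix P P ℂ, A = Matrix.of fun p q => Complex.I * (R p q : ℂ) :=
    ⟨_, rfl⟩
  have hAe : ∀ p q, A p q = Complex.I * (R p q : ℂ) := fun p q => by rw [hAd]; rfl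
  have hRs : ∀ p q, R q p = -R p q := fun p q => by
    have := congrFun (congrFun hR p) q
    simpa using this
  have hA : A.IsHermitian := by
    ext p q
    rw [Matrix.conjTranspose_apply, hAe, hAe, hRs p q]
    simp
  let E := hA.eigenvectorBasis
  let e : P → P → ℂ := fun j p => E j p
  let lam : P → ℝ := hA.eigenvalues
  have hE : ∀ j p, ∑ q, A p q * e j q = (lam j : ℂ) * e j p := by
    intro j p
    have h := congrFun (hA.mulVec_eigenvectorBasis j) p
    simpa [Matrix.mulVec, dotProduct] using h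
  have hexp : ∀ z : P → ℂ, z = ∑ j, (∑ p, z p * (starRingEnd ℂ) (e j p)) • e j := by
    intro z
    have h := E.sum_repr' (WithLp.toLp 2 z)
    have h1 := congrArg (fun w : EuclideanSpace ℂ P => (WithLp.ofLp w : P → ℂ)) h
    simp only [WithLp.ofLp_sum, WithLp.ofLp_smul] at h1
    refine h1.symm.trans (Finset.sum_congr rfl fun j _ => ?_)
    rw [PiLp.inner_apply]
    rfl
  have hn : ∀ j, ∑ p, e j p * (starRingEnd ℂ) (e j p) = 1 := by
    intro j
    have h := E.orthonormal.1 j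
    have h1 : inner ℂ (E j) (E j) = (1 : ℂ) := by
      rw [inner_self_eq_norm_sq_to_K, h]; simp
    rw [PiLp.inner_apply] at h1
    exact h1
  have hRe : ∀ j p, ∑ q, (R p q : ℂ) * e j q = -Complex.I * ((lam j : ℂ) * e j p) := by
    intro j p
    rw [← hE j p, Finset.mul_sum]
    refine Finset.sum_congr rfl fun q _ => ?_
    rw [hAe]
    linear_combination ((R p q : ℂ) * e j q) * Complex.I_mul_I
  refine ⟨e, lam, ?_, hn, ?_, ?_, hexp⟩
  · intro p q
    have h := hexp (Pi.single q 1)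
    have h1 : ∑ r, A p r * (Pi.single q 1 : P → ℂ) r = A p q := by
      simp [Pi.single_apply]
    rw [← hAe, ← h1]
    have h2 : ∀ j, ∑ r, (Pi.single q 1 : P → ℂ) r * (starRingEnd ℂ) (e j r) =
        (starRingEnd ℂ) (e j q) := by
      intro j
      simp [Pi.single_apply]
    simp only [h2] at h
    have h3 : ∀ r, (Pi.single q 1 : P → ℂ) r = ∑ j, (starRingEnd ℂ) (e j q) * e j r := by
      intro r
      have := congrFun h r
      simpa [Finset.sum_apply] using this
    simp only [h3, Finset.mul_sum]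
    rw [Finset.sum_comm]
    refine Finset.sum_congr rfl fun j _ => ?_
    have h4 : (lam j : ℂ) * (e j p * (starRingEnd ℂ) (e j q)) =
        (starRingEnd ℂ) (e j q) * ((lam j : ℂ) * e j p) := by ring
    rw [h4, ← hE j p, Finset.mul_sum]
    refine Finset.sum_congr rfl fun r _ => by ring
  · intro j hj
    have h1 : ∀ p, ∑ q, (R p q : ℂ) * e j q = 0 := fun p => by rw [hRe, hj]; simp
    have hre : (fun q => (e j q).re) = 0 := by
      apply hinv
      funext p
      have := congrArg Complex.re (h1 p)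
      simpa [Matrix.mulVec, dotProduct] using this
    have him : (fun q => (e j q).im) = 0 := by
      apply hinv
      funext p
      have := congrArg Complex.im (h1 p)
      simpa [Matrix.mulVec, dotProduct] using this
    have h0 : ∀ p, e j p = 0 := fun p => Complex.ext (congrFun hre p) (congrFun him p)
    have h2 := hn j
    simp [h0] at h2
  · intro i j hij
    have h1 : ∑ p, (∑ q, (R p q : ℂ) * e i q) * e j p =
        -∑ p, e i p * ∑ q, (R p q : ℂ) * e j q := by
      simp only [Finset.sum_mul, Finset.mul_sum]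
      rw [Finset.sum_comm, ← Finset.sum_neg_distrib]
      refine Finset.sum_congr rfl fun q _ => ?_
      rw [← Finset.sum_neg_distrib]
      refine Finset.sum_congr rfl fun p _ => ?_
      rw [hRs q p]
      push_cast
      ring
    simp only [hRe] at h1
    have h2 : (-Complex.I) * (((lam i + lam j : ℝ) : ℂ) * ∑ p, e i p * e j p) = 0 := by
      have h3 : ∑ p, -Complex.I * ((lam i : ℂ) * e i p) * e j p =
          -Complex.I * ((lam i : ℂ) * ∑ p, e i p * e j p) := by
        rw [Finset.mul_sum, Finset.mul_sum]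
        exact Finset.sum_congr rfl fun p _ => by ring
      have h4 : ∑ p, e i p * (-Complex.I * ((lam j : ℂ) * e j p)) =
          -Complex.I * ((lam j : ℂ) * ∑ p, e i p * e j p) := by
        rw [Finset.mul_sum, Finset.mul_sum]
        exact Finset.sum_congr rfl fun p _ => by ring
      rw [h3, h4] at h1
      push_cast
      linear_combination h1
    rcases mul_eq_zero.1 h2 with h | h
    · exact absurd (neg_eq_zero.1 h) Complex.I_ne_zero
    · rcases mul_eq_zero.1 h with h | h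
      · exact absurd (Complex.ofReal_eq_zero.1 h) hij
      · exact h

end Spec


variable {d : ℕ} {F : Type*} [NormedAddCommGroup F] [InnerProductSpace ℂ F]

/-- `θ(a) v` -/
noncomputable def QuaT (S : Setup d F) (a : Fin 16 × Fin d → ℂ) (v : F) : F :=
  ∑ p : Fin 16 × Fin d, a p • S.th p.1 p.2 v

theorem QuaT_th_anti (S : Setup d F) (p q : Fin 16 × Fin d) (v : F) :
    S.th p.1 p.2 (S.th q.1 q.2 v) + S.th q.1 q.2 (S.th p.1 p.2 v) = if p = q then v else 0 := by
  have h := congrArg (fun A : F →L[ℂ] F => A v) (S.th_anti p.1 p.2 q.1 q.2)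
  have h' : S.th p.1 p.2 (S.th q.1 q.2 v) + S.th q.1 q.2 (S.th p.1 p.2 v) =
      (if p.1 = q.1 ∧ p.2 = q.2 then (1 : F →L[ℂ] F) else 0) v := h
  rw [h']
  by_cases hpq : p = q
  · subst hpq
    simp
  · rw [if_neg hpq, if_neg (fun h => hpq (Prod.ext h.1 h.2))]
    rfl

/-- `θ(a) θ(b) v` -/
theorem QuaT_comp (S : Setup d F) (a b : Fin 16 × Fin d → ℂ) (v : F) :
    QuaT S a (QuaT S b v) = ∑ p, ∑ q, (a p * b q) • S.th p.1 p.2 (S.th q.1 q.2 v) := by
  unfold QuaT
  refine Finset.sum_congr rfl fun p _ => ?_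
  rw [map_sum, Finset.smul_sum]
  refine Finset.sum_congr rfl fun q _ => ?_
  rw [map_smul, mul_smul]

/-- `{θ(a), θ(b)} = ∑ a_p b_p` -/
theorem QuaT_anti (S : Setup d F) (a b : Fin 16 × Fin d → ℂ) (v : F) :
    QuaT S a (QuaT S b v) + QuaT S b (QuaT S a v) = (∑ p, a p * b p) • v := by
  have h2 : QuaT S b (QuaT S a v) = ∑ p, ∑ q, (a p * b q) • S.th q.1 q.2 (S.th p.1 p.2 v) := by
    rw [QuaT_comp, Finset.sum_comm]
    refine Finset.sum_congr rfl fun q _ => Finset.sum_congr rfl fun p _ => ?_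
    rw [mul_comm (a q)]
  rw [QuaT_comp, h2, ← Finset.sum_add_distrib, Finset.sum_smul]
  refine Finset.sum_congr rfl fun p _ => ?_
  rw [← Finset.sum_add_distrib]
  simp only [← smul_add, QuaT_th_anti]
  rw [Finset.sum_eq_single p (fun q _ hq => by rw [if_neg (Ne.symm hq), smul_zero])
    (fun h => absurd (Finset.mem_univ p) h), if_pos rfl]

/-- `θ(a)† = θ(ā)` -/
theorem QuaT_adj (S : Setup d F) (a : Fin 16 × Fin d → ℂ) (v w : F) :
    inner ℂ (QuaT S a v) w = inner ℂ v (QuaT S (fun p => (starRingEnd ℂ) (a p)) w) := by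
  unfold QuaT
  rw [sum_inner, inner_sum]
  refine Finset.sum_congr rfl fun p _ => ?_
  rw [inner_smul_left, inner_smul_right, S.th_sa]

/-- `⟨v, θ(a) θ(ā) v⟩ = |θ(ā) v|²` -/
theorem QuaT_sq (S : Setup d F) (a : Fin 16 × Fin d → ℂ) (v : F) :
    inner ℂ v (QuaT S a (QuaT S (fun p => (starRingEnd ℂ) (a p)) v)) =
      ((‖QuaT S (fun p => (starRingEnd ℂ) (a p)) v‖ ^ 2 : ℝ) : ℂ) := by
  have h := QuaT_adj S (fun p => (starRingEnd ℂ) (a p)) v
    (QuaT S (fun p => (starRingEnd ℂ) (a p)) v)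
  simp only [Complex.conj_conj] at h
  rw [← h, inner_self_eq_norm_sq_to_K]
  simp

/-- `|θ(ā) v|² + |θ(a) v|² = |v|²` for unit vectors `a` -/
theorem QuaT_norm (S : Setup d F) (a : Fin 16 × Fin d → ℂ)
    (ha : ∑ p, a p * (starRingEnd ℂ) (a p) = 1) (v : F) :
    ‖QuaT S (fun p => (starRingEnd ℂ) (a p)) v‖ ^ 2 + ‖QuaT S a v‖ ^ 2 = ‖v‖ ^ 2 := by
  have h1 := QuaT_sq S a v
  have h2 : inner ℂ v (QuaT S (fun p => (starRingEnd ℂ) (a p)) (QuaT S a v)) =
      ((‖QuaT S a v‖ ^ 2 : ℝ) : ℂ) := by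
    have h := QuaT_sq S (fun p => (starRingEnd ℂ) (a p)) v
    simpa only [Complex.conj_conj] using h
  have h3 := congrArg (fun w => inner ℂ v w) (QuaT_anti S a (fun p => (starRingEnd ℂ) (a p)) v)
  have h4 : inner ℂ v v = ((‖v‖ ^ 2 : ℝ) : ℂ) := by
    rw [inner_self_eq_norm_sq_to_K]
    simp
  simp only [inner_add_right, h1, h2, ha, one_smul, h4] at h3
  exact_mod_cast h3

/-- **C-Qua** -/
theorem qua (S : Setup d F) (hv : VacStmt S) : QuaStmt S := by
  intro hirr hF R c₀ hR hinv hpos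
  obtain ⟨e, lam, hspec, hn, hlam, hbil, hexp⟩ := qua_spec R hR hinv
  -- the energy
  have hH : ∀ v : F, Complex.I • ∑ p : Fin 16 × Fin d, ∑ q : Fin 16 × Fin d, (R p q : ℂ) •
      S.th p.1 p.2 (S.th q.1 q.2 v) =
      ∑ j, (lam j : ℂ) • QuaT S (e j) (QuaT S (fun p => (starRingEnd ℂ) (e j p)) v) := by
    intro v
    simp only [QuaT_comp, Finset.smul_sum, smul_smul]
    symm
    rw [Finset.sum_comm]
    refine Finset.sum_congr rfl fun p _ => ?_
    rw [Finset.sum_comm]
    refine Finset.sum_congr rfl fun q _ => ?_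
    rw [← Finset.sum_smul, ← hspec]
  have hE : ∀ v : F, (inner ℂ v ((c₀ : ℂ) • v + Complex.I • ∑ p : Fin 16 × Fin d,
      ∑ q : Fin 16 × Fin d, (R p q : ℂ) • S.th p.1 p.2 (S.th q.1 q.2 v))).re =
      (c₀ + ∑ j, min (lam j) 0) * ‖v‖ ^ 2 + ∑ j, (if lam j < 0 then -lam j * ‖QuaT S (e j) v‖ ^ 2
        else lam j * ‖QuaT S (fun p => (starRingEnd ℂ) (e j p)) v‖ ^ 2) := by
    intro v
    have h0 : inner ℂ v v = ((‖v‖ ^ 2 : ℝ) : ℂ) := by
      rw [inner_self_eq_norm_sq_to_K]
      simp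
    rw [hH, inner_add_right, inner_smul_right, inner_sum, h0]
    have h1 : ∀ j, inner ℂ v ((lam j : ℂ) •
        QuaT S (e j) (QuaT S (fun p => (starRingEnd ℂ) (e j p)) v)) =
        ((lam j * ‖QuaT S (fun p => (starRingEnd ℂ) (e j p)) v‖ ^ 2 : ℝ) : ℂ) := by
      intro j
      rw [inner_smul_right, QuaT_sq]
      push_cast
      ring
    simp only [h1]
    rw [← Complex.ofReal_sum, Complex.add_re, Complex.ofReal_re]
    have h2 : ((c₀ : ℂ) * ((‖v‖ ^ 2 : ℝ) : ℂ)).re = c₀ * ‖v‖ ^ 2 := by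
      rw [← Complex.ofReal_mul, Complex.ofReal_re]
    have h3 : ∀ j, lam j * ‖QuaT S (fun p => (starRingEnd ℂ) (e j p)) v‖ ^ 2 =
        min (lam j) 0 * ‖v‖ ^ 2 + (if lam j < 0 then -lam j * ‖QuaT S (e j) v‖ ^ 2
          else lam j * ‖QuaT S (fun p => (starRingEnd ℂ) (e j p)) v‖ ^ 2) := by
      intro j
      have h4 := QuaT_norm S (e j) (hn j) v
      by_cases hj : lam j < 0
      · rw [if_pos hj, min_eq_left hj.le, ← h4]
        ring
      · rw [if_neg hj, min_eq_right (not_lt.1 hj)]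
        ring
    have h5 : (∑ j, lam j * ‖QuaT S (fun p => (starRingEnd ℂ) (e j p)) v‖ ^ 2) =
        (∑ j, min (lam j) 0) * ‖v‖ ^ 2 + ∑ j, (if lam j < 0 then -lam j * ‖QuaT S (e j) v‖ ^ 2
          else lam j * ‖QuaT S (fun p => (starRingEnd ℂ) (e j p)) v‖ ^ 2) := by
      rw [Finset.sum_mul, ← Finset.sum_add_distrib]
      exact Finset.sum_congr rfl fun j _ => h3 j
    rw [h5, h2]
    ring
  have hDn : ∀ (v : F) j, 0 ≤ (if lam j < 0 then -lam j * ‖QuaT S (e j) v‖ ^ 2
      else lam j * ‖QuaT S (fun p => (starRingEnd ℂ) (e j p)) v‖ ^ 2) := by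
    intro v j
    by_cases hj : lam j < 0
    · rw [if_pos hj]
      exact mul_nonneg (by linarith) (sq_nonneg _)
    · rw [if_neg hj]
      exact mul_nonneg (not_lt.1 hj) (sq_nonneg _)
  -- the isotropic subspace
  obtain ⟨𝒜, h𝒜⟩ : ∃ 𝒜 : Submodule ℂ (Fin 16 × Fin d → ℂ),
    𝒜 = Submodule.span ℂ {a | ∃ j, lam j < 0 ∧ a = e j} := ⟨_, rfl⟩
  have hmem : ∀ j, lam j < 0 → e j ∈ 𝒜 := fun j hj => by
    rw [h𝒜]
    exact Submodule.subset_span ⟨j, hj, rfl⟩
  have hmem' : ∀ j, 0 < lam j → (fun p => (starRingEnd ℂ) (e j p)) ∈ 𝒜 := by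
    intro j hj
    rw [hexp (fun p => (starRingEnd ℂ) (e j p))]
    refine Submodule.sum_mem _ fun i _ => ?_
    by_cases hi : lam i < 0
    · exact Submodule.smul_mem _ _ (hmem i hi)
    · have h1 : ∑ p, (starRingEnd ℂ) (e j p) * (starRingEnd ℂ) (e i p) = 0 := by
        have h2 := hbil j i (by linarith [not_lt.1 hi])
        have h3 := congrArg (starRingEnd ℂ) h2
        simpa only [map_sum, map_mul, map_zero] using h3
      rw [h1, zero_smul]
      exact Submodule.zero_mem _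
  have hiso : ∀ a ∈ 𝒜, ∀ b ∈ 𝒜, ∑ p, a p * b p = 0 := by
    intro a ha b hb
    rw [h𝒜] at ha hb
    refine Submodule.span_induction (p := fun a _ => ∑ p, a p * b p = 0) ?_ ?_ ?_ ?_ ha
    · rintro _ ⟨i, hi, rfl⟩
      refine Submodule.span_induction (p := fun b _ => ∑ p, e i p * b p = 0) ?_ ?_ ?_ ?_ hb
      · rintro _ ⟨j, hj, rfl⟩
        exact hbil i j (by linarith)
      · simp
      · intro x y _ _ hx hy
        simp only [Pi.add_apply, mul_add, Finset.sum_add_distrib, hx, hy, add_zero]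
      · intro c x _ hx
        simp only [Pi.smul_apply, smul_eq_mul]
        have : ∀ p, e i p * (c * x p) = c * (e i p * x p) := fun p => by ring
        simp only [this, ← Finset.mul_sum, hx, mul_zero]
    · simp
    · intro x y _ _ hx hy
      simp only [Pi.add_apply, add_mul, Finset.sum_add_distrib, hx, hy, add_zero]
    · intro c x _ hx
      simp only [Pi.smul_apply, smul_eq_mul, mul_assoc, ← Finset.mul_sum, hx, mul_zero]
  have hmax : ∀ z : Fin 16 × Fin d → ℂ, ∃ a ∈ 𝒜, ∃ b ∈ 𝒜,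
      z = a + fun p => (starRingEnd ℂ) (b p) := by
    intro z
    obtain ⟨c, hc⟩ : ∃ c : Fin 16 × Fin d → ℂ, z = ∑ j, c j • e j := ⟨_, hexp z⟩
    refine ⟨∑ j, if lam j < 0 then c j • e j else 0, Submodule.sum_mem _ fun j _ => ?_,
      ∑ j, if lam j < 0 then 0 else (starRingEnd ℂ) (c j) • (fun p => (starRingEnd ℂ) (e j p)),
      Submodule.sum_mem _ fun j _ => ?_, ?_⟩
    · split_ifs with hj
      · exact Submodule.smul_mem _ _ (hmem j hj)
      · exact Submodule.zero_mem _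
    · split_ifs with hj
      · exact Submodule.zero_mem _
      · exact Submodule.smul_mem _ _ (hmem' j (lt_of_le_of_ne (not_lt.1 hj) (Ne.symm (hlam j))))
    · funext p
      rw [hc, Pi.add_apply, Finset.sum_apply, Finset.sum_apply, Finset.sum_apply, map_sum,
        ← Finset.sum_add_distrib]
      refine Finset.sum_congr rfl fun j _ => ?_
      by_cases hj : lam j < 0
      · simp [hj]
      · simp [hj]
  obtain ⟨Ω, hΩ1, hΩA, hΩu⟩ := hv hirr hF 𝒜 hiso hmax
  have hΩA' : ∀ a ∈ 𝒜, QuaT S a Ω = 0 := hΩA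
  have hct : 0 ≤ c₀ + ∑ j, min (lam j) 0 := by
    have h1 := hpos Ω
    rw [hE, hΩ1] at h1
    have h2 : ∑ j, (if lam j < 0 then -lam j * ‖QuaT S (e j) Ω‖ ^ 2
        else lam j * ‖QuaT S (fun p => (starRingEnd ℂ) (e j p)) Ω‖ ^ 2) = 0 := by
      refine Finset.sum_eq_zero fun j _ => ?_
      by_cases hj : lam j < 0
      · rw [if_pos hj, hΩA' _ (hmem j hj)]
        simp
      · rw [if_neg hj, hΩA' _ (hmem' j (lt_of_le_of_ne (not_lt.1 hj) (Ne.symm (hlam j))))]
        simp
    rw [h2] at h1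
    linarith
  refine ⟨Ω, hΩ1, fun v h0 => hΩu v ?_⟩
  rw [hE] at h0
  have h1 : 0 ≤ (c₀ + ∑ j, min (lam j) 0) * ‖v‖ ^ 2 := mul_nonneg hct (sq_nonneg _)
  have h2 : ∑ j, (if lam j < 0 then -lam j * ‖QuaT S (e j) v‖ ^ 2
        else lam j * ‖QuaT S (fun p => (starRingEnd ℂ) (e j p)) v‖ ^ 2) = 0 :=
    le_antisymm (by linarith) (Finset.sum_nonneg fun j _ => hDn v j)
  rw [Finset.sum_eq_zero_iff_of_nonneg fun j _ => hDn v j] at h2
  have h3 : ∀ j, lam j < 0 → QuaT S (e j) v = 0 := by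
    intro j hj
    have h4 := h2 j (Finset.mem_univ j)
    rw [if_pos hj] at h4
    rcases mul_eq_zero.1 h4 with h | h
    · linarith
    · exact norm_eq_zero.1 (pow_eq_zero_iff two_ne_zero |>.1 h)
  intro a ha
  rw [h𝒜] at ha
  change QuaT S a v = 0
  refine Submodule.span_induction (p := fun a _ => QuaT S a v = 0) ?_ ?_ ?_ ?_ ha
  · rintro _ ⟨j, hj, rfl⟩
    exact h3 j hj
  · simp [QuaT]
  · intro x y _ _ hx hy
    have : QuaT S (x + y) v = QuaT S x v + QuaT S y v := by
      unfold QuaT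
      rw [← Finset.sum_add_distrib]
      exact Finset.sum_congr rfl fun p _ => add_smul _ _ _
    rw [this, hx, hy, add_zero]
  · intro c x _ hx
    have : QuaT S (c • x) v = c • QuaT S x v := by
      unfold QuaT
      rw [Finset.smul_sum]
      exact Finset.sum_congr rfl fun p _ => by rw [Pi.smul_apply, smul_eq_mul, mul_smul]
    rw [this, hx, smul_zero]

end Vale.Agent.P353.Z.U
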