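import Vale.Agent.P353.Z.U.QmBase
import Vale.Agent.P353.Z.U.A5

/-! # P353, general `N`: the core gap `‖∑Q²φ‖² ≥ 8m ∑‖Qφ‖²` (helper130) -/

open MeasureTheory Filter Topology Matrix
open scoped ContDiff

namespace Vale.Agent.P353.Z.U

variable {dc : ℕ}

variable {F : Type*} [NormedAddCommGroup F] [InnerProductSpace ℂ F]

namespace CG

/-! ### families of joint eigenvectors -/

section fam

variable {n : Type*} [Fintype n] [DecidableEq n]

omit [DecidableEq n] in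
lemma rank_one (A : Matrix n n ℂ) (v : n → ℂ) :
    vecMulVec (A *ᵥ v) (star (A *ᵥ v)) = A * vecMulVec v (star v) * Aᴴ := by
  rw [Matrix.mul_vecMulVec, Matrix.vecMulVec_mul, Matrix.star_mulVec]

lemma fam_step {ι : Type} [Fintype ι] (B M : Matrix n n ℂ) (hB : B * B = 1) (hBh : Bᴴ = B)
    (hBM : B * M = M * B) (v : ι → n → ℂ) (hv : ∑ a, vecMulVec (v a) (star (v a)) = M) :
    ∃ (w : ι × Bool → n → ℂ) (s : ι × Bool → ℂ), ∑ a, vecMulVec (w a) (star (w a)) = M ∧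
      (∀ a, s a * s a = 1 ∧ (starRingEnd ℂ) (s a) = s a ∧ B *ᵥ w a = s a • w a) ∧
      ∀ C : Matrix n n ℂ, C * B = B * C → ∀ a, ∀ c : ℂ, C *ᵥ v a.1 = c • v a.1 →
        C *ᵥ w a = c • w a := by
  let A : Bool → Matrix n n ℂ := fun b => (1 / 2 : ℂ) • (1 + (if b then (1 : ℂ) else -1) • B)
  have hAh : ∀ b, (A b)ᴴ = A b := by
    intro b
    simp only [A]
    rw [Matrix.conjTranspose_smul, Matrix.conjTranspose_add, Matrix.conjTranspose_one,
      Matrix.conjTranspose_smul, hBh]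
    cases b <;> simp
  refine ⟨fun a => A a.2 *ᵥ v a.1, fun a => if a.2 then (1 : ℂ) else -1, ?_, ?_, ?_⟩
  · have h1 : ∀ a : ι × Bool, vecMulVec (A a.2 *ᵥ v a.1) (star (A a.2 *ᵥ v a.1)) =
        A a.2 * vecMulVec (v a.1) (star (v a.1)) * A a.2 := by
      intro a
      rw [rank_one, hAh]
    simp only [h1]
    rw [Fintype.sum_prod_type_right, Fintype.sum_bool]
    simp only [← Finset.sum_mul, ← Finset.mul_sum, hv]
    have h2 : A true * M * A true + A false * M * A false = (1 / 2 : ℂ) • (M + B * M * B) := by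
      simp only [A, if_true, Bool.false_eq_true, if_false, one_smul, neg_smul]
      simp only [Matrix.smul_mul, Matrix.mul_smul, smul_smul]
      rw [← smul_add]
      have : (1 + B) * M * (1 + B) + (1 + -B) * M * (1 + -B) = (2 : ℂ) • (M + B * M * B) := by
        rw [two_smul]
        noncomm_ring
      rw [this, smul_smul]
      norm_num
    rw [h2, hBM, mul_assoc, hB, mul_one, ← two_smul ℂ, smul_smul]
    norm_num
  · rintro ⟨a, b⟩
    refine ⟨by cases b <;> simp, by cases b <;> simp, ?_⟩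
    simp only
    rw [Matrix.mulVec_mulVec, ← Matrix.smul_mulVec]
    congr 1
    simp only [A]
    rw [Matrix.mul_smul, smul_comm]
    congr 1
    rw [mul_add, Matrix.mul_smul, hB, mul_one, smul_add, smul_smul]
    cases b <;> simp [add_comm]
  · rintro C hC ⟨a, b⟩ c hc
    simp only at hc ⊢
    have h1 : C * A b = A b * C := by
      simp only [A]
      rw [Matrix.mul_smul, Matrix.smul_mul, mul_add, add_mul, mul_one, one_mul, Matrix.mul_smul,
        Matrix.smul_mul, hC]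
    rw [Matrix.mulVec_mulVec, h1, ← Matrix.mulVec_mulVec, hc, Matrix.mulVec_smul]

end fam

section gam

variable (S : Setup dc F)

/-- `P_+ = (1 + iΓ)/2` -/
noncomputable def PP : Matrix (Fin 16) (Fin 16) ℂ := (1 / 2 : ℂ) • (1 + Complex.I • S.Gam)

lemma PP_conj : (PP S)ᴴ = PP S := by
  unfold PP
  rw [Matrix.conjTranspose_smul, Matrix.conjTranspose_add, Matrix.conjTranspose_one,
    Matrix.conjTranspose_smul, a5_Gam_conj]
  simp

lemma Gam_PP : S.Gam * PP S = (-Complex.I) • PP S := by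
  have h : S.Gam + Complex.I • (-1 : Matrix (Fin 16) (Fin 16) ℂ) =
      (-Complex.I) • (1 + Complex.I • S.Gam) := by
    rw [smul_add, smul_smul, neg_mul, Complex.I_mul_I, neg_neg, one_smul, neg_smul, smul_neg,
      add_comm]
  unfold PP
  rw [Matrix.mul_smul, mul_add, mul_one, Matrix.mul_smul, S.Gam_sq, h, smul_comm]

lemma PP_sq : PP S * PP S = PP S := by
  change ((1 / 2 : ℂ) • (1 + Complex.I • S.Gam)) * PP S = PP S
  rw [Matrix.smul_mul, add_mul, one_mul, Matrix.smul_mul, Gam_PP, smul_smul, mul_neg,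
    Complex.I_mul_I, neg_neg, one_smul, ← two_smul ℂ, smul_smul]
  norm_num

lemma comm_PP {B : Matrix (Fin 16) (Fin 16) ℂ} (h : B * S.Gam = S.Gam * B) :
    B * PP S = PP S * B := by
  unfold PP
  rw [Matrix.mul_smul, Matrix.smul_mul, mul_add, add_mul, mul_one, one_mul, Matrix.mul_smul,
    Matrix.smul_mul, h]

/-- a family of joint eigenvectors resolving `P_+` -/
lemma fam : ∃ (ι : Type) (_ : Fintype ι) (v : ι → Fin 16 → ℂ) (σ : ι → Fin 9 → ℂ),
    ∑ a, vecMulVec (v a) (star (v a)) = PP S ∧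
    ∀ a, S.Gam *ᵥ v a = (-Complex.I) • v a ∧ ∀ k, k ≠ 0 → σ a k * σ a k = 1 ∧
      (starRingEnd ℂ) (σ a k) = σ a k ∧
      S.g2 k (pt k) *ᵥ v a = (-Complex.I * σ a k) • v a := by
  have hinv : ∀ A : Matrix (Fin 16) (Fin 16) ℂ, A * A = -1 →
      (Complex.I • A) * (Complex.I • A) = 1 := by
    intro A hA
    rw [smul_mul_smul_comm, hA, Complex.I_mul_I]
    simp
  have hher : ∀ k l : Fin 9, (Complex.I • S.g2 k l)ᴴ = Complex.I • S.g2 k l := by
    intro k l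
    rw [Matrix.conjTranspose_smul, a5_g2_conj]
    simp
  have cm : ∀ A B : Matrix (Fin 16) (Fin 16) ℂ, A * B = B * A →
      A * (Complex.I • B) = (Complex.I • B) * A := by
    intro A B h
    rw [Matrix.mul_smul, Matrix.smul_mul, h]
  have cG : ∀ {k l : Fin 9}, Same k l → S.Gam * (Complex.I • S.g2 k l) =
      (Complex.I • S.g2 k l) * S.Gam := fun h => cm _ _ (S.Gam_comm_g2 h).symm
  have cP : ∀ {k l : Fin 9}, Same k l → (Complex.I • S.g2 k l) * PP S =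
      PP S * (Complex.I • S.g2 k l) := fun h => comm_PP S (cG h).symm
  have conv : ∀ (A : Matrix (Fin 16) (Fin 16) ℂ) (v : Fin 16 → ℂ) (s : ℂ),
      (Complex.I • A) *ᵥ v = s • v → A *ᵥ v = (-Complex.I * s) • v := by
    intro A v s h
    rw [Matrix.smul_mulVec] at h
    have h2 := congrArg (fun w => (-Complex.I) • w) h
    simp only [smul_smul] at h2
    rw [neg_mul, Complex.I_mul_I, neg_neg, one_smul] at h2
    exact h2
  -- the start
  have hv0 : ∑ a : Fin 16, vecMulVec (PP S *ᵥ Pi.single a 1) (star (PP S *ᵥ Pi.single a 1)) =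
      PP S := by
    simp only [rank_one]
    rw [← Finset.sum_mul, ← Finset.mul_sum]
    have h1 : ∑ a : Fin 16, vecMulVec (Pi.single a (1 : ℂ)) (star (Pi.single a (1 : ℂ))) =
        (1 : Matrix (Fin 16) (Fin 16) ℂ) := by
      ext i j
      rw [Matrix.sum_apply]
      simp only [vecMulVec_apply, Pi.star_apply, Matrix.one_apply, Pi.single_apply]
      rw [Finset.sum_eq_single i]
      · by_cases h : i = j
        · subst h; simp
        · simp [h, Ne.symm h]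
      · intro b _ hb
        simp [Ne.symm hb]
      · intro h; exact absurd (Finset.mem_univ _) h
    rw [h1, mul_one, PP_conj, PP_sq]
  have G0 : ∀ a : Fin 16, S.Gam *ᵥ (PP S *ᵥ Pi.single a 1) =
      (-Complex.I) • (PP S *ᵥ Pi.single a 1) := by
    intro a
    rw [Matrix.mulVec_mulVec, Gam_PP, Matrix.smul_mulVec]
  obtain ⟨v1, s1, hv1, hs1, hk1⟩ := fam_step (Complex.I • S.g2 1 2) (PP S)
    (hinv _ (a5_g2_sq S (by decide))) (hher _ _) (cP ⟨by decide, by decide⟩) _ hv0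
  obtain ⟨v2, s2, hv2, hs2, hk2⟩ := fam_step (Complex.I • S.g2 3 4) (PP S)
    (hinv _ (a5_g2_sq S (by decide))) (hher _ _) (cP ⟨by decide, by decide⟩) _ hv1
  obtain ⟨v3, s3, hv3, hs3, hk3⟩ := fam_step (Complex.I • S.g2 5 6) (PP S)
    (hinv _ (a5_g2_sq S (by decide))) (hher _ _) (cP ⟨by decide, by decide⟩) _ hv2
  obtain ⟨v4, s4, hv4, hs4, hk4⟩ := fam_step (Complex.I • S.g2 7 8) (PP S)
    (hinv _ (a5_g2_sq S (by decide))) (hher _ _) (cP ⟨by decide, by decide⟩) _ hv3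
  have cc : ∀ {i j k l : Fin 9}, i ≠ j → k ≠ l → i ≠ k → i ≠ l → j ≠ k → j ≠ l →
      S.g2 i j * (Complex.I • S.g2 k l) = (Complex.I • S.g2 k l) * S.g2 i j :=
    fun h1 h2 h3 h4 h5 h6 => cm _ _ (a5_comm S h1 h2 h3 h4 h5 h6)
  have neg : ∀ (a b : Fin 9) (w : Fin 16 → ℂ) (s : ℂ), S.g2 a b *ᵥ w = (-Complex.I * s) • w →
      S.g2 b a *ᵥ w = (-Complex.I * (-s)) • w := by
    intro a b w s h
    rw [S.g2_swap b a, Matrix.neg_mulVec, h, ← neg_smul, mul_neg]
  have sq : ∀ s : ℂ, s * s = 1 → -s * -s = 1 := fun s h => by rw [neg_mul_neg, h]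
  have cj : ∀ s : ℂ, (starRingEnd ℂ) s = s → (starRingEnd ℂ) (-s) = -s := fun s h => by
    rw [map_neg, h]
  refine ⟨_, inferInstance, v4, fun a => ![0, s1 a.1.1.1, -s1 a.1.1.1, s2 a.1.1, -s2 a.1.1,
    s3 a.1, -s3 a.1, s4 a, -s4 a], hv4, ?_⟩
  intro a
  -- propagate
  have G1 := hk1 _ (cG ⟨by decide, by decide⟩) a.1.1.1 _ (G0 _)
  have G2 := hk2 _ (cG ⟨by decide, by decide⟩) a.1.1 _ G1
  have G3 := hk3 _ (cG ⟨by decide, by decide⟩) a.1 _ G2
  have G4 := hk4 _ (cG ⟨by decide, by decide⟩) a _ G3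
  have P1 := conv _ _ _ (hs1 a.1.1.1).2.2
  have P1 := hk2 _ (cc (by decide) (by decide) (by decide) (by decide) (by decide) (by decide))
    a.1.1 _ P1
  have P1 := hk3 _ (cc (by decide) (by decide) (by decide) (by decide) (by decide) (by decide))
    a.1 _ P1
  have P1 := hk4 _ (cc (by decide) (by decide) (by decide) (by decide) (by decide) (by decide))
    a _ P1
  have P2 := conv _ _ _ (hs2 a.1.1).2.2
  have P2 := hk3 _ (cc (by decide) (by decide) (by decide) (by decide) (by decide) (by decide))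
    a.1 _ P2
  have P2 := hk4 _ (cc (by decide) (by decide) (by decide) (by decide) (by decide) (by decide))
    a _ P2
  have P3 := conv _ _ _ (hs3 a.1).2.2
  have P3 := hk4 _ (cc (by decide) (by decide) (by decide) (by decide) (by decide) (by decide))
    a _ P3
  have P4 := conv _ _ _ (hs4 a).2.2
  refine ⟨G4, ?_⟩
  intro k hk
  fin_cases k
  · exact absurd rfl hk
  · exact ⟨(hs1 _).1, (hs1 _).2.1, P1⟩
  · exact ⟨sq _ (hs1 _).1, cj _ (hs1 _).2.1, neg _ _ _ _ P1⟩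
  · exact ⟨(hs2 _).1, (hs2 _).2.1, P2⟩
  · exact ⟨sq _ (hs2 _).1, cj _ (hs2 _).2.1, neg _ _ _ _ P2⟩
  · exact ⟨(hs3 _).1, (hs3 _).2.1, P3⟩
  · exact ⟨sq _ (hs3 _).1, cj _ (hs3 _).2.1, neg _ _ _ _ P3⟩
  · exact ⟨(hs4 _).1, (hs4 _).2.1, P4⟩
  · exact ⟨sq _ (hs4 _).1, cj _ (hs4 _).2.1, neg _ _ _ _ P4⟩

/-- the computation of A5 for an arbitrary joint eigenvector -/
lemma a5_gen (ζ : Fin 16 → ℂ) (σ : Fin 9 → ℂ) (hΓ : S.Gam *ᵥ ζ = (-Complex.I) • ζ)
    (hσ : ∀ k, k ≠ 0 → σ k * σ k = 1 ∧ (starRingEnd ℂ) (σ k) = σ k ∧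
      S.g2 k (pt k) *ᵥ ζ = (-Complex.I * σ k) • ζ) (α : Fin 16) :
    ∑ k, ∑ l, (rc k l : ℂ) * (∑ β, ∑ γ, (starRingEnd ℂ) (ζ β) * (S.Gam * S.g2 k l) β γ * ζ γ) *
      (-Complex.I / 2) * (∑ β, S.g2 k l α β * (S.g2 0 1 *ᵥ ζ) β) =
        -5 * (∑ β, (starRingEnd ℂ) (ζ β) * ζ β) * (S.g2 0 1 *ᵥ ζ) α := by
  set η : Fin 16 → ℂ := S.g2 0 1 *ᵥ ζ with hη
  -- expectation values
  have hE0 : ∀ k l : Fin 9, k ≠ 0 → k ≠ l → l ≠ pt k → star ζ ⬝ᵥ (S.g2 k l *ᵥ ζ) = 0 := by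
    intro k l hk hkl hl
    obtain ⟨h1, h2, h3⟩ := hσ k hk
    refine a5_zero (S.g2 k (pt k)) (S.g2 k l) (a5_g2_conj S _ _) (a5_anti S hkl ?_ hl) ζ (σ k)
      h1 h2 h3
    revert hk; fin_cases k <;> decide
  have hE : ∀ k l : Fin 9, ¬ (k ≠ 0 ∧ l = pt k) → star ζ ⬝ᵥ (S.g2 k l *ᵥ ζ) = 0 := by
    intro k l h
    by_cases hkl : k = l
    · rw [hkl, a5_g2_self, Matrix.zero_mulVec, dotProduct_zero]
    · by_cases hk : k = 0
      · subst hk
        rw [S.g2_swap 0 l, Matrix.neg_mulVec, dotProduct_neg, hE0 l 0 (Ne.symm hkl) (Ne.symm hkl),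
          neg_zero]
        have : l ≠ 0 := Ne.symm hkl
        revert this; fin_cases l <;> decide
      · exact hE0 k l hk hkl fun hl => h ⟨hk, hl⟩
  have hEp : ∀ k, k ≠ 0 → star ζ ⬝ᵥ (S.g2 k (pt k) *ᵥ ζ) = (-Complex.I * σ k) * (star ζ ⬝ᵥ ζ) := by
    intro k hk
    rw [(hσ k hk).2.2, dotProduct_smul, smul_eq_mul]
  -- action on `η`
  have hηp : ∀ k, k ≠ 0 → S.g2 k (pt k) *ᵥ η =
      (if k.val < 3 then Complex.I * σ k else -Complex.I * σ k) • η := by
    intro k hk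
    have h3 := (hσ k hk).2.2
    by_cases hk3 : k.val < 3
    · rw [if_pos hk3]
      have ha : S.g2 k (pt k) * S.g2 0 1 = -(S.g2 0 1 * S.g2 k (pt k)) := by
        have hk' : k = 1 ∨ k = 2 := by
          revert hk hk3; fin_cases k <;> decide
        rcases hk' with rfl | rfl
        · rw [S.g2_swap 0 1]
          have h := a5_anti S (k := 1) (l := 2) (p := 0) (by decide) (by decide) (by decide)
          change S.g2 1 2 * -S.g2 1 0 = -(-S.g2 1 0 * S.g2 1 2)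
          rw [mul_neg, neg_mul, h]
        · rw [S.g2_swap 0 1]
          have h := a5_anti S (k := 1) (l := 2) (p := 0) (by decide) (by decide) (by decide)
          change S.g2 2 1 * -S.g2 1 0 = -(-S.g2 1 0 * S.g2 2 1)
          rw [S.g2_swap 2 1, mul_neg, neg_mul, mul_neg, neg_mul, h]
      rw [hη, Matrix.mulVec_mulVec, ha, Matrix.neg_mulVec, ← Matrix.mulVec_mulVec, h3,
        Matrix.mulVec_smul, ← neg_smul]
      congr 1; ring
    · rw [if_neg hk3]
      have ha : S.g2 k (pt k) * S.g2 0 1 = S.g2 0 1 * S.g2 k (pt k) := by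
        have hk' : k ≠ 0 ∧ k ≠ 1 ∧ pt k ≠ 0 ∧ pt k ≠ 1 ∧ k ≠ pt k := by
          revert hk hk3; fin_cases k <;> decide
        obtain ⟨p1, p2, p3, p4, p5⟩ := hk'
        exact a5_comm S p5 (by decide) p1 p2 p3 p4
      rw [hη, Matrix.mulVec_mulVec, ha, ← Matrix.mulVec_mulVec, h3, Matrix.mulVec_smul]
  set N : ℂ := star ζ ⬝ᵥ ζ with hN
  have hNs : ∑ β, (starRingEnd ℂ) (ζ β) * ζ β = N := rfl
  have hc : ∀ k l : Fin 9, (∑ β, ∑ γ, (starRingEnd ℂ) (ζ β) * (S.Gam * S.g2 k l) β γ * ζ γ) =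
      -Complex.I * (star ζ ⬝ᵥ (S.g2 k l *ᵥ ζ)) := by
    intro k l
    have h1 : (∑ β, ∑ γ, (starRingEnd ℂ) (ζ β) * (S.Gam * S.g2 k l) β γ * ζ γ) =
        star ζ ⬝ᵥ ((S.Gam * S.g2 k l) *ᵥ ζ) := by
      simp only [dotProduct, Matrix.mulVec, Finset.mul_sum, mul_assoc]
      rfl
    have h3 : star ζ ᵥ* S.Gam = star ((S.Gam)ᴴ *ᵥ ζ) := by
      rw [Matrix.star_mulVec, Matrix.conjTranspose_conjTranspose]
    rw [h1, ← Matrix.mulVec_mulVec, Matrix.dotProduct_mulVec, h3, a5_Gam_conj, Matrix.neg_mulVec,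
      hΓ, star_neg, star_smul, neg_dotProduct, smul_dotProduct]
    simp only [star_neg, smul_eq_mul, Complex.star_def, Complex.conj_I]
    ring
  have hterm : ∀ k l : Fin 9, (rc k l : ℂ) *
      (∑ β, ∑ γ, (starRingEnd ℂ) (ζ β) * (S.Gam * S.g2 k l) β γ * ζ γ) *
      (-Complex.I / 2) * (∑ β, S.g2 k l α β * η β) = (a5t k l : ℂ) * (1 / 2 * N * η α) := by
    intro k l
    rw [hc]
    by_cases h : k ≠ 0 ∧ l = pt k
    · obtain ⟨hk, rfl⟩ := h
      have h4 : ∑ β, S.g2 k (pt k) α β * η β =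
          (if k.val < 3 then Complex.I * σ k else -Complex.I * σ k) * η α :=
        congrFun (hηp k hk) α
      rw [hEp k hk, h4]
      have h5 := (hσ k hk).1
      by_cases hk3 : k.val < 3
      · have h6 : (pt k).val < 3 := by revert hk hk3; fin_cases k <;> decide
        have e1 : rc k (pt k) = 2 := by rw [rc, if_pos ⟨hk3, h6⟩]
        have e2 : a5t k (pt k) = -2 := by rw [a5t, if_pos ⟨hk, rfl⟩, if_pos hk3]
        rw [e1, e2, if_pos hk3]
        push_cast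
        linear_combination (-(N * η α)) * h5 +
          (N * η α * σ k ^ 2 * (1 - Complex.I ^ 2)) * Complex.I_mul_I
      · have h6 : ¬ (pt k).val < 3 := by revert hk hk3; fin_cases k <;> decide
        have e1 : rc k (pt k) = -1 := by
          rw [rc, if_neg (fun h => hk3 h.1), if_pos (And.intro (by omega) (by omega))]
        have e2 : a5t k (pt k) = -1 := by rw [a5t, if_pos ⟨hk, rfl⟩, if_neg hk3]
        rw [e1, e2, if_neg hk3]
        push_cast
        linear_combination (-(1 / 2) * (N * η α)) * h5 +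
          (1 / 2 * N * η α * σ k ^ 2 * (1 - Complex.I ^ 2)) * Complex.I_mul_I
    · rw [hE k l h, a5t, if_neg h]
      simp
  calc _ = ∑ k, ∑ l, (a5t k l : ℂ) * (1 / 2 * N * η α) :=
        Finset.sum_congr rfl fun k _ => Finset.sum_congr rfl fun l _ => hterm k l
    _ = ((∑ k, ∑ l, a5t k l : ℤ) : ℂ) * (1 / 2 * N * η α) := by
        push_cast
        simp only [Finset.sum_mul]
    _ = _ := by
        rw [a5t_sum, hNs]
        push_cast
        ring

/-- the rotated family still resolves `P_+` -/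
lemma fam_rot {ι : Type} [Fintype ι] (v : ι → Fin 16 → ℂ)
    (hv : ∑ a, vecMulVec (v a) (star (v a)) = PP S) :
    ∑ a, vecMulVec (S.g2 0 1 *ᵥ v a) (star (S.g2 0 1 *ᵥ v a)) = PP S := by
  simp only [rank_one]
  rw [← Finset.sum_mul, ← Finset.mul_sum, hv, comm_PP S (S.Gam_comm_g2 ⟨by decide, by decide⟩),
    mul_assoc, a5_g2_conj, mul_neg, a5_g2_sq S (by decide), neg_neg, mul_one]

lemma PP_add (β γ : Fin 16) : PP S β γ + PP S γ β = if β = γ then 1 else 0 := by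
  have h : S.Gam γ β = -S.Gam β γ := congrFun (congrFun S.Gam_transpose β) γ
  unfold PP
  simp only [Matrix.smul_apply, Matrix.add_apply, smul_eq_mul, h]
  by_cases hbg : β = γ
  · subst hbg
    simp only [Matrix.one_apply_eq, if_true]
    ring
  · rw [Matrix.one_apply_ne hbg, Matrix.one_apply_ne (Ne.symm hbg), if_neg hbg]
    ring

end gam

/-! ### the supercharges `Q^ξ` -/

section ana

variable (S : Setup dc F)

/-- the pairing -/
noncomputable def E (f g : Cfg dc → F) : ℂ := ∫ x, inner ℂ (f x) (g x)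

/-- `Q^ξ` -/
noncomputable def QX (m : ℝ) (ξ : Fin 16 → ℂ) (u : Cfg dc → F) (x : Cfg dc) : F :=
  ∑ β, ξ β • S.Qm m β u x

lemma Tst_QX (m : ℝ) (ξ : Fin 16 → ℂ) {u : Cfg dc → F} (hu : Setup.Tst u) :
    Setup.Tst (QX S m ξ u) :=
  HB.Tst_sum _ fun β _ => HB.Tst_csmul _ (HB.Tst_Qm S m β hu)

lemma E_self (f : Cfg dc → F) : E f f = ((nsq f : ℝ) : ℂ) := by
  unfold E
  rw [nsq, ← integral_complex_ofReal]
  refine integral_congr_ae (Filter.Eventually.of_forall fun x => ?_)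
  simp only [inner_self_eq_norm_sq_to_K]
  norm_cast

lemma E_QX_left (m : ℝ) (ξ : Fin 16 → ℂ) {u g : Cfg dc → F} (hu : Setup.Tst u)
    (hg : ContDiff ℝ ∞ g) :
    E (QX S m ξ u) g = ∑ β, (starRingEnd ℂ) (ξ β) * E (S.Qm m β u) g := by
  unfold E QX
  simp only [sum_inner]
  rw [integral_finsetSum _ fun β _ =>
    (HB.Tst_csmul (ξ β) (HB.Tst_Qm S m β hu)).inner_int hg.continuous]
  refine Finset.sum_congr rfl fun β _ => ?_
  simp only [inner_smul_left]
  exact integral_const_mul _ _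

lemma E_QX_right (m : ℝ) (ξ : Fin 16 → ℂ) {u g : Cfg dc → F} (hg : Setup.Tst g)
    (hu : ContDiff ℝ ∞ u) :
    E g (QX S m ξ u) = ∑ β, ξ β * E g (S.Qm m β u) := by
  unfold E QX
  simp only [inner_sum]
  have h : ∀ β, ContDiff ℝ ∞ (fun x => ξ β • S.Qm m β u x) := fun β =>
    contDiff_const.smul (HB.contDiff_Qm S m β hu)
  rw [integral_finsetSum _ fun β _ => hg.inner_int (h β).continuous]
  refine Finset.sum_congr rfl fun β _ => ?_
  simp only [inner_smul_right]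
  exact integral_const_mul _ _

lemma E_symm (m : ℝ) (ξ : Fin 16 → ℂ) {u v : Cfg dc → F} (hu : Setup.Tst u) (hv : ContDiff ℝ ∞ v) :
    E (QX S m ξ u) v = E u (QX S m (star ξ) v) := by
  rw [E_QX_left S m ξ hu hv, E_QX_right S m (star ξ) hu hv]
  refine Finset.sum_congr rfl fun β _ => ?_
  have h : E (S.Qm m β u) v = E u (S.Qm m β v) := HB.Qm_symm S m β hu hv
  rw [h]
  rfl

lemma E_QX (m : ℝ) (ξ η : Fin 16 → ℂ) {u v : Cfg dc → F} (hu : Setup.Tst u) (hv : Setup.Tst v) :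
    E (QX S m ξ u) (QX S m η v) =
      ∑ β, ∑ γ, (starRingEnd ℂ) (ξ β) * η γ * E (S.Qm m β u) (S.Qm m γ v) := by
  rw [E_QX_left S m ξ hu (Tst_QX S m η hv).1]
  refine Finset.sum_congr rfl fun β _ => ?_
  rw [E_QX_right S m η (HB.Tst_Qm S m β hu) hv.1, Finset.mul_sum]
  refine Finset.sum_congr rfl fun γ _ => ?_
  ring

/-- the resolution of the identity -/
lemma E_fam (m : ℝ) {ι : Type} [Fintype ι] (η : ι → Fin 16 → ℂ)
    (hη : ∑ a, vecMulVec (η a) (star (η a)) = PP S) {u v : Cfg dc → F} (hu : Setup.Tst u)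
    (hv : Setup.Tst v) :
    ∑ β, E (S.Qm m β u) (S.Qm m β v) = ∑ a, (E (QX S m (η a) u) (QX S m (η a) v) +
      E (QX S m (star (η a)) u) (QX S m (star (η a)) v)) := by
  have h1 : ∀ a, E (QX S m (η a) u) (QX S m (η a) v) +
      E (QX S m (star (η a)) u) (QX S m (star (η a)) v) =
      ∑ β, ∑ γ, (η a γ * (starRingEnd ℂ) (η a β) + η a β * (starRingEnd ℂ) (η a γ)) *
        E (S.Qm m β u) (S.Qm m γ v) := by
    intro a
    rw [E_QX S m _ _ hu hv, E_QX S m _ _ hu hv, ← Finset.sum_add_distrib]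
    refine Finset.sum_congr rfl fun β _ => ?_
    rw [← Finset.sum_add_distrib]
    refine Finset.sum_congr rfl fun γ _ => ?_
    simp only [Pi.star_apply, Complex.star_def, Complex.conj_conj]
    ring
  have h2 : ∀ β γ, ∑ a, (η a γ * (starRingEnd ℂ) (η a β) + η a β * (starRingEnd ℂ) (η a γ)) =
      if β = γ then 1 else 0 := by
    intro β γ
    have h3 : ∀ β γ, ∑ a, η a β * (starRingEnd ℂ) (η a γ) = PP S β γ := by
      intro β γ
      rw [← hη, Matrix.sum_apply]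
      rfl
    rw [Finset.sum_add_distrib, h3, h3, add_comm, PP_add]
  simp only [h1]
  rw [Finset.sum_comm]
  refine Finset.sum_congr rfl fun β _ => ?_
  rw [Finset.sum_comm]
  simp only [← Finset.sum_mul, h2]
  rw [Finset.sum_eq_single β]
  · rw [if_pos rfl, one_mul]
  · intro γ _ hγ
    rw [if_neg (Ne.symm hγ), zero_mul]
  · intro h; exact absurd (Finset.mem_univ _) h

/-! ### linearity of the generators -/

lemma G_sum (C : Fin dc) {ι : Type*} (s : Finset ι) (a : ι → ℂ) {u : ι → Cfg dc → F}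
    (hu : ∀ k, ContDiff ℝ ∞ (u k)) (x : Cfg dc) :
    S.G C (fun y => ∑ k ∈ s, a k • u k y) x = ∑ k ∈ s, a k • S.G C (u k) x := by
  classical
  induction s using Finset.induction_on with
  | empty =>
    have := (HB.Inv_zero S).2.1 C x
    simpa using this
  | insert b s hb ih =>
    simp only [Finset.sum_insert hb]
    have h1 : ContDiff ℝ ∞ (fun y => a b • u b y) := contDiff_const.smul (hu b)
    have h2 : ContDiff ℝ ∞ (fun y => ∑ k ∈ s, a k • u k y) :=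
      ContDiff.sum fun k _ => contDiff_const.smul (hu k)
    rw [← ih, ← HB.G_csmul S C _ (hu b), ← HB.G_add S C h1 h2]

lemma J_sum (k l : Fin 9) {ι : Type*} (s : Finset ι) (a : ι → ℂ) {u : ι → Cfg dc → F}
    (hu : ∀ k, ContDiff ℝ ∞ (u k)) (x : Cfg dc) (hkl : Same k l) :
    S.J k l (fun y => ∑ b ∈ s, a b • u b y) x = ∑ b ∈ s, a b • S.J k l (u b) x := by
  classical
  induction s using Finset.induction_on with
  | empty =>
    have := (HB.Inv_zero S).2.2 k l hkl x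
    simpa using this
  | insert b s hb ih =>
    simp only [Finset.sum_insert hb]
    have h1 : ContDiff ℝ ∞ (fun y => a b • u b y) := contDiff_const.smul (hu b)
    have h2 : ContDiff ℝ ∞ (fun y => ∑ k ∈ s, a k • u k y) :=
      ContDiff.sum fun k _ => contDiff_const.smul (hu k)
    rw [← ih, ← HB.J_csmul S k l _ (hu b), ← HB.J_add S k l h1 h2]

lemma G_QX (hA3 : A3Stmt S) (m : ℝ) (ξ : Fin 16 → ℂ) {φ : Cfg dc → F} (hφ : S.Inv φ) (C : Fin dc)
    (x : Cfg dc) : S.G C (QX S m ξ φ) x = 0 := by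
  have h0 : S.G C φ = fun _ => 0 := funext fun y => hφ.2.1 C y
  have h1 := G_sum S C Finset.univ ξ (u := fun β => S.Qm m β φ)
    (fun β => HB.contDiff_Qm S m β hφ.1.1) x
  have h2 : ∀ β, S.G C (S.Qm m β φ) x = 0 := by
    intro β
    rw [hA3 m C β φ hφ.1.1 x, h0, HB.Qm_zero]
  simp only [h2, smul_zero, Finset.sum_const_zero] at h1
  exact h1

lemma J_QX (hA2 : A2Stmt S) (m : ℝ) (ξ : Fin 16 → ℂ) {φ : Cfg dc → F} (hφ : S.Inv φ) {k l : Fin 9}
    (hkl : Same k l) (x : Cfg dc) : S.J k l (QX S m ξ φ) x =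
      (-Complex.I / 2) • ∑ β, (S.g2 k l *ᵥ ξ) β • S.Qm m β φ x := by
  have h0 : S.J k l φ = fun _ => 0 := funext fun y => hφ.2.2 k l hkl y
  have h1 : S.J k l (QX S m ξ φ) x = ∑ β, ξ β • S.J k l (S.Qm m β φ) x :=
    J_sum S k l Finset.univ ξ (u := fun β => S.Qm m β φ)
      (fun β => HB.contDiff_Qm S m β hφ.1.1) x hkl
  have h2 : ∀ α, S.J k l (S.Qm m α φ) x =
      (Complex.I / 2) • ∑ β, S.g2 k l α β • S.Qm m β φ x := by
    intro α
    have h3 := hA2 m k l hkl α φ hφ.1.1 x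
    rwa [h0, HB.Qm_zero, sub_zero] at h3
  rw [h1]
  simp only [h2, Finset.smul_sum, smul_smul]
  rw [Finset.sum_comm]
  refine Finset.sum_congr rfl fun β _ => ?_
  rw [← Finset.sum_smul]
  congr 1
  have h4 : ∀ α β, S.g2 k l α β = - S.g2 k l β α := by
    intro α β
    have := congrFun (congrFun (Setup.g2_transpose S k l) β) α
    simpa [Matrix.transpose_apply] using this
  simp only [Matrix.mulVec, dotProduct, Finset.mul_sum]
  refine Finset.sum_congr rfl fun α _ => ?_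
  rw [h4 α β]
  ring

/-- `[16 H, Q^ξ] = 8 m s Q^ξ` for `iΓξ = sξ` -/
lemma HH_QX (hA4 : A4Stmt S) (hA7 : A7Stmt S) (m : ℝ) {φ : Cfg dc → F} (hφ : S.Inv φ)
    (ξ : Fin 16 → ℂ) (s : ℂ) (hξ : S.Gam *ᵥ ξ = (-Complex.I * s) • ξ) (x : Cfg dc) :
    QX S m ξ (HB.HH S m φ) x = HB.HH S m (QX S m ξ φ) x - (8 * m * s) • QX S m ξ φ x := by
  have e1 : HB.HH S m φ = fun y => (16 : ℂ) • S.Hm m φ y := funext fun y => hA7 m φ hφ.1.1 y
  have e2 : S.Hm m φ = fun y => (1 / 16 : ℂ) • HB.HH S m φ y := by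
    funext y
    rw [e1]
    simp only [smul_smul]
    norm_num
  have hH : ContDiff ℝ ∞ (S.Hm m φ) := by
    rw [e2]
    exact contDiff_const.smul (HB.contDiff_HH S m hφ.1.1)
  have key : ∀ α, S.Qm m α (HB.HH S m φ) x = HB.HH S m (S.Qm m α φ) x +
      (8 * Complex.I * m) • ∑ β, S.Gam α β • S.Qm m β φ x := by
    intro α
    have h1 := hA4 m α φ hφ.1.1 x
    simp only [hφ.2.1, map_zero, Finset.sum_const_zero, smul_zero, sub_zero] at h1
    have h2 : HB.HH S m (S.Qm m α φ) x = (16 : ℂ) • S.Hm m (S.Qm m α φ) x :=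
      hA7 m _ (HB.contDiff_Qm S m α hφ.1.1) x
    rw [e1, HB.Qm_csmul S m α 16 hH, h2, sub_eq_iff_eq_add.mp h1, smul_add, smul_smul,
      add_comm ((16 * -(Complex.I * m / 2)) • _), add_assoc, ← add_smul]
    have : 16 * -(Complex.I * (m : ℂ) / 2) + 8 * Complex.I * m = 0 := by ring
    rw [this, zero_smul, add_zero]
  have h3 : HB.HH S m (QX S m ξ φ) x = ∑ α, ξ α • HB.HH S m (S.Qm m α φ) x :=
    HB.HH_sum S m Finset.univ ξ (u := fun β => S.Qm m β φ)
      (fun β => HB.contDiff_Qm S m β hφ.1.1) x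
  rw [h3]
  unfold QX
  simp only [key, smul_add, Finset.sum_add_distrib]
  rw [sub_eq_add_neg, ← neg_smul]
  congr 1
  simp only [Finset.smul_sum, smul_smul]
  rw [Finset.sum_comm]
  refine Finset.sum_congr rfl fun β _ => ?_
  rw [← Finset.sum_smul]
  congr 1
  have h4 : ∀ α, S.Gam α β = -S.Gam β α := fun α => congrFun (congrFun S.Gam_transpose β) α
  have h5 : ∑ α, S.Gam β α * ξ α = -Complex.I * s * ξ β := congrFun hξ β
  have h6 : ∑ α, ξ α * (8 * Complex.I * m * S.Gam α β) =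
      -(8 * Complex.I * m) * ∑ α, S.Gam β α * ξ α := by
    rw [Finset.mul_sum]
    refine Finset.sum_congr rfl fun α _ => ?_
    rw [h4]
    ring
  rw [h6, h5]
  linear_combination (8 * m * s * ξ β) * Complex.I_mul_I

lemma E_HH (m : ℝ) {u : Cfg dc → F} (hu : Setup.Tst u) :
    E u (HB.HH S m u) = ((∑ β, nsq (S.Qm m β u) : ℝ) : ℂ) := by
  have h1 : E (HB.HH S m u) u = ((∑ β, nsq (S.Qm m β u) : ℝ) : ℂ) := by
    unfold E
    rw [HB.inner_HH S m hu hu]
    push_cast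
    exact Finset.sum_congr rfl fun β _ => E_self _
  have h2 : E u (HB.HH S m u) = (starRingEnd ℂ) (E (HB.HH S m u) u) := by
    unfold E
    rw [← integral_conj]
    simp only [inner_conj_symm]
  rw [h2, h1, Complex.conj_ofReal]

lemma alg (m c : ℂ) (ζ : Fin 16 → ℂ) (R : Fin 9 → Fin 9 → ℂ)
    (M : Fin 9 → Fin 9 → Fin 16 → Fin 16 → ℂ) (N : Fin 9 → Fin 9 → Fin 16 → ℂ)
    (P : Fin 16 → F) :
    ∑ α, ∑ β, ((starRingEnd ℂ) (ζ α) * ζ β) •
      (m • ∑ i, ∑ j, (R i j * M i j α β) • (c • ∑ δ, N i j δ • P δ)) =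
    m • ∑ δ, (∑ k, ∑ l, R k l * (∑ β, ∑ γ, (starRingEnd ℂ) (ζ β) * M k l β γ * ζ γ) *
      c * N k l δ) • P δ := by
  have h1 : ∀ α β, ((starRingEnd ℂ) (ζ α) * ζ β) •
      (m • ∑ i, ∑ j, (R i j * M i j α β) • (c • ∑ δ, N i j δ • P δ)) =
      ∑ i, ∑ j, ((starRingEnd ℂ) (ζ α) * M i j α β * ζ β) •
        ((m * R i j * c) • ∑ δ, N i j δ • P δ) := by
    intro α β
    rw [Finset.smul_sum, Finset.smul_sum]
    refine Finset.sum_congr rfl fun i _ => ?_
    rw [Finset.smul_sum, Finset.smul_sum]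
    refine Finset.sum_congr rfl fun j _ => ?_
    simp only [smul_smul]
    congr 1
    ring
  simp only [h1]
  have h2 : ∀ (w : Fin 16 → Fin 16 → Fin 9 → Fin 9 → F),
      ∑ α, ∑ β, ∑ i, ∑ j, w α β i j = ∑ i, ∑ j, ∑ α, ∑ β, w α β i j := by
    intro w
    calc ∑ α, ∑ β, ∑ i, ∑ j, w α β i j = ∑ α, ∑ i, ∑ β, ∑ j, w α β i j :=
          Finset.sum_congr rfl fun α _ => Finset.sum_comm
      _ = ∑ i, ∑ α, ∑ β, ∑ j, w α β i j := Finset.sum_comm
      _ = ∑ i, ∑ α, ∑ j, ∑ β, w α β i j :=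
          Finset.sum_congr rfl fun i _ => Finset.sum_congr rfl fun α _ => Finset.sum_comm
      _ = ∑ i, ∑ j, ∑ α, ∑ β, w α β i j :=
          Finset.sum_congr rfl fun i _ => Finset.sum_comm
  rw [h2]
  have h3 : ∀ i j, ∑ α, ∑ β, ((starRingEnd ℂ) (ζ α) * M i j α β * ζ β) •
        ((m * R i j * c) • ∑ δ, N i j δ • P δ) =
      ∑ δ, (m * (R i j * (∑ β, ∑ γ, (starRingEnd ℂ) (ζ β) * M i j β γ * ζ γ) *
        c * N i j δ)) • P δ := by
    intro i j
    simp only [← Finset.sum_smul]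
    generalize (∑ β, ∑ γ, (starRingEnd ℂ) (ζ β) * M i j β γ * ζ γ) = K
    rw [Finset.smul_sum, Finset.smul_sum]
    refine Finset.sum_congr rfl fun δ _ => ?_
    simp only [smul_smul]
    congr 1
    ring
  simp only [h3]
  rw [Finset.smul_sum]
  calc ∑ i, ∑ j, ∑ δ, (m * (R i j * (∑ β, ∑ γ, (starRingEnd ℂ) (ζ β) * M i j β γ * ζ γ) *
        c * N i j δ)) • P δ = ∑ i, ∑ δ, ∑ j, (m * (R i j *
          (∑ β, ∑ γ, (starRingEnd ℂ) (ζ β) * M i j β γ * ζ γ) * c * N i j δ)) • P δ :=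
        Finset.sum_congr rfl fun i _ => Finset.sum_comm
    _ = ∑ δ, ∑ i, ∑ j, (m * (R i j *
          (∑ β, ∑ γ, (starRingEnd ℂ) (ζ β) * M i j β γ * ζ γ) * c * N i j δ)) • P δ :=
        Finset.sum_comm
    _ = _ := by
        refine Finset.sum_congr rfl fun δ _ => ?_
        rw [Finset.sum_smul, Finset.smul_sum]
        refine Finset.sum_congr rfl fun i _ => ?_
        rw [Finset.sum_smul, Finset.smul_sum]
        refine Finset.sum_congr rfl fun j _ => ?_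
        rw [smul_smul]

lemma rc_J_QX (hA2 : A2Stmt S) (m : ℝ) (ξ : Fin 16 → ℂ) {φ : Cfg dc → F} (hφ : S.Inv φ)
    (i j : Fin 9) (c : ℂ) (x : Cfg dc) : ((rc i j : ℂ) * c) • S.J i j (QX S m ξ φ) x =
      ((rc i j : ℂ) * c) • ((-Complex.I / 2) • ∑ β, (S.g2 i j *ᵥ ξ) β • S.Qm m β φ x) ∨
      i = j := by
  by_cases hij : i = j
  · exact Or.inr hij
  left
  by_cases hs : Same i j
  · rw [J_QX S hA2 m ξ hφ hs]
  · have h2 : rc i j = 0 := by
      unfold rc
      unfold Same at hs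
      rw [if_neg, if_neg]
      · rintro ⟨h3, h4⟩
        exact hs ⟨hij, ⟨fun h => by omega, fun h => by omega⟩⟩
      · rintro ⟨h3, h4⟩
        exact hs ⟨hij, ⟨fun h => h4, fun h => h3⟩⟩
    rw [h2]; simp

/-- the key pointwise identity -/
lemma key_D (hA1 : A1Stmt S) (hA2 : A2Stmt S) (hA3 : A3Stmt S) (hA7 : A7Stmt S) (m : ℝ)
    {φ : Cfg dc → F} (hφ : S.Inv φ) (ζ : Fin 16 → ℂ) (σ : Fin 9 → ℂ)
    (hΓ : S.Gam *ᵥ ζ = (-Complex.I) • ζ)
    (hσ : ∀ k, k ≠ 0 → σ k * σ k = 1 ∧ (starRingEnd ℂ) (σ k) = σ k ∧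
      S.g2 k (pt k) *ᵥ ζ = (-Complex.I * σ k) • ζ) (x : Cfg dc) :
    QX S m (star ζ) (QX S m ζ (QX S m (S.g2 0 1 *ᵥ ζ) φ)) x +
      QX S m ζ (QX S m (star ζ) (QX S m (S.g2 0 1 *ᵥ ζ) φ)) x =
    (∑ β, (starRingEnd ℂ) (ζ β) * ζ β) •
      ((1 / 8 : ℂ) • HB.HH S m (QX S m (S.g2 0 1 *ᵥ ζ) φ) x -
        (5 * m : ℂ) • QX S m (S.g2 0 1 *ᵥ ζ) φ x) := by
  set η : Fin 16 → ℂ := S.g2 0 1 *ᵥ ζ with hη
  set X : Cfg dc → F := QX S m η φ with hX
  have hXt : Setup.Tst X := Tst_QX S m η hφ.1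
  have hXc : ∀ β, ContDiff ℝ ∞ (S.Qm m β X) := fun β => HB.contDiff_Qm S m β hXt.1
  have e1 : QX S m (star ζ) (QX S m ζ X) x =
      ∑ α, ∑ β, ((starRingEnd ℂ) (ζ α) * ζ β) • S.Qm m α (S.Qm m β X) x := by
    have h1 : ∀ α, S.Qm m α (QX S m ζ X) x = ∑ β, ζ β • S.Qm m α (S.Qm m β X) x := fun α =>
      HB.Qm_sum S m α Finset.univ ζ (u := fun β => S.Qm m β X) hXc x
    change ∑ α, (star ζ) α • S.Qm m α (QX S m ζ X) x = _
    simp only [h1, Finset.smul_sum, smul_smul]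
    rfl
  have e2 : QX S m ζ (QX S m (star ζ) X) x =
      ∑ α, ∑ β, ((starRingEnd ℂ) (ζ α) * ζ β) • S.Qm m β (S.Qm m α X) x := by
    have h1 : ∀ α, S.Qm m α (QX S m (star ζ) X) x =
        ∑ β, (star ζ) β • S.Qm m α (S.Qm m β X) x := fun α =>
      HB.Qm_sum S m α Finset.univ (star ζ) (u := fun β => S.Qm m β X) hXc x
    change ∑ α, ζ α • S.Qm m α (QX S m (star ζ) X) x = _
    simp only [h1, Finset.smul_sum, smul_smul]
    rw [Finset.sum_comm]
    refine Finset.sum_congr rfl fun α _ => Finset.sum_congr rfl fun β _ => ?_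
    rw [mul_comm]
    rfl
  have e3 : ∀ α β, S.Qm m α (S.Qm m β X) x + S.Qm m β (S.Qm m α X) x =
      (if α = β then (2 : ℂ) • S.Hm m X x else 0) +
      (m : ℂ) • (∑ i, ∑ j, ((rc i j : ℂ) * (S.Gam * S.g2 i j) α β) •
        ((-Complex.I / 2) • ∑ δ, (S.g2 i j *ᵥ η) δ • S.Qm m δ φ x)) := by
    intro α β
    rw [hA1 m α β X hXt.1 x]
    have h1 : ∀ C, S.G C X x = 0 := fun C => G_QX S hA3 m η hφ C x
    simp only [h1, smul_zero, Finset.sum_const_zero, add_zero]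
    congr 2
    refine Finset.sum_congr rfl fun i _ => Finset.sum_congr rfl fun j _ => ?_
    rcases rc_J_QX S hA2 m η hφ i j ((S.Gam * S.g2 i j) α β) x with h | h
    · exact h
    · subst h
      simp [a5_g2_self]
  rw [e1, e2, ← Finset.sum_add_distrib]
  have e4 : ∀ α, (∑ β, ((starRingEnd ℂ) (ζ α) * ζ β) • S.Qm m α (S.Qm m β X) x) +
      (∑ β, ((starRingEnd ℂ) (ζ α) * ζ β) • S.Qm m β (S.Qm m α X) x) =
      ((starRingEnd ℂ) (ζ α) * ζ α) • ((2 : ℂ) • S.Hm m X x) +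
      ∑ β, ((starRingEnd ℂ) (ζ α) * ζ β) •
        ((m : ℂ) • (∑ i, ∑ j, ((rc i j : ℂ) * (S.Gam * S.g2 i j) α β) •
          ((-Complex.I / 2) • ∑ δ, (S.g2 i j *ᵥ η) δ • S.Qm m δ φ x))) := by
    intro α
    rw [← Finset.sum_add_distrib]
    simp only [← smul_add, e3]
    simp only [smul_add, Finset.sum_add_distrib]
    congr 1
    rw [Finset.sum_eq_single α]
    · rw [if_pos rfl]
    · intro β _ hβ
      rw [if_neg (Ne.symm hβ), smul_zero]
    · intro h; exact absurd (Finset.mem_univ _) h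
  simp only [e4]
  rw [Finset.sum_add_distrib, ← Finset.sum_smul,
    alg (m : ℂ) (-Complex.I / 2) ζ (fun i j => (rc i j : ℂ))
      (fun i j α β => (S.Gam * S.g2 i j) α β) (fun i j δ => (S.g2 i j *ᵥ η) δ)
      (fun δ => S.Qm m δ φ x)]
  have e5 : ∀ δ, ∑ k, ∑ l, (rc k l : ℂ) *
      (∑ β, ∑ γ, (starRingEnd ℂ) (ζ β) * (S.Gam * S.g2 k l) β γ * ζ γ) *
      (-Complex.I / 2) * (S.g2 k l *ᵥ η) δ = -5 * (∑ β, (starRingEnd ℂ) (ζ β) * ζ β) * η δ :=
    fun δ => a5_gen S ζ σ hΓ hσ δ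
  simp only [e5]
  have e6 : HB.HH S m X x = (16 : ℂ) • S.Hm m X x := hA7 m X hXt.1 x
  rw [e6, smul_sub, smul_smul, smul_smul, smul_smul, sub_eq_add_neg]
  congr 1
  · congr 1
    ring
  · rw [hX]
    unfold QX
    rw [smul_smul, Finset.smul_sum, Finset.smul_sum, ← Finset.sum_neg_distrib]
    refine Finset.sum_congr rfl fun δ _ => ?_
    rw [smul_smul, smul_smul, ← neg_smul]
    congr 1
    ring

/-- coercivity on `X = Q^η φ` -/
lemma coerX (hA1 : A1Stmt S) (hA2 : A2Stmt S) (hA3 : A3Stmt S) (hA7 : A7Stmt S) (m : ℝ)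
    {φ : Cfg dc → F} (hφ : S.Inv φ) (ζ : Fin 16 → ℂ) (σ : Fin 9 → ℂ)
    (hΓ : S.Gam *ᵥ ζ = (-Complex.I) • ζ)
    (hσ : ∀ k, k ≠ 0 → σ k * σ k = 1 ∧ (starRingEnd ℂ) (σ k) = σ k ∧
      S.g2 k (pt k) *ᵥ ζ = (-Complex.I * σ k) • ζ) :
    40 * m * nsq (QX S m (S.g2 0 1 *ᵥ ζ) φ) ≤
      ∑ β, nsq (S.Qm m β (QX S m (S.g2 0 1 *ᵥ ζ) φ)) := by
  have hD := key_D S hA1 hA2 hA3 hA7 m hφ ζ σ hΓ hσ
  set η : Fin 16 → ℂ := S.g2 0 1 *ᵥ ζ with hη
  set X : Cfg dc → F := QX S m η φ with hX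
  have hXt : Setup.Tst X := Tst_QX S m η hφ.1
  have hN : ∑ β, (starRingEnd ℂ) (ζ β) * ζ β = ((∑ β, ‖ζ β‖ ^ 2 : ℝ) : ℂ) := by
    push_cast
    refine Finset.sum_congr rfl fun β _ => ?_
    rw [mul_comm, Complex.mul_conj, Complex.normSq_eq_norm_sq]
    push_cast
    ring
  rw [hN] at hD
  set N : ℝ := ∑ β, ‖ζ β‖ ^ 2 with hNd
  have hN0 : 0 ≤ N := Finset.sum_nonneg fun _ _ => by positivity
  have t1 := Tst_QX S m ζ hXt
  have t2 := Tst_QX S m (star ζ) hXt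
  have h1 : ((nsq (QX S m ζ X) + nsq (QX S m (star ζ) X) : ℝ) : ℂ) =
      ((N * (1 / 8 * ∑ β, nsq (S.Qm m β X) - 5 * m * nsq X) : ℝ) : ℂ) := by
    have a1 : ((nsq (QX S m ζ X) : ℝ) : ℂ) = E X (QX S m (star ζ) (QX S m ζ X)) := by
      rw [← E_self, E_symm S m ζ hXt t1.1]
    have a2 : ((nsq (QX S m (star ζ) X) : ℝ) : ℂ) = E X (QX S m ζ (QX S m (star ζ) X)) := by
      rw [← E_self, E_symm S m (star ζ) hXt t2.1, star_star]
    have a3 : E X (QX S m (star ζ) (QX S m ζ X)) + E X (QX S m ζ (QX S m (star ζ) X)) =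
        N * ((1 / 8 : ℂ) * E X (HB.HH S m X) - 5 * m * E X X) := by
      have c1 := (Tst_QX S m (star ζ) t1).1.continuous
      have c2 := (Tst_QX S m ζ t2).1.continuous
      have c3 := (HB.Tst_HH S m hXt).1.continuous
      unfold E
      rw [← integral_add (hXt.inner_int c1) (hXt.inner_int c2)]
      simp only [← inner_add_right, hD]
      simp only [inner_smul_right, inner_sub_right]
      rw [integral_const_mul, integral_sub ((hXt.inner_int c3).const_mul _)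
        ((hXt.inner_int hXt.1.continuous).const_mul _), integral_const_mul, integral_const_mul]
    push_cast
    rw [a1, a2, a3, E_HH S m hXt, E_self]
    push_cast
    ring
  have h2 : nsq (QX S m ζ X) + nsq (QX S m (star ζ) X) =
      N * (1 / 8 * ∑ β, nsq (S.Qm m β X) - 5 * m * nsq X) := by exact_mod_cast h1
  have h3 := nsq_nonneg (QX S m ζ X)
  have h4 := nsq_nonneg (QX S m (star ζ) X)
  rcases hN0.lt_or_eq with hN1 | hN1
  · have h5 : 0 ≤ 1 / 8 * ∑ β, nsq (S.Qm m β X) - 5 * m * nsq X := by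
      by_contra hcon
      push Not at hcon
      nlinarith
    linarith
  · have hζ : ζ = 0 := by
      funext β
      have h6 : ‖ζ β‖ ^ 2 = 0 := (Finset.sum_eq_zero_iff_of_nonneg fun _ _ => by positivity).mp
        hN1.symm β (Finset.mem_univ _)
      simpa using h6
    have hX0 : X = fun _ => 0 := by
      funext x
      rw [hX, hη, hζ]
      simp [QX]
    have h7 : nsq X = 0 := by rw [hX0]; simp [nsq]
    rw [h7, mul_zero]
    exact Finset.sum_nonneg fun _ _ => nsq_nonneg _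

end ana

end CG

/-- **core gap** -/
theorem cgap (S : Setup dc F) (hA1 : A1Stmt S) (hA2 : A2Stmt S) (hA3 : A3Stmt S)
    (hA4 : A4Stmt S) (hA7 : A7Stmt S) : CGapStmt S := by
  intro m hm φ hφ
  obtain ⟨ι, _, v, σ, hv, hσ⟩ := CG.fam S
  have hη := CG.fam_rot S v hv
  have hGη : ∀ a, S.Gam *ᵥ (S.g2 0 1 *ᵥ v a) = (-Complex.I * 1) • (S.g2 0 1 *ᵥ v a) := by
    intro a
    rw [Matrix.mulVec_mulVec, ← S.Gam_comm_g2 ⟨by decide, by decide⟩, ← Matrix.mulVec_mulVec,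
      (hσ a).1, Matrix.mulVec_smul, mul_one]
  have hGs : ∀ a, S.Gam *ᵥ star (S.g2 0 1 *ᵥ v a) =
      (-Complex.I * (-1)) • star (S.g2 0 1 *ᵥ v a) := by
    intro a
    have h1 := congrArg star (hGη a)
    have h2 : star (S.Gam *ᵥ (S.g2 0 1 *ᵥ v a)) = S.Gam *ᵥ star (S.g2 0 1 *ᵥ v a) := by
      rw [Matrix.star_mulVec, a5_Gam_conj, Matrix.vecMul_neg, ← Matrix.mulVec_transpose,
        S.Gam_transpose, Matrix.neg_mulVec, neg_neg]
    rw [← h2, h1, star_smul]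
    simp
  set η : ι → Fin 16 → ℂ := fun a => S.g2 0 1 *ᵥ v a with hηd
  have hHt : Setup.Tst (HB.HH S m φ) := HB.Tst_HH S m hφ.1
  have hXt : ∀ a, Setup.Tst (CG.QX S m (η a) φ) := fun a => CG.Tst_QX S m _ hφ.1
  have hYt : ∀ a, Setup.Tst (CG.QX S m (star (η a)) φ) := fun a => CG.Tst_QX S m _ hφ.1
  -- the sum of squares
  have h1 : ∑ β, nsq (S.Qm m β φ) =
      ∑ a, (nsq (CG.QX S m (η a) φ) + nsq (CG.QX S m (star (η a)) φ)) := by
    have h := CG.E_fam S m η hη hφ.1 hφ.1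
    simp only [CG.E_self] at h
    exact_mod_cast h
  -- the norm of `HH φ`
  have hsplit : ∀ (ξ : Fin 16 → ℂ) (s : ℝ), S.Gam *ᵥ ξ = (-Complex.I * (s : ℂ)) • ξ →
      CG.E (CG.QX S m ξ φ) (CG.QX S m ξ (HB.HH S m φ)) =
      ((∑ β, nsq (S.Qm m β (CG.QX S m ξ φ)) - 8 * m * s * nsq (CG.QX S m ξ φ) : ℝ) : ℂ) := by
    intro ξ s hξ
    have ht := CG.Tst_QX S m ξ hφ.1
    have e1 : CG.E (CG.QX S m ξ φ) (CG.QX S m ξ (HB.HH S m φ)) =
        CG.E (CG.QX S m ξ φ) (HB.HH S m (CG.QX S m ξ φ)) -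
          (8 * m * s) * CG.E (CG.QX S m ξ φ) (CG.QX S m ξ φ) := by
      unfold CG.E
      simp only [CG.HH_QX S hA4 hA7 m hφ ξ s hξ, inner_sub_right, inner_smul_right]
      rw [integral_sub (ht.inner_int (HB.Tst_HH S m ht).1.continuous)
        ((ht.inner_int ht.1.continuous).const_mul _), integral_const_mul]
    rw [e1, CG.E_HH S m ht, CG.E_self]
    push_cast
    ring
  have h2 : nsq (HB.HH S m φ) = ∑ a,
      ((∑ β, nsq (S.Qm m β (CG.QX S m (η a) φ)) - 8 * m * 1 * nsq (CG.QX S m (η a) φ)) +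
      (∑ β, nsq (S.Qm m β (CG.QX S m (star (η a)) φ)) -
        8 * m * (-1) * nsq (CG.QX S m (star (η a)) φ))) := by
    have h := CG.E_fam S m η hη hφ.1 hHt
    have h3 : CG.E (HB.HH S m φ) (HB.HH S m φ) =
        ∑ β, CG.E (S.Qm m β φ) (S.Qm m β (HB.HH S m φ)) := HB.inner_HH S m hφ.1 hHt
    rw [← h3, CG.E_self] at h
    have h4 : ∀ a, CG.E (CG.QX S m (η a) φ) (CG.QX S m (η a) (HB.HH S m φ)) +
        CG.E (CG.QX S m (star (η a)) φ) (CG.QX S m (star (η a)) (HB.HH S m φ)) =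
        (((∑ β, nsq (S.Qm m β (CG.QX S m (η a) φ)) - 8 * m * 1 * nsq (CG.QX S m (η a) φ)) +
        (∑ β, nsq (S.Qm m β (CG.QX S m (star (η a)) φ)) -
          8 * m * (-1) * nsq (CG.QX S m (star (η a)) φ)) : ℝ) : ℂ) := by
      intro a
      rw [hsplit (η a) 1 (by rw [Complex.ofReal_one]; exact hGη a),
        hsplit (star (η a)) (-1) (by rw [Complex.ofReal_neg, Complex.ofReal_one]; exact hGs a)]
      push_cast
      ring
    simp only [h4] at h
    exact_mod_cast h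
  change 8 * m * ∑ β, nsq (S.Qm m β φ) ≤ nsq (HB.HH S m φ)
  rw [h1, h2, Finset.mul_sum]
  refine Finset.sum_le_sum fun a _ => ?_
  have h5 := CG.coerX S hA1 hA2 hA3 hA7 m hφ (v a) (σ a) (hσ a).1 (hσ a).2
  have h6 : 0 ≤ ∑ β, nsq (S.Qm m β (CG.QX S m (star (η a)) φ)) :=
    Finset.sum_nonneg fun _ _ => nsq_nonneg _
  have h7 := nsq_nonneg (CG.QX S m (η a) φ)
  have h8 : 0 ≤ m * nsq (CG.QX S m (η a) φ) := mul_nonneg hm.le h7
  have h9 : 40 * m * nsq (CG.QX S m (η a) φ) ≤ ∑ β, nsq (S.Qm m β (CG.QX S m (η a) φ)) := h5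
  nlinarith

end Vale.Agent.P353.Z.U
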