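import Vale.Agent.P353.Z.U.StmtC

/-! # P353, general `N`: nearest points in the orbits and in the wells (`FootStmt`) -/

open MeasureTheory Filter Topology
open scoped ContDiff

namespace Vale.Agent.P353.Z.U

variable {d : ℕ} {F : Type*} [NormedAddCommGroup F] [InnerProductSpace ℂ F]

theorem foot_ro_apply (O : Matrix (Fin d) (Fin d) ℝ) (x : Cfg d) (p : Fin 9 × Fin d) :
    ro O x p = ∑ B, O p.2 B * x (p.1, B) := rfl

theorem foot_ro_mul (O O' : Matrix (Fin d) (Fin d) ℝ) (x : Cfg d) :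
    ro (O * O') x = ro O (ro O' x) := by
  ext p
  simp only [foot_ro_apply, Matrix.mul_apply, Finset.sum_mul, Finset.mul_sum]
  rw [Finset.sum_comm]
  exact Finset.sum_congr rfl fun B _ => Finset.sum_congr rfl fun C _ => by ring

theorem foot_ro_one (x : Cfg d) : ro 1 x = x := by
  ext p
  simp only [foot_ro_apply, Matrix.one_apply, ite_mul, one_mul, zero_mul, Finset.sum_ite_eq,
    Finset.mem_univ, if_true]

theorem foot_ro_cont (x : Cfg d) : Continuous fun O : Matrix (Fin d) (Fin d) ℝ => ro O x := by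
  unfold ro
  refine (PiLp.continuous_toLp 2 _).comp (continuous_pi fun p => ?_)
  exact continuous_finset_sum _ fun B _ =>
    (continuous_id.matrix_elem p.2 B).mul continuous_const

/-- first order condition at a nearest point of the orbit -/
theorem foot_perp (S : Setup d F) (hE : GrpExpStmt S) (ξ x : Cfg d)
    (hmin : ∀ O ∈ S.grp, ‖x - ξ‖ ≤ ‖x - ro O ξ‖) : S.Perp ξ (x - ξ) := by
  intro C
  obtain ⟨γ, hγ, hγ0, hd⟩ := hE (Pi.single C 1)
  -- the squared distance along the curve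
  have hnorm : ∀ t, ‖x - ro (γ t) ξ‖ ^ 2 = ∑ p : Fin 9 × Fin d, (x p - ro (γ t) ξ p) ^ 2 := by
    intro t
    rw [EuclideanSpace.norm_sq_eq]
    refine Finset.sum_congr rfl fun p _ => ?_
    rw [Real.norm_eq_abs, sq_abs]
    rfl
  have hder : HasDerivAt (fun t => ‖x - ro (γ t) ξ‖ ^ 2)
      (∑ p : Fin 9 × Fin d, 2 * (x p - ξ p) *
        (-∑ B, S.adm (Pi.single C 1) p.2 B * ξ (p.1, B))) 0 := by
    have h1 : (fun t => ‖x - ro (γ t) ξ‖ ^ 2) =
        fun t => ∑ p : Fin 9 × Fin d, (x p - ro (γ t) ξ p) ^ 2 := funext hnorm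
    rw [h1]
    refine HasDerivAt.fun_sum fun p _ => ?_
    have h2 : HasDerivAt (fun t => ro (γ t) ξ p)
        (∑ B, S.adm (Pi.single C 1) p.2 B * ξ (p.1, B)) 0 := by
      simp only [foot_ro_apply]
      exact HasDerivAt.fun_sum fun B _ => (hd p.2 B).mul_const _
    have h3 := ((hasDerivAt_const (0 : ℝ) (x p)).sub h2).pow 2
    have h4 : ro (γ 0) ξ p = ξ p := by rw [hγ0, foot_ro_one]
    refine h3.congr_deriv ?_
    simp only [Pi.sub_apply, h4]
    ring
  have hloc : IsLocalMin (fun t => ‖x - ro (γ t) ξ‖ ^ 2) 0 := by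
    refine Filter.Eventually.of_forall fun t => ?_
    simp only
    rw [hγ0, foot_ro_one]
    have := hmin (γ t) (hγ t)
    exact pow_le_pow_left₀ (norm_nonneg _) this 2
  have h0 := hloc.hasDerivAt_eq_zero hder
  -- translate
  have key : ∑ p : Fin 9 × Fin d, 2 * (x p - ξ p) *
        (-∑ B, S.adm (Pi.single C 1) p.2 B * ξ (p.1, B)) =
      -2 * ∑ i, ∑ A, ∑ B, S.f C A B * ξ (i, A) * (x - ξ) (i, B) := by
    rw [Fintype.sum_prod_type, Finset.mul_sum]
    refine Finset.sum_congr rfl fun i _ => ?_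
    have e1 : ∀ A B : Fin d, S.adm (Pi.single C 1) A B = S.f C B A := by
      intro A B
      simp only [Setup.adm, Matrix.of_apply]
      rw [Finset.sum_eq_single C]
      · rw [Pi.single_eq_same, mul_one, S.f_cyc A C B]
      · intro D _ hD
        rw [Pi.single_eq_of_ne hD, mul_zero]
      · intro h
        exact absurd (Finset.mem_univ _) h
    simp only [e1]
    rw [Finset.sum_comm (s := Finset.univ) (t := Finset.univ)
      (f := fun A B => S.f C A B * ξ (i, A) * (x - ξ) (i, B)), Finset.mul_sum]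
    refine Finset.sum_congr rfl fun A _ => ?_
    rw [← Finset.sum_neg_distrib, Finset.mul_sum, Finset.mul_sum]
    refine Finset.sum_congr rfl fun B _ => ?_
    have e2 : (x - ξ) (i, A) = x (i, A) - ξ (i, A) := rfl
    rw [e2]
    ring
  rw [key] at h0
  linarith

theorem foot_Vm_cont (S : Setup d F) (m : ℝ) : Continuous (S.Vm m) := by
  unfold Setup.Vm Setup.V Setup.FF Setup.det3
  fun_prop

theorem foot_Vm_zero (S : Setup d F) (m : ℝ) : S.Vm m 0 = 0 := by
  unfold Setup.Vm Setup.V Setup.FF Setup.det3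
  simp

/-- **C-Foot** -/
theorem foot (S : Setup d F) (hE : GrpExpStmt S) (hK : GrpCptStmt S) : FootStmt S := by
  obtain ⟨hcpt, h1, hmul, -, hV, -⟩ := hK
  constructor
  · intro ξ x
    have horb : S.Orb ξ = (fun O => ro O ξ) '' S.grp := by
      ext y
      constructor
      · rintro ⟨O, hO, rfl⟩
        exact ⟨O, hO, rfl⟩
      · rintro ⟨O, hO, rfl⟩
        exact ⟨O, hO, rfl⟩
    have hc : IsCompact (S.Orb ξ) := by
      rw [horb]
      exact hcpt.image (foot_ro_cont ξ)
    have hne : (S.Orb ξ).Nonempty := ⟨ξ, 1, h1, (foot_ro_one ξ).symm⟩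
    obtain ⟨ξ', hξ', hdist⟩ := hc.exists_infDist_eq_dist hne x
    refine ⟨ξ', hξ', by rw [hdist, dist_eq_norm], ?_⟩
    refine foot_perp S hE ξ' x fun O hO => ?_
    obtain ⟨O', hO', rfl⟩ := hξ'
    have hmem : ro O (ro O' ξ) ∈ S.Orb ξ := ⟨O * O', hmul O hO O' hO', (foot_ro_mul O O' ξ).symm⟩
    have h := Metric.infDist_le_dist_of_mem (x := x) hmem
    rwa [hdist, dist_eq_norm, dist_eq_norm] at h
  · intro x
    have hc : IsClosed (S.wells 1) := isClosed_eq (foot_Vm_cont S 1) continuous_const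
    have hne : (S.wells 1).Nonempty := ⟨0, foot_Vm_zero S 1⟩
    obtain ⟨ξ', hξ', hdist⟩ := hc.exists_infDist_eq_dist hne x
    refine ⟨ξ', hξ', by rw [hdist, dist_eq_norm], ?_⟩
    refine foot_perp S hE ξ' x fun O hO => ?_
    have hmem : ro O ξ' ∈ S.wells 1 := by
      change S.Vm 1 (ro O ξ') = 0
      rw [hV O hO 1 ξ']
      exact hξ'
    have h := Metric.infDist_le_dist_of_mem (x := x) hmem
    rwa [hdist, dist_eq_norm, dist_eq_norm] at h

end Vale.Agent.P353.Z.U
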