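import Vale.Agent.P353.Z.U.LimC

/-! # P353, general `N`: local limits -/

open MeasureTheory Filter Topology
open scoped ContDiff

namespace Vale.Agent.P353.Z.U

variable {dc : ℕ}

variable {F : Type*} [NormedAddCommGroup F] [InnerProductSpace ℂ F]

section final

variable (S : Setup dc F)

/-- derivative along the gauge directions -/
noncomputable def lmD (ξ : (Cfg dc)) (C : Fin dc) (u : (Cfg dc) → F) (x : (Cfg dc)) : F :=
  ∑ i, ∑ A, ∑ B, ((S.f C A B : ℂ) * (ξ (i, A) : ℂ)) • pd i B u x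

lemma lm_Tst_D (ξ : (Cfg dc)) (C : Fin dc) {ζ : (Cfg dc) → F} (hζ : Setup.Tst ζ) : Setup.Tst (lmD S ξ C ζ) := by
  constructor
  · unfold lmD
    refine ContDiff.sum fun i _ => ContDiff.sum fun A _ => ContDiff.sum fun B _ => ?_
    exact (contDiff_pd hζ.1).const_smul _
  · refine HasCompactSupport.intro' (K := tsupport ζ) hζ.2 (isClosed_tsupport ζ) ?_
    intro x hx
    have h1 : ∀ i A, pd i A ζ x = 0 := by
      intro i A
      have : fderiv ℝ ζ x = 0 := by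
        have h := (tsupport_fderiv_subset ℝ (f := ζ))
        by_contra hne
        exact hx (h (subset_tsupport _ hne))
      simp [pd, this]
    simp only [lmD, h1, smul_zero, Finset.sum_const_zero]

lemma lm_D_symm (ξ : (Cfg dc)) (C : Fin dc) {ζ v : (Cfg dc) → F} (hζ : Setup.Tst ζ) (hv : ContDiff ℝ ∞ v) :
    ∫ x, inner ℂ (lmD S ξ C ζ x) (v x) = -∫ x, inner ℂ (ζ x) (lmD S ξ C v x) := by
  simp only [lmD, sum_inner, inner_sum, inner_smul_left, inner_smul_right, map_mul,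
    Complex.conj_ofReal]
  have i1 : ∀ i B, Integrable (fun x => inner ℂ (pd i B ζ x) (v x)) := fun i B =>
    (hζ.pd i B).inner_int hv.continuous
  have i2 : ∀ i B, Integrable (fun x => inner ℂ (ζ x) (pd i B v x)) := fun i B =>
    hζ.inner_int (contDiff_pd hv).continuous
  rw [integral_finsetSum _ fun i _ => integrable_finsetSum _ fun A _ => integrable_finsetSum _
      fun B _ => (i1 i B).const_mul _,
    integral_finsetSum _ fun i _ => integrable_finsetSum _ fun A _ => integrable_finsetSum _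
      fun B _ => (i2 i B).const_mul _, ← Finset.sum_neg_distrib]
  refine Finset.sum_congr rfl fun i _ => ?_
  rw [integral_finsetSum _ fun A _ => integrable_finsetSum _
      fun B _ => (i1 i B).const_mul _,
    integral_finsetSum _ fun A _ => integrable_finsetSum _
      fun B _ => (i2 i B).const_mul _, ← Finset.sum_neg_distrib]
  refine Finset.sum_congr rfl fun A _ => ?_
  rw [integral_finsetSum _ fun B _ => (i1 i B).const_mul _,
    integral_finsetSum _ fun B _ => (i2 i B).const_mul _, ← Finset.sum_neg_distrib]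
  refine Finset.sum_congr rfl fun B _ => ?_
  rw [integral_const_mul, integral_const_mul, integral_inner_pd ζ v (hζ.1.of_le (by simp))
    (hv.of_le (by simp)) hζ.2 i B]
  ring

/-- the gauge generator in scaled coordinates -/
lemma lm_G_scl {φ : (Cfg dc) → F} (hφ : ContDiff ℝ ∞ φ) {m : ℝ} (hm : 0 < m) (ξ : (Cfg dc)) (C : Fin dc)
    (hG : ∀ x, S.G C φ x = 0) (w : (Cfg dc)) :
    lmD S ξ C (scl m ξ φ) w =
      (-Complex.I * ((((Real.sqrt m)⁻¹) ^ 3 : ℝ) : ℂ)) • S.G C (scl m ξ φ) w := by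
  have ht : 0 < Real.sqrt m := Real.sqrt_pos.2 hm
  have ht2 : Real.sqrt m ^ 2 = m := Real.sq_sqrt hm.le
  have htc : ((Real.sqrt m : ℝ) : ℂ) ≠ 0 := Complex.ofReal_ne_zero.2 ht.ne'
  have hmc : (m : ℂ) = ((Real.sqrt m : ℝ) : ℂ) ^ 2 := by
    rw [← Complex.ofReal_pow, ht2]
  have h := hG (m • ξ + (Real.sqrt m)⁻¹ • w)
  have e2 : scl m ξ φ w = φ (m • ξ + (Real.sqrt m)⁻¹ • w) := rfl
  have hpd : ∀ i B, pd i B φ (m • ξ + (Real.sqrt m)⁻¹ • w) =
      ((Real.sqrt m : ℝ) : ℂ) • pd i B (scl m ξ φ) w := by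
    intro i B
    rw [lm_pd_scl hφ, smul_smul, ← Complex.ofReal_mul, mul_inv_cancel₀ ht.ne', Complex.ofReal_one,
      one_smul]
  have hsum : ∑ i, ∑ A, ∑ B, ((S.f C A B : ℂ) *
      ((m • ξ + (Real.sqrt m)⁻¹ • w) (i, A) : ℂ)) • pd i B φ (m • ξ + (Real.sqrt m)⁻¹ • w) =
      (((Real.sqrt m : ℝ) : ℂ) ^ 3) • lmD S ξ C (scl m ξ φ) w +
        ∑ i, ∑ A, ∑ B, ((S.f C A B : ℂ) * (w (i, A) : ℂ)) • pd i B (scl m ξ φ) w := by
    simp only [lmD, Finset.smul_sum, ← Finset.sum_add_distrib]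
    refine Finset.sum_congr rfl fun i _ => Finset.sum_congr rfl fun A _ =>
      Finset.sum_congr rfl fun B _ => ?_
    rw [hpd, smul_smul, smul_smul, ← add_smul]
    congr 1
    rw [PiLp.add_apply, PiLp.smul_apply, PiLp.smul_apply, smul_eq_mul, smul_eq_mul]
    push_cast
    rw [hmc]
    field_simp
  rw [Setup.G, hsum, ← e2] at h
  rw [Setup.G]
  generalize (∑ i, ∑ A, ∑ B, ((S.f C A B : ℂ) * (w (i, A) : ℂ)) •
    pd i B (scl m ξ φ) w) = a at h ⊢
  generalize S.cS C (scl m ξ φ w) = b at h ⊢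
  generalize lmD S ξ C (scl m ξ φ) w = d at h ⊢
  have h2 : (-Complex.I) • a + b = (Complex.I * ((Real.sqrt m : ℝ) : ℂ) ^ 3) • d := by
    have h3 : (-Complex.I) • a + b - (Complex.I * ((Real.sqrt m : ℝ) : ℂ) ^ 3) • d =
        (-Complex.I) • ((((Real.sqrt m : ℝ) : ℂ) ^ 3) • d + a) + b := by module
    exact sub_eq_zero.1 (h3.trans h)
  rw [h2, smul_smul]
  have h4 : -Complex.I * ((((Real.sqrt m)⁻¹) ^ 3 : ℝ) : ℂ) *
      (Complex.I * ((Real.sqrt m : ℝ) : ℂ) ^ 3) = 1 := by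
    push_cast
    have hI := Complex.I_mul_I
    field_simp
    rw [← neg_mul_neg] at hI
    linear_combination -hI
  rw [h4, one_smul]

/-- **C-Lim** -/
theorem lim (h8 : A8Stmt S) (hLR : LRStmt dc F) : LimStmt S := by
  intro ξ hcr m hm1 hmt φ hφ P hP hE
  have hm0 : ∀ k, 0 < m k := fun k => lt_of_lt_of_le one_pos (hm1 k)
  have hsm : ∀ k, ContDiff ℝ ∞ (scl (m k) ξ (φ k)) := fun k =>
    lm_scl_contDiff (hφ k).1 (m k) ξ
  -- local bounds
  have hbd : ∀ s : ℝ, 0 < s → ∃ K : ℝ, ∀ k,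
      (∫ x in Metric.ball (0 : (Cfg dc)) s, ‖scl (m k) ξ (φ k) x‖ ^ 2) +
      ∑ i, ∑ A, (∫ x in Metric.ball (0 : (Cfg dc)) s, ‖pd i A (scl (m k) ξ (φ k)) x‖ ^ 2) ≤ K := by
    intro s hs
    obtain ⟨C, hC, hC'⟩ := lm_grad S h8 ξ hcr hs
    obtain ⟨B, hB⟩ := (hE (3 * s) (by linarith)).bddAbove_range
    refine ⟨P s + C * (B + P (3 * s)), fun k => add_le_add (hP k s hs) ?_⟩
    refine (hC' (m k) (hm1 k) (φ k) (hφ k).1).trans ?_
    exact mul_le_mul_of_nonneg_left (add_le_add (hB ⟨k, rfl⟩) (hP k (3 * s) (by linarith))) hC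
  obtain ⟨ψ, hψ, u, hum, hui, hul⟩ := hLR (fun k => scl (m k) ξ (φ k)) hsm hbd
  refine ⟨ψ, hψ, u, hum, hui, hul, ?_, ?_⟩
  · -- the equation
    intro β ζ hζ
    have h1 := lm_tend (v := fun k => scl (m (ψ k)) ξ (φ (ψ k)))
      (fun k => (hsm (ψ k)).continuous) hum hui hul (lm_Tst_Qlin S ξ β hζ)
    have hWζ : Setup.Tst (fun x => S.W β x (ζ x)) := Setup.Tst.clm (S.contDiff_W β) hζ
    have h2 := lm_tend (v := fun k => scl (m (ψ k)) ξ (φ (ψ k)))
      (fun k => (hsm (ψ k)).continuous) hum hui hul hWζ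
    have hcE : ∀ k, Continuous fun x => ((((Real.sqrt (m k))⁻¹ : ℝ)) : ℂ) •
        scl (m k) ξ (S.Qm (m k) β (φ k)) x := by
      intro k
      have h1 : ContDiff ℝ ∞ (S.Qm (m k) β (φ k)) := by
        have : ContDiff ℝ ∞ (fun x => S.Q β (φ k) x + ((m k : ℝ) : ℂ) • S.MM β x (φ k x)) :=
          (S.contDiff_Q β (hφ k).1).add
            ((Setup.contDiff_clm_apply' (lm_contDiff_MM S β) (hφ k).1).const_smul _)
        exact this
      exact (lm_scl_contDiff h1 (m k) ξ).continuous.const_smul _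
    have h3 : Tendsto (fun k => ∫ x, inner ℂ (ζ x) (((((Real.sqrt (m (ψ k)))⁻¹ : ℝ)) : ℂ) •
        scl (m (ψ k)) ξ (S.Qm (m (ψ k)) β (φ (ψ k))) x)) atTop (𝓝 0) := by
      refine lm_null (fun k => hcE (ψ k)) (fun s hs => ?_) hζ
      have h4 := (hE s hs).comp hψ.tendsto_atTop
      refine squeeze_zero (fun k => integral_nonneg fun x => by positivity) (fun k => ?_) h4
      have h5 : ∀ x, ‖((((Real.sqrt (m (ψ k)))⁻¹ : ℝ)) : ℂ) •
          scl (m (ψ k)) ξ (S.Qm (m (ψ k)) β (φ (ψ k))) x‖ ^ 2 =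
          (m (ψ k))⁻¹ * ‖scl (m (ψ k)) ξ (S.Qm (m (ψ k)) β (φ (ψ k))) x‖ ^ 2 := by
        intro x
        rw [norm_smul, Complex.norm_real, mul_pow, Real.norm_eq_abs, sq_abs, inv_pow,
          Real.sq_sqrt (hm0 _).le]
      simp only [h5, Function.comp]
      exact Finset.single_le_sum (f := fun β => ∫ w in Metric.ball (0 : (Cfg dc)) s,
        (m (ψ k))⁻¹ * ‖scl (m (ψ k)) ξ (S.Qm (m (ψ k)) β (φ (ψ k))) w‖ ^ 2)
        (fun β _ => integral_nonneg fun x => mul_nonneg (inv_nonneg.2 (hm0 _).le) (by positivity))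
        (Finset.mem_univ β)
    have h4 : Tendsto (fun k => ((((Real.sqrt (m (ψ k)))⁻¹) ^ 3 : ℝ) : ℂ)) atTop (𝓝 0) := by
      have a1 : Tendsto (fun k => ((Real.sqrt (m (ψ k)))⁻¹)) atTop (𝓝 0) :=
        tendsto_inv_atTop_zero.comp (Real.tendsto_sqrt_atTop.comp (hmt.comp hψ.tendsto_atTop))
      have a2 := a1.pow 3
      rw [zero_pow (by norm_num)] at a2
      have a3 := (Complex.continuous_ofReal.tendsto 0).comp a2
      rw [Complex.ofReal_zero] at a3
      exact a3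
    have h5 : ∀ k, ∫ x, inner ℂ (S.Qlin ξ β ζ x) (scl (m (ψ k)) ξ (φ (ψ k)) x) =
        (∫ x, inner ℂ (ζ x) (((((Real.sqrt (m (ψ k)))⁻¹ : ℝ)) : ℂ) •
          scl (m (ψ k)) ξ (S.Qm (m (ψ k)) β (φ (ψ k))) x)) -
        ((((Real.sqrt (m (ψ k)))⁻¹) ^ 3 : ℝ) : ℂ) *
          ∫ x, inner ℂ (S.W β x (ζ x)) (scl (m (ψ k)) ξ (φ (ψ k)) x) := by
      intro k
      rw [lm_Qlin_symm S ξ β hζ (hsm (ψ k)), ← integral_const_mul, ← integral_sub
        (hζ.inner_int (hcE (ψ k))) ((hWζ.inner_int (hsm (ψ k)).continuous).const_mul _)]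
      refine integral_congr_ae (Filter.Eventually.of_forall fun x => ?_)
      simp only
      rw [lm_Qm_scl S (hφ (ψ k)).1 (hm0 (ψ k)) (hcr β) x, inner_add_right, inner_smul_right,
        S.W_symm, add_sub_cancel_right]
    have h6 := h3.sub (h4.mul h2)
    rw [zero_mul, sub_zero] at h6
    have h7 := h6.congr fun k => (h5 k).symm
    exact tendsto_nhds_unique h1 h7
  · -- gauge directions
    intro hG C ζ hζ
    obtain ⟨Z, hZ, hZ'⟩ := (lm_adj_G S C).2 ζ hζ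
    have h1 := lm_tend (v := fun k => scl (m (ψ k)) ξ (φ (ψ k)))
      (fun k => (hsm (ψ k)).continuous) hum hui hul (lm_Tst_D S ξ C hζ)
    have h2 := lm_tend (v := fun k => scl (m (ψ k)) ξ (φ (ψ k)))
      (fun k => (hsm (ψ k)).continuous) hum hui hul hZ
    have h4 : Tendsto (fun k => ((((Real.sqrt (m (ψ k)))⁻¹) ^ 3 : ℝ) : ℂ)) atTop (𝓝 0) := by
      have a1 : Tendsto (fun k => ((Real.sqrt (m (ψ k)))⁻¹)) atTop (𝓝 0) :=
        tendsto_inv_atTop_zero.comp (Real.tendsto_sqrt_atTop.comp (hmt.comp hψ.tendsto_atTop))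
      have a2 := a1.pow 3
      rw [zero_pow (by norm_num)] at a2
      have a3 := (Complex.continuous_ofReal.tendsto 0).comp a2
      rw [Complex.ofReal_zero] at a3
      exact a3
    have h5 : ∀ k, ∫ x, inner ℂ (lmD S ξ C ζ x) (scl (m (ψ k)) ξ (φ (ψ k)) x) =
        Complex.I * (((((Real.sqrt (m (ψ k)))⁻¹) ^ 3 : ℝ) : ℂ) *
          ∫ x, inner ℂ (Z x) (scl (m (ψ k)) ξ (φ (ψ k)) x)) := by
      intro k
      rw [lm_D_symm S ξ C hζ (hsm (ψ k)), ← hZ' _ (hsm (ψ k)), ← integral_const_mul,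
        ← integral_const_mul, ← integral_neg]
      refine integral_congr_ae (Filter.Eventually.of_forall fun x => ?_)
      simp only
      rw [lm_G_scl S (hφ (ψ k)).1 (hm0 (ψ k)) ξ C (hG (ψ k) C) x, inner_smul_right]
      ring
    have h6 := (h4.mul h2).const_mul Complex.I
    rw [zero_mul, mul_zero] at h6
    have h7 := h6.congr fun k => (h5 k).symm
    exact tendsto_nhds_unique h1 h7

end final

end Vale.Agent.P353.Z.U
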