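import Vale.Agent.P353.Z.U.StmtM
import Vale.Agent.P353.Z.Tools

/-! # P353, general `N`: zero-energy states of the model are zero modes of the setup -/

open MeasureTheory Filter Topology
open scoped ContDiff

namespace Vale.Agent.P353.Z.U

/-! ### the Clifford module is finite dimensional -/

section MFD

variable {N d : ℕ} {F : Type*} [NormedAddCommGroup F] [InnerProductSpace ℂ F]
  (M : BFSS.Model N d F)

/-- the span of the products of a list of generators applied to `v` -/
noncomputable def mbGen (v : F) : List (Fin 16 × Fin d) → Submodule ℂ F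
  | [] => Submodule.span ℂ {v}
  | a :: l => mbGen v l ⊔ (mbGen v l).map (M.θ a.1 a.2 : F →ₗ[ℂ] F)

theorem mbGen_fd (v : F) (l : List (Fin 16 × Fin d)) : FiniteDimensional ℂ (mbGen M v l) := by
  induction l with
  | nil => exact FiniteDimensional.span_singleton ℂ v
  | cons a l ih =>
    rw [mbGen]
    infer_instance

theorem mem_mbGen (v : F) (l : List (Fin 16 × Fin d)) : v ∈ mbGen M v l := by
  induction l with
  | nil => exact Submodule.mem_span_singleton_self v
  | cons a l ih => exact Submodule.mem_sup_left ih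

theorem mb_theta_sq (α : Fin 16) (A : Fin d) (w : F) :
    M.θ α A (M.θ α A w) = (1 / 2 : ℂ) • w := by
  have h := M.θ_anticomm α A α A w
  rw [if_pos ⟨rfl, rfl⟩] at h
  conv_rhs => rw [← h]
  rw [smul_add, ← add_smul]
  norm_num

theorem mbGen_inv (v : F) (l : List (Fin 16 × Fin d)) :
    ∀ b ∈ l, ∀ w ∈ mbGen M v l, M.θ b.1 b.2 w ∈ mbGen M v l := by
  induction l with
  | nil => intro b hb; simp at hb
  | cons a l ih =>
    intro b hb w hw
    rw [mbGen, Submodule.mem_sup] at hw
    obtain ⟨w1, hw1, w2', hw2', rfl⟩ := hw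
    obtain ⟨w2, hw2, rfl⟩ := Submodule.mem_map.mp hw2'
    rw [map_add]
    rw [mbGen]
    change M.θ b.1 b.2 w1 + M.θ b.1 b.2 (M.θ a.1 a.2 w2) ∈ _
    by_cases hba : b = a
    · subst hba
      rw [mb_theta_sq]
      refine Submodule.add_mem _ ?_ ?_
      · exact Submodule.mem_sup_right (Submodule.mem_map.mpr ⟨w1, hw1, rfl⟩)
      · exact Submodule.mem_sup_left (Submodule.smul_mem _ _ hw2)
    · have hbl : b ∈ l := by
        rcases List.mem_cons.mp hb with h | h
        · exact absurd h hba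
        · exact h
      have h := M.θ_anticomm b.1 b.2 a.1 a.2 w2
      have hne : ¬ (b.1 = a.1 ∧ b.2 = a.2) := fun hh => hba (Prod.ext hh.1 hh.2)
      rw [if_neg hne] at h
      have h2 : M.θ b.1 b.2 (M.θ a.1 a.2 w2) = -(M.θ a.1 a.2 (M.θ b.1 b.2 w2)) :=
        eq_neg_of_add_eq_zero_left h
      rw [h2]
      refine Submodule.add_mem _ ?_ (Submodule.neg_mem _ ?_)
      · exact Submodule.mem_sup_left (ih b hbl w1 hw1)
      · exact Submodule.mem_sup_right (Submodule.mem_map.mpr ⟨_, ih b hbl w2 hw2, rfl⟩)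

include M in
/-- the Clifford module of a model is finite dimensional. -/
theorem finiteDimensional_of_model : FiniteDimensional ℂ F := by
  obtain ⟨v, hv⟩ := M.nontrivial
  set l := (Finset.univ : Finset (Fin 16 × Fin d)).toList with hl
  have hinv : ∀ α A, ∀ w ∈ mbGen M v l, M.θ α A w ∈ mbGen M v l := by
    intro α A w hw
    exact mbGen_inv M v l (α, A) (by rw [hl, Finset.mem_toList]; exact Finset.mem_univ _) w hw
  rcases M.θ_irreducible _ hinv with h | h
  · exfalso
    have := mem_mbGen M v l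
    rw [h, Submodule.mem_bot] at this
    exact hv this
  · have h1 := mbGen_fd M v l
    rw [h] at h1
    exact Module.finite_def.mpr ((Submodule.fg_iff_finiteDimensional _).mpr h1)

end MFD

/-! ### the supercharges agree -/

section MQ

variable {N d : ℕ} {F : Type*} [NormedAddCommGroup F] [InnerProductSpace ℂ F]
  {M : BFSS.Model N d F} {S : Setup d F}

theorem mb_pd_eq {u : Cfg d → F} {x : Cfg d} (hu : DifferentiableAt ℝ u x) (i : Fin 9)
    (A : Fin d) : BFSS.pd i A u x = pd i A u x := hu.lineDeriv_eq_fderiv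

theorem mb_vec (hR : Rep M S) (i : Fin 9) (A : Fin d) (β : Fin 16) (v : F) :
    S.vec (S.g i) A β v = ∑ γ, (M.γ i β γ : ℂ) • M.θ γ A v := by
  rw [CS.vec, _root_.sum_apply]
  refine Finset.sum_congr rfl fun γ _ => ?_
  rw [_root_.smul_apply, hR.hg, hR.hth]

theorem mb_g2 (hR : Rep M S) (i j : Fin 9) (α β : Fin 16) :
    S.g2 i j α β = ((M.γ2 i j α β : ℝ) : ℂ) := by
  have h1 : ∀ i j : Fin 9, (S.g i * S.g j) α β = (((M.γ i * M.γ j) α β : ℝ) : ℂ) := by
    intro i j
    rw [Matrix.mul_apply, Matrix.mul_apply, Complex.ofReal_sum]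
    exact Finset.sum_congr rfl fun k _ => by rw [hR.hg, hR.hg, Complex.ofReal_mul]
  rw [CS.g2, Matrix.smul_apply, Matrix.sub_apply, h1, h1, BFSS.Model.γ2, Matrix.smul_apply,
    Matrix.sub_apply]
  simp

theorem mb_Q (hR : Rep M S) (β : Fin 16) {u : Cfg d → F} {x : Cfg d}
    (hu : DifferentiableAt ℝ u x) : M.Q β u x = S.Q β u x := by
  rw [Setup.Q, BFSS.Model.Q]
  congr 1
  · congr 1
    refine Finset.sum_congr rfl fun i _ => ?_
    rw [Finset.sum_comm]
    refine Finset.sum_congr rfl fun A _ => ?_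
    rw [mb_vec hR]
    exact Finset.sum_congr rfl fun γ _ => by rw [mb_pd_eq hu]
  · rw [Setup.W, _root_.smul_apply]
    congr 1
    simp only [_root_.sum_apply, _root_.smul_apply]
    -- both sides as sums over A, i, j, γ
    have h1 : ∀ A i j, ((S.FF A i j x : ℝ) : ℂ) • S.vec (S.g2 i j) A β (u x) =
        ∑ B, ∑ C, ∑ γ,
          (((M.f A B C * x (i, B) * x (j, C) * M.γ2 i j β γ : ℝ) : ℂ) • M.θ γ A (u x)) := by
      intro A i j
      have hF : ((S.FF A i j x : ℝ) : ℂ) =
          ∑ B, ∑ C, ((M.f A B C * x (i, B) * x (j, C) : ℝ) : ℂ) := by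
        rw [Setup.FF, hR.hκ, hR.hf, one_mul]
        push_cast
        rfl
      rw [hF, CS.vec, _root_.sum_apply, Finset.sum_smul]
      refine Finset.sum_congr rfl fun B _ => ?_
      rw [Finset.sum_smul]
      refine Finset.sum_congr rfl fun C _ => ?_
      rw [Finset.smul_sum]
      refine Finset.sum_congr rfl fun γ _ => ?_
      rw [_root_.smul_apply, smul_smul, mb_g2 hR, hR.hth]
      congr 1
      push_cast
      ring
    simp only [h1]
    refine Finset.sum_congr rfl fun A _ => ?_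
    symm
    calc _ = ∑ i, ∑ B, ∑ j, ∑ C, ∑ γ,
          (((M.f A B C * x (i, B) * x (j, C) * M.γ2 i j β γ : ℝ) : ℂ) • M.θ γ A (u x)) :=
          Finset.sum_congr rfl fun i _ => Finset.sum_comm
      _ = ∑ B, ∑ i, ∑ j, ∑ C, ∑ γ,
          (((M.f A B C * x (i, B) * x (j, C) * M.γ2 i j β γ : ℝ) : ℂ) • M.θ γ A (u x)) :=
          Finset.sum_comm
      _ = ∑ B, ∑ i, ∑ C, ∑ j, ∑ γ,
          (((M.f A B C * x (i, B) * x (j, C) * M.γ2 i j β γ : ℝ) : ℂ) • M.θ γ A (u x)) :=
          Finset.sum_congr rfl fun B _ => Finset.sum_congr rfl fun i _ => Finset.sum_comm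
      _ = _ := Finset.sum_congr rfl fun B _ => Finset.sum_comm

end MQ

/-! ### forms and the bridge -/

section MBr

variable {N d : ℕ} {F : Type*} [NormedAddCommGroup F] [InnerProductSpace ℂ F]
  {M : BFSS.Model N d F} {S : Setup d F}

theorem mb_Q_sub (S : Setup d F) {β : Fin 16} {u v : Cfg d → F} {x : Cfg d}
    (hu : DifferentiableAt ℝ u x) (hv : DifferentiableAt ℝ v x) :
    S.Q β (fun y => u y - v y) x = S.Q β u x - S.Q β v x := by
  simp only [Setup.Q, pd_sub hu hv, map_sub, Finset.sum_sub_distrib, smul_sub]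
  abel

theorem mb_form_eq (hR : Rep M S) {φ u : Cfg d → F} (hφ : Setup.Tst φ) (hu : Setup.Tst u) :
    M.form φ u = (1 / 16 : ℂ) * ∑ α, ∫ x, inner ℂ (S.Q α φ x) (S.Q α u x) := by
  rw [BFSS.Model.form, BFSS.leb]
  congr 1
  refine Finset.sum_congr rfl fun α _ => integral_congr_ae (Filter.Eventually.of_forall fun x => ?_)
  simp only
  rw [mb_Q hR α (hφ.diff x), mb_Q hR α (hu.diff x)]

theorem mb_inner_self (a : F) : inner ℂ a a = ((‖a‖ ^ 2 : ℝ) : ℂ) := by
  rw [inner_self_eq_norm_sq_to_K]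
  norm_cast

theorem mb_form_self_re (hR : Rep M S) {u : Cfg d → F} (hu : Setup.Tst u) :
    (M.form u u).re = 1 / 16 * ∑ α, ∫ x, ‖S.Q α u x‖ ^ 2 := by
  rw [mb_form_eq hR hu hu]
  have h : ∀ α, ∫ x, inner ℂ (S.Q α u x) (S.Q α u x) =
      ((∫ x, ‖S.Q α u x‖ ^ 2 : ℝ) : ℂ) := by
    intro α
    rw [← integral_complex_ofReal]
    exact integral_congr_ae (Filter.Eventually.of_forall fun x => mb_inner_self _)
  simp only [h]
  rw [← Complex.ofReal_sum]
  have e : (1 / 16 : ℂ) = ((1 / 16 : ℝ) : ℂ) := by norm_num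
  rw [e, ← Complex.ofReal_mul, Complex.ofReal_re]

theorem mb_form_sub_re (hR : Rep M S) {u v : Cfg d → F} (hu : Setup.Tst u)
    (hv : Setup.Tst v) : (M.form (fun x => u x - v x) fun x => u x - v x).re =
      (M.form u u).re - 2 * (M.form v u).re + (M.form v v).re := by
  rw [mb_form_self_re hR (hu.sub hv), mb_form_self_re hR hu, mb_form_self_re hR hv,
    mb_form_eq hR hv hu]
  have h : ∀ α, ∫ x, ‖S.Q α (fun x => u x - v x) x‖ ^ 2 = (∫ x, ‖S.Q α u x‖ ^ 2) -
      2 * (∫ x, inner ℂ (S.Q α v x) (S.Q α u x)).re + (∫ x, ‖S.Q α v x‖ ^ 2) := by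
    intro α
    have i1 := (hu.Q S α).norm_sq_int
    have i2 := (hv.Q S α).norm_sq_int
    have i3 : Integrable (fun x => inner ℂ (S.Q α v x) (S.Q α u x)) :=
      (hv.Q S α).inner_int (hu.Q S α).1.continuous
    have i4 : Integrable (fun x => (inner ℂ (S.Q α v x) (S.Q α u x) : ℂ).re) := i3.re
    have e1 : (∫ x, inner ℂ (S.Q α v x) (S.Q α u x)).re =
        ∫ x, (inner ℂ (S.Q α v x) (S.Q α u x) : ℂ).re := by
      exact (integral_re i3).symm
    have i5 : Integrable (fun x => 2 * (inner ℂ (S.Q α v x) (S.Q α u x) : ℂ).re) :=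
      i4.const_mul 2
    have i6 : Integrable (fun x => ‖S.Q α u x‖ ^ 2 -
      2 * (inner ℂ (S.Q α v x) (S.Q α u x) : ℂ).re) := i1.sub i5
    rw [e1, ← integral_const_mul, ← integral_sub i1 i5, ← integral_add i6 i2]
    refine integral_congr_ae (Filter.Eventually.of_forall fun x => ?_)
    simp only
    rw [mb_Q_sub S (hu.diff x) (hv.diff x), @norm_sub_sq ℂ F]
    have e3 : RCLike.re (inner ℂ (S.Q α u x) (S.Q α v x)) =
        (inner ℂ (S.Q α v x) (S.Q α u x) : ℂ).re := inner_re_symm _ _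
    rw [e3]
  simp only [h]
  have e : (1 / 16 : ℂ) = ((1 / 16 : ℝ) : ℂ) := by norm_num
  rw [e, Complex.re_ofReal_mul, Complex.re_sum, Finset.sum_add_distrib, Finset.sum_sub_distrib,
    ← Finset.mul_sum]
  ring

theorem mb_form_self_nonneg (hR : Rep M S) {u : Cfg d → F} (hu : Setup.Tst u) :
    0 ≤ (M.form u u).re := by
  rw [mb_form_self_re hR hu]
  refine mul_nonneg (by norm_num) (Finset.sum_nonneg fun α _ => integral_nonneg fun x => ?_)
  positivity

/-- **M-Bridge** zero-energy states are zero modes of the setup. -/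
theorem bridge_of_gauss (M : BFSS.Model N d F) (hG : GaussStmt M) : BridgeStmt M := by
  intro S hR Ψ hΨ h
  obtain ⟨-, u, hu1, hu2, hu3, hu4⟩ := h
  have hT : ∀ n, Setup.Tst (u n) := fun n => ⟨(hu1 n).1, (hu1 n).2.1⟩
  refine ⟨u, hT, fun n C x => hG S hR (u n) (hu1 n) C x, ?_, ?_⟩
  · refine hu2.congr fun n => ?_
    rw [BFSS.leb]
    refine integral_congr_ae ?_
    filter_upwards [hΨ.coeFn_toLp] with x hx
    rw [hx]
  -- the energies tend to zero
  have hE : Tendsto (fun n => (M.form (u n) (u n)).re) atTop (𝓝 0) := by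
    rw [Metric.tendsto_atTop]
    intro ε hε
    rw [Metric.tendsto_atTop] at hu3
    obtain ⟨⟨N1, N2⟩, hN⟩ := hu3 (ε / 2) (by positivity)
    set m := max N1 N2 with hm
    have h4 := hu4 (u m) (hu1 m)
    rw [Metric.tendsto_atTop] at h4
    obtain ⟨N3, hN3⟩ := h4 (ε / 4) (by positivity)
    refine ⟨max m N3, fun n hn => ?_⟩
    have hn1 : m ≤ n := (le_max_left _ _).trans hn
    have hn3 : N3 ≤ n := (le_max_right _ _).trans hn
    have a1 := hN (n, m) ⟨((le_max_left _ _).trans hn1 : N1 ≤ n), (le_max_right _ _ : N2 ≤ m)⟩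
    have a2 := hN3 n hn3
    rw [dist_zero_right] at a1 a2
    have b1 := Complex.re_le_norm (M.form (fun x => u n x - u m x) fun x => u n x - u m x)
    have b2 : (M.form (u m) (u n)).re ≤ ‖M.form (u m) (u n)‖ := Complex.re_le_norm _
    have b3 := mb_form_sub_re hR (hT n) (hT m)
    have b4 := mb_form_self_nonneg hR (hT m)
    have b5 := mb_form_self_nonneg hR (hT n)
    rw [Real.dist_eq, sub_zero, abs_of_nonneg b5]
    simp only at a1
    linarith
  intro β
  have h16 : Tendsto (fun n => 16 * (M.form (u n) (u n)).re) atTop (𝓝 0) := by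
    simpa using hE.const_mul 16
  refine squeeze_zero (fun n => integral_nonneg fun x => by positivity) (fun n => ?_) h16
  rw [mb_form_self_re hR (hT n)]
  have h1 : ∫ x, ‖S.Q β (u n) x‖ ^ 2 ≤ ∑ α, ∫ x, ‖S.Q α (u n) x‖ ^ 2 :=
    Finset.single_le_sum (f := fun α => ∫ x, ‖S.Q α (u n) x‖ ^ 2)
      (fun α _ => integral_nonneg fun x => by positivity) (Finset.mem_univ β)
  linarith

end MBr

end Vale.Agent.P353.Z.U
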