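import Vale.Agent.P353.Z.U.StmtM
import Vale.Agent.P353.Z.U.MCountB

/-! # P353, general `N`: M-Count, the zeros of `V_1` form at most `p(N)` orbits -/

open MeasureTheory Filter Topology
open scoped ContDiff

namespace Vale.Agent.P353.Z.U.Cnt

variable {N d : ℕ} {F : Type*} [NormedAddCommGroup F] [InnerProductSpace ℂ F]

/-- the triple of matrices `J_k = -½ ∑_A x_k^A T_A` of a configuration -/
noncomputable def Jx (M : BFSS.Model N d F) (x : Cfg d) (k : Fin 3) : Matrix (Fin N) (Fin N) ℂ :=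
  ∑ A, ((-(1 / 2) * x (Setup.c3 k, A) : ℝ) : ℂ) • M.T A

lemma Jx_herm (M : BFSS.Model N d F) (x : Cfg d) (k : Fin 3) :
    (Jx M x k).conjTranspose = Jx M x k := by
  unfold Jx
  rw [Matrix.conjTranspose_sum]
  refine Finset.sum_congr rfl fun A _ => ?_
  rw [Matrix.conjTranspose_smul, M.T_hermitian, Complex.star_def, Complex.conj_ofReal]

lemma V1_zero {S : Setup d F} (hSq : SqStmt S) {x : Cfg d} (hx : S.Vm 1 x = 0) :
    (∀ k A, S.GG 1 k A x = 0) ∧ ∀ i : Fin 9, 3 ≤ i.val → ∀ A, x (i, A) = 0 := by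
  have h1 := hSq 1 x
  rw [hx] at h1
  have n1 : 0 ≤ ∑ k, ∑ A, S.GG 1 k A x ^ 2 :=
    Finset.sum_nonneg fun _ _ => Finset.sum_nonneg fun _ _ => sq_nonneg _
  have n2 : 0 ≤ ∑ i : Fin 9, ∑ A, if i.val < 3 then 0 else x (i, A) ^ 2 :=
    Finset.sum_nonneg fun i _ => Finset.sum_nonneg fun A _ => by
      split_ifs
      · exact le_rfl
      · exact sq_nonneg _
  have n3 : 0 ≤ ∑ i : Fin 9, ∑ j : Fin 9, ∑ A,
      if i.val < 3 ∧ j.val < 3 then 0 else S.FF A i j x ^ 2 :=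
    Finset.sum_nonneg fun i _ => Finset.sum_nonneg fun j _ => Finset.sum_nonneg fun A _ => by
      split_ifs
      · exact le_rfl
      · exact sq_nonneg _
  have z1 : ∑ k, ∑ A, S.GG 1 k A x ^ 2 = 0 := by nlinarith
  have z2 : (∑ i : Fin 9, ∑ A, if i.val < 3 then 0 else x (i, A) ^ 2) = 0 := by nlinarith
  constructor
  · intro k A
    have h2 := (Finset.sum_eq_zero_iff_of_nonneg (fun k _ => Finset.sum_nonneg fun _ _ =>
      sq_nonneg _)).1 z1 k (Finset.mem_univ _)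
    have h3 := (Finset.sum_eq_zero_iff_of_nonneg (fun _ _ => sq_nonneg _)).1 h2 A
      (Finset.mem_univ _)
    exact pow_eq_zero_iff (two_ne_zero) |>.1 h3
  · intro i hi A
    have h2 := (Finset.sum_eq_zero_iff_of_nonneg (fun i _ => Finset.sum_nonneg fun A _ => by
      split_ifs
      · exact le_rfl
      · exact sq_nonneg _)).1 z2 i (Finset.mem_univ _)
    have h3 := (Finset.sum_eq_zero_iff_of_nonneg (fun A _ => by
      split_ifs
      · exact le_rfl
      · exact sq_nonneg _)).1 h2 A (Finset.mem_univ _)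
    rw [if_neg (by omega)] at h3
    exact pow_eq_zero_iff (two_ne_zero) |>.1 h3

lemma Jx_comm (M : BFSS.Model N d F) {S : Setup d F} (hR : Rep M S) (hSq : SqStmt S) {x : Cfg d}
    (hx : S.Vm 1 x = 0) (k : Fin 3) :
    Jx M x (k + 1) * Jx M x (k + 2) - Jx M x (k + 2) * Jx M x (k + 1) =
      Complex.I • Jx M x k := by
  have hG := (V1_zero hSq hx).1 k
  have e1 : Jx M x (k + 1) * Jx M x (k + 2) - Jx M x (k + 2) * Jx M x (k + 1) =
      ∑ B, ∑ C, (((1 / 4) * (x (Setup.c3 (k + 1), B) * x (Setup.c3 (k + 2), C)) : ℝ) : ℂ) •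
        (M.T B * M.T C - M.T C * M.T B) := by
    unfold Jx
    rw [Finset.sum_mul_sum, Finset.sum_mul_sum, Finset.sum_comm (γ := Fin d)
      (f := fun i j => (((-(1 / 2) * x (Setup.c3 (k + 2), i) : ℝ) : ℂ) • M.T i) *
        (((-(1 / 2) * x (Setup.c3 (k + 1), j) : ℝ) : ℂ) • M.T j)), ← Finset.sum_sub_distrib]
    refine Finset.sum_congr rfl fun B _ => ?_
    rw [← Finset.sum_sub_distrib]
    refine Finset.sum_congr rfl fun C _ => ?_
    rw [smul_mul_smul_comm, smul_mul_smul_comm, smul_sub]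
    push_cast
    congr 2 <;> ring
  rw [e1]
  have e2 : ∀ B C, M.T B * M.T C - M.T C * M.T B =
      ∑ A, (Complex.I * ((S.f A B C : ℝ) : ℂ)) • M.T A := by
    intro B C
    rw [M.T_comm]
    refine Finset.sum_congr rfl fun A _ => ?_
    rw [S.f_cyc A B C, hR.hf]
  simp only [e2, Finset.smul_sum, smul_smul]
  rw [Finset.sum_congr rfl (fun B _ => Finset.sum_comm), Finset.sum_comm]
  unfold Jx
  rw [Finset.smul_sum]
  refine Finset.sum_congr rfl fun A _ => ?_
  simp only [← Finset.sum_smul]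
  rw [smul_smul]
  congr 1
  have h1 := hG A
  unfold Setup.GG Setup.FF at h1
  rw [hR.hκ, one_mul, mul_one] at h1
  have h2 : ((-(1 / 2) * x (Setup.c3 k, A) : ℝ) : ℂ) = (((1 / 4) * ∑ B, ∑ C, S.f A B C *
      x (Setup.c3 (k + 1), B) * x (Setup.c3 (k + 2), C) : ℝ) : ℂ) := by
    congr 1
    linarith
  rw [h2]
  push_cast
  simp only [Finset.mul_sum]
  refine Finset.sum_congr rfl fun B _ => Finset.sum_congr rfl fun C _ => ?_
  ring

lemma Jx_jt (M : BFSS.Model N d F) {S : Setup d F} (hR : Rep M S) (hSq : SqStmt S) {x : Cfg d}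
    (hx : S.Vm 1 x = 0) : JT (Jx M x) :=
  ⟨Jx_herm M x, Jx_comm M hR hSq hx⟩

/-- conjugate triples come from the adjoint action -/
lemma Jx_conj (M : BFSS.Model N d F) {x y : Cfg d} (V : BFSS.SU N) (k : Fin 3)
    (h : Jx M y k = V.val * Jx M x k * V.val.conjTranspose) (B : Fin d) :
    y (Setup.c3 k, B) = ∑ A, BFSS.adCoeff M.T V B A * x (Setup.c3 k, A) := by
  have h1 : (M.T B * Jx M y k).trace = ((-(1 / 2) * y (Setup.c3 k, B) : ℝ) : ℂ) := by
    unfold Jx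
    rw [Finset.mul_sum, Matrix.trace_sum]
    simp only [Matrix.mul_smul, Matrix.trace_smul, M.T_orthonormal, smul_eq_mul, mul_ite, mul_one,
      mul_zero, Finset.sum_ite_eq, Finset.mem_univ, if_true]
  have h2 : (M.T B * Jx M y k).trace = ∑ A, ((-(1 / 2) * x (Setup.c3 k, A) : ℝ) : ℂ) *
      (M.T B * (V.val * M.T A * V.val.conjTranspose)).trace := by
    rw [h]
    unfold Jx
    rw [Finset.mul_sum, Finset.sum_mul, Finset.mul_sum, Matrix.trace_sum]
    refine Finset.sum_congr rfl fun A _ => ?_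
    rw [Matrix.mul_smul, Matrix.smul_mul, Matrix.mul_smul, Matrix.trace_smul, smul_eq_mul]
  have h3 := congrArg Complex.re (h1.symm.trans h2)
  rw [Complex.ofReal_re, Complex.re_sum] at h3
  simp only [Complex.re_ofReal_mul] at h3
  have h4 : y (Setup.c3 k, B) = -2 * (-(1 / 2) * y (Setup.c3 k, B)) := by ring
  rw [h4, h3, Finset.mul_sum]
  refine Finset.sum_congr rfl fun A _ => ?_
  unfold BFSS.adCoeff
  ring

/-- **M-Count** -/
theorem _root_.Vale.Agent.P353.Z.U.count_of (M : BFSS.Model N d F) (hAd : AdStmt M) (hSq : ∀ S : Setup d F, SqStmt S) :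
    CountStmt M := by
  intro S hR
  classical
  have hJT : ∀ x : {x : Cfg d // S.Vm 1 x = 0}, JT (Jx M x.1) := fun x =>
    Jx_jt M hR (hSq S) x.2
  let π : {x : Cfg d // S.Vm 1 x = 0} → Nat.Partition N := fun x => (hJT x).part
  have hz : S.Vm 1 (0 : Cfg d) = 0 := by
    rw [hSq S 1 0]
    simp [Setup.GG, Setup.FF]
  let e := (Fintype.equivFin (Nat.Partition N)).symm
  let ξ : Fin (Fintype.card (Nat.Partition N)) → {x : Cfg d // S.Vm 1 x = 0} := fun j =>
    if h : ∃ x, π x = e j then h.choose else ⟨0, hz⟩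
  refine ⟨fun j => (ξ j).1, fun j => (ξ j).2, fun x hx => ?_⟩
  refine ⟨e.symm (π ⟨x, hx⟩), ?_⟩
  have hex : ∃ y, π y = e (e.symm (π ⟨x, hx⟩)) := ⟨⟨x, hx⟩, by rw [Equiv.apply_symm_apply]⟩
  have hξ : ξ (e.symm (π ⟨x, hx⟩)) = hex.choose := dif_pos hex
  have hπ : π (ξ (e.symm (π ⟨x, hx⟩))) = π ⟨x, hx⟩ := by
    rw [hξ, hex.choose_spec, Equiv.apply_symm_apply]
  show x ∈ S.Orb (ξ (e.symm (π ⟨x, hx⟩))).1
  generalize ξ (e.symm (π ⟨x, hx⟩)) = y at hπ ⊢
  obtain ⟨V, hV⟩ := (hJT y).conj (hJT ⟨x, hx⟩) hπ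
  refine ⟨_, hAd S hR V, ?_⟩
  ext ⟨i, B⟩
  show x (i, B) = ∑ A, BFSS.adCoeff M.T V B A * y.1 (i, A)
  by_cases hi : i.val < 3
  · have hc : i = Setup.c3 ⟨i.val, hi⟩ := by
      apply Fin.ext; rfl
    rw [hc]
    exact Jx_conj M V ⟨i.val, hi⟩ (hV ⟨i.val, hi⟩) B
  · rw [(V1_zero (hSq S) hx).2 i (by omega) B]
    symm
    refine Finset.sum_eq_zero fun A _ => ?_
    rw [(V1_zero (hSq S) y.2).2 i (by omega) A, mul_zero]

end Vale.Agent.P353.Z.U.Cnt
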