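import Vale.Agent.P353.Z.U.StmtB
import Vale.Agent.P353.Z.U.StmtC

/-! # P353, general `N`: quadratic lower bound near the wells (C-Near) -/

open MeasureTheory Filter Topology
open scoped ContDiff

namespace Vale.Agent.P353.Z.U

variable {d : ℕ} {F : Type*} [NormedAddCommGroup F] [InnerProductSpace ℂ F]

namespace NearAux

lemma cont_coord (p : Fin 9 × Fin d) : Continuous (fun x : Cfg d => x p) :=
  (EuclideanSpace.proj (𝕜 := ℝ) (ι := Fin 9 × Fin d) p).continuous

lemma cont_FF (S : Setup d F) (A : Fin d) (i j : Fin 9) : Continuous (S.FF A i j) := by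
  unfold Setup.FF
  refine continuous_const.mul (continuous_finsetSum _ fun B _ => continuous_finsetSum _ fun C _ => ?_)
  exact (continuous_const.mul (cont_coord _)).mul (cont_coord _)

lemma cont_Vm (S : Setup d F) (m : ℝ) : Continuous (S.Vm m) := by
  unfold Setup.Vm Setup.V Setup.det3
  refine ((continuous_const.mul (continuous_finsetSum _ fun A _ => continuous_finsetSum _ fun i _ =>
    continuous_finsetSum _ fun j _ => (cont_FF S A i j).pow 2)).add
    (continuous_const.mul (continuous_finsetSum _ fun A _ => continuous_finsetSum _ fun B _ =>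
      continuous_finsetSum _ fun C _ => ?_))).add
    (continuous_const.mul (continuous_finsetSum _ fun i _ => continuous_finsetSum _ fun A _ => ?_))
  · exact ((continuous_const.mul (cont_coord _)).mul (cont_coord _)).mul (cont_coord _)
  · exact (continuous_const.mul (cont_coord _)).pow 2

lemma cont_LF (S : Setup d F) (A : Fin d) (i j : Fin 9) :
    Continuous (fun q : Cfg d × Cfg d => S.LF q.1 A i j q.2) := by
  unfold Setup.LF
  refine continuous_const.mul (continuous_finsetSum _ fun B _ => continuous_finsetSum _ fun C _ => ?_)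
  refine continuous_const.mul (((cont_coord _).comp continuous_fst).mul
    ((cont_coord _).comp continuous_snd) |>.add (((cont_coord _).comp continuous_snd).mul
    ((cont_coord _).comp continuous_fst)))

lemma cont_hq (S : Setup d F) : Continuous (fun q : Cfg d × Cfg d => S.hq q.1 q.2) := by
  unfold Setup.hq Setup.LG
  refine ((continuous_const.mul (continuous_finsetSum _ fun k _ => continuous_finsetSum _ fun A _ =>
    ((cont_LF S A _ _).add (continuous_const.mul ((cont_coord _).comp continuous_snd))).pow 2)).add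
    (continuous_const.mul (continuous_finsetSum _ fun i _ => continuous_finsetSum _ fun A _ =>
      ?_))).add (continuous_const.mul (continuous_finsetSum _ fun i _ =>
      continuous_finsetSum _ fun j _ => continuous_finsetSum _ fun A _ => ?_))
  · split_ifs
    · exact continuous_const
    · exact ((cont_coord _).comp continuous_snd).pow 2
  · split_ifs
    · exact continuous_const
    · exact (cont_LF S A i j).pow 2

lemma closed_Perp (S : Setup d F) : IsClosed {q : Cfg d × Cfg d | S.Perp q.1 q.2} := by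
  unfold Setup.Perp
  rw [Set.ofPred_forall]
  refine isClosed_iInter fun C => isClosed_eq ?_ continuous_const
  refine continuous_finsetSum _ fun i _ => continuous_finsetSum _ fun A _ =>
    continuous_finsetSum _ fun B _ => ?_
  exact (continuous_const.mul ((cont_coord _).comp continuous_fst)).mul
    ((cont_coord _).comp continuous_snd)

lemma LF_smul (S : Setup d F) (ξ w : Cfg d) (t : ℝ) (A : Fin d) (i j : Fin 9) :
    S.LF ξ A i j (t • w) = t * S.LF ξ A i j w := by
  unfold Setup.LF
  have h : ∑ B, ∑ C, S.f A B C * (ξ (i, B) * (t • w) (j, C) + (t • w) (i, B) * ξ (j, C)) =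
      t * ∑ B, ∑ C, S.f A B C * (ξ (i, B) * w (j, C) + w (i, B) * ξ (j, C)) := by
    simp only [Finset.mul_sum, PiLp.smul_apply, smul_eq_mul]
    refine Finset.sum_congr rfl fun B _ => Finset.sum_congr rfl fun C _ => ?_
    ring
  rw [h]
  ring

lemma hq_smul (S : Setup d F) (ξ w : Cfg d) (t : ℝ) : S.hq ξ (t • w) = t ^ 2 * S.hq ξ w := by
  unfold Setup.hq Setup.LG
  simp only [LF_smul, PiLp.smul_apply, smul_eq_mul, mul_add, Finset.mul_sum]
  congr 1
  · congr 1
    · refine Finset.sum_congr rfl fun k _ => Finset.sum_congr rfl fun A _ => ?_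
      ring
    · refine Finset.sum_congr rfl fun i _ => Finset.sum_congr rfl fun A _ => ?_
      split_ifs
      · ring
      · ring
  · refine Finset.sum_congr rfl fun i _ => Finset.sum_congr rfl fun j _ =>
      Finset.sum_congr rfl fun A _ => ?_
    split_ifs
    · ring
    · ring

lemma hq_nonneg (S : Setup d F) (ξ w : Cfg d) : 0 ≤ S.hq ξ w := by
  unfold Setup.hq
  refine add_nonneg (add_nonneg (mul_nonneg (by norm_num) ?_) (mul_nonneg (by norm_num) ?_))
    (mul_nonneg (by norm_num) ?_)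
  · exact Finset.sum_nonneg fun k _ => Finset.sum_nonneg fun A _ => sq_nonneg _
  · refine Finset.sum_nonneg fun i _ => Finset.sum_nonneg fun A _ => ?_
    split_ifs
    · exact le_rfl
    · exact sq_nonneg _
  · refine Finset.sum_nonneg fun i _ => Finset.sum_nonneg fun j _ => Finset.sum_nonneg fun A _ => ?_
    split_ifs
    · exact le_rfl
    · exact sq_nonneg _

lemma Perp_smul {S : Setup d F} {ξ w : Cfg d} (h : S.Perp ξ w) (t : ℝ) : S.Perp ξ (t • w) := by
  intro C
  have h1 := h C
  have h2 : ∑ i, ∑ A, ∑ B, S.f C A B * ξ (i, A) * (t • w) (i, B) =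
      t * ∑ i, ∑ A, ∑ B, S.f C A B * ξ (i, A) * w (i, B) := by
    simp only [Finset.mul_sum, PiLp.smul_apply, smul_eq_mul]
    refine Finset.sum_congr rfl fun i _ => Finset.sum_congr rfl fun A _ =>
      Finset.sum_congr rfl fun B _ => ?_
    ring
  rw [h2, h1, mul_zero]

/-- the zero set of `V_1` is compact -/
lemma compact_wells {S : Setup d F} (hCoe : CoeStmt S) : IsCompact (S.wells 1) := by
  obtain ⟨c, C, hc, hC, h⟩ := hCoe
  refine Metric.isCompact_of_isClosed_isBounded ?_ ?_
  · exact isClosed_eq (cont_Vm S 1) continuous_const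
  · rw [isBounded_iff_forall_norm_le]
    refine ⟨Real.sqrt (C / c), fun x hx => ?_⟩
    have h1 := h x
    rw [show S.Vm 1 x = 0 from hx] at h1
    refine Real.le_sqrt_of_sq_le ?_
    rw [le_div_iff₀ hc]
    linarith

/-- lower bound of the Hessian on the normal directions, uniformly on the wells -/
lemma hq_lower {S : Setup d F} (hCoe : CoeStmt S) (hHes : HesStmt S) :
    ∃ c : ℝ, 0 < c ∧ ∀ ξ w : Cfg d, S.Vm 1 ξ = 0 → S.Perp ξ w → c * ‖w‖ ^ 2 ≤ S.hq ξ w := by
  set T : Set (Cfg d × Cfg d) := {q | q.1 ∈ S.wells 1 ∧ ‖q.2‖ = 1 ∧ S.Perp q.1 q.2} with hT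
  have hTc : IsCompact T := by
    refine IsCompact.of_isClosed_subset ((compact_wells hCoe).prod
      (isCompact_sphere (0 : Cfg d) 1)) ?_ ?_
    · refine IsClosed.inter ?_ (IsClosed.inter ?_ (closed_Perp S))
      · exact (compact_wells hCoe).isClosed.preimage continuous_fst
      · exact isClosed_eq (continuous_norm.comp continuous_snd) continuous_const
    · rintro ⟨ξ, w⟩ ⟨h1, h2, _⟩
      exact ⟨h1, by simpa using h2⟩
  have hscale : ∀ c : ℝ, (∀ q ∈ T, c ≤ S.hq q.1 q.2) → ∀ ξ w : Cfg d, S.Vm 1 ξ = 0 →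
      S.Perp ξ w → c * ‖w‖ ^ 2 ≤ S.hq ξ w := by
    intro c hc ξ w hξ hw
    rcases eq_or_ne w 0 with rfl | hw0
    · rw [norm_zero, zero_pow two_ne_zero, mul_zero]
      exact hq_nonneg S ξ 0
    · have hn : 0 < ‖w‖ := norm_pos_iff.2 hw0
      have h1 := hc (ξ, ‖w‖⁻¹ • w) ⟨hξ, by
        rw [norm_smul, norm_inv, norm_norm, inv_mul_cancel₀ hn.ne'], Perp_smul hw _⟩
      simp only [hq_smul] at h1
      have h2 : S.hq ξ w = ‖w‖ ^ 2 * ((‖w‖⁻¹) ^ 2 * S.hq ξ w) := by
        rw [← mul_assoc, ← mul_pow, mul_inv_cancel₀ hn.ne', one_pow, one_mul]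
      rw [h2, mul_comm c]
      exact mul_le_mul_of_nonneg_left h1 (sq_nonneg _)
  rcases T.eq_empty_or_nonempty with he | hne
  · exact ⟨1, one_pos, hscale 1 (by rw [he]; rintro q ⟨⟩)⟩
  · obtain ⟨q, hq, hmin⟩ := hTc.exists_isMinOn hne (cont_hq S).continuousOn
    refine ⟨S.hq q.1 q.2, ?_, hscale _ fun q' hq' => hmin hq'⟩
    refine lt_of_le_of_ne (hq_nonneg S _ _) fun h0 => ?_
    have h1 := hHes q.1 q.2 hq.1 h0.symm hq.2.2
    have h2 := hq.2.1
    rw [h1, norm_zero] at h2
    exact zero_ne_one h2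

end NearAux

open NearAux in
/-- **C-Near** -/
theorem near_stmt (S : Setup d F) (hCoe : CoeStmt S) (hHes : HesStmt S) (hTay : TayStmt S) :
    NearStmt S := by
  obtain ⟨c₀, hc₀, h1⟩ := hq_lower hCoe hHes
  obtain ⟨C, hC, h2⟩ := hTay
  refine ⟨c₀ / 4, Real.sqrt (c₀ / (4 * (C + 1))), by positivity, by positivity, ?_⟩
  intro ξ w hξ hw hp
  have h3 := h1 ξ w hξ hp
  have h4 := h2 ξ w hξ
  have h5 : ‖w‖ ^ 2 ≤ c₀ / (4 * (C + 1)) := by
    have := pow_le_pow_left₀ (norm_nonneg w) hw 2
    rwa [Real.sq_sqrt (by positivity)] at this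
  have h6 : C * ‖w‖ ^ 2 ≤ c₀ / 4 := by
    rw [le_div_iff₀ (by positivity)] at h5
    nlinarith [sq_nonneg ‖w‖]
  have h7 : C * ‖w‖ ^ 4 ≤ c₀ / 4 * ‖w‖ ^ 2 := by
    have : C * ‖w‖ ^ 4 = (C * ‖w‖ ^ 2) * ‖w‖ ^ 2 := by ring
    rw [this]
    exact mul_le_mul_of_nonneg_right h6 (sq_nonneg _)
  linarith

end Vale.Agent.P353.Z.U
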