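import Vale.Agent.P353.Z.U.QmBase

/-! # P353, uniqueness: theorem B from the core gap (helper349) -/

open MeasureTheory Filter Topology
open scoped ContDiff

namespace Vale.Agent.P353.Z.U

variable {dc : ℕ}

variable {F : Type*} [NormedAddCommGroup F] [InnerProductSpace ℂ F]

namespace HB

variable (S : Setup dc F)

lemma HH_add (m : ℝ) {u v : (Cfg dc) → F} (hu : ContDiff ℝ ∞ u) (hv : ContDiff ℝ ∞ v) (x : (Cfg dc)) :
    HH S m (fun y => u y + v y) x = HH S m u x + HH S m v x := by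
  have h1 : ∀ β, S.Qm m β (fun y => u y + v y) = fun y => S.Qm m β u y + S.Qm m β v y :=
    fun β => funext fun y => Qm_add S m β hu hv y
  simp only [HH, h1]
  simp only [Qm_add S m _ (contDiff_Qm S m _ hu) (contDiff_Qm S m _ hv), Finset.sum_add_distrib]

lemma HH_csmul (m : ℝ) (c : ℂ) {u : (Cfg dc) → F} (hu : ContDiff ℝ ∞ u) (x : (Cfg dc)) :
    HH S m (fun y => c • u y) x = c • HH S m u x := by
  have h1 : ∀ β, S.Qm m β (fun y => c • u y) = fun y => c • S.Qm m β u y :=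
    fun β => funext fun y => Qm_csmul S m β c hu y
  simp only [HH, h1]
  simp only [Qm_csmul S m _ c (contDiff_Qm S m _ hu), Finset.smul_sum]

/-- class of a test function -/
noncomputable def toL {u : (Cfg dc) → F} (hu : Setup.Tst u) : Lp F 2 (volume : Measure (Cfg dc)) :=
  hu.memLp.toLp u

lemma coe_toL {u : (Cfg dc) → F} (hu : Setup.Tst u) : toL hu =ᵐ[volume] u := hu.memLp.coeFn_toLp

lemma inner_Lp {f g : Lp F 2 (volume : Measure (Cfg dc))} {u v : (Cfg dc) → F} (hf : f =ᵐ[volume] u)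
    (hg : g =ᵐ[volume] v) : inner ℂ f g = ∫ x, inner ℂ (u x) (v x) := by
  rw [MeasureTheory.L2.inner_def]
  refine integral_congr_ae ?_
  filter_upwards [hf, hg] with x hx hy
  rw [hx, hy]

lemma norm_Lp {f : Lp F 2 (volume : Measure (Cfg dc))} {u : (Cfg dc) → F} (hf : f =ᵐ[volume] u) :
    ‖f‖ ^ 2 = nsq u := by
  have hm : MemLp u 2 (volume : Measure (Cfg dc)) := (memLp_congr_ae hf).mp (Lp.memLp f)
  have h1 : f = hm.toLp u := by
    refine Lp.ext ?_
    exact hf.trans hm.coeFn_toLp.symm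
  rw [h1, norm_toLp, Real.sq_sqrt (nsq_nonneg u)]

/-- invariant test functions in `L²` -/
def InvSub : Submodule ℂ (Lp F 2 (volume : Measure (Cfg dc))) where
  carrier := {f | ∃ φ, S.Inv φ ∧ f =ᵐ[volume] φ}
  zero_mem' := ⟨fun _ => 0, Inv_zero S, Lp.coeFn_zero _ _ _⟩
  add_mem' := by
    rintro f g ⟨φ, hφ, hf⟩ ⟨ψ, hψ, hg⟩
    exact ⟨fun y => φ y + ψ y, Inv_add S hφ hψ, (Lp.coeFn_add f g).trans (hf.add hg)⟩
  smul_mem' := by
    rintro c f ⟨φ, hφ, hf⟩
    exact ⟨fun y => c • φ y, Inv_csmul S c hφ, (Lp.coeFn_smul c f).trans (hf.const_smul c)⟩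

/-- range of the Hamiltonian on invariant test functions -/
def RngSub (m : ℝ) : Submodule ℂ (Lp F 2 (volume : Measure (Cfg dc))) where
  carrier := {f | ∃ φ, S.Inv φ ∧ f =ᵐ[volume] HH S m φ}
  zero_mem' := by
    refine ⟨fun _ => 0, Inv_zero S, ?_⟩
    have h : HH S m (fun _ : (Cfg dc) => (0 : F)) = fun _ => 0 := by
      funext x
      have := HH_csmul S m 0 (u := fun _ => (0 : F)) contDiff_const x
      simpa using this
    rw [h]
    exact Lp.coeFn_zero _ _ _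
  add_mem' := by
    rintro f g ⟨φ, hφ, hf⟩ ⟨ψ, hψ, hg⟩
    refine ⟨fun y => φ y + ψ y, Inv_add S hφ hψ, (Lp.coeFn_add f g).trans ?_⟩
    filter_upwards [hf, hg] with x hx hy
    rw [Pi.add_apply, hx, hy, HH_add S m hφ.1.1 hψ.1.1]
  smul_mem' := by
    rintro c f ⟨φ, hφ, hf⟩
    refine ⟨fun y => c • φ y, Inv_csmul S c hφ, (Lp.coeFn_smul c f).trans ?_⟩
    filter_upwards [hf] with x hx
    rw [Pi.smul_apply, hx, HH_csmul S m c hφ.1.1]

lemma Rng_le_Inv (hA2 : A2Stmt S) (hA3 : A3Stmt S) (m : ℝ) : RngSub S m ≤ InvSub S := by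
  rintro f ⟨φ, hφ, hf⟩
  exact ⟨HH S m φ, Inv_HH S hA2 hA3 m hφ, hf⟩

/-- limits of invariant test functions -/
def ClInv (Ψ : (Cfg dc) → F) : Prop := ∃ w : ℕ → (Cfg dc) → F, (∀ n, S.Inv (w n)) ∧ L2t w Ψ

lemma clInv_of_mem {f : Lp F 2 (volume : Measure (Cfg dc))} (hf : f ∈ closure (InvSub S : Set _)) :
    ClInv S f := by
  obtain ⟨g, hg, hl⟩ := mem_closure_iff_seq_limit.mp hf
  choose w hw hw2 using hg
  refine ⟨w, hw, fun n => (hw n).1.memLp, Lp.memLp f, ?_⟩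
  have h1 : ∀ n, nsq (fun x => w n x - f x) = ‖g n - f‖ ^ 2 := by
    intro n
    rw [norm_Lp (u := fun x => w n x - f x)]
    refine (Lp.coeFn_sub (g n) f).trans ?_
    filter_upwards [hw2 n] with x hx
    rw [Pi.sub_apply, hx]
  simp only [h1]
  have h2 := (tendsto_iff_norm_sub_tendsto_zero.mp hl).pow 2
  simpa using h2

/-- Cauchy-Schwarz for the form -/
lemma form_cs (m : ℝ) {u v : (Cfg dc) → F} (hu : Setup.Tst u) (hv : Setup.Tst v) :
    ‖∑ β, ∫ x, inner ℂ (S.Qm m β u x) (S.Qm m β v x)‖ ≤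
      Real.sqrt (∑ β, nsq (S.Qm m β u)) * Real.sqrt (∑ β, nsq (S.Qm m β v)) := by
  have h1 : ∀ β, ‖∫ x, inner ℂ (S.Qm m β u x) (S.Qm m β v x)‖ ≤
      Real.sqrt (nsq (S.Qm m β u)) * Real.sqrt (nsq (S.Qm m β v)) := fun β =>
    cs_inner (Tst_Qm S m β hu).memLp (Tst_Qm S m β hv).memLp
  refine (norm_sum_le _ _).trans ((Finset.sum_le_sum fun β _ => h1 β).trans ?_)
  exact Real.sum_sqrt_mul_sqrt_le _ (fun β => nsq_nonneg _) (fun β => nsq_nonneg _)

/-- **the range argument**: an invariant test function in the closure of the range has energy at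
least `8m` -/
lemma range_gap (hG : CGapStmt S) {m : ℝ} (hm : 0 < m) {u : (Cfg dc) → F} (hu : S.Inv u)
    (hr : toL hu.1 ∈ closure (RngSub S m : Set (Lp F 2 (volume : Measure (Cfg dc))))) :
    8 * m * nsq u ≤ ∑ β, nsq (S.Qm m β u) := by
  obtain ⟨g, hg, hl⟩ := mem_closure_iff_seq_limit.mp hr
  choose φ hφ hg2 using hg
  set q : ℝ := ∑ β, nsq (S.Qm m β u) with hq
  have hq0 : 0 ≤ q := Finset.sum_nonneg fun β _ => nsq_nonneg _
  have h1 : ∀ n, ‖inner ℂ (g n) (toL hu.1)‖ ≤ Real.sqrt (‖g n‖ ^ 2 / (8 * m)) * Real.sqrt q := by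
    intro n
    rw [inner_Lp (hg2 n) (coe_toL hu.1), inner_HH S m (hφ n).1 hu.1]
    refine (form_cs S m (hφ n).1 hu.1).trans ?_
    refine mul_le_mul_of_nonneg_right (Real.sqrt_le_sqrt ?_) (Real.sqrt_nonneg _)
    rw [le_div_iff₀ (by positivity), norm_Lp (hg2 n), mul_comm]
    exact hG m hm (φ n) (hφ n)
  have h2 : Tendsto (fun n => ‖inner ℂ (g n) (toL hu.1)‖) atTop (𝓝 (nsq u)) := by
    have h3 : Tendsto (fun n => ‖inner ℂ (g n) (toL hu.1)‖) atTop
        (𝓝 ‖(inner ℂ (toL hu.1) (toL hu.1) : ℂ)‖) :=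
      (hl.inner tendsto_const_nhds).norm
    rw [inner_self_eq_norm_sq_to_K] at h3
    have h4 : ‖((‖toL hu.1‖ : ℂ)) ^ 2‖ = nsq u := by
      rw [norm_pow, Complex.norm_real, norm_norm, norm_Lp (coe_toL hu.1)]
    rw [← h4]
    exact h3
  have h5 : Tendsto (fun n => Real.sqrt (‖g n‖ ^ 2 / (8 * m)) * Real.sqrt q) atTop
      (𝓝 (Real.sqrt (nsq u / (8 * m)) * Real.sqrt q)) := by
    refine Tendsto.mul_const _ ?_
    refine (Real.continuous_sqrt.tendsto _).comp ?_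
    refine Tendsto.div_const ?_ _
    have h6 := (hl.norm).pow 2
    rwa [norm_Lp (coe_toL hu.1)] at h6
  have h6 := le_of_tendsto_of_tendsto' h2 h5 h1
  rw [← Real.sqrt_mul' _ hq0] at h6
  have hn := nsq_nonneg u
  have h7 : nsq u ^ 2 ≤ nsq u / (8 * m) * q := by
    have h8 : 0 ≤ nsq u / (8 * m) * q := by positivity
    calc nsq u ^ 2 ≤ Real.sqrt (nsq u / (8 * m) * q) ^ 2 := by gcongr
      _ = _ := Real.sq_sqrt h8
  rcases hn.eq_or_lt with h0 | h0
  · rw [← h0, mul_zero]; exact hq0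
  · have h9 : nsq u * (8 * m * nsq u) ≤ nsq u * q := by
      have h10 : nsq u / (8 * m) * q = nsq u * q / (8 * m) := by ring
      rw [h10, le_div_iff₀ (by positivity)] at h7
      nlinarith
    exact le_of_mul_le_mul_left h9 h0

/-- `k` independent weak zero modes -/
lemma k_zm [CompleteSpace F] (hA2 : A2Stmt S) (hA3 : A3Stmt S) (hG : CGapStmt S) {k : ℕ} {m : ℝ}
    (hm : 0 < m) (hL : S.Low k m (8 * m)) : ∃ Ψ : Fin k → (Cfg dc) → F, (∀ j, ClInv S (Ψ j)) ∧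
      (∀ j φ, S.Inv φ → ∫ x, inner ℂ (HH S m φ x) (Ψ j x) = 0) ∧
      ∀ a : Fin k → ℂ, a ≠ 0 → 0 < nsq (fun x => ∑ j, a j • Ψ j x) := by
  obtain ⟨u, hu, hlow⟩ := hL
  set R := (RngSub S m).topologicalClosure with hR
  have hRI : R ≤ (InvSub S).topologicalClosure :=
    Submodule.topologicalClosure_mono (Rng_le_Inv S hA2 hA3 m)
  have : CompleteSpace R := (Submodule.isClosed_topologicalClosure _).completeSpace_coe
  have hdec : ∀ j, ∃ w ∈ R, ∃ Ψ ∈ Rᗮ, toL (hu j).1 = w + Ψ := fun j =>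
    Submodule.exists_add_mem_mem_orthogonal (K := R) (toL (hu j).1)
  choose w hw Ψ hΨ hsum using hdec
  have hΨe : ∀ j, Ψ j = toL (hu j).1 - w j := fun j => by rw [hsum j]; abel
  refine ⟨fun j => Ψ j, fun j => ?_, fun j φ hφ => ?_, fun a ha => ?_⟩
  · refine clInv_of_mem S ?_
    have h1 : toL (hu j).1 ∈ (InvSub S).topologicalClosure :=
      Submodule.le_topologicalClosure _ ⟨u j, hu j, coe_toL (hu j).1⟩
    have h2 : Ψ j ∈ (InvSub S).topologicalClosure := by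
      rw [hΨe j]
      exact Submodule.sub_mem _ h1 (hRI (hw j))
    exact h2
  · have h1 : toL (Tst_HH S m hφ.1) ∈ R :=
      Submodule.le_topologicalClosure _ ⟨φ, hφ, coe_toL _⟩
    have h2 := (Submodule.mem_orthogonal R (Ψ j)).mp (hΨ j) _ h1
    rw [inner_Lp (coe_toL _) (EventuallyEq.rfl (f := (Ψ j : (Cfg dc) → F)))] at h2
    exact h2
  · by_contra hneg
    have h0 : nsq (fun x => ∑ j, a j • (Ψ j : (Cfg dc) → F) x) = 0 :=
      le_antisymm (not_lt.mp hneg) (nsq_nonneg _)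
    have hae : ((∑ j, a j • Ψ j : Lp F 2 (volume : Measure (Cfg dc))) : (Cfg dc) → F) =ᵐ[volume]
        fun x => ∑ j, a j • (Ψ j : (Cfg dc) → F) x := by
      have h1 := Lp.coeFn_finsetSum (Finset.univ) (fun j => a j • Ψ j)
      refine h1.trans ?_
      have h2 : ∀ j, ((a j • Ψ j : Lp F 2 (volume : Measure (Cfg dc))) : (Cfg dc) → F) =ᵐ[volume]
          fun x => a j • (Ψ j : (Cfg dc) → F) x := fun j => Lp.coeFn_smul (a j) (Ψ j)
      filter_upwards [ae_all_iff.mpr h2] with x hx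
      simp only [Finset.sum_apply, hx]
    have hz : (∑ j, a j • Ψ j : Lp F 2 (volume : Measure (Cfg dc))) = 0 := by
      have h1 := norm_Lp hae
      rw [h0] at h1
      exact norm_eq_zero.mp (by nlinarith [norm_nonneg (∑ j, a j • Ψ j)])
    have hui := Inv_sum S Finset.univ a hu
    have htl : toL hui.1 = ∑ j, a j • toL (hu j).1 := by
      refine Lp.ext ?_
      refine (coe_toL hui.1).trans (EventuallyEq.symm ?_)
      refine (Lp.coeFn_finsetSum (Finset.univ) (fun j => a j • toL (hu j).1)).trans ?_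
      have h2 : ∀ j, ((a j • toL (hu j).1 : Lp F 2 (volume : Measure (Cfg dc))) : (Cfg dc) → F) =ᵐ[volume]
          fun x => a j • u j x := fun j =>
        (Lp.coeFn_smul (a j) (toL (hu j).1)).trans ((coe_toL (hu j).1).const_smul (a j))
      filter_upwards [ae_all_iff.mpr h2] with x hx
      simp only [Finset.sum_apply, hx]
    have hmem : toL hui.1 ∈ R := by
      have h1 : toL hui.1 = ∑ j, a j • w j := by
        rw [htl]
        have : ∀ j, toL (hu j).1 = w j + Ψ j := hsum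
        simp only [this, smul_add, Finset.sum_add_distrib, hz, add_zero]
      rw [h1]
      exact Submodule.sum_mem _ fun j _ => Submodule.smul_mem _ _ (hw j)
    have h1 := range_gap S hG hm hui hmem
    have h2 := hlow a ha
    linarith

/-- the norm on a `k` dimensional space of functions -/
lemma lower_bound [CompleteSpace F] {k : ℕ} {Ψ : Fin k → (Cfg dc) → F}
    (hΨ : ∀ j, MemLp (Ψ j) 2 (volume : Measure (Cfg dc)))
    (hind : ∀ a : Fin k → ℂ, a ≠ 0 → 0 < nsq (fun x => ∑ j, a j • Ψ j x)) :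
    ∃ κ : ℝ, 0 < κ ∧ ∀ a : Fin k → ℂ, κ * ‖a‖ ≤ ‖∑ j, a j • (hΨ j).toLp (Ψ j)‖ := by
  let f : (Fin k → ℂ) →ₗ[ℂ] Lp F 2 (volume : Measure (Cfg dc)) :=
    { toFun := fun a => ∑ j, a j • (hΨ j).toLp (Ψ j)
      map_add' := by intro a b; simp [add_smul, Finset.sum_add_distrib]
      map_smul' := by intro c a; simp [mul_smul, Finset.smul_sum] }
  have hae : ∀ a, (f a : (Cfg dc) → F) =ᵐ[volume] fun x => ∑ j, a j • Ψ j x := by
    intro a
    refine (Lp.coeFn_finsetSum (Finset.univ) (fun j => a j • (hΨ j).toLp (Ψ j))).trans ?_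
    have h2 : ∀ j, ((a j • (hΨ j).toLp (Ψ j) : Lp F 2 (volume : Measure (Cfg dc))) : (Cfg dc) → F) =ᵐ[volume]
        fun x => a j • Ψ j x := fun j =>
      (Lp.coeFn_smul (a j) _).trans ((hΨ j).coeFn_toLp.const_smul (a j))
    filter_upwards [ae_all_iff.mpr h2] with x hx
    simp only [Finset.sum_apply, hx]
  have hker : LinearMap.ker f = ⊥ := by
    rw [LinearMap.ker_eq_bot']
    intro a ha
    by_contra hne
    have h1 := norm_Lp (hae a)
    rw [ha, norm_zero] at h1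
    have h2 := hind a hne
    rw [← h1] at h2
    norm_num at h2
  obtain ⟨K, hK, hanti⟩ := LinearMap.exists_antilipschitzWith f hker
  refine ⟨(K : ℝ)⁻¹, by positivity, fun a => ?_⟩
  have h1 := hanti.le_mul_dist a 0
  rw [map_zero, dist_zero_right, dist_zero_right] at h1
  have hK' : (0 : ℝ) < K := by exact_mod_cast hK
  rw [inv_mul_le_iff₀ hK']
  exact h1

/-- strong limits give `Low` -/
lemma low_of_lim [CompleteSpace F] {k : ℕ} {m : ℝ} {Ψ : Fin k → (Cfg dc) → F}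
    {u : Fin k → ℕ → (Cfg dc) → F}
    (hu : ∀ j n, S.Inv (u j n)) (hl : ∀ j, L2t (u j) (Ψ j))
    (hq : ∀ j, Tendsto (fun n => ∑ β, nsq (S.Qm m β (u j n))) atTop (𝓝 0))
    (hind : ∀ a : Fin k → ℂ, a ≠ 0 → 0 < nsq (fun x => ∑ j, a j • Ψ j x)) {c : ℝ} (hc : 0 < c) :
    S.Low k m c := by
  have hΨ : ∀ j, MemLp (Ψ j) 2 (volume : Measure (Cfg dc)) := fun j => (hl j).mem'
  obtain ⟨κ, hκ, hlow⟩ := lower_bound hΨ hind
  have hk1 : (0 : ℝ) < (k : ℝ) + 1 := by positivity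
  -- choose n
  have h1 : ∀ j, ∀ᶠ n in atTop, ‖toL (hu j n).1 - (hΨ j).toLp (Ψ j)‖ ≤ κ / (2 * ((k : ℝ) + 1)) := by
    intro j
    have h2 := (hl j).lim_toLp
    have h3 := (tendsto_iff_norm_sub_tendsto_zero.mp h2).eventually
      (ge_mem_nhds (show (0 : ℝ) < κ / (2 * ((k : ℝ) + 1)) by positivity))
    filter_upwards [h3] with n hn
    exact hn
  have h2 : ∀ j, ∀ᶠ n in atTop, ∑ β, nsq (S.Qm m β (u j n)) <
      c * (κ / 2) ^ 2 / ((k : ℝ) + 1) ^ 2 := fun j =>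
    (hq j).eventually (gt_mem_nhds (show (0 : ℝ) < c * (κ / 2) ^ 2 / ((k : ℝ) + 1) ^ 2 by
      positivity))
  obtain ⟨n, hn⟩ := ((eventually_all.mpr h1).and (eventually_all.mpr h2)).exists
  obtain ⟨hn1, hn2⟩ := hn
  refine ⟨fun j => u j n, fun j => hu j n, fun a ha => ?_⟩
  have ha0 : 0 < ‖a‖ := norm_pos_iff.mpr ha
  have haj : ∀ j, ‖a j‖ ≤ ‖a‖ := fun j => norm_le_pi_norm a j
  have hui : S.Inv (fun x => ∑ j, a j • u j n x) := Inv_sum S Finset.univ a fun j => hu j n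
  -- lower bound for the norm
  have htl : toL hui.1 = ∑ j, a j • toL (hu j n).1 := by
    refine Lp.ext ?_
    refine (coe_toL hui.1).trans (EventuallyEq.symm ?_)
    refine (Lp.coeFn_finsetSum (Finset.univ) (fun j => a j • toL (hu j n).1)).trans ?_
    have h2 : ∀ j, ((a j • toL (hu j n).1 : Lp F 2 (volume : Measure (Cfg dc))) : (Cfg dc) → F) =ᵐ[volume]
        fun x => a j • u j n x := fun j =>
      (Lp.coeFn_smul (a j) (toL (hu j n).1)).trans ((coe_toL (hu j n).1).const_smul (a j))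
    filter_upwards [ae_all_iff.mpr h2] with x hx
    simp only [Finset.sum_apply, hx]
  have hnorm : κ / 2 * ‖a‖ ≤ ‖toL hui.1‖ := by
    have h3 : ‖∑ j, a j • (hΨ j).toLp (Ψ j)‖ ≤ ‖toL hui.1‖ + κ / 2 * ‖a‖ := by
      have h4 : ∑ j, a j • (hΨ j).toLp (Ψ j) = toL hui.1 -
          ∑ j, a j • (toL (hu j n).1 - (hΨ j).toLp (Ψ j)) := by
        rw [htl]
        simp only [smul_sub, Finset.sum_sub_distrib]
        abel
      rw [h4]
      refine (norm_sub_le _ _).trans (add_le_add_right ?_ _)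
      refine (norm_sum_le _ _).trans ?_
      have h5 : ∀ j, ‖a j • (toL (hu j n).1 - (hΨ j).toLp (Ψ j))‖ ≤
          ‖a‖ * (κ / (2 * ((k : ℝ) + 1))) := by
        intro j
        rw [norm_smul]
        exact mul_le_mul (haj j) (hn1 j) (norm_nonneg _) (norm_nonneg _)
      refine (Finset.sum_le_sum fun j _ => h5 j).trans ?_
      simp only [Finset.sum_const, Finset.card_univ, Fintype.card_fin, nsmul_eq_mul]
      have h6 : (k : ℝ) * (‖a‖ * (κ / (2 * ((k : ℝ) + 1)))) =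
          κ / 2 * ‖a‖ * ((k : ℝ) / ((k : ℝ) + 1)) := by
        field_simp
      rw [h6]
      have h7 : (k : ℝ) / ((k : ℝ) + 1) ≤ 1 := by rw [div_le_one hk1]; linarith
      exact mul_le_of_le_one_right (by positivity) h7
    have h4 := hlow a
    linarith
  have hnsq : (κ / 2 * ‖a‖) ^ 2 ≤ nsq (fun x => ∑ j, a j • u j n x) := by
    rw [← norm_Lp (coe_toL hui.1)]
    gcongr
  -- upper bound for the energy
  have hβ : ∀ β, nsq (S.Qm m β (fun x => ∑ j, a j • u j n x)) ≤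
      (k : ℝ) * ‖a‖ ^ 2 * ∑ j, nsq (S.Qm m β (u j n)) := by
    intro β
    have h3 : ∀ x, ‖S.Qm m β (fun x => ∑ j, a j • u j n x) x‖ ^ 2 ≤
        ∑ j, (k : ℝ) * ‖a‖ ^ 2 * ‖S.Qm m β (u j n) x‖ ^ 2 := by
      intro x
      rw [Qm_sum S m β Finset.univ a (fun j => (hu j n).1.1) x]
      have h4 : ‖∑ j, a j • S.Qm m β (u j n) x‖ ≤ ∑ j, ‖a‖ * ‖S.Qm m β (u j n) x‖ := by
        refine (norm_sum_le _ _).trans (Finset.sum_le_sum fun j _ => ?_)
        rw [norm_smul]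
        exact mul_le_mul_of_nonneg_right (haj j) (norm_nonneg _)
      have h5 : (∑ j, ‖a‖ * ‖S.Qm m β (u j n) x‖) ^ 2 ≤
          (k : ℝ) * ∑ j, (‖a‖ * ‖S.Qm m β (u j n) x‖) ^ 2 := by
        have := sq_sum_le_card_mul_sum_sq (s := Finset.univ)
          (f := fun j => ‖a‖ * ‖S.Qm m β (u j n) x‖)
        simpa using this
      calc ‖∑ j, a j • S.Qm m β (u j n) x‖ ^ 2 ≤ (∑ j, ‖a‖ * ‖S.Qm m β (u j n) x‖) ^ 2 := by
            gcongr
        _ ≤ (k : ℝ) * ∑ j, (‖a‖ * ‖S.Qm m β (u j n) x‖) ^ 2 := h5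
        _ = ∑ j, (k : ℝ) * ‖a‖ ^ 2 * ‖S.Qm m β (u j n) x‖ ^ 2 := by
            rw [Finset.mul_sum]
            refine Finset.sum_congr rfl fun j _ => ?_
            ring
    have hint : ∀ j, Integrable (fun x => (k : ℝ) * ‖a‖ ^ 2 * ‖S.Qm m β (u j n) x‖ ^ 2) := fun j =>
      (Tst_Qm S m β (hu j n).1).norm_sq_int.const_mul _
    unfold nsq
    refine (integral_mono (Tst_Qm S m β hui.1).norm_sq_int
      (integrable_finsetSum _ fun j _ => hint j) h3).trans (le_of_eq ?_)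
    rw [integral_finsetSum _ fun j _ => hint j, Finset.mul_sum]
    refine Finset.sum_congr rfl fun j _ => ?_
    rw [integral_const_mul]
  calc ∑ β, nsq (S.Qm m β (fun x => ∑ j, a j • u j n x))
      ≤ ∑ β, (k : ℝ) * ‖a‖ ^ 2 * ∑ j, nsq (S.Qm m β (u j n)) := Finset.sum_le_sum fun β _ => hβ β
    _ = (k : ℝ) * ‖a‖ ^ 2 * ∑ j, ∑ β, nsq (S.Qm m β (u j n)) := by
        rw [← Finset.mul_sum, Finset.sum_comm]
    _ ≤ (k : ℝ) * ‖a‖ ^ 2 * ((k : ℝ) * (c * (κ / 2) ^ 2 / ((k : ℝ) + 1) ^ 2)) := by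
        refine mul_le_mul_of_nonneg_left ?_ (by positivity)
        refine (Finset.sum_le_sum fun j _ => (hn2 j).le).trans (le_of_eq ?_)
        simp only [Finset.sum_const, Finset.card_univ, Fintype.card_fin, nsmul_eq_mul]
    _ = ((k : ℝ) / ((k : ℝ) + 1)) ^ 2 * (c * (κ / 2 * ‖a‖) ^ 2) := by
        field_simp
    _ < 1 * (c * (κ / 2 * ‖a‖) ^ 2) := by
        refine mul_lt_mul_of_pos_right ?_ (by positivity)
        have h6 : (k : ℝ) / ((k : ℝ) + 1) < 1 := by rw [div_lt_one hk1]; linarith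
        have h7 : 0 ≤ (k : ℝ) / ((k : ℝ) + 1) := by positivity
        nlinarith
    _ = c * (κ / 2 * ‖a‖) ^ 2 := one_mul _
    _ ≤ c * nsq (fun x => ∑ j, a j • u j n x) := by gcongr

lemma MM_bound : ∃ C : ℝ, 0 ≤ C ∧ ∀ β x (v : F), ‖S.MM β x v‖ ≤ C * (‖x‖ * ‖v‖) := by
  refine ⟨∑ β, ∑ i, ∑ A, 2 * ‖S.vec (S.g i * S.Gam) A β‖, by positivity, fun β x v => ?_⟩
  have h0 : ∀ i, |aw i| ≤ 2 := by
    intro i
    unfold aw
    split_ifs <;> norm_num
  have h1 : ∀ i A, ‖((((aw i * x (i, A) : ℝ) : ℂ) • S.vec (S.g i * S.Gam) A β) : F →L[ℂ] F) v‖ ≤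
      2 * ‖S.vec (S.g i * S.Gam) A β‖ * (‖x‖ * ‖v‖) := by
    intro i A
    rw [_root_.smul_apply, norm_smul, Complex.norm_real, Real.norm_eq_abs, abs_mul]
    have h2 : |x (i, A)| ≤ ‖x‖ := by
      have := PiLp.norm_apply_le x (i, A)
      simpa using this
    calc |aw i| * |x (i, A)| * ‖S.vec (S.g i * S.Gam) A β v‖
        ≤ 2 * ‖x‖ * (‖S.vec (S.g i * S.Gam) A β‖ * ‖v‖) := by
          gcongr
          · exact h0 i
          · exact ContinuousLinearMap.le_opNorm _ _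
      _ = _ := by ring
  calc ‖S.MM β x v‖ ≤ ∑ i, ∑ A, 2 * ‖S.vec (S.g i * S.Gam) A β‖ * (‖x‖ * ‖v‖) := by
        unfold Setup.MM
        simp only [_root_.sum_apply]
        refine (norm_sum_le _ _).trans (Finset.sum_le_sum fun i _ => ?_)
        exact (norm_sum_le _ _).trans (Finset.sum_le_sum fun A _ => h1 i A)
    _ = (∑ i, ∑ A, 2 * ‖S.vec (S.g i * S.Gam) A β‖) * (‖x‖ * ‖v‖) := by
        simp only [Finset.sum_mul]
    _ ≤ _ := by
        refine mul_le_mul_of_nonneg_right ?_ (by positivity)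
        exact Finset.single_le_sum (f := fun β => ∑ i, ∑ A, 2 * ‖S.vec (S.g i * S.Gam) A β‖)
          (fun β _ => by positivity) (Finset.mem_univ β)

/-- change of the mass parameter -/
lemma energy_change : ∃ C : ℝ, 0 ≤ C ∧ ∀ (m m' : ℝ) (u : (Cfg dc) → F), Setup.Tst u →
    ∑ β, nsq (S.Qm m' β u) ≤ 2 * ∑ β, nsq (S.Qm m β u) +
      C * (m' - m) ^ 2 * ∫ x, ‖x‖ ^ 2 * ‖u x‖ ^ 2 := by
  obtain ⟨C, hC, hb⟩ := MM_bound S
  refine ⟨16 * (2 * C ^ 2), by positivity, fun m m' u hu => ?_⟩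
  have hI : Integrable (fun x => ‖x‖ ^ 2 * ‖u x‖ ^ 2) :=
    hu.mul_norm_sq_int (continuous_norm.pow 2)
  have h1 : ∀ β, nsq (S.Qm m' β u) ≤ 2 * nsq (S.Qm m β u) +
      2 * C ^ 2 * (m' - m) ^ 2 * ∫ x, ‖x‖ ^ 2 * ‖u x‖ ^ 2 := by
    intro β
    have h2 : ∀ x, ‖S.Qm m' β u x‖ ^ 2 ≤ 2 * ‖S.Qm m β u x‖ ^ 2 +
        2 * C ^ 2 * (m' - m) ^ 2 * (‖x‖ ^ 2 * ‖u x‖ ^ 2) := by
      intro x
      have h3 : S.Qm m' β u x = S.Qm m β u x + ((m' - m : ℝ) : ℂ) • S.MM β x (u x) := by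
        simp only [Setup.Qm]
        push_cast
        rw [sub_smul]
        abel
      have h4 : ‖((m' - m : ℝ) : ℂ) • S.MM β x (u x)‖ ≤ |m' - m| * (C * (‖x‖ * ‖u x‖)) := by
        rw [norm_smul, Complex.norm_real, Real.norm_eq_abs]
        gcongr
        exact hb β x (u x)
      have h5 : ‖S.Qm m' β u x‖ ≤ ‖S.Qm m β u x‖ + |m' - m| * (C * (‖x‖ * ‖u x‖)) := by
        rw [h3]
        exact (norm_add_le _ _).trans (add_le_add_right h4 _)
      calc ‖S.Qm m' β u x‖ ^ 2 ≤ (‖S.Qm m β u x‖ + |m' - m| * (C * (‖x‖ * ‖u x‖))) ^ 2 := by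
            gcongr
        _ ≤ 2 * ‖S.Qm m β u x‖ ^ 2 + 2 * (|m' - m| * (C * (‖x‖ * ‖u x‖))) ^ 2 := by
            nlinarith [sq_nonneg (‖S.Qm m β u x‖ - |m' - m| * (C * (‖x‖ * ‖u x‖)))]
        _ = _ := by rw [mul_pow, sq_abs]; ring
    unfold nsq
    rw [← integral_const_mul, ← integral_const_mul,
      ← integral_add ((Tst_Qm S m β hu).norm_sq_int.const_mul _) (hI.const_mul _)]
    exact integral_mono (Tst_Qm S m' β hu).norm_sq_int
      (((Tst_Qm S m β hu).norm_sq_int.const_mul _).add (hI.const_mul _)) h2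
  refine (Finset.sum_le_sum fun β _ => h1 β).trans (le_of_eq ?_)
  rw [Finset.sum_add_distrib, ← Finset.mul_sum]
  simp only [Finset.sum_const, Finset.card_univ, Fintype.card_fin, nsmul_eq_mul]
  push_cast
  ring

/-- one step in the mass parameter -/
lemma low_step (hC : CoerStmt S) {k : ℕ} {a b : ℝ} (ha : 0 < a) : ∃ δ : ℝ, 0 < δ ∧ ∀ m m' : ℝ,
    a ≤ m → m ≤ b → a ≤ m' → |m' - m| ≤ δ → (∀ c : ℝ, 0 < c → S.Low k m c) →
    S.Low k m' (8 * m') := by
  obtain ⟨c0, C0, hc0, hC0, hcoer⟩ := hC a b ha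
  obtain ⟨C1, hC1, hch⟩ := energy_change S
  -- choose c = min a 1, δ
  set D : ℝ := C1 * ((C0 + 1) / c0) + 1 with hD
  have hD0 : 0 < D := by positivity
  refine ⟨Real.sqrt (a / D), Real.sqrt_pos.mpr (by positivity), fun m m' hm hmb hm' hd hlow => ?_⟩
  have hc : 0 < min a 1 := lt_min ha one_pos
  obtain ⟨u, hu, hlu⟩ := hlow (min a 1) hc
  refine ⟨u, hu, fun α hα => ?_⟩
  set w : (Cfg dc) → F := fun x => ∑ j, α j • u j x with hw
  have hwi : S.Inv w := Inv_sum S Finset.univ α hu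
  have h1 : ∑ β, nsq (S.Qm m β w) < min a 1 * nsq w := hlu α hα
  have h2 := hch m m' w hwi.1
  have h3 := hcoer m hm hmb w hwi.1
  have hn : 0 ≤ nsq w := nsq_nonneg w
  have hg : 0 ≤ ∑ i, ∑ A, nsq (pd i A w) :=
    Finset.sum_nonneg fun i _ => Finset.sum_nonneg fun A _ => nsq_nonneg _
  have hpos : 0 < nsq w := by
    by_contra hneg
    have h0 : nsq w = 0 := le_antisymm (not_lt.mp hneg) hn
    rw [h0, mul_zero] at h1
    exact absurd h1 (not_lt.mpr (Finset.sum_nonneg fun β _ => nsq_nonneg _))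
  have h4 : ∑ β, nsq (S.Qm m β w) ≤ nsq w := by
    have : min a 1 * nsq w ≤ 1 * nsq w := mul_le_mul_of_nonneg_right (min_le_right _ _) hn
    linarith
  have h4' : ∑ β, nsq (S.Qm m β w) < a * nsq w := by
    have : min a 1 * nsq w ≤ a * nsq w := mul_le_mul_of_nonneg_right (min_le_left _ _) hn
    linarith
  have h5 : ∫ x, ‖x‖ ^ 2 * ‖w x‖ ^ 2 ≤ (C0 + 1) / c0 * nsq w := by
    rw [div_mul_eq_mul_div, le_div_iff₀ hc0]
    nlinarith
  have h6 : (m' - m) ^ 2 ≤ a / D := by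
    rw [← sq_abs]
    calc |m' - m| ^ 2 ≤ Real.sqrt (a / D) ^ 2 := by gcongr
      _ = a / D := Real.sq_sqrt (by positivity)
  have h7 : C1 * (m' - m) ^ 2 * ∫ x, ‖x‖ ^ 2 * ‖w x‖ ^ 2 ≤ a * nsq w := by
    have h8 : 0 ≤ ∫ x, ‖x‖ ^ 2 * ‖w x‖ ^ 2 := integral_nonneg fun x => by positivity
    calc C1 * (m' - m) ^ 2 * ∫ x, ‖x‖ ^ 2 * ‖w x‖ ^ 2
        ≤ C1 * (a / D) * ((C0 + 1) / c0 * nsq w) := by gcongr
      _ = (C1 * ((C0 + 1) / c0)) * (a / D) * nsq w := by ring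
      _ ≤ D * (a / D) * nsq w := by
          gcongr
          rw [hD]; linarith
      _ = a * nsq w := by field_simp
  calc ∑ β, nsq (S.Qm m' β w) ≤ 2 * ∑ β, nsq (S.Qm m β w) +
        C1 * (m' - m) ^ 2 * ∫ x, ‖x‖ ^ 2 * ‖w x‖ ^ 2 := h2
    _ < 8 * a * nsq w := by nlinarith
    _ ≤ 8 * m' * nsq w := by gcongr

end HB

/-- **Theorem B** -/
theorem thmB2_of [CompleteSpace F] (S : Setup dc F) (hA2 : A2Stmt S) (hA3 : A3Stmt S)
    (hG : CGapStmt S) (hW : WSStmt S) (hC : CoerStmt S) (N : ℕ) : ThmBStmt S N := by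
  -- `Low N m (8m)` gives `Low N m c` for all `c`
  have key : ∀ m : ℝ, 0 < m → S.Low N m (8 * m) → ∀ c : ℝ, 0 < c → S.Low N m c := by
    intro m hm hL c hc
    obtain ⟨Ψ, h1, h2, h3⟩ := HB.k_zm S hA2 hA3 hG hm hL
    have h4 : ∀ j, ∃ u : ℕ → (Cfg dc) → F, (∀ n, S.Inv (u n)) ∧ L2t u (Ψ j) ∧
        Tendsto (fun n => ∑ β, nsq (S.Qm m β (u n))) atTop (𝓝 0) := fun j =>
      hW m (Ψ j) (h1 j) (h2 j)
    choose u hu hl hq using h4
    exact HB.low_of_lim S hu hl hq h3 hc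
  intro m hm hL m' hm'
  have ha : 0 < min m m' := lt_min hm hm'
  obtain ⟨δ, hδ, hstep⟩ := HB.low_step S hC (k := N) (b := max m m') ha
  have hind : ∀ k : ℕ, ∀ r : ℝ, min m m' ≤ r → r ≤ max m m' → |r - m| ≤ k * δ →
      ∀ c : ℝ, 0 < c → S.Low N r c := by
    intro k
    induction k with
    | zero =>
      intro r _ _ h c hc
      have h0 : r = m := by
        rw [Nat.cast_zero, zero_mul] at h
        exact sub_eq_zero.mp (abs_nonpos_iff.mp h)
      rw [h0]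
      exact key m hm hL c hc
    | succ k ih =>
      intro r hr1 hr2 h c hc
      -- intermediate point
      set t : ℝ := (k : ℝ) / (k + 1) with ht
      have hk : (0 : ℝ) < k + 1 := by positivity
      have ht0 : 0 ≤ t := by positivity
      have ht1 : t ≤ 1 := by rw [ht, div_le_one hk]; linarith
      have hr0 : 0 < r := lt_of_lt_of_le ha hr1
      set s : ℝ := m + t * (r - m) with hs
      have hs1 : min m m' ≤ s := by
        have h1 : min m m' ≤ m := min_le_left _ _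
        have h2 : s = (1 - t) * m + t * r := by rw [hs]; ring
        rw [h2]
        nlinarith [mul_nonneg (sub_nonneg.mpr ht1) (sub_nonneg.mpr h1),
          mul_nonneg ht0 (sub_nonneg.mpr hr1)]
      have hs2 : s ≤ max m m' := by
        have h1 : m ≤ max m m' := le_max_left _ _
        have h2 : s = (1 - t) * m + t * r := by rw [hs]; ring
        rw [h2]
        nlinarith [mul_nonneg (sub_nonneg.mpr ht1) (sub_nonneg.mpr h1),
          mul_nonneg ht0 (sub_nonneg.mpr hr2)]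
      have h1 : |s - m| ≤ k * δ := by
        have : s - m = t * (r - m) := by rw [hs]; ring
        rw [this, abs_mul, abs_of_nonneg ht0]
        calc t * |r - m| ≤ t * (((k + 1 : ℕ) : ℝ) * δ) := by gcongr
          _ = k * δ := by rw [ht]; push_cast; field_simp
      have h2 : |r - s| ≤ δ := by
        have : r - s = (1 - t) * (r - m) := by rw [hs]; ring
        rw [this, abs_mul, abs_of_nonneg (sub_nonneg.mpr ht1)]
        calc (1 - t) * |r - m| ≤ (1 - t) * (((k + 1 : ℕ) : ℝ) * δ) := by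
              gcongr
          _ = δ := by rw [ht]; push_cast; field_simp; ring
      exact key r hr0 (hstep s r hs1 hs2 hr1 h2 (ih s hs1 hs2 h1)) c hc
  obtain ⟨k, hk⟩ := exists_nat_ge (|m' - m| / δ)
  refine hind k m' (min_le_right _ _) (le_max_right _ _) ?_
  rwa [div_le_iff₀ hδ] at hk


end Vale.Agent.P353.Z.U
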