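import Vale.Agent.P353.Z.U.StmtC

/-! # P353, general `N`: Theorem C (at most `n` invariant zero modes for large `m`) -/

open MeasureTheory Filter Topology
open scoped ContDiff

set_option linter.unusedSectionVars false

namespace Vale.Agent.P353.Z.U

variable {dc : ℕ}

variable {F : Type*} [NormedAddCommGroup F] [InnerProductSpace ℂ F]

/-! ### change of variables -/

lemma ZThmC_translate (f : (Cfg dc) → ℝ) (z : (Cfg dc)) (t : ℝ) :
    ∫ y in Metric.ball (0 : (Cfg dc)) t, f (z + y) = ∫ x in Metric.ball z t, f x := by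
  have h1 := (measurePreserving_add_left (volume : Measure (Cfg dc)) z).setIntegral_preimage_emb
    (MeasurableEquiv.addLeft z).measurableEmbedding f (Metric.ball z t)
  rw [← h1]
  have h2 : (fun x => z + x) ⁻¹' Metric.ball z t = Metric.ball (0 : (Cfg dc)) t := by
    ext y
    simp [dist_eq_norm]
  rw [h2]

lemma ZThmC_cov (f : (Cfg dc) → ℝ) {m : ℝ} (hm : 0 < m) (ξ : (Cfg dc)) (s : ℝ) :
    ∫ w in Metric.ball (0 : (Cfg dc)) s, f (m • ξ + (Real.sqrt m)⁻¹ • w) =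
      Real.sqrt m ^ (9 * dc) * ∫ x in Metric.ball (m • ξ) (s / Real.sqrt m), f x := by
  have hs : 0 < Real.sqrt m := Real.sqrt_pos.mpr hm
  have hr : 0 < (Real.sqrt m)⁻¹ := inv_pos.mpr hs
  have h1 := Measure.setIntegral_comp_smul_of_pos (volume : Measure (Cfg dc))
    (fun y => f (m • ξ + y)) (Metric.ball (0 : (Cfg dc)) s) hr
  rw [h1, smul_ball hr.ne', smul_zero, Real.norm_of_nonneg hr.le, ZThmC_translate]
  have h2 : Module.finrank ℝ (Cfg dc) = 9 * dc := by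
    rw [finrank_euclideanSpace]
    simp
  rw [h2, smul_eq_mul, inv_pow, inv_inv]
  congr 3
  rw [div_eq_inv_mul]

/-! ### linearity -/

lemma ZThmC_pd_smul (c : ℂ) {u : (Cfg dc) → F} (hu : ContDiff ℝ ∞ u) (i : Fin 9) (A : Fin dc) (x : (Cfg dc)) :
    pd i A (fun x => c • u x) x = c • pd i A u x := by
  unfold pd
  rw [fderiv_fun_const_smul ((hu.differentiable (by simp)) x)]
  rfl

lemma ZThmC_tst_smul (c : ℂ) {u : (Cfg dc) → F} (hu : Setup.Tst u) : Setup.Tst (fun x => c • u x) :=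
  ⟨hu.1.const_smul c, hu.2.comp_left (g := fun v : F => c • v) (smul_zero c)⟩

lemma ZThmC_G_smul (S : Setup dc F) (c : ℂ) {u : (Cfg dc) → F} (hu : Setup.Tst u) (C : Fin dc) (x : (Cfg dc)) :
    S.G C (fun x => c • u x) x = c • S.G C u x := by
  unfold Setup.G
  simp only [ZThmC_pd_smul c hu.1, map_smul, smul_add, Finset.smul_sum, smul_comm c]

lemma ZThmC_G_add (S : Setup dc F) {u v : (Cfg dc) → F} (hu : Setup.Tst u) (hv : Setup.Tst v) (C : Fin dc)
    (x : (Cfg dc)) : S.G C (fun x => u x + v x) x = S.G C u x + S.G C v x := by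
  unfold Setup.G
  have h : ∀ i A, pd i A (fun x => u x + v x) x = pd i A u x + pd i A v x := fun i A =>
    pd_add (hu.diff x) (hv.diff x)
  simp only [h, map_add, smul_add, Finset.sum_add_distrib]
  abel

lemma ZThmC_Qm_smul (S : Setup dc F) (m : ℝ) (c : ℂ) {u : (Cfg dc) → F} (hu : Setup.Tst u) (β : Fin 16)
    (x : (Cfg dc)) : S.Qm m β (fun x => c • u x) x = c • S.Qm m β u x := by
  unfold Setup.Qm Setup.Q
  simp only [ZThmC_pd_smul c hu.1, map_smul, smul_add, Finset.smul_sum, smul_comm c]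


lemma ZThmC_cont_scl {m : ℝ} (ξ : (Cfg dc)) {u : (Cfg dc) → F} (hu : Continuous u) :
    Continuous (scl m ξ u) := by
  unfold scl
  fun_prop

/-- local masses of rescaled functions -/
lemma ZThmC_mass {m : ℝ} (hm : 0 < m) (ξ : (Cfg dc)) (u : (Cfg dc) → F) (c : ℝ) (s : ℝ) :
    ∫ w in Metric.ball (0 : (Cfg dc)) s, ‖scl m ξ (fun x => (c : ℂ) • u x) w‖ ^ 2 =
      c ^ 2 * (Real.sqrt m ^ (9 * dc) * ∫ x in Metric.ball (m • ξ) (s / Real.sqrt m), ‖u x‖ ^ 2) := by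
  rw [← ZThmC_cov (fun x => ‖u x‖ ^ 2) hm ξ s, ← integral_const_mul]
  refine integral_congr_ae (Filter.Eventually.of_forall fun w => ?_)
  simp only [scl, norm_smul, mul_pow, Complex.norm_real, Real.norm_eq_abs, sq_abs]

lemma ZThmC_ind_mem {f : (Cfg dc) → F} {s : ℝ} (hf : StronglyMeasurable f)
    (hi : IntegrableOn (fun x => ‖f x‖ ^ 2) (Metric.ball (0 : (Cfg dc)) s)) :
    MemLp ((Metric.ball (0 : (Cfg dc)) s).indicator f) 2 (volume : Measure (Cfg dc)) := by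
  rw [memLp_two_iff_integrable_sq_norm
    (hf.indicator Metric.isOpen_ball.measurableSet).aestronglyMeasurable]
  have h : (fun x => ‖(Metric.ball (0 : (Cfg dc)) s).indicator f x‖ ^ 2) =
      (Metric.ball (0 : (Cfg dc)) s).indicator (fun x => ‖f x‖ ^ 2) := by
    funext x
    by_cases hx : x ∈ Metric.ball (0 : (Cfg dc)) s
    · rw [Set.indicator_of_mem hx, Set.indicator_of_mem hx]
    · rw [Set.indicator_of_notMem hx, Set.indicator_of_notMem hx]; simp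
  rw [h]
  exact hi.integrable_indicator Metric.isOpen_ball.measurableSet

lemma ZThmC_ind_nsq (f : (Cfg dc) → F) (s : ℝ) :
    nsq ((Metric.ball (0 : (Cfg dc)) s).indicator f) = ∫ x in Metric.ball (0 : (Cfg dc)) s, ‖f x‖ ^ 2 := by
  rw [nsq, ← integral_indicator Metric.isOpen_ball.measurableSet]
  refine integral_congr_ae (Filter.Eventually.of_forall fun x => ?_)
  by_cases hx : x ∈ Metric.ball (0 : (Cfg dc)) s
  · simp only [Set.indicator_of_mem hx]
  · simp only [Set.indicator_of_notMem hx]; simp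

/-- the local limit lemma -/
lemma ZThmC_lim (S : Setup dc F) (hL : LimStmt S) (ξ : (Cfg dc)) (hξ : ∀ β, S.W β ξ + S.MM β ξ = 0)
    (m : ℕ → ℝ) (hm1 : ∀ k, 1 ≤ m k) (hm : Tendsto m atTop atTop)
    (φ : ℕ → (Cfg dc) → F) (hφ : ∀ k, Setup.Tst (φ k)) (hG : ∀ k C x, S.G C (φ k) x = 0)
    (a : ℕ → ℝ) (ha : ∀ k, 0 < a k) (P : ℝ → ℝ)
    (hP : ∀ k, ∀ s : ℝ, 0 < s →
      a k * ∫ x in Metric.ball (m k • ξ) (s / Real.sqrt (m k)), ‖φ k x‖ ^ 2 ≤ P s)
    (hE : Tendsto (fun k => a k * ∑ β, nsq (S.Qm (m k) β (φ k))) atTop (𝓝 0))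
    (hQi : ∀ k β, Integrable (fun x => ‖S.Qm (m k) β (φ k) x‖ ^ 2))
    (Ω : F) (hΩ : ‖Ω‖ = 1)
    (hb : ∀ k, ∫ w in Metric.ball (0 : (Cfg dc)) 1, inner ℂ Ω (scl (m k) ξ (φ k) w) = 0)
    (g : (Cfg dc) → ℝ) (hg : Continuous g) (hg0 : ∀ x, 0 < g x)
    (hLv : ∀ u : (Cfg dc) → F, StronglyMeasurable u →
      (∀ s : ℝ, 0 < s → IntegrableOn (fun x => ‖u x‖ ^ 2) (Metric.ball (0 : (Cfg dc)) s)) →
      (∀ s : ℝ, 0 < s → ∫ x in Metric.ball (0 : (Cfg dc)) s, ‖u x‖ ^ 2 ≤ P s) →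
      (∀ β ζ, Setup.Tst ζ → ∫ x, inner ℂ (S.Qlin ξ β ζ x) (u x) = 0) →
      (∀ (C : Fin dc) ζ, Setup.Tst ζ → ∫ x, inner ℂ
        (∑ i, ∑ A, ∑ B, ((S.f C A B : ℂ) * (ξ (i, A) : ℂ)) • pd i B ζ x) (u x) = 0) →
      ∃ c : ℂ, ∀ᵐ x ∂(volume : Measure (Cfg dc)), u x = (c * (g x : ℂ)) • Ω) :
    ∃ ψ : ℕ → ℕ, StrictMono ψ ∧ ∀ s : ℝ, 0 < s →
      Tendsto (fun k => a (ψ k) * ∫ x in Metric.ball (m (ψ k) • ξ) (s / Real.sqrt (m (ψ k))),
        ‖φ (ψ k) x‖ ^ 2) atTop (𝓝 0) := by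
  have hm0 : ∀ k, 0 < m k := fun k => lt_of_lt_of_le one_pos (hm1 k)
  have hsm : ∀ k, 0 < Real.sqrt (m k) := fun k => Real.sqrt_pos.mpr (hm0 k)
  -- normalisation
  set c : ℕ → ℝ := fun k => Real.sqrt (a k / Real.sqrt (m k) ^ (9 * dc)) with hc
  have hc2 : ∀ k, c k ^ 2 * Real.sqrt (m k) ^ (9 * dc) = a k := by
    intro k
    have h1 : 0 < Real.sqrt (m k) ^ (9 * dc) := pow_pos (hsm k) (9 * dc)
    simp only [hc]
    rw [Real.sq_sqrt (div_nonneg (ha k).le h1.le), div_mul_cancel₀ _ h1.ne']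
  set Φ : ℕ → (Cfg dc) → F := fun k x => (c k : ℂ) • φ k x with hΦ
  have hΦt : ∀ k, Setup.Tst (Φ k) := fun k => ZThmC_tst_smul _ (hφ k)
  have hmass : ∀ k s, ∫ w in Metric.ball (0 : (Cfg dc)) s, ‖scl (m k) ξ (Φ k) w‖ ^ 2 =
      a k * ∫ x in Metric.ball (m k • ξ) (s / Real.sqrt (m k)), ‖φ k x‖ ^ 2 := by
    intro k s
    rw [ZThmC_mass (hm0 k) ξ (φ k) (c k) s, ← mul_assoc, hc2]
  have hen : ∀ k s β, ∫ w in Metric.ball (0 : (Cfg dc)) s,
      (m k)⁻¹ * ‖scl (m k) ξ (S.Qm (m k) β (Φ k)) w‖ ^ 2 ≤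
      a k * nsq (S.Qm (m k) β (φ k)) := by
    intro k s β
    have h1 : S.Qm (m k) β (Φ k) = fun x => (c k : ℂ) • S.Qm (m k) β (φ k) x := by
      funext x
      exact ZThmC_Qm_smul S (m k) (c k) (hφ k) β x
    rw [h1, integral_const_mul, ZThmC_mass (hm0 k) ξ _ (c k) s, ← mul_assoc (c k ^ 2), hc2]
    have h2 : ∫ x in Metric.ball (m k • ξ) (s / Real.sqrt (m k)), ‖S.Qm (m k) β (φ k) x‖ ^ 2 ≤
        nsq (S.Qm (m k) β (φ k)) :=
      setIntegral_le_integral (hQi k β) (Filter.Eventually.of_forall fun x => by positivity)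
    have h3 : (m k)⁻¹ ≤ 1 := inv_le_one_of_one_le₀ (hm1 k)
    have h4 : 0 ≤ a k * ∫ x in Metric.ball (m k • ξ) (s / Real.sqrt (m k)),
        ‖S.Qm (m k) β (φ k) x‖ ^ 2 :=
      mul_nonneg (ha k).le (integral_nonneg fun x => by positivity)
    calc (m k)⁻¹ * (a k * ∫ x in Metric.ball (m k • ξ) (s / Real.sqrt (m k)),
          ‖S.Qm (m k) β (φ k) x‖ ^ 2)
        ≤ 1 * (a k * ∫ x in Metric.ball (m k • ξ) (s / Real.sqrt (m k)),
          ‖S.Qm (m k) β (φ k) x‖ ^ 2) := mul_le_mul_of_nonneg_right h3 h4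
      _ ≤ a k * nsq (S.Qm (m k) β (φ k)) := by
          rw [one_mul]
          exact mul_le_mul_of_nonneg_left h2 (ha k).le
  obtain ⟨ψ, hψ, u, hum, hui, hul, huQ, huG⟩ := hL ξ hξ m hm1 hm Φ hΦt P
    (fun k s hs => by rw [hmass]; exact hP k s hs)
    (fun s hs => by
      refine squeeze_zero (fun k => Finset.sum_nonneg fun β _ => integral_nonneg fun x => ?_)
        (fun k => ?_) hE
      · have := hm0 k
        positivity
      · rw [Finset.mul_sum]
        exact Finset.sum_le_sum fun β _ => hen k s β)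
  have huG' := huG (fun k C x => by
    rw [hΦ]
    simp only
    rw [ZThmC_G_smul S (c k) (hφ k) C x, hG, smul_zero])
  -- convergence of the indicators
  have hsc : ∀ k, Continuous (scl (m k) ξ (Φ k)) := fun k => ZThmC_cont_scl ξ (hΦt k).1.continuous
  have hiΦ : ∀ k s, IntegrableOn (fun x => ‖scl (m k) ξ (Φ k) x‖ ^ 2) (Metric.ball (0 : (Cfg dc)) s) := by
    intro k s
    refine (((hsc k).norm.pow 2).continuousOn.integrableOn_compact
      (isCompact_closedBall (0 : (Cfg dc)) s)).mono_set Metric.ball_subset_closedBall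
  have hlim : ∀ s : ℝ, 0 < s → L2t (fun k => (Metric.ball (0 : (Cfg dc)) s).indicator
      (scl (m (ψ k)) ξ (Φ (ψ k)))) ((Metric.ball (0 : (Cfg dc)) s).indicator u) := by
    intro s hs
    refine ⟨fun k => ZThmC_ind_mem (hsc _).stronglyMeasurable (hiΦ _ s), ZThmC_ind_mem hum (hui s hs),
      ?_⟩
    refine (hul s hs).congr fun k => ?_
    rw [← ZThmC_ind_nsq]
    congr 1
    funext x
    by_cases hx : x ∈ Metric.ball (0 : (Cfg dc)) s
    · simp only [Set.indicator_of_mem hx]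
    · simp only [Set.indicator_of_notMem hx]; simp
  have huP : ∀ s : ℝ, 0 < s → ∫ x in Metric.ball (0 : (Cfg dc)) s, ‖u x‖ ^ 2 ≤ P s := by
    intro s hs
    have h1 := (hlim s hs).lim_nsq
    rw [ZThmC_ind_nsq] at h1
    refine le_of_tendsto h1 (Filter.Eventually.of_forall fun k => ?_)
    simp only [ZThmC_ind_nsq, hmass]
    exact hP _ s hs
  obtain ⟨d, hd⟩ := hLv u hum hui huP huQ huG'
  -- the constant vanishes
  have hgi : 0 < ∫ x in Metric.ball (0 : (Cfg dc)) 1, g x := by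
    have hgo : IntegrableOn g (Metric.ball (0 : (Cfg dc)) 1) :=
      (hg.continuousOn.integrableOn_compact (isCompact_closedBall (0 : (Cfg dc)) 1)).mono_set
        Metric.ball_subset_closedBall
    rw [setIntegral_pos_iff_support_of_nonneg_ae
      (Filter.Eventually.of_forall fun x => (hg0 x).le) hgo]
    have hsup : Function.support g = Set.univ := by
      ext x
      simp [(hg0 x).ne']
    rw [hsup, Set.univ_inter]
    exact Metric.measure_ball_pos _ _ one_pos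
  have hd0 : d = 0 := by
    have hΩL : L2t (fun _ : ℕ => (Metric.ball (0 : (Cfg dc)) 1).indicator (fun _ : (Cfg dc) => Ω))
        ((Metric.ball (0 : (Cfg dc)) 1).indicator (fun _ : (Cfg dc) => Ω)) := by
      have hmem : MemLp ((Metric.ball (0 : (Cfg dc)) 1).indicator (fun _ : (Cfg dc) => Ω)) 2
          (volume : Measure (Cfg dc)) :=
        ZThmC_ind_mem stronglyMeasurable_const (integrableOn_const
          (hs := (Metric.isBounded_ball.measure_lt_top).ne))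
      refine ⟨fun _ => hmem, hmem, ?_⟩
      simp [nsq]
    have h1 := hΩL.lim_inner (hlim 1 one_pos)
    have h2 : ∀ f : (Cfg dc) → F, ∫ x, inner ℂ ((Metric.ball (0 : (Cfg dc)) 1).indicator (fun _ : (Cfg dc) => Ω) x)
        ((Metric.ball (0 : (Cfg dc)) 1).indicator f x) =
        ∫ x in Metric.ball (0 : (Cfg dc)) 1, inner ℂ Ω (f x) := by
      intro f
      rw [← integral_indicator Metric.isOpen_ball.measurableSet]
      refine integral_congr_ae (Filter.Eventually.of_forall fun x => ?_)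
      by_cases hx : x ∈ Metric.ball (0 : (Cfg dc)) 1
      · simp only [Set.indicator_of_mem hx]
      · simp only [Set.indicator_of_notMem hx]; simp
    simp only [h2] at h1
    have h3 : ∀ k, ∫ x in Metric.ball (0 : (Cfg dc)) 1, inner ℂ Ω (scl (m (ψ k)) ξ (Φ (ψ k)) x) = 0 := by
      intro k
      have h4 : ∀ x, inner ℂ Ω (scl (m (ψ k)) ξ (Φ (ψ k)) x) =
          (c (ψ k) : ℂ) * inner ℂ Ω (scl (m (ψ k)) ξ (φ (ψ k)) x) := by
        intro x
        simp only [scl, hΦ, inner_smul_right]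
      simp only [h4]
      rw [integral_const_mul, hb, mul_zero]
    simp only [h3] at h1
    have h5 : ∫ x in Metric.ball (0 : (Cfg dc)) 1, inner ℂ Ω (u x) = 0 :=
      tendsto_nhds_unique h1 tendsto_const_nhds
    have h6 : ∫ x in Metric.ball (0 : (Cfg dc)) 1, inner ℂ Ω (u x) =
        d * ((∫ x in Metric.ball (0 : (Cfg dc)) 1, g x : ℝ) : ℂ) := by
      rw [← integral_complex_ofReal, ← integral_const_mul]
      refine integral_congr_ae (ae_restrict_of_ae ?_)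
      filter_upwards [hd] with x hx
      rw [hx, inner_smul_right, inner_self_eq_norm_sq_to_K, hΩ]
      simp
    rw [h6] at h5
    rcases mul_eq_zero.mp h5 with h7 | h7
    · exact h7
    · exact absurd (Complex.ofReal_eq_zero.mp h7) hgi.ne'
  refine ⟨ψ, hψ, fun s hs => ?_⟩
  have h1 := (hlim s hs).lim_nsq
  have h2 : nsq ((Metric.ball (0 : (Cfg dc)) s).indicator u) = 0 := by
    rw [ZThmC_ind_nsq]
    have : ∫ x in Metric.ball (0 : (Cfg dc)) s, ‖u x‖ ^ 2 = ∫ x in Metric.ball (0 : (Cfg dc)) s, (0 : ℝ) := by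
      refine integral_congr_ae (ae_restrict_of_ae ?_)
      filter_upwards [hd] with x hx
      rw [hx, hd0]
      simp
    rw [this, integral_zero]
  rw [h2] at h1
  refine h1.congr fun k => ?_
  rw [ZThmC_ind_nsq, hmass]

/-! ### smoothness -/

lemma ZThmC_contDiff_MM (S : Setup dc F) (β : Fin 16) : ContDiff ℝ ∞ (S.MM β) := by
  unfold Setup.MM
  refine ContDiff.sum fun i _ => ContDiff.sum fun A _ => ?_
  exact (Setup.contDiff_ofReal (contDiff_const.mul (Setup.contDiff_coord _))).smul contDiff_const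

lemma ZThmC_tst_Qm (S : Setup dc F) (m : ℝ) (β : Fin 16) {u : (Cfg dc) → F} (hu : Setup.Tst u) :
    Setup.Tst (S.Qm m β u) := by
  have h1 : Setup.Tst (fun x => (m : ℂ) • S.MM β x (u x)) :=
    ZThmC_tst_smul _ (hu.clm (ZThmC_contDiff_MM S β))
  exact (hu.Q S β).add h1

lemma ZThmC_cont_dm (S : Setup dc F) (m : ℝ) : Continuous (S.dm m) := by
  unfold Setup.dm
  exact Metric.continuous_infDist_pt _

lemma ZThmC_G_zero (S : Setup dc F) (C : Fin dc) (x : (Cfg dc)) :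
    S.G C (fun _ => (0 : F)) x = 0 := by
  have h := ZThmC_G_smul S 0 (u := fun _ => (0 : F)) ⟨contDiff_const, HasCompactSupport.zero⟩ C x
  simpa using h

lemma ZThmC_comb (S : Setup dc F) {ι : Type*} (s : Finset ι) (b : ι → ℂ) {u : ι → (Cfg dc) → F}
    (hu : ∀ j, Setup.Tst (u j)) (hG : ∀ j C x, S.G C (u j) x = 0) :
    Setup.Tst (fun x => ∑ j ∈ s, b j • u j x) ∧
      ∀ C x, S.G C (fun x => ∑ j ∈ s, b j • u j x) x = 0 := by
  classical
  induction s using Finset.induction_on with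
  | empty =>
    refine ⟨?_, fun C x => ?_⟩
    · simp only [Finset.sum_empty]
      exact ⟨contDiff_const, HasCompactSupport.zero⟩
    · simp only [Finset.sum_empty]
      exact ZThmC_G_zero S C x
  | insert i s hi ih =>
    have e : (fun x => ∑ j ∈ insert i s, b j • u j x) =
        fun x => b i • u i x + ∑ j ∈ s, b j • u j x := by
      funext x
      rw [Finset.sum_insert hi]
    rw [e]
    refine ⟨(ZThmC_tst_smul _ (hu i)).add ih.1, fun C x => ?_⟩
    rw [ZThmC_G_add S (ZThmC_tst_smul _ (hu i)) ih.1, ZThmC_G_smul S _ (hu i), hG, ih.2]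
    simp

/-! ### the choice of a good vector -/

lemma ZThmC_pick (S : Setup dc F) {n : ℕ} {m ε : ℝ} (hε : 0 < ε) (hlow : S.Low (n + 1) m ε)
    (ξ : Fin n → (Cfg dc)) (Ω : Fin n → F) :
    ∃ φ : (Cfg dc) → F, Setup.Tst φ ∧ (∀ C x, S.G C φ x = 0) ∧ nsq φ = 1 ∧
      ∑ β, nsq (S.Qm m β φ) < ε ∧
      ∀ i, ∫ w in Metric.ball (0 : (Cfg dc)) 1, inner ℂ (Ω i) (scl m (ξ i) φ w) = 0 := by
  obtain ⟨u, hu, hQ⟩ := hlow
  set I : (Cfg dc) → F → Fin (n + 1) → ℂ := fun ξ Ω j =>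
    ∫ w in Metric.ball (0 : (Cfg dc)) 1, inner ℂ Ω (scl m ξ (u j) w) with hI
  -- linear dependence
  obtain ⟨a, ha, ha0⟩ : ∃ a : Fin (n + 1) → ℂ, a ≠ 0 ∧ ∀ i, ∑ j, a j * I (ξ i) (Ω i) j = 0 := by
    let T : (Fin (n + 1) → ℂ) →ₗ[ℂ] (Fin n → ℂ) :=
      (Matrix.of (fun i j => I (ξ i) (Ω i) j) : Matrix (Fin n) (Fin (n + 1)) ℂ).mulVecLin
    have hT : LinearMap.ker T ≠ ⊥ := LinearMap.ker_ne_bot_of_finrank_lt (by simp)
    obtain ⟨a, ha, hne⟩ := (Submodule.ne_bot_iff _).mp hT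
    refine ⟨a, hne, fun i => ?_⟩
    have h := congrFun (LinearMap.mem_ker.mp ha) i
    simp only [T, Matrix.mulVecLin_apply, Matrix.mulVec, dotProduct, Pi.zero_apply] at h
    rw [← h]
    refine Finset.sum_congr rfl fun j _ => ?_
    rw [mul_comm]
    rfl
  set N : ℝ := nsq (fun x => ∑ j, a j • u j x) with hN
  have hNpos : 0 < N := by
    have h1 := hQ a ha
    have h2 : 0 ≤ ∑ β, nsq (S.Qm m β (fun x => ∑ j, a j • u j x)) :=
      Finset.sum_nonneg fun β _ => nsq_nonneg _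
    have h3 : 0 < ε * N := lt_of_le_of_lt h2 h1
    exact (mul_pos_iff_of_pos_left hε).mp h3
  have hsN : 0 < Real.sqrt N := Real.sqrt_pos.mpr hNpos
  set b : Fin (n + 1) → ℂ := fun j => (((Real.sqrt N)⁻¹ : ℝ) : ℂ) * a j with hbdef
  have hb0 : b ≠ 0 := by
    intro h
    apply ha
    funext j
    have h1 := congrFun h j
    simp only [hbdef, Pi.zero_apply] at h1
    rcases mul_eq_zero.mp h1 with h2 | h2
    · exact absurd (Complex.ofReal_eq_zero.mp h2) (inv_pos.mpr hsN).ne'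
    · exact h2
  have hT : ∀ j, Setup.Tst (u j) := fun j => (hu j).1
  obtain ⟨ht, htG⟩ := ZThmC_comb S Finset.univ b hT fun j => (hu j).2.1
  have hnorm : nsq (fun x => ∑ j, b j • u j x) = 1 := by
    have h1 : (fun x => ∑ j, b j • u j x) =
        fun x => (((Real.sqrt N)⁻¹ : ℝ) : ℂ) • ∑ j, a j • u j x := by
      funext x
      rw [Finset.smul_sum]
      refine Finset.sum_congr rfl fun j _ => ?_
      rw [hbdef, smul_smul]
    rw [h1, nsq]
    have h2 : ∀ x, ‖(((Real.sqrt N)⁻¹ : ℝ) : ℂ) • ∑ j, a j • u j x‖ ^ 2 =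
        N⁻¹ * ‖∑ j, a j • u j x‖ ^ 2 := by
      intro x
      rw [norm_smul, mul_pow, Complex.norm_real, Real.norm_eq_abs, sq_abs, inv_pow,
        Real.sq_sqrt hNpos.le]
    simp only [h2]
    rw [integral_const_mul]
    exact inv_mul_cancel₀ hNpos.ne'
  have hint : ∀ (ξ : (Cfg dc)) (Ω : F), (∑ j, a j * I ξ Ω j = 0) →
      ∫ w in Metric.ball (0 : (Cfg dc)) 1,
        inner ℂ Ω (scl m ξ (fun x => ∑ j, b j • u j x) w) = 0 := by
    intro ξ Ω h0
    have h1 : ∀ w, inner ℂ Ω (scl m ξ (fun x => ∑ j, b j • u j x) w) =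
        ∑ j, b j * inner ℂ Ω (scl m ξ (u j) w) := by
      intro w
      simp only [scl, inner_sum, inner_smul_right]
    simp only [h1]
    rw [integral_finsetSum]
    · have h2 : ∀ j, ∫ w in Metric.ball (0 : (Cfg dc)) 1, b j * inner ℂ Ω (scl m ξ (u j) w) =
          (((Real.sqrt N)⁻¹ : ℝ) : ℂ) * (a j * I ξ Ω j) := by
        intro j
        rw [integral_const_mul, hbdef, hI, mul_assoc]
      rw [Finset.sum_congr rfl fun j _ => h2 j, ← Finset.mul_sum, h0, mul_zero]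
    · intro j _
      refine Integrable.const_mul ?_ _
      have hc : Continuous fun w => inner ℂ Ω (scl m ξ (u j) w) :=
        continuous_const.inner (ZThmC_cont_scl ξ (hT j).1.continuous)
      exact (hc.continuousOn.integrableOn_compact (isCompact_closedBall (0 : (Cfg dc)) 1)).mono_set
        Metric.ball_subset_closedBall
  refine ⟨fun x => ∑ j, b j • u j x, ht, htG, hnorm, ?_, fun i => hint _ _ (ha0 i)⟩
  have h1 := hQ b hb0
  rw [hnorm, mul_one] at h1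
  exact h1

/-! ### the wells are the orbits of `m ξ_j` -/

lemma ZThmC_ro_smul (O : Matrix (Fin dc) (Fin dc) ℝ) (c : ℝ) (x : (Cfg dc)) :
    ro O (c • x) = c • ro O x := by
  ext p
  simp only [ro, PiLp.smul_apply, smul_eq_mul, Finset.mul_sum]
  refine Finset.sum_congr rfl fun B _ => ?_
  ring

lemma ZThmC_Vm_scale (S : Setup dc F) (m c : ℝ) (x : (Cfg dc)) :
    S.Vm (c * m) (c • x) = c ^ 4 * S.Vm m x := by
  have hF : ∀ A i j, S.FF A i j (c • x) = c ^ 2 * S.FF A i j x := by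
    intro A i j
    simp only [Setup.FF, PiLp.smul_apply, smul_eq_mul, Finset.mul_sum]
    refine Finset.sum_congr rfl fun B _ => Finset.sum_congr rfl fun C _ => ?_
    ring
  have hV : S.V (c • x) = c ^ 4 * S.V x := by
    simp only [Setup.V, hF, Finset.mul_sum]
    refine Finset.sum_congr rfl fun A _ => Finset.sum_congr rfl fun i _ =>
      Finset.sum_congr rfl fun j _ => ?_
    ring
  have hD : S.det3 (c • x) = c ^ 3 * S.det3 x := by
    simp only [Setup.det3, PiLp.smul_apply, smul_eq_mul, Finset.mul_sum]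
    refine Finset.sum_congr rfl fun A _ => Finset.sum_congr rfl fun i _ =>
      Finset.sum_congr rfl fun j _ => ?_
    ring
  have hM : ∑ i, ∑ A, (aw i * (c • x) (i, A)) ^ 2 = c ^ 2 * ∑ i, ∑ A, (aw i * x (i, A)) ^ 2 := by
    simp only [PiLp.smul_apply, smul_eq_mul, Finset.mul_sum]
    refine Finset.sum_congr rfl fun A _ => Finset.sum_congr rfl fun i _ => ?_
    ring
  unfold Setup.Vm
  rw [hV, hD, hM]
  ring

lemma ZThmC_wells (S : Setup dc F) {n : ℕ} {ξ : Fin n → (Cfg dc)}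
    (hcov : ∀ x, S.Vm 1 x = 0 → ∃ j, x ∈ S.Orb (ξ j)) {m : ℝ} (hm : 0 < m) {x : (Cfg dc)}
    (hx : S.Vm m x = 0) : ∃ j, x ∈ S.Orb (m • ξ j) := by
  have h1 : S.Vm 1 (m⁻¹ • x) = 0 := by
    have h := ZThmC_Vm_scale S m m⁻¹ x
    rw [inv_mul_cancel₀ hm.ne', hx, mul_zero] at h
    exact h
  obtain ⟨j, O, hO, hj⟩ := hcov _ h1
  refine ⟨j, O, hO, ?_⟩
  rw [ZThmC_ro_smul, ← hj, smul_smul, mul_inv_cancel₀ hm.ne', one_smul]

lemma ZThmC_Vm_zero (S : Setup dc F) (m : ℝ) : S.Vm m 0 = 0 := by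
  simp [Setup.Vm, Setup.V, Setup.FF, Setup.det3]

lemma ZThmC_cont_Vm (S : Setup dc F) (m : ℝ) : Continuous (S.Vm m) := by
  unfold Setup.Vm
  have h1 : Continuous S.V := (contDiff_V S).continuous
  have h2 : Continuous S.det3 := by
    unfold Setup.det3
    fun_prop
  fun_prop

lemma ZThmC_near (S : Setup dc F) {n : ℕ} {ξ : Fin n → (Cfg dc)}
    (hcov : ∀ x, S.Vm 1 x = 0 → ∃ j, x ∈ S.Orb (ξ j)) {m : ℝ} (hm : 0 < m) (x : (Cfg dc)) :
    ∃ j, Metric.infDist x (S.Orb (m • ξ j)) ≤ S.dm m x := by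
  have hcl : IsClosed (S.wells m) := isClosed_singleton.preimage (ZThmC_cont_Vm S m)
  have hne : (S.wells m).Nonempty := ⟨0, ZThmC_Vm_zero S m⟩
  obtain ⟨y, hy, hxy⟩ := hcl.exists_infDist_eq_dist hne x
  obtain ⟨j, hj⟩ := ZThmC_wells S hcov hm hy
  refine ⟨j, ?_⟩
  unfold Setup.dm
  rw [hxy]
  exact Metric.infDist_le_dist_of_mem hj

/-! ### splitting of the mass -/

lemma ZThmC_split (S : Setup dc F) {n : ℕ} {ξ : Fin n → (Cfg dc)}
    (hcov : ∀ x, S.Vm 1 x = 0 → ∃ j, x ∈ S.Orb (ξ j)) {m K : ℝ} (hm : 0 < m) (hK : 0 < K)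
    {φ : (Cfg dc) → F} (hφ : Setup.Tst φ) :
    nsq φ ≤ m / K ^ 2 * (∫ x, S.dm m x ^ 2 * ‖φ x‖ ^ 2) +
      ∑ j, ∫ x, (if Metric.infDist x (S.Orb (m • ξ j)) ≤ K / Real.sqrt m then ‖φ x‖ ^ 2
        else 0) := by
  have hs : 0 < Real.sqrt m := Real.sqrt_pos.mpr hm
  have hR : 0 < K / Real.sqrt m := div_pos hK hs
  have i0 : Integrable (fun x => ‖φ x‖ ^ 2) := hφ.norm_sq_int
  have i1 : Integrable (fun x => m / K ^ 2 * (S.dm m x ^ 2 * ‖φ x‖ ^ 2)) :=
    (Setup.Tst.mul_norm_sq_int ((ZThmC_cont_dm S m).pow 2) hφ).const_mul _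
  have hcl : ∀ j, MeasurableSet {x : (Cfg dc) |
      Metric.infDist x (S.Orb (m • ξ j)) ≤ K / Real.sqrt m} := fun j =>
    (isClosed_le (Metric.continuous_infDist_pt _) continuous_const).measurableSet
  have e3 : ∀ j, (fun x => if Metric.infDist x (S.Orb (m • ξ j)) ≤ K / Real.sqrt m
      then ‖φ x‖ ^ 2 else 0) =
      {x : (Cfg dc) | Metric.infDist x (S.Orb (m • ξ j)) ≤ K / Real.sqrt m}.indicator
      (fun x => ‖φ x‖ ^ 2) := by
    intro j
    funext x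
    rw [Set.indicator_apply]
    rfl
  have i3 : ∀ j, Integrable (fun x => if Metric.infDist x (S.Orb (m • ξ j)) ≤ K / Real.sqrt m
      then ‖φ x‖ ^ 2 else 0) := by
    intro j
    rw [e3 j]
    exact i0.indicator (hcl j)
  have i4 : Integrable (fun x => ∑ j, (if Metric.infDist x (S.Orb (m • ξ j)) ≤ K / Real.sqrt m
      then ‖φ x‖ ^ 2 else 0)) := integrable_finsetSum _ fun j _ => i3 j
  have hs2 := integral_add i1 i4
  rw [integral_finsetSum _ fun j _ => i3 j] at hs2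
  rw [← integral_const_mul]
  refine le_trans ?_ (le_of_eq hs2)
  refine integral_mono i0 (i1.add i4) fun x => ?_
  have n0 : 0 ≤ ‖φ x‖ ^ 2 := by positivity
  have n1 : 0 ≤ m / K ^ 2 * (S.dm m x ^ 2 * ‖φ x‖ ^ 2) := by positivity
  have n3 : ∀ j, 0 ≤ (if Metric.infDist x (S.Orb (m • ξ j)) ≤ K / Real.sqrt m
      then ‖φ x‖ ^ 2 else 0) := by
    intro j
    split_ifs
    · exact n0
    · exact le_rfl
  change ‖φ x‖ ^ 2 ≤ m / K ^ 2 * (S.dm m x ^ 2 * ‖φ x‖ ^ 2) +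
    ∑ j, (if Metric.infDist x (S.Orb (m • ξ j)) ≤ K / Real.sqrt m then ‖φ x‖ ^ 2 else 0)
  by_cases h3 : S.dm m x ≤ K / Real.sqrt m
  · obtain ⟨j, hj⟩ := ZThmC_near S hcov hm x
    have h4 := Finset.single_le_sum (f := fun j =>
      (if Metric.infDist x (S.Orb (m • ξ j)) ≤ K / Real.sqrt m then ‖φ x‖ ^ 2 else 0))
      (fun i _ => n3 i) (Finset.mem_univ j)
    rw [if_pos (hj.trans h3)] at h4
    linarith
  · have hd : K / Real.sqrt m ≤ S.dm m x := (not_le.mp h3).le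
    have hd2 : K ^ 2 / m ≤ S.dm m x ^ 2 := by
      have := pow_le_pow_left₀ hR.le hd 2
      rwa [div_pow, Real.sq_sqrt hm.le] at this
    have hd3 : 1 ≤ m / K ^ 2 * S.dm m x ^ 2 := by
      calc (1 : ℝ) = m / K ^ 2 * (K ^ 2 / m) := by field_simp
        _ ≤ m / K ^ 2 * S.dm m x ^ 2 := mul_le_mul_of_nonneg_left hd2 (by positivity)
    have hd4 : ‖φ x‖ ^ 2 ≤ m / K ^ 2 * (S.dm m x ^ 2 * ‖φ x‖ ^ 2) := by
      rw [← mul_assoc]
      exact le_mul_of_one_le_left n0 hd3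
    have h5 := Finset.sum_nonneg fun j (_ : j ∈ Finset.univ) => n3 j
    linarith

/-! ### Theorem C -/

theorem thmC (S : Setup dc F) (n : ℕ) (hAP : APStmt S) (hP : PackStmt S) (hL : LimStmt S)
    (hcr : CritStmt S) (h1 : L1Stmt S) : ThmCStmt S n := by
  intro hI hne hOC
  by_contra hcon
  push Not at hcon
  obtain ⟨ξ, hξ0, hcov⟩ := hOC
  have h1' := fun j => h1 hI hne (ξ j) (hξ0 j)
  choose g hgc hgp Ω hΩ hLv using h1'
  obtain ⟨C, hC, hAPC⟩ := hAP
  -- the sequences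
  have hm' : ∀ k : ℕ, ∃ m : ℝ, (k : ℝ) + 1 ≤ m ∧ ∀ ε : ℝ, 0 < ε → S.Low (n + 1) m ε := by
    intro k
    exact hcon ((k : ℝ) + 1) (by positivity)
  choose m hmk hlow using hm'
  have hm1 : ∀ k, 1 ≤ m k := fun k => by
    have := hmk k
    have h2 : (0 : ℝ) ≤ k := Nat.cast_nonneg k
    linarith
  have hm0 : ∀ k, 0 < m k := fun k => lt_of_lt_of_le one_pos (hm1 k)
  have hs0 : ∀ k, 0 < Real.sqrt (m k) := fun k => Real.sqrt_pos.mpr (hm0 k)
  have hmt : Tendsto m atTop atTop := by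
    refine tendsto_atTop_mono (fun k => ?_) tendsto_natCast_atTop_atTop
    have := hmk k
    linarith
  set K : ℝ := 8 * C + 1 with hKdef
  have hK : 0 < K := by positivity
  have hK2 : 2 * C / K ^ 2 ≤ 1 / 4 := by
    rw [div_le_div_iff₀ (by positivity) (by norm_num)]
    rw [hKdef]
    nlinarith
  have hR : ∀ k, 0 < K / Real.sqrt (m k) := fun k => div_pos hK (hs0 k)
  have hn' : ∀ k j, ∃ c : ℝ, 0 < c ∧ ∀ u : (Cfg dc) → F, Setup.Tst u →
      (∀ O ∈ S.grp, ∀ x, ‖u (ro O x)‖ = ‖u x‖) →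
      (∫ x, (if Metric.infDist x (S.Orb (m k • ξ j)) ≤ K / Real.sqrt (m k) then ‖u x‖ ^ 2 else 0) ≤
        c * ∫ x in Metric.ball (m k • ξ j) (2 * (K / Real.sqrt (m k))), ‖u x‖ ^ 2) ∧
      ∀ s : ℝ, K / Real.sqrt (m k) ≤ s → c * (∫ x in Metric.ball (m k • ξ j) s, ‖u x‖ ^ 2) ≤
        (3 * s / (K / Real.sqrt (m k))) ^ (9 * dc) * nsq u :=
    fun k j => hP (m k • ξ j) (K / Real.sqrt (m k)) (hR k)
  choose c hc hpack using hn'
  have hcs : ∀ k, 0 ≤ ∑ j, c k j := fun k => Finset.sum_nonneg fun j _ => (hc k j).le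
  have hε : ∀ k : ℕ, 0 < (((k : ℝ) + 1) * (1 + ∑ j, c k j))⁻¹ := fun k => by
    have := hcs k
    positivity
  have hφ' : ∀ k : ℕ, ∃ φ : (Cfg dc) → F, Setup.Tst φ ∧ (∀ C x, S.G C φ x = 0) ∧ nsq φ = 1 ∧
      ∑ β, nsq (S.Qm (m k) β φ) < (((k : ℝ) + 1) * (1 + ∑ j, c k j))⁻¹ ∧
      ∀ i, ∫ w in Metric.ball (0 : (Cfg dc)) 1, inner ℂ (Ω i) (scl (m k) (ξ i) φ w) = 0 :=
    fun k => ZThmC_pick S (hε k) (hlow k _ (hε k)) ξ Ω
  choose φ hφt hφG hφ1 hφE hφx using hφ'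
  have hQint : ∀ k β, Integrable (fun x => ‖S.Qm (m k) β (φ k) x‖ ^ 2) := fun k β =>
    (ZThmC_tst_Qm S (m k) β (hφt k)).norm_sq_int
  have hE0 : ∀ k, 0 ≤ ∑ β, nsq (S.Qm (m k) β (φ k)) := fun k =>
    Finset.sum_nonneg fun β _ => nsq_nonneg _
  have hεt : Tendsto (fun k : ℕ => ((k : ℝ) + 1)⁻¹) atTop (𝓝 0) :=
    (tendsto_natCast_atTop_atTop.atTop_add (tendsto_const_nhds (x := (1 : ℝ)))).inv_tendsto_atTop
  have hεle : ∀ k : ℕ, (((k : ℝ) + 1) * (1 + ∑ j, c k j))⁻¹ ≤ ((k : ℝ) + 1)⁻¹ := by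
    intro k
    have h2 := hcs k
    refine inv_anti₀ (by positivity) ?_
    nlinarith [Nat.cast_nonneg (α := ℝ) k]
  have hrot : ∀ k, ∀ O ∈ S.grp, ∀ x, ‖φ k (ro O x)‖ = ‖φ k x‖ := fun k O hO x =>
    hO.2.2 (φ k) (hφt k) (hφG k) x
  -- some tube carries a definite part of the mass
  set δ : ℝ := 1 / (2 * ((n : ℝ) + 1)) with hδdef
  have hδ : 0 < δ := by positivity
  have hJ' : ∀ k, ∃ j, δ ≤ c k j * ∫ x in Metric.ball (m k • ξ j) (2 * K / Real.sqrt (m k)),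
      ‖φ k x‖ ^ 2 := by
    intro k
    by_contra hno
    push Not at hno
    have e1 := ZThmC_split S hcov (hm0 k) hK (hφt k)
    rw [hφ1] at e1
    have e2 : ∑ j, (∫ x, (if Metric.infDist x (S.Orb (m k • ξ j)) ≤ K / Real.sqrt (m k)
        then ‖φ k x‖ ^ 2 else 0)) ≤ ∑ _j : Fin n, δ := by
      refine Finset.sum_le_sum fun j _ => ?_
      have h2 := (hpack k j (φ k) (hφt _) (hrot _)).1
      rw [← mul_div_assoc] at h2
      exact h2.trans (hno j).le
    rw [Finset.sum_const, Finset.card_univ, Fintype.card_fin, nsmul_eq_mul] at e2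
    have e3 : (n : ℝ) * δ ≤ 1 / 2 := by
      rw [hδdef, mul_one_div, div_le_div_iff₀ (by positivity) (by norm_num)]
      linarith
    have e4 := hAPC (m k) (hm1 _) (φ k) (hφt _)
    rw [hφ1, mul_one] at e4
    have e5 : ∑ β, nsq (S.Qm (m k) β (φ k)) ≤ m k := by
      have h2 := (hφE k).le.trans (hεle k)
      have h3 : ((k : ℝ) + 1)⁻¹ ≤ 1 := by
        refine inv_le_one_of_one_le₀ ?_
        have : (0 : ℝ) ≤ (k : ℕ) := Nat.cast_nonneg _
        linarith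
      exact h2.trans (h3.trans (hm1 _))
    have hmp := hm0 k
    have e6 : m k * (∫ x, S.dm (m k) x ^ 2 * ‖φ k x‖ ^ 2) ≤ 2 * C := by
      have h2 : m k * (m k * (∫ x, S.dm (m k) x ^ 2 * ‖φ k x‖ ^ 2)) ≤ m k * (2 * C) := by
        calc m k * (m k * (∫ x, S.dm (m k) x ^ 2 * ‖φ k x‖ ^ 2))
            = m k ^ 2 * (∫ x, S.dm (m k) x ^ 2 * ‖φ k x‖ ^ 2) := by ring
          _ ≤ C * (m k + ∑ β, nsq (S.Qm (m k) β (φ k))) := e4
          _ ≤ C * (m k + m k) := by gcongr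
          _ = m k * (2 * C) := by ring
      exact le_of_mul_le_mul_left h2 hmp
    have e7 : m k / K ^ 2 * (∫ x, S.dm (m k) x ^ 2 * ‖φ k x‖ ^ 2) ≤ 1 / 4 := by
      calc m k / K ^ 2 * (∫ x, S.dm (m k) x ^ 2 * ‖φ k x‖ ^ 2)
          = (m k * (∫ x, S.dm (m k) x ^ 2 * ‖φ k x‖ ^ 2)) / K ^ 2 := by ring
        _ ≤ 2 * C / K ^ 2 := by gcongr
        _ ≤ 1 / 4 := hK2
    linarith
  choose J hJ using hJ'
  obtain ⟨j₀, hj₀⟩ := Finite.exists_infinite_fiber J
  have hinf : Set.Infinite {k | J k = j₀} := Set.infinite_coe_iff.mp hj₀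
  obtain ⟨ψ, hψ, hψJ⟩ := Filter.extraction_of_frequently_atTop
    (Nat.frequently_atTop_iff_infinite.mpr hinf)
  have hψk : ∀ k, k ≤ ψ k := hψ.id_le
  set μ : ℕ → ℝ := fun k => ∫ x in Metric.ball (m (ψ k) • ξ j₀) (2 * K / Real.sqrt (m (ψ k))),
    ‖φ (ψ k) x‖ ^ 2 with hμdef
  have hμn : ∀ k, δ ≤ c (ψ k) j₀ * μ k := by
    intro k
    have h2 := hJ (ψ k)
    rw [hψJ k] at h2
    exact h2
  have hμ0 : ∀ k, 0 < μ k := fun k => by
    have h2 := hμn k
    have h3 := hc (ψ k) j₀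
    by_contra h4
    have h5 : c (ψ k) j₀ * μ k ≤ 0 := mul_nonpos_of_nonneg_of_nonpos h3.le (not_lt.mp h4)
    linarith
  have hinv : ∀ k, (μ k)⁻¹ ≤ δ⁻¹ * c (ψ k) j₀ := by
    intro k
    rw [inv_le_iff_one_le_mul₀ (hμ0 k), mul_assoc]
    calc (1 : ℝ) = δ⁻¹ * δ := (inv_mul_cancel₀ hδ.ne').symm
      _ ≤ δ⁻¹ * (c (ψ k) j₀ * μ k) := mul_le_mul_of_nonneg_left (hμn k) (inv_pos.mpr hδ).le
  have hδi : 0 < δ⁻¹ := inv_pos.mpr hδ
  obtain ⟨ψ₂, hψ₂, hlim2⟩ := ZThmC_lim S hL (ξ j₀) (hcr _ (hξ0 j₀)) (fun k => m (ψ k))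
    (fun k => hm1 _)
    (hmt.comp hψ.tendsto_atTop) (fun k => φ (ψ k)) (fun k => hφt _) (fun k => hφG _)
    (fun k => (μ k)⁻¹) (fun k => inv_pos.mpr (hμ0 k))
    (fun s => δ⁻¹ * (3 * max s K / K) ^ (9 * dc))
    (fun k s _ => by
      have h2 : ∫ x in Metric.ball (m (ψ k) • ξ j₀) (s / Real.sqrt (m (ψ k))),
          ‖φ (ψ k) x‖ ^ 2 ≤
          ∫ x in Metric.ball (m (ψ k) • ξ j₀) (max s K / Real.sqrt (m (ψ k))),
          ‖φ (ψ k) x‖ ^ 2 := by
        refine setIntegral_mono_set (hφt _).norm_sq_int.integrableOn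
          (Filter.Eventually.of_forall fun x => by positivity) ?_
        refine (Metric.ball_subset_ball ?_).eventuallyLE
        exact div_le_div_of_nonneg_right (le_max_left _ _) (hs0 _).le
      have h3 := (hpack (ψ k) j₀ (φ (ψ k)) (hφt _) (hrot _)).2
        (max s K / Real.sqrt (m (ψ k)))
        (div_le_div_of_nonneg_right (le_max_right _ _) (hs0 _).le)
      rw [hφ1, mul_one] at h3
      have h4 : 3 * (max s K / Real.sqrt (m (ψ k))) / (K / Real.sqrt (m (ψ k))) =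
          3 * max s K / K := by
        have := (hs0 (ψ k)).ne'
        field_simp
      rw [h4] at h3
      have hI0 : 0 ≤ ∫ x in Metric.ball (m (ψ k) • ξ j₀) (max s K / Real.sqrt (m (ψ k))),
          ‖φ (ψ k) x‖ ^ 2 := integral_nonneg fun x => by positivity
      calc (μ k)⁻¹ * ∫ x in Metric.ball (m (ψ k) • ξ j₀) (s / Real.sqrt (m (ψ k))),
            ‖φ (ψ k) x‖ ^ 2
          ≤ (μ k)⁻¹ * ∫ x in Metric.ball (m (ψ k) • ξ j₀) (max s K / Real.sqrt (m (ψ k))),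
            ‖φ (ψ k) x‖ ^ 2 := mul_le_mul_of_nonneg_left h2 (inv_pos.mpr (hμ0 k)).le
        _ ≤ (δ⁻¹ * c (ψ k) j₀) * ∫ x in Metric.ball (m (ψ k) • ξ j₀)
            (max s K / Real.sqrt (m (ψ k))), ‖φ (ψ k) x‖ ^ 2 :=
          mul_le_mul_of_nonneg_right (hinv k) hI0
        _ = δ⁻¹ * (c (ψ k) j₀ * ∫ x in Metric.ball (m (ψ k) • ξ j₀)
            (max s K / Real.sqrt (m (ψ k))), ‖φ (ψ k) x‖ ^ 2) := by ring
        _ ≤ δ⁻¹ * (3 * max s K / K) ^ (9 * dc) := mul_le_mul_of_nonneg_left h3 hδi.le)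
    (by
      refine squeeze_zero (fun k => mul_nonneg (inv_pos.mpr (hμ0 k)).le (hE0 _)) (fun k => ?_)
        (g := fun k : ℕ => δ⁻¹ * ((k : ℝ) + 1)⁻¹) (by simpa using hεt.const_mul δ⁻¹)
      have h2 := hc (ψ k) j₀
      have h2s := hcs (ψ k)
      have h3 : (0 : ℝ) ≤ (ψ k : ℕ) := Nat.cast_nonneg _
      have h4 : (k : ℝ) ≤ (ψ k : ℕ) := Nat.cast_le.mpr (hψk k)
      have h6 : (0 : ℝ) ≤ k := Nat.cast_nonneg k
      have h7 : c (ψ k) j₀ ≤ 1 + ∑ j, c (ψ k) j := by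
        have h8 := Finset.single_le_sum (f := fun j => c (ψ k) j) (fun j _ => (hc (ψ k) j).le)
          (Finset.mem_univ j₀)
        linarith
      calc (μ k)⁻¹ * ∑ β, nsq (S.Qm (m (ψ k)) β (φ (ψ k)))
          ≤ (δ⁻¹ * c (ψ k) j₀) * ((((ψ k : ℕ) : ℝ) + 1) * (1 + ∑ j, c (ψ k) j))⁻¹ :=
            mul_le_mul (hinv k) (hφE _).le (hE0 _) (by positivity)
        _ = δ⁻¹ * (c (ψ k) j₀ / (1 + ∑ j, c (ψ k) j)) * (((ψ k : ℕ) : ℝ) + 1)⁻¹ := by
            rw [mul_inv]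
            ring
        _ ≤ δ⁻¹ * 1 * (((ψ k : ℕ) : ℝ) + 1)⁻¹ := by
            have h5 : c (ψ k) j₀ / (1 + ∑ j, c (ψ k) j) ≤ 1 := by
              rw [div_le_one (by positivity)]
              exact h7
            gcongr
        _ ≤ δ⁻¹ * ((k : ℝ) + 1)⁻¹ := by
            rw [mul_one]
            have h5 : (((ψ k : ℕ) : ℝ) + 1)⁻¹ ≤ ((k : ℝ) + 1)⁻¹ :=
              inv_anti₀ (by positivity) (by linarith)
            exact mul_le_mul_of_nonneg_left h5 hδi.le)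
    (fun k => hQint _) (Ω j₀) (hΩ j₀) (fun k => hφx _ j₀)
    (g j₀) (hgc j₀) (hgp j₀)
    (fun u hum hui huP huQ huG => by
      refine hLv j₀ u hum hui ⟨δ⁻¹ * (3 * max 1 K / K) ^ (9 * dc), 9 * dc, fun s hs => ?_⟩ huQ huG
      refine (huP s (by linarith)).trans ?_
      rw [mul_assoc, ← mul_pow]
      have h2 : 3 * max s K / K ≤ 3 * max 1 K / K * s := by
        rw [div_mul_eq_mul_div]
        refine div_le_div_of_nonneg_right ?_ hK.le
        have h3 : max s K ≤ max 1 K * s := by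
          refine max_le ?_ ?_
          · have := le_max_left 1 K
            nlinarith
          · have := le_max_right 1 K
            nlinarith
        linarith
      have h4 : 0 ≤ 3 * max s K / K := by
        have := le_max_right s K
        positivity
      exact mul_le_mul_of_nonneg_left (pow_le_pow_left₀ h4 h2 (9 * dc)) hδi.le)
  have hone : ∀ k, (μ (ψ₂ k))⁻¹ * ∫ x in Metric.ball (m (ψ (ψ₂ k)) • ξ j₀)
      (2 * K / Real.sqrt (m (ψ (ψ₂ k)))), ‖φ (ψ (ψ₂ k)) x‖ ^ 2 = 1 := by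
    intro k
    exact inv_mul_cancel₀ (hμ0 (ψ₂ k)).ne'
  have hlast := hlim2 (2 * K) (by positivity)
  simp only [hone] at hlast
  exact one_ne_zero (tendsto_nhds_unique tendsto_const_nhds hlast)

end Vale.Agent.P353.Z.U
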