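import Vale.Agent.P353.Z.U.Near

/-! # P353, general `N`: the wells (C-Wel, C-Fin) -/

open MeasureTheory Filter Topology
open scoped ContDiff

namespace Vale.Agent.P353.Z.U

variable {d : ℕ} {F : Type*} [NormedAddCommGroup F] [InnerProductSpace ℂ F]

namespace WelAux

lemma Vm_scale (S : Setup d F) (m : ℝ) (y : Cfg d) : S.Vm m (m • y) = m ^ 4 * S.Vm 1 y := by
  have hF : ∀ A i j, S.FF A i j (m • y) = m ^ 2 * S.FF A i j y := by
    intro A i j
    unfold Setup.FF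
    have h : ∑ B, ∑ C, S.f A B C * (m • y) (i, B) * (m • y) (j, C) =
        m ^ 2 * ∑ B, ∑ C, S.f A B C * y (i, B) * y (j, C) := by
      simp only [Finset.mul_sum, PiLp.smul_apply, smul_eq_mul]
      refine Finset.sum_congr rfl fun B _ => Finset.sum_congr rfl fun C _ => ?_
      ring
    rw [h]
    ring
  have hV : S.V (m • y) = m ^ 4 * S.V y := by
    unfold Setup.V
    have h : ∑ A, ∑ i, ∑ j, (S.FF A i j (m • y)) ^ 2 =
        m ^ 4 * ∑ A, ∑ i, ∑ j, (S.FF A i j y) ^ 2 := by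
      simp only [Finset.mul_sum, hF]
      refine Finset.sum_congr rfl fun A _ => Finset.sum_congr rfl fun i _ =>
        Finset.sum_congr rfl fun j _ => ?_
      ring
    rw [h]
    ring
  have hD : S.det3 (m • y) = m ^ 3 * S.det3 y := by
    unfold Setup.det3
    simp only [Finset.mul_sum, PiLp.smul_apply, smul_eq_mul]
    refine Finset.sum_congr rfl fun A _ => Finset.sum_congr rfl fun B _ =>
      Finset.sum_congr rfl fun C _ => ?_
    ring
  have hA : ∑ i, ∑ A, (aw i * (m • y) (i, A)) ^ 2 = m ^ 2 * ∑ i, ∑ A, (aw i * y (i, A)) ^ 2 := by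
    simp only [Finset.mul_sum, PiLp.smul_apply, smul_eq_mul]
    refine Finset.sum_congr rfl fun i _ => Finset.sum_congr rfl fun A _ => ?_
    ring
  unfold Setup.Vm
  rw [hV, hD, hA]
  ring

lemma Vm_nonneg {S : Setup d F} (hSq : SqStmt S) (m : ℝ) (x : Cfg d) : 0 ≤ S.Vm m x := by
  rw [hSq m x]
  refine add_nonneg (add_nonneg (mul_nonneg (by norm_num) ?_) (mul_nonneg (by positivity) ?_))
    (mul_nonneg (by norm_num) ?_)
  · exact Finset.sum_nonneg fun k _ => Finset.sum_nonneg fun A _ => sq_nonneg _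
  · refine Finset.sum_nonneg fun i _ => Finset.sum_nonneg fun A _ => ?_
    split_ifs
    · exact le_rfl
    · exact sq_nonneg _
  · refine Finset.sum_nonneg fun i _ => Finset.sum_nonneg fun j _ => Finset.sum_nonneg fun A _ => ?_
    split_ifs
    · exact le_rfl
    · exact sq_nonneg _

lemma Vm_zero (S : Setup d F) : S.Vm 1 0 = 0 := by
  have h := Vm_scale S 0 (0 : Cfg d)
  have h1 : S.Vm 1 (0 : Cfg d) = S.Vm 0 0 + (6 * S.κ * S.det3 (0 : Cfg d)) +
      1 / 2 * ∑ i : Fin 9, ∑ A : Fin d, (aw i * (0 : Cfg d) (i, A)) ^ 2 := by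
    unfold Setup.Vm
    ring
  have h2 : S.det3 (0 : Cfg d) = 0 := by
    unfold Setup.det3
    simp
  have h3 : ∑ i : Fin 9, ∑ A : Fin d, (aw i * (0 : Cfg d) (i, A)) ^ 2 = 0 := by
    simp
  rw [smul_zero, zero_pow four_ne_zero, zero_mul] at h
  rw [h1, h, h2, h3]
  ring

lemma ro_one (x : Cfg d) : ro (1 : Matrix (Fin d) (Fin d) ℝ) x = x := by
  ext p
  simp [ro, Matrix.one_apply]

/-- the case `m = 1` -/
lemma wel_one {S : Setup d F} (hCoe : CoeStmt S) (hSq : SqStmt S) (hNear : NearStmt S)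
    (hFoot : FootStmt S) : ∃ c : ℝ, 0 < c ∧ ∀ x : Cfg d, c * S.dm 1 x ^ 2 ≤ S.Vm 1 x := by
  have hCoe' := hCoe
  obtain ⟨c₁, δ, hc₁, hδ, h1⟩ := hNear
  obtain ⟨c₂, C₂, hc₂, hC₂, h2⟩ := hCoe
  have hd0 : ∀ x : Cfg d, 0 ≤ S.dm 1 x := fun x => Metric.infDist_nonneg
  have hdx : ∀ x : Cfg d, S.dm 1 x ≤ ‖x‖ := by
    intro x
    have h3 : (0 : Cfg d) ∈ S.wells 1 := Vm_zero S
    have h4 := Metric.infDist_le_dist_of_mem (x := x) h3
    rwa [dist_zero_right] at h4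
  set R : ℝ := Real.sqrt (2 * C₂ / c₂) with hR
  have hR0 : 0 ≤ R := Real.sqrt_nonneg _
  -- the compact middle part
  set T : Set (Cfg d) := {x | ‖x‖ ≤ R ∧ δ ≤ S.dm 1 x} with hT
  have hdc : Continuous (S.dm 1) := Metric.continuous_infDist_pt _
  have hTc : IsCompact T := by
    refine IsCompact.of_isClosed_subset (isCompact_closedBall (0 : Cfg d) R) ?_ ?_
    · exact (isClosed_le continuous_norm continuous_const).inter
        (isClosed_le continuous_const hdc)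
    · rintro x ⟨h, _⟩
      simpa using h
  obtain ⟨c₃, hc₃, h3⟩ : ∃ c : ℝ, 0 < c ∧ ∀ x ∈ T, c ≤ S.Vm 1 x := by
    rcases T.eq_empty_or_nonempty with he | hne
    · exact ⟨1, one_pos, by rw [he]; rintro x ⟨⟩⟩
    · obtain ⟨x, hx, hmin⟩ := hTc.exists_isMinOn hne (NearAux.cont_Vm S 1).continuousOn
      refine ⟨S.Vm 1 x, ?_, fun y hy => hmin hy⟩
      refine lt_of_le_of_ne (Vm_nonneg hSq 1 x) fun h0 => ?_
      have h4 : S.dm 1 x = 0 := Metric.infDist_zero_of_mem (show x ∈ S.wells 1 from h0.symm)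
      have h5 := hx.2
      rw [h4] at h5
      linarith
  refine ⟨min c₁ (min (c₂ / 2) (c₃ / (R ^ 2 + 1))), by positivity, fun x => ?_⟩
  set c := min c₁ (min (c₂ / 2) (c₃ / (R ^ 2 + 1))) with hc
  have hcc₁ : c ≤ c₁ := min_le_left _ _
  have hcc₂ : c ≤ c₂ / 2 := (min_le_right _ _).trans (min_le_left _ _)
  have hcc₃ : c ≤ c₃ / (R ^ 2 + 1) := (min_le_right _ _).trans (min_le_right _ _)
  rcases le_or_gt (S.dm 1 x) δ with hx | hx
  · obtain ⟨ξ, hξ, hn, hp⟩ := hFoot.2 x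
    have h4 : ‖x - ξ‖ = S.dm 1 x := hn
    have h5 := h1 ξ (x - ξ) hξ (h4.le.trans hx) hp
    rw [add_sub_cancel, h4] at h5
    exact (mul_le_mul_of_nonneg_right hcc₁ (sq_nonneg _)).trans h5
  · rcases le_or_gt ‖x‖ R with hx' | hx'
    · have h4 := h3 x ⟨hx', hx.le⟩
      have h5 : S.dm 1 x ^ 2 ≤ R ^ 2 + 1 := by
        have := pow_le_pow_left₀ (hd0 x) ((hdx x).trans hx') 2
        linarith
      calc c * S.dm 1 x ^ 2 ≤ c₃ / (R ^ 2 + 1) * (R ^ 2 + 1) :=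
            mul_le_mul hcc₃ h5 (sq_nonneg _) (by positivity)
        _ = c₃ := div_mul_cancel₀ _ (by positivity)
        _ ≤ S.Vm 1 x := h4
    · have h4 : 2 * C₂ / c₂ ≤ ‖x‖ ^ 2 := by
        have := pow_le_pow_left₀ hR0 hx'.le 2
        rwa [hR, Real.sq_sqrt (by positivity)] at this
      have h5 : 2 * C₂ ≤ c₂ * ‖x‖ ^ 2 := by
        rw [div_le_iff₀ hc₂] at h4
        linarith
      have h6 := h2 x
      have h7 : S.dm 1 x ^ 2 ≤ ‖x‖ ^ 2 := pow_le_pow_left₀ (hd0 x) (hdx x) 2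
      have h8 : c * S.dm 1 x ^ 2 ≤ c₂ / 2 * ‖x‖ ^ 2 :=
        mul_le_mul hcc₂ h7 (sq_nonneg _) (by positivity)
      linarith

end WelAux

open WelAux

/-- C-Wel from C-Near -/
theorem wel_of_near (S : Setup d F) (hCoe : CoeStmt S) (hSq : SqStmt S) (hNear : NearStmt S)
    (hFoot : FootStmt S) : WelStmt S := by
  obtain ⟨c, hc, h1⟩ := wel_one hCoe hSq hNear hFoot
  refine ⟨c, hc, fun m hm x => ?_⟩
  set y : Cfg d := m⁻¹ • x with hy
  have hxy : x = m • y := by rw [hy, smul_smul, mul_inv_cancel₀ hm.ne', one_smul]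
  obtain ⟨ξ, hξ, hn, _⟩ := hFoot.2 y
  have h2 : m • ξ ∈ S.wells m := by
    show S.Vm m (m • ξ) = 0
    rw [Vm_scale, show S.Vm 1 ξ = 0 from hξ, mul_zero]
  have h3 : S.dm m x ≤ m * S.dm 1 y := by
    have h4 := Metric.infDist_le_dist_of_mem (x := x) h2
    rw [dist_eq_norm, hxy, ← smul_sub, norm_smul, Real.norm_of_nonneg hm.le, hn] at h4
    rw [hxy]
    exact h4
  have h4 : S.dm m x ^ 2 ≤ m ^ 2 * S.dm 1 y ^ 2 := by
    have := pow_le_pow_left₀ (Metric.infDist_nonneg : 0 ≤ S.dm m x) h3 2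
    rwa [mul_pow] at this
  have h5 : S.Vm m x = m ^ 4 * S.Vm 1 y := by
    rw [hxy, Vm_scale]
  rw [h5]
  calc c * m ^ 2 * S.dm m x ^ 2 ≤ c * m ^ 2 * (m ^ 2 * S.dm 1 y ^ 2) :=
        mul_le_mul_of_nonneg_left h4 (by positivity)
    _ = m ^ 4 * (c * S.dm 1 y ^ 2) := by ring
    _ ≤ m ^ 4 * S.Vm 1 y := mul_le_mul_of_nonneg_left (h1 y) (by positivity)

/-- C-Fin from C-Near -/
theorem fin_of_near (S : Setup d F) (hCoe : CoeStmt S) (hNear : NearStmt S)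
    (hFoot : FootStmt S) (hGrp : GrpCptStmt S) : FinStmt S := by
  obtain ⟨c, δ, hc, hδ, h1⟩ := hNear
  have hK := NearAux.compact_wells hCoe
  have hself : ∀ ξ : Cfg d, ξ ∈ S.Orb ξ := fun ξ => ⟨1, hGrp.2.1, (ro_one ξ).symm⟩
  obtain ⟨t, ht⟩ := hK.elim_finite_subcover_image (b := S.wells 1)
    (c := fun ξ => {x : Cfg d | Metric.infDist x (S.Orb ξ) < δ})
    (fun ξ _ => isOpen_lt (Metric.continuous_infDist_pt _) continuous_const)
    (fun ξ hξ => Set.mem_biUnion hξ (by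
      show Metric.infDist ξ (S.Orb ξ) < δ
      rw [Metric.infDist_zero_of_mem (hself ξ)]
      exact hδ))
  obtain ⟨ht1, ht2, ht3⟩ := ht
  have := ht2.fintype
  set e := (Fintype.equivFin t) with he
  refine ⟨Fintype.card t, fun j => (e.symm j : Cfg d), fun j => ht1 (e.symm j).2, ?_⟩
  intro x hx
  obtain ⟨ξ, hξt, hξ⟩ := Set.mem_iUnion₂.1 (ht3 (show x ∈ S.wells 1 from hx))
  refine ⟨e ⟨ξ, hξt⟩, ?_⟩
  show x ∈ S.Orb ((e.symm (e ⟨ξ, hξt⟩) : t) : Cfg d)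
  rw [Equiv.symm_apply_apply]
  obtain ⟨ξ', hξ', hn, hp⟩ := hFoot.1 ξ x
  have hV : S.Vm 1 ξ' = 0 := by
    obtain ⟨O, hO, rfl⟩ := hξ'
    rw [hGrp.2.2.2.2.1 O hO]
    exact ht1 hξt
  have h2 := h1 ξ' (x - ξ') hV (hn.le.trans (le_of_lt hξ)) hp
  rw [add_sub_cancel, hx] at h2
  have h3 : ‖x - ξ'‖ ^ 2 = 0 := by
    refine le_antisymm ?_ (sq_nonneg _)
    by_contra h
    rw [not_le] at h
    have := mul_pos hc h
    linarith
  have h4 : x = ξ' := sub_eq_zero.1 (norm_eq_zero.1 (pow_eq_zero_iff two_ne_zero |>.1 h3))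
  rw [h4]
  exact hξ'

/-- **C-Wel** -/
theorem wel_stmt (S : Setup d F) (hCoe : CoeStmt S) (hSq : SqStmt S) (hHes : HesStmt S)
    (hTay : TayStmt S) (hFoot : FootStmt S) : WelStmt S :=
  wel_of_near S hCoe hSq (near_stmt S hCoe hHes hTay) hFoot

/-- **C-Fin** -/
theorem fin_stmt (S : Setup d F) (hCoe : CoeStmt S) (hHes : HesStmt S) (hTay : TayStmt S)
    (hFoot : FootStmt S) (hGrp : GrpCptStmt S) : FinStmt S :=
  fin_of_near S hCoe (near_stmt S hCoe hHes hTay) hFoot hGrp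

end Vale.Agent.P353.Z.U
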