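import Vale.Agent.P353.Z.U.A1
import Vale.Agent.P353.Z.U.A1a
import Vale.Agent.P353.Z.U.A1b
import Vale.Agent.P353.Z.U.A2
import Vale.Agent.P353.Z.U.A4
import Vale.Agent.P353.Z.U.A5
import Vale.Agent.P353.Z.U.App
import Vale.Agent.P353.Z.U.CGap
import Vale.Agent.P353.Z.U.Coe
import Vale.Agent.P353.Z.U.Coer
import Vale.Agent.P353.Z.U.En
import Vale.Agent.P353.Z.U.FBmn
import Vale.Agent.P353.Z.U.FFten
import Vale.Agent.P353.Z.U.Foot
import Vale.Agent.P353.Z.U.Grp
import Vale.Agent.P353.Z.U.GrpExp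
import Vale.Agent.P353.Z.U.Hes
import Vale.Agent.P353.Z.U.Inv
import Vale.Agent.P353.Z.U.LOne
import Vale.Agent.P353.Z.U.Lim
import Vale.Agent.P353.Z.U.MAd
import Vale.Agent.P353.Z.U.MBridge
import Vale.Agent.P353.Z.U.MCount
import Vale.Agent.P353.Z.U.MGauss
import Vale.Agent.P353.Z.U.MSet
import Vale.Agent.P353.Z.U.Near
import Vale.Agent.P353.Z.U.Npos
import Vale.Agent.P353.Z.U.Pack
import Vale.Agent.P353.Z.U.Qua
import Vale.Agent.P353.Z.U.Rellich
import Vale.Agent.P353.Z.U.Small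
import Vale.Agent.P353.Z.U.ThmB2
import Vale.Agent.P353.Z.U.ThmC
import Vale.Agent.P353.Z.U.Vac
import Vale.Agent.P353.Z.U.WS
import Vale.Agent.P353.Z.U.Wel
import Vale.Agent.P353.Z.U.ZJ

/-! # P353, general `N`: assembly -/

open MeasureTheory Filter Topology
open scoped ContDiff

namespace Vale.Agent.P353.Z.U.All

section A

variable {d : ℕ} {F : Type*} [NormedAddCommGroup F] [InnerProductSpace ℂ F] (S : Setup d F)

theorem A1 : A1Stmt S := a1 S (a1a S) (a1b S (fbmn S (f10 S)))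
theorem A2 : A2Stmt S := a2 (S := S)
theorem A3 : A3Stmt S := a3 (S := S)
theorem A7 : A7Stmt S := a7 S (A1 S)
theorem A6 : A6Stmt S := a6 S (A7 S)
theorem A4 : A4Stmt S := a4 S (A1 S) (A2 S) (A3 S) (A7 S)
theorem Coe : CoeStmt S := coe_thm S (sq_stmt S) (grpCpt S) (grpExp S)
theorem Foot : FootStmt S := foot S (grpExp S) (grpCpt S)
theorem Wel : WelStmt S := wel_stmt S (Coe S) (sq_stmt S) (hes_stmt S) (tay_stmt S) (Foot S)
theorem Ap : APStmt S := ap S (A6 S) (Wel S) (Coe S)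

end A

section B

variable {d : ℕ} {F : Type*} [NormedAddCommGroup F] [InnerProductSpace ℂ F]
  [FiniteDimensional ℂ F] (S : Setup d F)

theorem thmB_all (k : ℕ) : ThmBStmt S k := by
  have : CompleteSpace F := FiniteDimensional.complete ℂ F
  exact thmB2_of S (A2 S) (A3 S) (cgap S (A1 S) (A2 S) (A3 S) (A4 S) (A7 S)) (ws S (A7 S))
    (coer S (A6 S) (Coe S)) k

theorem thmC_all (n : ℕ) : ThmCStmt S n :=
  thmC S n (Ap S) (pack S) (lim S (a8 S) lr) (crit S)
    (l1 S (sq_stmt S) (hes_stmt S) (sqr S) (En.en S) (npos S (En.en S)) (qua S (vac S)) (inv S))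

theorem small_all (k : ℕ) : SmallStmt S k := by
  have : CompleteSpace F := FiniteDimensional.complete ℂ F
  exact small S k (zj S) (app S)

theorem bound_all : BoundStmt S := bound_of (thmB_all S) (thmC_all S) (small_all S)

end B

section M

variable {N d : ℕ} {F : Type*} [NormedAddCommGroup F] [InnerProductSpace ℂ F]

open BFSS

/-- for the `SU(N)` model: `dim ker H_N ≤ p(N)` -/
theorem bound_model (M : BFSS.Model N d F) :
    ∃ (n : ℕ) (Φ : Fin n → Conf d → F), n ≤ Fintype.card (Nat.Partition N) ∧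
      (∀ i, M.IsZeroEnergyState (Φ i)) ∧ ∀ Ψ, M.IsZeroEnergyState Ψ →
        ∃ c : Fin n → ℂ, ∀ᵐ x ∂leb d, Ψ x = ∑ i, c i • Φ i x := by
  classical
  have hF : FiniteDimensional ℂ F := finiteDimensional_of_model M
  obtain ⟨S, hS⟩ := setS M
  have hcnt : S.OrbCount (Fintype.card (Nat.Partition N)) :=
    count_of M (adS M fun S a t => exp_mem S a t) (fun S => sq_stmt S) S hS
  have hirr : S.Irr := by
    intro W hW
    refine M.θ_irreducible W fun α A v hv => ?_
    have := hW α A v hv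
    rwa [hS.hth] at this
  have hbr := bridge_of_gauss M (gaussLaw M) S hS
  have hmem : ∀ Ψ, M.IsZeroEnergyState Ψ → MemLp Ψ 2 (volume : Measure (Cfg d)) := fun Ψ h => h.1
  set P : ℕ → Prop := fun k => ∃ (Ψ : Fin k → Conf d → F) (h : ∀ i, M.IsZeroEnergyState (Ψ i)),
    LinearIndependent ℂ fun i => (hmem (Ψ i) (h i)).toLp (Ψ i) with hP
  have hbd : ∀ k, P k → k ≤ Fintype.card (Nat.Partition N) := by
    rintro k ⟨Ψ, h, hli⟩
    by_contra hk
    push Not at hk
    have hle : Fintype.card (Nat.Partition N) + 1 ≤ k := hk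
    refine bound_all S hirr M.nontrivial _ hcnt
      (fun j => (hmem (Ψ (Fin.castLE hle j)) (h (Fin.castLE hle j))).toLp (Ψ (Fin.castLE hle j)))
      (fun j => hbr _ _ (h _)) ?_
    exact hli.comp (Fin.castLE hle) (Fin.castLE_injective hle)
  have h0 : P 0 := ⟨Fin.elim0, fun i => i.elim0, linearIndependent_empty_type⟩
  obtain ⟨k, hk, hmax⟩ : ∃ k, P k ∧ ¬ P (k + 1) := by
    by_contra hcon
    push Not at hcon
    have hall : ∀ k, P k := fun k => by
      induction k with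
      | zero => exact h0
      | succ n ih => exact hcon n ih
    have := hbd _ (hall (Fintype.card (Nat.Partition N) + 1))
    omega
  obtain ⟨Φ, hΦ, hli⟩ := hk
  refine ⟨k, Φ, hbd k ⟨Φ, hΦ, hli⟩, hΦ, fun Ψ hΨ => ?_⟩
  have hspan : (hmem Ψ hΨ).toLp Ψ ∈
      Submodule.span ℂ (Set.range fun i => (hmem (Φ i) (hΦ i)).toLp (Φ i)) := by
    by_contra hns
    refine hmax ⟨Fin.cons Ψ Φ, fun i => ?_, ?_⟩
    · refine Fin.cases ?_ (fun j => ?_) i
      · exact hΨ
      · exact hΦ j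
    · have h1 : (fun i : Fin (k + 1) => (hmem ((Fin.cons Ψ Φ : Fin (k + 1) → Conf d → F) i)
          (by refine Fin.cases ?_ (fun j => ?_) i
              · exact hΨ
              · exact hΦ j)).toLp ((Fin.cons Ψ Φ : Fin (k + 1) → Conf d → F) i)) =
          Fin.cons ((hmem Ψ hΨ).toLp Ψ) fun i => (hmem (Φ i) (hΦ i)).toLp (Φ i) := by
        funext i
        refine Fin.cases ?_ (fun j => ?_) i
        · rfl
        · rfl
      rw [h1]
      exact linearIndependent_finCons.mpr ⟨hli, hns⟩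
  rw [Submodule.mem_span_range_iff_exists_fun] at hspan
  obtain ⟨c, hc⟩ := hspan
  refine ⟨c, ?_⟩
  have h7 : ∀ (t : Finset (Fin k)), ∀ᵐ x ∂(volume : Measure (Cfg d)),
      (∑ i ∈ t, c i • (hmem (Φ i) (hΦ i)).toLp (Φ i) : Lp F 2 (volume : Measure (Cfg d))) x =
        ∑ i ∈ t, c i • Φ i x := by
    intro t
    induction t using Finset.induction_on with
    | empty =>
      simp only [Finset.sum_empty]
      exact Lp.coeFn_zero F 2 (volume : Measure (Cfg d))
    | insert a t ha ih =>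
      rw [Finset.sum_insert ha]
      filter_upwards [ih, Lp.coeFn_add (c a • (hmem (Φ a) (hΦ a)).toLp (Φ a))
        (∑ i ∈ t, c i • (hmem (Φ i) (hΦ i)).toLp (Φ i)),
        Lp.coeFn_smul (c a) ((hmem (Φ a) (hΦ a)).toLp (Φ a)),
        (hmem (Φ a) (hΦ a)).coeFn_toLp] with x h1 h2 h3 h4
      rw [h2, Pi.add_apply, h1, h3, Pi.smul_apply, h4, Finset.sum_insert ha]
  have h8 := h7 Finset.univ
  rw [hc] at h8
  rw [leb]
  filter_upwards [h8, (hmem Ψ hΨ).coeFn_toLp] with x hx hx'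
  rw [← hx', hx]

end M

end Vale.Agent.P353.Z.U.All
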