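import Vale.Agent.P353.Z.U.StmtC

/-! # P353, C-L1: analytic tools (Fourier uniqueness, growth, Gaussians) -/

open MeasureTheory Filter Topology
open scoped ContDiff FourierTransform ENNReal

namespace Vale.Agent.P353.Z.U

variable {dc : ℕ}

/-! ### Fourier uniqueness -/

theorem l1_fourier {f : (Cfg dc) → ℂ} (hf : Integrable f)
    (h : ∀ k : (Cfg dc), ∫ x, Complex.exp (((inner ℝ k x : ℝ) : ℂ) * Complex.I) * f x = 0) :
    f =ᵐ[volume] 0 := by
  have h1 : ∀ w : (Cfg dc), 𝓕 f w = 0 := by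
    intro w
    rw [Real.fourier_eq']
    rw [← h ((-2 * Real.pi) • w)]
    refine integral_congr_ae (Eventually.of_forall fun x => ?_)
    simp only [smul_eq_mul, inner_smul_left, real_inner_comm]
    congr 2
  refine ae_eq_zero_of_integral_contDiff_smul_eq_zero hf.locallyIntegrable fun g hg hc => ?_
  have hg' : ContDiff ℝ ∞ fun x : (Cfg dc) => ((g x : ℝ) : ℂ) := Complex.ofRealCLM.contDiff.comp hg
  have hc' : HasCompactSupport fun x : (Cfg dc) => ((g x : ℝ) : ℂ) :=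
    hc.comp_left (g := fun r : ℝ => (r : ℂ)) Complex.ofReal_zero
  let G : SchwartzMap (Cfg dc) ℂ := hc'.toSchwartzMap hg'
  have hG : ∀ x, G x = ((g x : ℝ) : ℂ) := fun x => rfl
  let H : SchwartzMap (Cfg dc) ℂ := 𝓕⁻ G
  have hH : 𝓕 H = G := FourierTransform.fourier_fourierInv_eq G
  have key : ∫ x, (𝓕 H x) * f x = ∫ x, H x * 𝓕 f x := by
    simpa using! VectorFourier.integral_bilin_fourierIntegral_eq_flip
      (ContinuousLinearMap.mul ℂ ℂ) (L := innerₗ (Cfg dc))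
      Real.continuous_fourierChar continuous_inner H.integrable hf
  simp only [h1, mul_zero, integral_zero, hH] at key
  rw [← key]
  refine integral_congr_ae (Eventually.of_forall fun x => ?_)
  simp only [hG, Complex.real_smul]

/-! ### growth -/

/-- measurable functions with polynomially bounded local `L²` norms -/
structure L1Gr {G : Type*} [NormedAddCommGroup G] (u : (Cfg dc) → G) : Prop where
  meas : AEStronglyMeasurable u (volume : Measure (Cfg dc))
  loc : ∀ s : ℝ, 0 < s → IntegrableOn (fun x => ‖u x‖ ^ 2) (Metric.ball (0 : (Cfg dc)) s)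
  gr : ∃ (K : ℝ) (p : ℕ), ∀ s : ℝ, 1 ≤ s →
    ∫ x in Metric.ball (0 : (Cfg dc)) s, ‖u x‖ ^ 2 ≤ K * s ^ p

theorem l1_summable {c : ℝ} (hc : 0 < c) (K : ℝ) (p : ℕ) :
    Summable fun n : ℕ => Real.exp (-(c * n ^ 2)) * (|K| * ((n : ℝ) + 1) ^ p) := by
  have h1 := Real.summable_pow_mul_exp_neg_nat_mul p hc
  have h2 := (summable_nat_add_iff 1).mpr h1
  refine Summable.of_nonneg_of_le (fun n => by positivity) (fun n => ?_)
    (h2.mul_left (|K| * Real.exp c))
  have h3 : Real.exp (-(c * n ^ 2)) ≤ Real.exp c * Real.exp (-c * ((n + 1 : ℕ) : ℝ)) := by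
    rw [← Real.exp_add, Real.exp_le_exp]
    have h4 : (n : ℝ) ≤ (n : ℝ) ^ 2 := by
      rcases Nat.eq_zero_or_pos n with rfl | hn
      · simp
      · have : (1 : ℝ) ≤ n := by exact_mod_cast hn
        nlinarith
    push_cast
    nlinarith
  calc Real.exp (-(c * n ^ 2)) * (|K| * ((n : ℝ) + 1) ^ p)
      ≤ (Real.exp c * Real.exp (-c * ((n + 1 : ℕ) : ℝ))) * (|K| * ((n : ℝ) + 1) ^ p) :=
        mul_le_mul_of_nonneg_right h3 (by positivity)
    _ = _ := by push_cast; ring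

namespace L1Gr

variable {G : Type*} [NormedAddCommGroup G] {u : (Cfg dc) → G}

theorem int_gauss (h : L1Gr u) {c : ℝ} (hc : 0 < c) :
    Integrable fun x : (Cfg dc) => Real.exp (-(c * ‖x‖ ^ 2)) * ‖u x‖ ^ 2 := by
  obtain ⟨K, p, hK⟩ := h.gr
  have hcont : Continuous fun x : (Cfg dc) => Real.exp (-(c * ‖x‖ ^ 2)) := by fun_prop
  refine ⟨hcont.aestronglyMeasurable.mul (h.meas.norm.pow 2), ?_⟩
  rw [hasFiniteIntegral_iff_ofReal (Eventually.of_forall fun x => by positivity)]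
  have hle : ∀ x : (Cfg dc), ENNReal.ofReal (Real.exp (-(c * ‖x‖ ^ 2)) * ‖u x‖ ^ 2) ≤
      ∑' n : ℕ, ENNReal.ofReal (Real.exp (-(c * n ^ 2))) *
        (Metric.ball (0 : (Cfg dc)) (n + 1)).indicator (fun y => ENNReal.ofReal (‖u y‖ ^ 2)) x := by
    intro x
    refine le_trans ?_ (ENNReal.le_tsum ⌊‖x‖⌋₊)
    have h1 : x ∈ Metric.ball (0 : (Cfg dc)) ((⌊‖x‖⌋₊ : ℝ) + 1) := by
      rw [Metric.mem_ball, dist_zero_right]
      exact Nat.lt_floor_add_one _
    rw [Set.indicator_of_mem h1, ← ENNReal.ofReal_mul (Real.exp_pos _).le]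
    refine ENNReal.ofReal_le_ofReal (mul_le_mul_of_nonneg_right ?_ (by positivity))
    rw [Real.exp_le_exp]
    have h2 : (⌊‖x‖⌋₊ : ℝ) ≤ ‖x‖ := Nat.floor_le (norm_nonneg x)
    have h3 : (⌊‖x‖⌋₊ : ℝ) ^ 2 ≤ ‖x‖ ^ 2 := pow_le_pow_left₀ (Nat.cast_nonneg _) h2 2
    nlinarith
  refine lt_of_le_of_lt (lintegral_mono hle) ?_
  have hmeas : AEMeasurable (fun y => ENNReal.ofReal (‖u y‖ ^ 2)) (volume : Measure (Cfg dc)) :=
    (h.meas.norm.pow 2).aemeasurable.ennreal_ofReal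
  rw [lintegral_tsum fun n => ((hmeas.indicator Metric.isOpen_ball.measurableSet).const_mul _)]
  have hterm : ∀ n : ℕ, ∫⁻ x, ENNReal.ofReal (Real.exp (-(c * n ^ 2))) *
        (Metric.ball (0 : (Cfg dc)) (n + 1)).indicator (fun y => ENNReal.ofReal (‖u y‖ ^ 2)) x ≤
      ENNReal.ofReal (Real.exp (-(c * n ^ 2)) * (|K| * ((n : ℝ) + 1) ^ p)) := by
    intro n
    rw [lintegral_const_mul' _ _ ENNReal.ofReal_ne_top,
      lintegral_indicator Metric.isOpen_ball.measurableSet,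
      ENNReal.ofReal_mul (Real.exp_pos _).le]
    refine mul_le_mul_of_nonneg_left ?_ bot_le
    have hn : (0 : ℝ) < (n : ℝ) + 1 := by positivity
    rw [← ofReal_integral_eq_lintegral_ofReal (h.loc _ hn)
      (Eventually.of_forall fun x => by positivity)]
    refine ENNReal.ofReal_le_ofReal ((hK _ (by linarith [Nat.cast_nonneg (α := ℝ) n])).trans ?_)
    exact mul_le_mul_of_nonneg_right (le_abs_self K) (by positivity)
  refine lt_of_le_of_lt (ENNReal.tsum_le_tsum hterm) ?_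
  rw [← ENNReal.ofReal_tsum_of_nonneg (fun n => by positivity) (l1_summable hc K p)]
  exact ENNReal.ofReal_lt_top

/-- the dominating function used everywhere -/
theorem int_dom (h : L1Gr u) {c : ℝ} (hc : 0 < c) :
    Integrable fun x : (Cfg dc) => Real.exp (-(c * ‖x‖ ^ 2)) * (1 + ‖u x‖ ^ 2) := by
  have h1 : Integrable fun x : (Cfg dc) => Real.exp (-(c * ‖x‖ ^ 2)) := by
    have := GaussianFourier.integrable_cexp_neg_mul_sq_norm_add (V := (Cfg dc)) (b := (c : ℂ))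
      (by simpa using hc) 0 0
    have h2 := this.re
    refine h2.congr (Eventually.of_forall fun x => ?_)
    simp only [inner_zero_left, Complex.ofReal_zero, mul_zero, add_zero]
    rw [show (-(c : ℂ) * (‖x‖ : ℂ) ^ 2) = ((-(c * ‖x‖ ^ 2) : ℝ) : ℂ) by push_cast; ring,
      ← Complex.ofReal_exp]
    exact Complex.ofReal_re _
  refine (h1.add (h.int_gauss hc)).congr (Eventually.of_forall fun x => ?_)
  simp only [Pi.add_apply]; ring

end L1Gr

/-- polynomials times Gaussians -/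
theorem l1_poly_gauss {c d : ℝ} (hcd : d < c) (m : ℕ) : ∃ C : ℝ, 0 ≤ C ∧ ∀ x : (Cfg dc),
    (1 + ‖x‖) ^ m * Real.exp (-(c * ‖x‖ ^ 2)) ≤ C * Real.exp (-(d * ‖x‖ ^ 2)) := by
  refine ⟨Real.exp (m ^ 2 / (4 * (c - d))), (Real.exp_pos _).le, fun x => ?_⟩
  have hs : 0 < c - d := by linarith
  have h1 : (1 + ‖x‖) ^ m ≤ Real.exp (m * ‖x‖) := by
    rw [Real.exp_nat_mul]
    refine pow_le_pow_left₀ (by positivity) ?_ m
    rw [add_comm]; exact Real.add_one_le_exp _
  calc (1 + ‖x‖) ^ m * Real.exp (-(c * ‖x‖ ^ 2))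
      ≤ Real.exp (m * ‖x‖) * Real.exp (-(c * ‖x‖ ^ 2)) :=
        mul_le_mul_of_nonneg_right h1 (Real.exp_pos _).le
    _ ≤ Real.exp (m ^ 2 / (4 * (c - d))) * Real.exp (-(d * ‖x‖ ^ 2)) := by
        rw [← Real.exp_add, ← Real.exp_add, Real.exp_le_exp]
        have h2 : (m : ℝ) ^ 2 / (4 * (c - d)) - m * ‖x‖ + (c - d) * ‖x‖ ^ 2 =
            (c - d) * (‖x‖ - m / (2 * (c - d))) ^ 2 := by
          field_simp
          ring
        have h3 : 0 ≤ (c - d) * (‖x‖ - m / (2 * (c - d))) ^ 2 := by positivity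
        linarith

end Vale.Agent.P353.Z.U
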