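import Vale.Agent.P353.Z.U.L1e

/-! # P353, C-L1: the flow argument -/

open MeasureTheory Filter Topology
open scoped ContDiff ComplexConjugate

namespace Vale.Agent.P353.Z.U

variable {dc : ℕ}

namespace L1D

variable {ι : Type} [Fintype ι] [DecidableEq ι] (D : L1D dc ι)

/-- the flow `e^{-sM} k` -/
noncomputable def fl (k : (Cfg dc)) (s : ℝ) : (Cfg dc) := (NormedSpace.exp (s • (-D.M))) k

theorem fl_zero (k : (Cfg dc)) : D.fl k 0 = k := by
  simp [fl]

theorem hasDerivAt_fl (k : (Cfg dc)) (s : ℝ) : HasDerivAt (D.fl k) (-(D.M (D.fl k s))) s := by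
  have h := hasDerivAt_exp_smul_const' (𝕂 := ℝ) (-D.M) s
  have h2 := h.clm_apply (hasDerivAt_const s k)
  refine h2.congr_deriv ?_
  simp [fl]

theorem continuous_fl (k : (Cfg dc)) : Continuous (D.fl k) :=
  continuous_iff_continuousAt.mpr fun s => (D.hasDerivAt_fl k s).continuousAt

theorem norm_fl_le (k : (Cfg dc)) {s : ℝ} (hs : 0 ≤ s) :
    ‖D.fl k s‖ ≤ Real.exp (-(D.c0 * s)) * ‖k‖ := by
  let φ : ℝ → ℝ := fun s => Real.exp (2 * D.c0 * s) * ‖D.fl k s‖ ^ 2
  have hd : ∀ s, HasDerivAt φ (Real.exp (2 * D.c0 * s) * (2 * D.c0) * ‖D.fl k s‖ ^ 2 +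
      Real.exp (2 * D.c0 * s) * (2 * inner ℝ (D.fl k s) (-(D.M (D.fl k s))))) s := by
    intro s
    have h1 : HasDerivAt (fun s : ℝ => Real.exp (2 * D.c0 * s))
        (Real.exp (2 * D.c0 * s) * (2 * D.c0)) s := by
      have := ((hasDerivAt_id s).const_mul (2 * D.c0)).exp
      simpa using this
    have h2 := (D.hasDerivAt_fl k s).norm_sq
    exact h1.mul h2
  have hanti : Antitone φ := by
    refine antitone_of_deriv_nonpos (fun s => (hd s).differentiableAt) fun s => ?_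
    rw [(hd s).deriv, inner_neg_right, real_inner_comm]
    have h3 := D.M_low (D.fl k s)
    have h4 := Real.exp_pos (2 * D.c0 * s)
    nlinarith
  have h5 := hanti hs
  simp only [φ, fl_zero, mul_zero, Real.exp_zero, one_mul] at h5
  have h6 : (Real.exp (D.c0 * s) * ‖D.fl k s‖) ^ 2 ≤ ‖k‖ ^ 2 := by
    rw [mul_pow]
    have : Real.exp (D.c0 * s) ^ 2 = Real.exp (2 * D.c0 * s) := by
      rw [← Real.exp_nat_mul]
      congr 1
      push_cast
      ring
    rw [this]; exact h5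
  have h7 : Real.exp (D.c0 * s) * ‖D.fl k s‖ ≤ ‖k‖ := by
    exact (pow_le_pow_iff_left₀ (by positivity) (norm_nonneg _) (by norm_num)).mp h6
  rw [Real.exp_neg, ← div_eq_inv_mul, le_div_iff₀ (Real.exp_pos _), mul_comm]
  exact h7

theorem tendsto_fl (k : (Cfg dc)) : Tendsto (D.fl k) atTop (𝓝 0) := by
  rw [tendsto_zero_iff_norm_tendsto_zero]
  have h1 : Tendsto (fun s : ℝ => Real.exp (-(D.c0 * s)) * ‖k‖) atTop (𝓝 0) := by
    have h2 : Tendsto (fun s : ℝ => D.c0 * s) atTop atTop :=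
      tendsto_id.const_mul_atTop D.c0_pos
    have := (Real.tendsto_exp_neg_atTop_nhds_zero.comp h2).mul_const ‖k‖
    simpa using this
  refine squeeze_zero' (Eventually.of_forall fun s => norm_nonneg _) ?_ h1
  filter_upwards [eventually_ge_atTop (0 : ℝ)] with s hs using D.norm_fl_le k hs

/-- inverse of `M` -/
theorem exists_inv : ∃ N : (Cfg dc) →L[ℝ] (Cfg dc), ∀ x, D.M (N x) = x := by
  have hinj : Function.Injective (D.M : (Cfg dc) →ₗ[ℝ] (Cfg dc)) := by
    rw [← LinearMap.ker_eq_bot, LinearMap.ker_eq_bot']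
    intro x hx
    have h1 := D.M_low x
    have h2 : D.M x = 0 := hx
    rw [h2, inner_zero_left] at h1
    have h3 : ‖x‖ = 0 := by
      have h4 := norm_nonneg x
      have h5 := D.c0_pos
      have h6 : ‖x‖ ^ 2 ≤ 0 := by
        by_contra h7
        push Not at h7
        have := mul_pos h5 h7
        linarith
      have h8 : ‖x‖ ^ 2 = 0 := le_antisymm h6 (by positivity)
      exact pow_eq_zero_iff (two_ne_zero) |>.mp h8
    exact norm_eq_zero.mp h3
  let e : (Cfg dc) ≃ₗ[ℝ] (Cfg dc) := LinearEquiv.ofInjectiveEndo (D.M : (Cfg dc) →ₗ[ℝ] (Cfg dc)) hinj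
  refine ⟨(e.symm : (Cfg dc) →ₗ[ℝ] (Cfg dc)).toContinuousLinearMap, fun x => ?_⟩
  have h1 : D.M (e.symm x) = e (e.symm x) := rfl
  rw [LinearMap.coe_toContinuousLinearMap']
  exact h1.trans (e.apply_symm_apply x)

/-- a quadratic form with derivative `-½‖k_s‖²` along the flow -/
theorem exists_Gamma : ∃ Γ : (Cfg dc) → ℝ, Continuous Γ ∧ Γ 0 = 0 ∧
    ∀ k s, HasDerivAt (fun s => Γ (D.fl k s)) (-(1 / 2) * ‖D.fl k s‖ ^ 2) s := by
  obtain ⟨N, hN⟩ := D.exists_inv
  have hsym : ∀ x y, inner ℝ (N x) y = inner ℝ x (N y) := fun x y => by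
    calc inner ℝ (N x) y = inner ℝ (N x) (D.M (N y)) := by rw [hN]
      _ = inner ℝ (D.M (N x)) (N y) := (D.M_symm _ _).symm
      _ = inner ℝ x (N y) := by rw [hN]
  refine ⟨fun x => 1 / 4 * inner ℝ (N x) x, ?_, by simp, fun k s => ?_⟩
  · have := N.continuous
    fun_prop
  · have h1 := D.hasDerivAt_fl k s
    have h2 : HasDerivAt (fun s => N (D.fl k s)) (N (-(D.M (D.fl k s)))) s :=
      N.hasFDerivAt.comp_hasDerivAt s h1
    have h3 := (h2.inner ℝ h1).const_mul (1 / 4)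
    refine h3.congr_deriv ?_
    rw [hsym (-(D.M (D.fl k s))), inner_neg_left, inner_neg_right, ← D.M_symm, hN, D.M_symm, hN,
      real_inner_self_eq_norm_sq]
    ring

/-- Fourier transform of `e^{-½q} U` -/
noncomputable def FF (U : (Cfg dc) → ℂ) (k : (Cfg dc)) : ℂ := ∫ x, inner ℂ (D.EE k x) (U x)

theorem int_EE {U : (Cfg dc) → ℂ} (hU : L1Gr U) (k : (Cfg dc)) :
    Integrable (fun x => inner ℂ (D.EE k x) (U x)) :=
  hU.int_inner (D.contDiff_EE k).continuous.aestronglyMeasurable (C := 1) (c := D.c0 / 2)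
    D.c0_half_pos fun x => by rw [one_mul]; exact D.norm_EE_le k x

theorem continuous_EE2 : Continuous fun q : (Cfg dc) × (Cfg dc) => D.EE q.1 q.2 := by
  unfold EE ph
  have := D.M2.continuous
  fun_prop

theorem continuous_FF {U : (Cfg dc) → ℂ} (hU : L1Gr U) : Continuous (D.FF U) := by
  unfold FF
  refine continuous_of_dominated (bound := fun x =>
    Real.exp (-(D.c0 / 2 * ‖x‖ ^ 2)) * (1 + ‖U x‖ ^ 2)) (fun k => (D.int_EE hU k).1) (fun k => ?_)
    (hU.int_dom D.c0_half_pos) ?_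
  · refine Eventually.of_forall fun x => ?_
    calc ‖inner ℂ (D.EE k x) (U x)‖ ≤ ‖D.EE k x‖ * ‖U x‖ := norm_inner_le_norm _ _
      _ ≤ _ := by
        refine mul_le_mul (D.norm_EE_le k x) ?_ (norm_nonneg _) (Real.exp_pos _).le
        nlinarith [sq_nonneg (‖U x‖ - 1), norm_nonneg (U x)]
  · refine Eventually.of_forall fun x => ?_
    exact (D.continuous_EE2.comp (continuous_id.prodMk continuous_const)).inner continuous_const

end L1D

end Vale.Agent.P353.Z.U
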