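import Vale.Agent.P353.Z.U.L1f

/-! # P353, C-L1: the flow argument, conclusion -/

open MeasureTheory Filter Topology
open scoped ContDiff ComplexConjugate

namespace Vale.Agent.P353.Z.U

variable {dc : ℕ}

variable {ι : Type} [Fintype ι] [DecidableEq ι] {D : L1D dc ι} {ν : ℝ} {U : (Cfg dc) → ℂ}

namespace L1D

variable (D)

theorem hasDerivAt_EE_fl (k x : (Cfg dc)) (s : ℝ) : HasDerivAt (fun s => D.EE (D.fl k s) x)
    (D.EE (D.fl k s) x * (-((inner ℝ (D.M x) (D.fl k s) : ℝ) : ℂ) * Complex.I)) s := by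
  have h1 := D.hasDerivAt_fl k s
  have h2 : HasDerivAt (fun s => inner ℝ (D.fl k s) x) (inner ℝ (-(D.M (D.fl k s))) x) s := by
    have := h1.inner ℝ (hasDerivAt_const s x)
    simpa using this
  have h3 : HasDerivAt (fun s => ((inner ℝ (D.fl k s) x : ℝ) : ℂ))
      ((inner ℝ (-(D.M (D.fl k s))) x : ℝ) : ℂ) s := h2.ofReal_comp
  have h4 : HasDerivAt (fun s => D.ph (D.fl k s) x)
      (((inner ℝ (-(D.M (D.fl k s))) x : ℝ) : ℂ) * Complex.I) s := by
    unfold ph
    exact (h3.mul_const Complex.I).const_add _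
  have h5 := h4.cexp
  refine h5.congr_deriv ?_
  unfold EE
  rw [inner_neg_left, D.M_symm, real_inner_comm (D.M x)]
  push_cast
  ring

end L1D

theorem L1Sol.hasDerivAt_FF (h : L1Sol D ν U) (k : (Cfg dc)) (s : ℝ) :
    HasDerivAt (fun s => D.FF U (D.fl k s))
      (((1 / 2 * ‖D.fl k s‖ ^ 2 + ν : ℝ) : ℂ) * D.FF U (D.fl k s)) s := by
  obtain ⟨C', hC', hp⟩ := l1_poly_gauss (dc := dc) D.c0_quarter_lt 1
  obtain ⟨K, hK⟩ := (isCompact_closedBall s 1).exists_bound_of_continuousOn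
    (D.continuous_fl k).continuousOn
  have hK0 : 0 ≤ K := (norm_nonneg _).trans (hK s (Metric.mem_closedBall_self zero_le_one))
  let G' : ℝ → (Cfg dc) → ℂ := fun s x => inner ℂ
    (D.EE (D.fl k s) x * (-((inner ℝ (D.M x) (D.fl k s) : ℝ) : ℂ) * Complex.I)) (U x)
  have hcont : ∀ s, Continuous fun x =>
      D.EE (D.fl k s) x * (-((inner ℝ (D.M x) (D.fl k s) : ℝ) : ℂ) * Complex.I) := by
    intro s
    have h1 := (D.contDiff_EE (D.fl k s)).continuous
    have h2 := D.M.continuous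
    fun_prop
  have hd := hasDerivAt_integral_of_dominated_loc_of_deriv_le (μ := (volume : Measure (Cfg dc)))
    (F := fun s x => inner ℂ (D.EE (D.fl k s) x) (U x)) (F' := G') (x₀ := s)
    (s := Metric.closedBall s 1)
    (bound := fun x => ‖D.M‖ * K * C' * (Real.exp (-(D.c0 / 4 * ‖x‖ ^ 2)) * (1 + ‖U x‖ ^ 2)))
    (Metric.closedBall_mem_nhds s one_pos)
    (Eventually.of_forall fun s => (D.int_EE h.gr _).1) (D.int_EE h.gr _)
    ((hcont s).aestronglyMeasurable.inner h.gr.meas)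
    (Eventually.of_forall fun x t ht => ?_)
    ((h.gr.int_dom D.c0_quarter_pos).const_mul _)
    (Eventually.of_forall fun x t _ => ?_)
  · have h1 := hd.2
    have h2 : ∫ x, G' s x = ((1 / 2 * ‖D.fl k s‖ ^ 2 + ν : ℝ) : ℂ) * D.FF U (D.fl k s) := by
      have h3 := h.weak (D.fl k s)
      have h4 : ∀ x, G' s x = ((1 / 2 * ‖D.fl k s‖ ^ 2 + ν : ℝ) : ℂ) *
          inner ℂ (D.EE (D.fl k s) x) (U x) -
          (1 / 2 : ℂ) * inner ℂ (D.EE (D.fl k s) x * D.bb ν (D.fl k s) x) (U x) := by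
        intro x
        simp only [G', L1D.bb, RCLike.inner_apply, map_mul, map_add, map_neg, Complex.conj_ofReal,
          Complex.conj_I, map_ofNat]
        push_cast
        ring
      have hib : Integrable (fun x => inner ℂ (D.EE (D.fl k s) x * D.bb ν (D.fl k s) x) (U x)) := by
        refine h.gr.int_inner (C := (‖D.fl k s‖ ^ 2 + 2 * |ν| + 2 * (‖D.M‖ * ‖D.fl k s‖)) * C')
          (c := D.c0 / 4) ?_ D.c0_quarter_pos fun x => ?_
        · exact ((D.contDiff_EE _).continuous.mul (D.continuous_bb ν _)).aestronglyMeasurable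
        · rw [norm_mul]
          calc ‖D.EE (D.fl k s) x‖ * ‖D.bb ν (D.fl k s) x‖
              ≤ Real.exp (-(D.c0 / 2 * ‖x‖ ^ 2)) *
                ((‖D.fl k s‖ ^ 2 + 2 * |ν| + 2 * (‖D.M‖ * ‖D.fl k s‖)) * (1 + ‖x‖)) :=
                mul_le_mul (D.norm_EE_le _ x) (D.norm_bb_le ν _ x) (norm_nonneg _)
                  (Real.exp_pos _).le
            _ = (‖D.fl k s‖ ^ 2 + 2 * |ν| + 2 * (‖D.M‖ * ‖D.fl k s‖)) *
                ((1 + ‖x‖) ^ 1 * Real.exp (-(D.c0 / 2 * ‖x‖ ^ 2))) := by ring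
            _ ≤ (‖D.fl k s‖ ^ 2 + 2 * |ν| + 2 * (‖D.M‖ * ‖D.fl k s‖)) *
                (C' * Real.exp (-(D.c0 / 4 * ‖x‖ ^ 2))) :=
                mul_le_mul_of_nonneg_left (hp x) (by positivity)
            _ = _ := by ring
      simp only [h4]
      rw [integral_sub ((D.int_EE h.gr _).const_mul _) (hib.const_mul _), integral_const_mul,
        integral_const_mul, h3, mul_zero, sub_zero]
      rfl
    rw [← h2]
    exact h1
  · have h1 := hK t ht
    have h2 : ‖-((inner ℝ (D.M x) (D.fl k t) : ℝ) : ℂ) * Complex.I‖ ≤ ‖D.M‖ * ‖x‖ * K := by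
      rw [norm_mul, Complex.norm_I, mul_one, norm_neg, Complex.norm_real]
      refine (norm_inner_le_norm _ _).trans ?_
      exact mul_le_mul (D.M.le_opNorm x) h1 (norm_nonneg _) (by positivity)
    calc ‖G' t x‖ ≤ ‖D.EE (D.fl k t) x * (-((inner ℝ (D.M x) (D.fl k t) : ℝ) : ℂ) * Complex.I)‖ *
          ‖U x‖ := norm_inner_le_norm _ _
      _ ≤ (Real.exp (-(D.c0 / 2 * ‖x‖ ^ 2)) * (‖D.M‖ * ‖x‖ * K)) * (1 + ‖U x‖ ^ 2) := by
          rw [norm_mul]
          refine mul_le_mul (mul_le_mul (D.norm_EE_le _ x) h2 (norm_nonneg _)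
            (Real.exp_pos _).le) ?_ (norm_nonneg _) (by positivity)
          nlinarith [sq_nonneg (‖U x‖ - 1), norm_nonneg (U x)]
      _ = (‖D.M‖ * K * (1 + ‖U x‖ ^ 2)) * (‖x‖ * Real.exp (-(D.c0 / 2 * ‖x‖ ^ 2))) := by ring
      _ ≤ (‖D.M‖ * K * (1 + ‖U x‖ ^ 2)) * (C' * Real.exp (-(D.c0 / 4 * ‖x‖ ^ 2))) := by
          refine mul_le_mul_of_nonneg_left ((le_trans ?_ (hp x))) (by positivity)
          refine mul_le_mul_of_nonneg_right ?_ (Real.exp_pos _).le
          rw [pow_one]; linarith [norm_nonneg x]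
      _ = _ := by ring
  · have h1 := (D.hasDerivAt_EE_fl k x t).inner ℂ (hasDerivAt_const t (U x))
    simpa [G'] using h1

theorem L1Sol.exists_Gamma' (D : L1D dc ι) : ∃ Γ : (Cfg dc) → ℝ, ∀ (ν : ℝ) (U : (Cfg dc) → ℂ), L1Sol D ν U →
    (ν = 0 → ∀ k, D.FF U k = ((Real.exp (-Γ k) : ℝ) : ℂ) * D.FF U 0) ∧
      (0 < ν → ∀ k, D.FF U k = 0) := by
  obtain ⟨Γ, hΓ, hΓ0, hd⟩ := D.exists_Gamma
  refine ⟨Γ, fun ν U h => ?_⟩
  have hconst : ∀ k s, ((Real.exp (Γ (D.fl k s) - ν * s) : ℝ) : ℂ) * D.FF U (D.fl k s) =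
      ((Real.exp (Γ k) : ℝ) : ℂ) * D.FF U k := by
    intro k s
    let Φ : ℝ → ℂ := fun s => ((Real.exp (Γ (D.fl k s) - ν * s) : ℝ) : ℂ) * D.FF U (D.fl k s)
    have hΦ : ∀ s, HasDerivAt Φ 0 s := by
      intro s
      have h1 : HasDerivAt (fun s => Γ (D.fl k s) - ν * s)
          (-(1 / 2) * ‖D.fl k s‖ ^ 2 - ν) s := by
        refine ((hd k s).sub ((hasDerivAt_id s).const_mul ν)).congr_deriv ?_
        simp
      have h2 := (h1.exp).ofReal_comp
      have h3 := h2.mul (h.hasDerivAt_FF k s)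
      refine h3.congr_deriv ?_
      push_cast
      ring
    have h4 : Φ s = Φ 0 :=
      is_const_of_deriv_eq_zero (fun s => (hΦ s).differentiableAt) (fun s => (hΦ s).deriv) s 0
    simpa [Φ, D.fl_zero] using h4
  have hF : ∀ k, Tendsto (fun s => D.FF U (D.fl k s)) atTop (𝓝 (D.FF U 0)) := fun k =>
    ((D.continuous_FF h.gr).tendsto 0).comp (D.tendsto_fl k)
  have hG : ∀ k, Tendsto (fun s => Γ (D.fl k s)) atTop (𝓝 0) := fun k => by
    have := (hΓ.tendsto 0).comp (D.tendsto_fl k)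
    rwa [hΓ0] at this
  refine ⟨fun hν k => ?_, fun hν k => ?_⟩
  · have h1 : Tendsto (fun s => ((Real.exp (Γ (D.fl k s) - ν * s) : ℝ) : ℂ) *
        D.FF U (D.fl k s)) atTop (𝓝 (((1 : ℝ) : ℂ) * D.FF U 0)) := by
      refine Tendsto.mul ?_ (hF k)
      refine (Complex.continuous_ofReal.tendsto 1).comp ?_
      have h5 := (Real.continuous_exp.tendsto 0).comp (hG k)
      simp only [Real.exp_zero] at h5
      refine h5.congr fun s => ?_
      simp [hν]
    simp only [hconst] at h1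
    have h2 := tendsto_nhds_unique h1 tendsto_const_nhds
    rw [Complex.ofReal_one, one_mul] at h2
    rw [h2, ← mul_assoc, ← Complex.ofReal_mul, ← Real.exp_add]
    simp
  · have h1 : Tendsto (fun s => ((Real.exp (Γ (D.fl k s) - ν * s) : ℝ) : ℂ) *
        D.FF U (D.fl k s)) atTop (𝓝 (((0 : ℝ) : ℂ) * D.FF U 0)) := by
      refine Tendsto.mul ?_ (hF k)
      refine (Complex.continuous_ofReal.tendsto 0).comp ?_
      refine Real.tendsto_exp_atBot.comp ?_
      have h3 : Tendsto (fun s : ℝ => ν * s) atTop atTop := tendsto_id.const_mul_atTop hν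
      exact (hG k).add_atBot (tendsto_neg_atTop_atBot.comp h3)
    simp only [hconst] at h1
    have h2 := tendsto_nhds_unique h1 tendsto_const_nhds
    rw [Complex.ofReal_zero, zero_mul] at h2
    rcases mul_eq_zero.mp h2.symm with h3 | h3
    · exact absurd (Complex.ofReal_eq_zero.mp h3) (Real.exp_pos _).ne'
    · exact h3

end Vale.Agent.P353.Z.U
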