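import Vale.Agent.P353.Z.U.L1h
import Vale.Agent.P353.Z.U.StmtC

/-! # P353, C-L1: the second order identity on test functions -/

open MeasureTheory Filter Topology
open scoped ContDiff ComplexConjugate

namespace Vale.Agent.P353.Z.U

variable {dc : ℕ}

variable {F : Type*} [NormedAddCommGroup F] [InnerProductSpace ℂ F]

/-! ### general facts on test functions -/

theorem l1_tst_sum {κ : Type*} (s : Finset κ) {f : κ → (Cfg dc) → F} (h : ∀ k ∈ s, Setup.Tst (f k)) :
    Setup.Tst (fun x => ∑ k ∈ s, f k x) := by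
  classical
  refine ⟨ContDiff.sum fun k hk => (h k hk).1, ?_⟩
  induction s using Finset.induction_on with
  | empty => simp only [Finset.sum_empty]; exact HasCompactSupport.zero
  | insert a s ha ih =>
    simp only [Finset.sum_insert ha]
    exact (h a (Finset.mem_insert_self _ _)).2.add
      (ih fun k hk => h k (Finset.mem_insert_of_mem hk))

theorem l1_tst_csmul (c : ℂ) {f : (Cfg dc) → F} (h : Setup.Tst f) : Setup.Tst (fun x => c • f x) := by
  refine ⟨h.1.const_smul c, h.2.mono ?_⟩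
  intro x hx
  simp only [Function.mem_support] at hx ⊢
  intro h0
  exact hx (by rw [h0, smul_zero])

theorem l1_nsq_add {f g : (Cfg dc) → F} (hf : Setup.Tst f) (hg : Setup.Tst g) :
    nsq (fun x => f x + g x) = nsq f + nsq g + 2 * (∫ x, inner ℂ (f x) (g x)).re := by
  unfold nsq
  have hi := hf.inner_int hg.1.continuous
  have h1 : ∀ x, ‖f x + g x‖ ^ 2 = ‖f x‖ ^ 2 + ‖g x‖ ^ 2 + 2 * (inner ℂ (f x) (g x)).re := by
    intro x
    rw [norm_add_sq (𝕜 := ℂ)]
    simp only [RCLike.re_to_complex]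
    ring
  simp only [h1]
  have i1 : Integrable (fun x => ‖f x‖ ^ 2 + ‖g x‖ ^ 2) := hf.norm_sq_int.add hg.norm_sq_int
  have i2 : Integrable (fun x => 2 * (inner ℂ (f x) (g x)).re) := hi.re.const_mul 2
  rw [integral_add i1 i2, integral_add hf.norm_sq_int hg.norm_sq_int, integral_const_mul]
  congr 2
  exact integral_re hi

theorem l1_self {f : (Cfg dc) → F} (hf : Setup.Tst f) (h : (∫ x, inner ℂ (f x) (f x)).re ≤ 0) :
    ∀ x, f x = 0 := by
  have hi := hf.inner_int hf.1.continuous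
  have h1 : ∫ x, ‖f x‖ ^ 2 = (∫ x, inner ℂ (f x) (f x)).re := by
    have := integral_re hi
    rw [RCLike.re_to_complex] at this
    rw [← this]
    refine integral_congr_ae (Eventually.of_forall fun x => ?_)
    simp only [RCLike.re_to_complex]
    exact (re_inner_self (f x)).symm
  have h2 : ∫ x, ‖f x‖ ^ 2 = 0 := le_antisymm (h1 ▸ h) (integral_nonneg fun x => by positivity)
  rw [integral_eq_zero_iff_of_nonneg (fun x => by positivity) hf.norm_sq_int] at h2
  have h3 : (fun x => ‖f x‖ ^ 2) = fun _ => (0 : ℝ) :=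
    (hf.1.continuous.norm.pow 2).ae_eq_iff_eq volume continuous_const |>.mp h2
  intro x
  have h4 := congrFun h3 x
  simpa using h4

/-- integrability against a locally `L²` function -/
theorem l1_int_cs {u : (Cfg dc) → F} (h : L1Gr u) {g : (Cfg dc) → F} (hg : Setup.Tst g) :
    Integrable (fun x => inner ℂ (g x) (u x)) := by
  have hn : HasCompactSupport (fun x => ((‖g x‖ : ℝ) : ℂ)) :=
    hg.2.comp_left (g := fun v : F => ((‖v‖ : ℝ) : ℂ)) (by simp)
  obtain ⟨C, hC⟩ := l1_cs_bound (Complex.continuous_ofReal.comp hg.1.continuous.norm) hn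
  refine ((h.int_dom one_pos).const_mul C).mono'
    (hg.1.continuous.aestronglyMeasurable.inner h.meas) (Eventually.of_forall fun x => ?_)
  have h1 : ‖g x‖ ≤ C * Real.exp (-(1 * ‖x‖ ^ 2)) := by
    have := hC x
    simpa using this
  have h0 : 0 ≤ C * Real.exp (-(1 * ‖x‖ ^ 2)) := (norm_nonneg _).trans h1
  calc ‖inner ℂ (g x) (u x)‖ ≤ ‖g x‖ * ‖u x‖ := norm_inner_le_norm _ _
    _ ≤ (C * Real.exp (-(1 * ‖x‖ ^ 2))) * (1 + ‖u x‖ ^ 2) := by
        refine mul_le_mul h1 ?_ (norm_nonneg _) h0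
        nlinarith [sq_nonneg (‖u x‖ - 1), norm_nonneg (u x)]
    _ = _ := by ring

/-! ### the operator `Qlin` -/

variable (S : Setup dc F)

/-- the multiplication part of `Qlin ξ₀` -/
noncomputable def l1Op (ξ : (Cfg dc)) (β : Fin 16) (x : (Cfg dc)) : F →L[ℂ] F := S.MM β x + S.DW ξ β x

theorem l1_Qlin_eq (ξ : (Cfg dc)) (β : Fin 16) (u : (Cfg dc) → F) (x : (Cfg dc)) :
    S.Qlin ξ β u x = S.Q β u x - S.W β x (u x) + l1Op S ξ β x (u x) := by
  simp only [Setup.Qlin, Setup.Q0, Setup.Q, l1Op, _root_.add_apply]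
  abel

theorem l1_contDiff_Op (ξ : (Cfg dc)) (β : Fin 16) : ContDiff ℝ ∞ (l1Op S ξ β) := by
  unfold l1Op Setup.MM Setup.DW
  refine ContDiff.add ?_ ?_
  · refine ContDiff.sum fun i _ => ContDiff.sum fun A _ => ?_
    exact (Setup.contDiff_ofReal (contDiff_const.mul (Setup.contDiff_coord _))).smul contDiff_const
  · refine ContDiff.const_smul _ (ContDiff.sum fun A _ => ContDiff.sum fun B _ =>
      ContDiff.sum fun C _ => ContDiff.sum fun i _ => ContDiff.sum fun j _ => ?_)
    exact (contDiff_const.mul (Setup.contDiff_ofReal (Setup.contDiff_coord _))).smul contDiff_const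

theorem l1_MM_symm (β : Fin 16) (x : (Cfg dc)) (v w : F) :
    inner ℂ (S.MM β x v) w = inner ℂ v (S.MM β x w) := by
  simp only [Setup.MM, _root_.sum_apply, _root_.smul_apply, sum_inner, inner_sum,
    inner_smul_left, inner_smul_right,
    S.vec_symm _ (Setup.mul_im_zero (S.g_im _) S.Gam_real), Complex.conj_ofReal]

theorem l1_DW_symm (ξ : (Cfg dc)) (β : Fin 16) (x : (Cfg dc)) (v w : F) :
    inner ℂ (S.DW ξ β x v) w = inner ℂ v (S.DW ξ β x w) := by
  simp only [Setup.DW, _root_.sum_apply, _root_.smul_apply, sum_inner, inner_sum,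
    inner_smul_left, inner_smul_right, S.vec_symm _ (S.g2_im _ _), Complex.conj_ofReal, map_mul]

theorem l1_Op_symm (ξ : (Cfg dc)) (β : Fin 16) (x : (Cfg dc)) (v w : F) :
    inner ℂ (l1Op S ξ β x v) w = inner ℂ v (l1Op S ξ β x w) := by
  simp only [l1Op, _root_.add_apply, inner_add_left, inner_add_right, l1_MM_symm, l1_DW_symm]

theorem l1_tst_Qlin (ξ : (Cfg dc)) {u : (Cfg dc) → F} (hu : Setup.Tst u) (β : Fin 16) :
    Setup.Tst (S.Qlin ξ β u) := by
  have h : S.Qlin ξ β u = fun x => S.Q β u x - S.W β x (u x) + l1Op S ξ β x (u x) := by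
    funext x; exact l1_Qlin_eq S ξ β u x
  rw [h]
  exact ((hu.Q S β).sub (hu.clm (S.contDiff_W β))).add (hu.clm (l1_contDiff_Op S ξ β))

theorem l1_Qlin_symm (ξ : (Cfg dc)) {u v : (Cfg dc) → F} (hu : Setup.Tst u) (hv : Setup.Tst v) (β : Fin 16) :
    ∫ x, inner ℂ (S.Qlin ξ β u x) (v x) = ∫ x, inner ℂ (u x) (S.Qlin ξ β v x) := by
  have h1 := Q_symm S β u v hu hv.1
  have h2 : ∀ x, inner ℂ (S.Qlin ξ β u x) (v x) - inner ℂ (S.Q β u x) (v x) =
      inner ℂ (u x) (S.Qlin ξ β v x) - inner ℂ (u x) (S.Q β v x) := by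
    intro x
    rw [l1_Qlin_eq, l1_Qlin_eq]
    simp only [inner_add_left, inner_add_right, inner_sub_left, inner_sub_right, S.W_symm,
      l1_Op_symm]
    ring
  have h3 := integral_congr_ae (μ := (volume : Measure (Cfg dc))) (Eventually.of_forall h2)
  rw [integral_sub ((l1_tst_Qlin S ξ hu β).inner_int hv.1.continuous)
    ((hu.Q S β).inner_int hv.1.continuous),
    integral_sub (hu.inner_int (l1_tst_Qlin S ξ hv β).1.continuous)
    (hu.inner_int (hv.Q S β).1.continuous), h1] at h3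
  exact sub_left_inj.mp h3

theorem l1_Qlin_add (ξ : (Cfg dc)) {u v : (Cfg dc) → F} (hu : Setup.Tst u) (hv : Setup.Tst v) (β : Fin 16) :
    S.Qlin ξ β (fun x => u x + v x) = fun x => S.Qlin ξ β u x + S.Qlin ξ β v x := by
  funext x
  simp only [Setup.Qlin, Setup.Q0, pd_add (hu.diff x) (hv.diff x), map_add,
    Finset.sum_add_distrib, smul_add]
  abel

/-! ### the lowering operators -/

variable {ι : Type} [Fintype ι] [DecidableEq ι] (D : L1D dc ι)

/-- `∂_i^A + (A_1 x)_i^A` -/
noncomputable def l1a (i : Fin 9) (A : Fin dc) (u : (Cfg dc) → F) (x : (Cfg dc)) : F :=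
  pd i A u x + ((D.A x (i, A) : ℝ) : ℂ) • u x

/-- `-∂_i^A + (A_1 x)_i^A` -/
noncomputable def l1b (i : Fin 9) (A : Fin dc) (u : (Cfg dc) → F) (x : (Cfg dc)) : F :=
  -pd i A u x + ((D.A x (i, A) : ℝ) : ℂ) • u x

theorem l1_contDiff_A1 (i : Fin 9) (A : Fin dc) : ContDiff ℝ ∞ (fun x : (Cfg dc) => D.A x (i, A)) := by
  have h : (fun x : (Cfg dc) => D.A x (i, A)) = fun x => D.A x (i, A) := rfl
  rw [h]
  exact (Setup.contDiff_coord (i, A)).comp D.A.contDiff

theorem l1_tst_a {u : (Cfg dc) → F} (hu : Setup.Tst u) (i : Fin 9) (A : Fin dc) :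
    Setup.Tst (l1a D i A u) := by
  exact (hu.pd i A).add (hu.rsmul (l1_contDiff_A1 D i A))

theorem l1_tst_b {u : (Cfg dc) → F} (hu : Setup.Tst u) (i : Fin 9) (A : Fin dc) :
    Setup.Tst (l1b D i A u) := by
  exact ((hu.pd i A).neg).add (hu.rsmul (l1_contDiff_A1 D i A))

theorem l1_a_add {u v : (Cfg dc) → F} (hu : Setup.Tst u) (hv : Setup.Tst v) (i : Fin 9) (A : Fin dc) :
    l1a D i A (fun x => u x + v x) = fun x => l1a D i A u x + l1a D i A v x := by
  funext x
  simp only [l1a, pd_add (hu.diff x) (hv.diff x), smul_add]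
  abel

theorem l1_ab {u v : (Cfg dc) → F} (hu : Setup.Tst u) (hv : Setup.Tst v) (i : Fin 9) (A : Fin dc) :
    ∫ x, inner ℂ (l1b D i A u x) (v x) = ∫ x, inner ℂ (u x) (l1a D i A v x) := by
  have h1 := integral_inner_pd u v (hu.1.of_le (by simp)) (hv.1.of_le (by simp)) hu.2 i A
  have hm := hu.rsmul (l1_contDiff_A1 D i A)
  have hm' := hv.rsmul (l1_contDiff_A1 D i A)
  have e1 : ∫ x, inner ℂ (l1b D i A u x) (v x) = -(∫ x, inner ℂ (pd i A u x) (v x)) +
      ∫ x, inner ℂ (((D.A x (i, A) : ℝ) : ℂ) • u x) (v x) := by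
    have hn : Integrable (fun x => -inner ℂ (pd i A u x) (v x)) :=
      ((hu.pd i A).inner_int hv.1.continuous).neg
    rw [← integral_neg, ← integral_add hn (hm.inner_int hv.1.continuous)]
    refine integral_congr_ae (Eventually.of_forall fun x => ?_)
    simp only [l1b, inner_add_left, inner_neg_left]
  have e2 : ∫ x, inner ℂ (u x) (l1a D i A v x) = (∫ x, inner ℂ (u x) (pd i A v x)) +
      ∫ x, inner ℂ (u x) (((D.A x (i, A) : ℝ) : ℂ) • v x) := by
    rw [← integral_add (hu.inner_int (hv.pd i A).1.continuous) (hu.inner_int hm'.1.continuous)]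
    refine integral_congr_ae (Eventually.of_forall fun x => ?_)
    simp only [l1a, inner_add_right]
  rw [e1, e2, h1, neg_neg]
  congr 1
  refine integral_congr_ae (Eventually.of_forall fun x => ?_)
  simp only [inner_smul_left, inner_smul_right, Complex.conj_ofReal]

end Vale.Agent.P353.Z.U
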