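import Vale.Agent.P353.Z.U.L1j

/-! # P353, C-L1: the second order identity on test functions, II -/

open MeasureTheory Filter Topology
open scoped ContDiff ComplexConjugate

namespace Vale.Agent.P353.Z.U

variable {dc : ℕ}

variable {F : Type*} [NormedAddCommGroup F] [InnerProductSpace ℂ F]

variable (S : Setup dc F) (ξ : (Cfg dc))

variable {ι : Type} [Fintype ι] [DecidableEq ι] (D : L1D dc ι)

/-- the second-order operator -/
noncomputable def l1H (N N' : F →L[ℂ] F) (ζ : (Cfg dc) → F) (x : (Cfg dc)) : F :=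
  (8 : ℂ) • (∑ i, ∑ A, l1b D i A (l1a D i A ζ) x) + (8 : ℂ) • (N (ζ x) + N' (ζ x))

theorem l1_tst_H (N N' : F →L[ℂ] F) {ζ : (Cfg dc) → F} (hζ : Setup.Tst ζ) :
    Setup.Tst (l1H D N N' ζ) := by
  have h1 : Setup.Tst (fun x => ∑ i, ∑ A, l1b D i A (l1a D i A ζ) x) :=
    l1_tst_sum _ fun i _ => l1_tst_sum _ fun A _ => l1_tst_b D (l1_tst_a D hζ i A) i A
  have h2 : Setup.Tst (fun x => N (ζ x)) := hζ.clm (T := fun _ => N) contDiff_const
  have h3 : Setup.Tst (fun x => N' (ζ x)) := hζ.clm (T := fun _ => N') contDiff_const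
  exact (l1_tst_csmul 8 h1).add (l1_tst_csmul 8 (h2.add h3))

theorem l1_inner_H (N N' : F →L[ℂ] F) (hN : ∀ v w, inner ℂ (N' v) w = inner ℂ v (N w))
    {ζ v : (Cfg dc) → F} (hζ : Setup.Tst ζ) (hv : Setup.Tst v) :
    ∫ x, inner ℂ (l1H D N N' ζ x) (v x) =
      8 * (∑ i, ∑ A, ∫ x, inner ℂ (l1a D i A ζ x) (l1a D i A v x)) +
        8 * ((∫ x, inner ℂ (N (ζ x)) (v x)) + ∫ x, inner ℂ (ζ x) (N (v x))) := by
  have hba : ∀ i A, Setup.Tst (l1b D i A (l1a D i A ζ)) := fun i A => l1_tst_b D (l1_tst_a D hζ i A) i A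
  have hs : Setup.Tst (fun x => ∑ i, ∑ A, l1b D i A (l1a D i A ζ) x) :=
    l1_tst_sum _ fun i _ => l1_tst_sum _ fun A _ => hba i A
  have h2 : Setup.Tst (fun x => N (ζ x)) := hζ.clm (T := fun _ => N) contDiff_const
  have h3 : Setup.Tst (fun x => N' (ζ x)) := hζ.clm (T := fun _ => N') contDiff_const
  have hc := hv.1.continuous
  have hNc : Continuous fun x => N (v x) := N.continuous.comp hc
  have e0 : ∀ x, inner ℂ (l1H D N N' ζ x) (v x) =
      8 * (∑ i, ∑ A, inner ℂ (l1b D i A (l1a D i A ζ) x) (v x)) +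
        8 * (inner ℂ (N (ζ x)) (v x) + inner ℂ (ζ x) (N (v x))) := by
    intro x
    simp only [l1H, inner_add_left, inner_smul_left, sum_inner, hN, map_ofNat]
  have i1 : Integrable (fun x => ∑ i, ∑ A, inner ℂ (l1b D i A (l1a D i A ζ) x) (v x)) :=
    integrable_finsetSum _ fun i _ => integrable_finsetSum _ fun A _ => (hba i A).inner_int hc
  have i2 : Integrable (fun x => inner ℂ (N (ζ x)) (v x)) := h2.inner_int hc
  have i3 : Integrable (fun x => inner ℂ (ζ x) (N (v x))) := hζ.inner_int hNc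
  have i4 : Integrable (fun x => inner ℂ (N (ζ x)) (v x) + inner ℂ (ζ x) (N (v x))) := i2.add i3
  simp only [e0]
  rw [integral_add (i1.const_mul 8) (i4.const_mul 8), integral_const_mul, integral_const_mul,
    integral_add i2 i3,
    integral_finsetSum _ fun i _ => integrable_finsetSum _ fun A _ => (hba i A).inner_int hc]
  congr 2
  refine Finset.sum_congr rfl fun i _ => ?_
  rw [integral_finsetSum _ fun A _ => (hba i A).inner_int hc]
  exact Finset.sum_congr rfl fun A _ => l1_ab D (l1_tst_a D hζ i A) hv i A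

theorem l1_QQ {ζ v : (Cfg dc) → F} (hζ : Setup.Tst ζ) (hv : Setup.Tst v) :
    ∫ x, inner ℂ (∑ β, S.Qlin ξ β (S.Qlin ξ β ζ) x) (v x) =
      ∑ β, ∫ x, inner ℂ (S.Qlin ξ β ζ x) (S.Qlin ξ β v x) := by
  have hQ : ∀ β, Setup.Tst (S.Qlin ξ β (S.Qlin ξ β ζ)) := fun β =>
    l1_tst_Qlin S ξ (l1_tst_Qlin S ξ hζ β) β
  simp only [sum_inner]
  rw [integral_finsetSum _ fun β _ => (hQ β).inner_int hv.1.continuous]
  exact Finset.sum_congr rfl fun β _ => l1_Qlin_symm S ξ (l1_tst_Qlin S ξ hζ β) hv β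

/-- energy identity -/
def L1En (N : F →L[ℂ] F) : Prop := ∀ v : (Cfg dc) → F, Setup.Tst v →
  ∑ β, nsq (S.Qlin ξ β v) =
    8 * (∑ i, ∑ A, nsq (fun x => pd i A v x + ((D.A x (i, A) : ℝ) : ℂ) • v x)) +
    16 * (∫ x, inner ℂ (v x) (N (v x))).re

variable {S ξ D}

theorem l1_polar {N1 : F →L[ℂ] F} (hE : L1En S ξ D N1) {ζ v : (Cfg dc) → F} (hζ : Setup.Tst ζ) (hv : Setup.Tst v) :
    (∑ β, ∫ x, inner ℂ (S.Qlin ξ β ζ x) (S.Qlin ξ β v x)).re =
      8 * (∑ i, ∑ A, ∫ x, inner ℂ (l1a D i A ζ x) (l1a D i A v x)).re +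
        8 * ((∫ x, inner ℂ (v x) (N1 (ζ x))).re + (∫ x, inner ℂ (ζ x) (N1 (v x))).re) := by
  have h0 := hE (fun x => ζ x + v x) (hζ.add hv)
  have h1 := hE ζ hζ
  have h2 := hE v hv
  have eQ : ∀ β, nsq (S.Qlin ξ β (fun x => ζ x + v x)) =
      nsq (S.Qlin ξ β ζ) + nsq (S.Qlin ξ β v) +
        2 * (∫ x, inner ℂ (S.Qlin ξ β ζ x) (S.Qlin ξ β v x)).re := fun β => by
    rw [l1_Qlin_add S ξ hζ hv β]
    exact l1_nsq_add (l1_tst_Qlin S ξ hζ β) (l1_tst_Qlin S ξ hv β)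
  have ea : ∀ i A, nsq (l1a D i A (fun x => ζ x + v x)) = nsq (l1a D i A ζ) + nsq (l1a D i A v) +
      2 * (∫ x, inner ℂ (l1a D i A ζ x) (l1a D i A v x)).re := fun i A => by
    rw [l1_a_add D hζ hv i A]
    exact l1_nsq_add (l1_tst_a D hζ i A) (l1_tst_a D hv i A)
  have hNc : ∀ {w : (Cfg dc) → F}, Setup.Tst w → Continuous fun x => N1 (w x) := fun hw =>
    N1.continuous.comp hw.1.continuous
  have eN : (∫ x, inner ℂ (ζ x + v x) (N1 (ζ x + v x))).re =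
      (∫ x, inner ℂ (ζ x) (N1 (ζ x))).re + (∫ x, inner ℂ (v x) (N1 (v x))).re +
        ((∫ x, inner ℂ (v x) (N1 (ζ x))).re + (∫ x, inner ℂ (ζ x) (N1 (v x))).re) := by
    have e : ∀ x, inner ℂ (ζ x + v x) (N1 (ζ x + v x)) =
        (inner ℂ (ζ x) (N1 (ζ x)) + inner ℂ (v x) (N1 (v x))) +
        (inner ℂ (v x) (N1 (ζ x)) + inner ℂ (ζ x) (N1 (v x))) := fun x => by
      rw [map_add, inner_add_left, inner_add_right, inner_add_right]; ring
    have i1 : Integrable (fun x => inner ℂ (ζ x) (N1 (ζ x))) := hζ.inner_int (hNc hζ)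
    have i2 : Integrable (fun x => inner ℂ (v x) (N1 (v x))) := hv.inner_int (hNc hv)
    have i3 : Integrable (fun x => inner ℂ (v x) (N1 (ζ x))) := hv.inner_int (hNc hζ)
    have i4 : Integrable (fun x => inner ℂ (ζ x) (N1 (v x))) := hζ.inner_int (hNc hv)
    have i5 : Integrable (fun x => inner ℂ (ζ x) (N1 (ζ x)) + inner ℂ (v x) (N1 (v x))) :=
      i1.add i2
    have i6 : Integrable (fun x => inner ℂ (v x) (N1 (ζ x)) + inner ℂ (ζ x) (N1 (v x))) :=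
      i3.add i4
    simp only [e]
    rw [integral_add i5 i6, integral_add i1 i2, integral_add i3 i4]
    simp only [Complex.add_re]
  have ha : ∀ (w : (Cfg dc) → F) i A, (fun x => pd i A w x + ((D.A x (i, A) : ℝ) : ℂ) • w x) = l1a D i A w :=
    fun w i A => rfl
  simp only [ha] at h0 h1 h2
  rw [eN] at h0
  simp only [eQ, ea, Finset.sum_add_distrib, ← Finset.mul_sum] at h0
  simp only [Complex.re_sum]
  linarith

theorem l1_second {N1 : F →L[ℂ] F} (hE : L1En S ξ D N1) (N' : F →L[ℂ] F)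
    (hN : ∀ v w, inner ℂ (N' v) w = inner ℂ v (N1 w)) {ζ : (Cfg dc) → F} (hζ : Setup.Tst ζ) (x : (Cfg dc)) :
    ∑ β, S.Qlin ξ β (S.Qlin ξ β ζ) x = l1H D N1 N' ζ x := by
  have hQ : Setup.Tst (fun x => ∑ β, S.Qlin ξ β (S.Qlin ξ β ζ) x) :=
    l1_tst_sum _ fun β _ => l1_tst_Qlin S ξ (l1_tst_Qlin S ξ hζ β) β
  have hH := l1_tst_H D N1 N' hζ
  have hD := hQ.sub hH
  refine sub_eq_zero.mp (l1_self hD ?_ x)
  have e1 : ∀ y, inner ℂ ((∑ β, S.Qlin ξ β (S.Qlin ξ β ζ) y) - l1H D N1 N' ζ y)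
      ((∑ β, S.Qlin ξ β (S.Qlin ξ β ζ) y) - l1H D N1 N' ζ y) =
      inner ℂ (∑ β, S.Qlin ξ β (S.Qlin ξ β ζ) y)
        ((∑ β, S.Qlin ξ β (S.Qlin ξ β ζ) y) - l1H D N1 N' ζ y) -
      inner ℂ (l1H D N1 N' ζ y)
        ((∑ β, S.Qlin ξ β (S.Qlin ξ β ζ) y) - l1H D N1 N' ζ y) := fun y => by
    rw [inner_sub_left]
  simp only [e1]
  rw [integral_sub (hQ.inner_int hD.1.continuous) (hH.inner_int hD.1.continuous),
    l1_QQ S ξ hζ hD, l1_inner_H D N1 N' hN hζ hD, Complex.sub_re, l1_polar hE hζ hD]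
  have hc : (∫ x, inner ℂ ((∑ β, S.Qlin ξ β (S.Qlin ξ β ζ) x) - l1H D N1 N' ζ x)
      (N1 (ζ x))).re = (∫ x, inner ℂ (N1 (ζ x))
        ((∑ β, S.Qlin ξ β (S.Qlin ξ β ζ) x) - l1H D N1 N' ζ x)).re := by
    have : ∀ x, inner ℂ ((∑ β, S.Qlin ξ β (S.Qlin ξ β ζ) x) - l1H D N1 N' ζ x)
      (N1 (ζ x)) = conj (inner ℂ (N1 (ζ x))
        ((∑ β, S.Qlin ξ β (S.Qlin ξ β ζ) x) - l1H D N1 N' ζ x)) := fun x =>
      (inner_conj_symm _ _).symm
    simp only [this]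
    rw [integral_conj, Complex.conj_re]
  rw [hc]
  simp only [Complex.add_re, Complex.mul_re, Complex.re_ofNat, Complex.im_ofNat, zero_mul, sub_zero]
  linarith

end Vale.Agent.P353.Z.U
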