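import Vale.Agent.P353.BFSSLight
import Vale.Agent.P353.Z.U.MSet

/-! # P353, general `N`: algebra for the Gauss law (basis-free form of the generators) -/

open MeasureTheory Filter Topology
open scoped ContDiff

namespace Vale.Agent.P353.Z.U

variable {N d : ℕ} {F : Type*} [NormedAddCommGroup F] [InnerProductSpace ℂ F]

section algebra

variable (M : P353.Model N d F)

include M in
lemma mg_dim (hd : 0 < d) : 0 < N ∧ d + 1 = N * N := by
  have h := M.dim_eq
  have hN : 0 < N := by
    rcases Nat.eq_zero_or_pos N with h0 | h0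
    · rw [h0] at h
      simp at h
      omega
    · exact h0
  refine ⟨hN, ?_⟩
  have h2 : 0 < N * N := Nat.mul_pos hN hN
  rw [pow_two] at h
  omega

/-- coordinates of matrices -/
noncomputable def mgPhi : ((Fin d → ℂ) × ℂ) →ₗ[ℂ] Matrix (Fin N) (Fin N) ℂ where
  toFun p := ∑ A, p.1 A • M.T A + p.2 • (1 : Matrix (Fin N) (Fin N) ℂ)
  map_add' p q := by
    simp only [Prod.fst_add, Prod.snd_add, Pi.add_apply, add_smul, Finset.sum_add_distrib]
    abel
  map_smul' c p := by
    simp only [Prod.smul_fst, Prod.smul_snd, Pi.smul_apply, smul_eq_mul, RingHom.id_apply,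
      smul_add, Finset.smul_sum, smul_smul]

lemma mgPhi_trace (p : (Fin d → ℂ) × ℂ) : (mgPhi M p).trace = p.2 * (N : ℂ) := by
  simp only [mgPhi, LinearMap.coe_mk, AddHom.coe_mk, Matrix.trace_add, Matrix.trace_sum,
    Matrix.trace_smul, M.T_traceless, Matrix.trace_one, Fintype.card_fin, smul_eq_mul, mul_zero,
    Finset.sum_const_zero, zero_add]

lemma mgPhi_trace_mul (p : (Fin d → ℂ) × ℂ) (B : Fin d) :
    (mgPhi M p * M.T B).trace = p.1 B := by
  simp only [mgPhi, LinearMap.coe_mk, AddHom.coe_mk, Matrix.add_mul, Finset.sum_mul,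
    Matrix.smul_mul, Matrix.one_mul, Matrix.trace_add, Matrix.trace_sum, Matrix.trace_smul,
    M.T_orthonormal, M.T_traceless, smul_eq_mul, mul_zero, add_zero, mul_ite, mul_one]
  simp

/-- the `T_A` span the traceless matrices -/
lemma mg_complete (hd : 0 < d) (Y : Matrix (Fin N) (Fin N) ℂ) (hY : Y.trace = 0) :
    ∑ A, (Y * M.T A).trace • M.T A = Y := by
  obtain ⟨hN, hdN⟩ := mg_dim M hd
  have hN' : (N : ℂ) ≠ 0 := by exact_mod_cast hN.ne'
  have hinj : Function.Injective (mgPhi M) := by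
    rw [injective_iff_map_eq_zero]
    intro p hp
    have h1 := mgPhi_trace M p
    rw [hp, Matrix.trace_zero] at h1
    have h2 : p.2 = 0 := by
      rcases mul_eq_zero.1 h1.symm with h | h
      · exact h
      · exact absurd h hN'
    have h3 : p.1 = 0 := by
      funext B
      have h4 := mgPhi_trace_mul M p B
      rw [hp, Matrix.zero_mul, Matrix.trace_zero] at h4
      exact h4.symm
    exact Prod.ext h3 h2
  have hfin : Module.finrank ℂ ((Fin d → ℂ) × ℂ) =
      Module.finrank ℂ (Matrix (Fin N) (Fin N) ℂ) := by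
    rw [Module.finrank_prod, Module.finrank_fin_fun, Module.finrank_self, Module.finrank_matrix,
      Module.finrank_self, Fintype.card_fin, mul_one, hdN]
  have hsurj := (LinearMap.injective_iff_surjective_of_finrank_eq_finrank hfin).1 hinj
  obtain ⟨p, hp⟩ := hsurj Y
  have h1 := mgPhi_trace M p
  rw [hp, hY] at h1
  have h2 : p.2 = 0 := by
    rcases mul_eq_zero.1 h1.symm with h | h
    · exact h
    · exact absurd h hN'
  have h3 : ∀ B, (Y * M.T B).trace = p.1 B := by
    intro B
    rw [← hp, mgPhi_trace_mul]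
  simp only [h3]
  rw [← hp]
  simp only [mgPhi, LinearMap.coe_mk, AddHom.coe_mk, h2, zero_smul, add_zero]

/-- `θ_α(Y) = ∑ tr(Y T_A) θ_{αA}` -/
noncomputable def mgt (α : Fin 16) : Matrix (Fin N) (Fin N) ℂ →ₗ[ℂ] (F →L[ℂ] F) where
  toFun Y := ∑ A, (Y * M.T A).trace • M.θ α A
  map_add' X Y := by
    simp only [Matrix.add_mul, Matrix.trace_add, add_smul, Finset.sum_add_distrib]
  map_smul' c X := by
    simp only [Matrix.smul_mul, Matrix.trace_smul, smul_eq_mul, mul_smul, Finset.smul_sum,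
      RingHom.id_apply]

lemma mgt_apply (α : Fin 16) (Y : Matrix (Fin N) (Fin N) ℂ) :
    mgt M α Y = ∑ A, (Y * M.T A).trace • M.θ α A := rfl

lemma mgt_T (α : Fin 16) (A : Fin d) : mgt M α (M.T A) = M.θ α A := by
  rw [mgt_apply]
  simp only [M.T_orthonormal, ite_smul, one_smul, zero_smul]
  simp

/-- `θ^D·θ^E` -/
noncomputable def mgb (D E : Fin d) : F →L[ℂ] F := ∑ α, M.θ α D * M.θ α E

/-- `Z(X) = -(i/2) ∑ tr(X [T_D, T_E]) θ^D·θ^E` -/
noncomputable def mgz : Matrix (Fin N) (Fin N) ℂ →ₗ[ℂ] (F →L[ℂ] F) where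
  toFun X := (-Complex.I / 2) • ∑ D, ∑ E,
    (X * (M.T D * M.T E - M.T E * M.T D)).trace • mgb M D E
  map_add' X Y := by
    simp only [Matrix.add_mul, Matrix.trace_add, add_smul, Finset.sum_add_distrib, smul_add]
  map_smul' c X := by
    simp only [Matrix.smul_mul, Matrix.trace_smul, smul_eq_mul, mul_smul, Finset.smul_sum,
      RingHom.id_apply]
    simp only [smul_comm c]

lemma mgz_apply (X : Matrix (Fin N) (Fin N) ℂ) :
    mgz M X = (-Complex.I / 2) • ∑ D, ∑ E,
      (X * (M.T D * M.T E - M.T E * M.T D)).trace • mgb M D E := rfl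

lemma mgb_comm (D E A : Fin d) (β : Fin 16) :
    mgb M D E * M.θ β A - M.θ β A * mgb M D E =
      (if E = A then M.θ β D else 0) - (if D = A then M.θ β E else 0) := by
  have h : ∀ α, M.θ α D * M.θ α E * M.θ β A - M.θ β A * (M.θ α D * M.θ α E) =
      if α = β then ((if E = A then M.θ β D else 0) - (if D = A then M.θ β E else 0)) else 0 := by
    intro α
    have h1 := M.θ_anticomm α E β A
    have h2 := M.θ_anticomm α D β A
    have h3 : M.θ α D * M.θ α E * M.θ β A - M.θ β A * (M.θ α D * M.θ α E) =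
        M.θ α D * (M.θ α E * M.θ β A + M.θ β A * M.θ α E) -
        (M.θ α D * M.θ β A + M.θ β A * M.θ α D) * M.θ α E := by noncomm_ring
    rw [h3, h1, h2]
    by_cases hα : α = β
    · subst hα
      by_cases hE : E = A <;> by_cases hD : D = A <;> simp [hE, hD]
    · simp [hα]
  simp only [mgb, Finset.sum_mul, Finset.mul_sum, ← Finset.sum_sub_distrib, h]
  simp

lemma mgz_comm_theta (X : Matrix (Fin N) (Fin N) ℂ) (β : Fin 16) (A : Fin d) :
    mgz M X * M.θ β A - M.θ β A * mgz M X =
      Complex.I • mgt M β (X * M.T A - M.T A * X) := by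
  set c : Fin d → Fin d → ℂ := fun D E =>
    (X * (M.T D * M.T E - M.T E * M.T D)).trace with hc
  have hanti : ∀ D E, c E D = - c D E := by
    intro D E
    simp only [hc]
    rw [← Matrix.trace_neg, ← Matrix.mul_neg, neg_sub]
  have hcA : ∀ D, c D A = - ((X * M.T A - M.T A * X) * M.T D).trace := by
    intro D
    simp only [hc]
    rw [Matrix.mul_sub, Matrix.sub_mul, Matrix.trace_sub, Matrix.trace_sub]
    have e1 : (X * (M.T D * M.T A)).trace = (M.T A * X * M.T D).trace := by
      rw [← mul_assoc, Matrix.trace_mul_comm, ← mul_assoc]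
    have e2 : (X * (M.T A * M.T D)).trace = (X * M.T A * M.T D).trace := by
      rw [← mul_assoc]
    rw [e1, e2]
    ring
  have h1 : mgz M X * M.θ β A - M.θ β A * mgz M X =
      (-Complex.I / 2) • ∑ D, ∑ E, c D E • (mgb M D E * M.θ β A - M.θ β A * mgb M D E) := by
    rw [mgz_apply]
    simp only [smul_mul_assoc, mul_smul_comm, Finset.sum_mul, Finset.mul_sum, smul_sub,
      Finset.sum_sub_distrib, hc]
  have h2 : ∑ D, ∑ E, c D E • (mgb M D E * M.θ β A - M.θ β A * mgb M D E) =
      (2 : ℂ) • ∑ D, c D A • M.θ β D := by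
    simp only [mgb_comm, smul_sub, Finset.sum_sub_distrib, smul_ite, smul_zero]
    have e1 : ∑ D, ∑ E, (if E = A then c D E • M.θ β D else 0) = ∑ D, c D A • M.θ β D := by
      refine Finset.sum_congr rfl fun D _ => ?_
      simp
    have e2 : ∑ D, ∑ E, (if D = A then c D E • M.θ β E else 0) = - ∑ D, c D A • M.θ β D := by
      rw [Finset.sum_comm, ← Finset.sum_neg_distrib]
      refine Finset.sum_congr rfl fun E _ => ?_
      rw [hanti A E, neg_smul, neg_neg]
      simp
    rw [e1, e2, two_smul, sub_neg_eq_add]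
  rw [h1, h2, smul_smul, mgt_apply]
  simp only [hcA, neg_smul, Finset.sum_neg_distrib, smul_neg]
  rw [← neg_smul]
  congr 1
  ring

lemma mgz_comm (hd : 0 < d) (X Y : Matrix (Fin N) (Fin N) ℂ) (hY : Y.trace = 0) (β : Fin 16) :
    mgz M X * mgt M β Y - mgt M β Y * mgz M X = Complex.I • mgt M β (X * Y - Y * X) := by
  have h1 : mgz M X * mgt M β Y - mgt M β Y * mgz M X =
      ∑ A, (Y * M.T A).trace • (mgz M X * M.θ β A - M.θ β A * mgz M X) := by
    rw [mgt_apply]
    simp only [smul_mul_assoc, mul_smul_comm, Finset.sum_mul, Finset.mul_sum, smul_sub,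
      Finset.sum_sub_distrib]
  rw [h1]
  simp only [mgz_comm_theta]
  have h2 : ∑ A, (Y * M.T A).trace • (X * M.T A - M.T A * X) = X * Y - Y * X := by
    have h3 := mg_complete M hd Y hY
    nth_rewrite 2 [← h3]
    nth_rewrite 3 [← h3]
    simp only [smul_sub, Finset.sum_sub_distrib, Matrix.mul_sum, Matrix.sum_mul, Matrix.mul_smul,
      Matrix.smul_mul]
  rw [← h2, map_sum]
  simp only [map_smul, Finset.smul_sum]
  refine Finset.sum_congr rfl fun A _ => ?_
  rw [smul_comm]

/-- conjugation -/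
noncomputable def mgc (U X : Matrix (Fin N) (Fin N) ℂ) : Matrix (Fin N) (Fin N) ℂ :=
  U * X * U.conjTranspose

lemma mg_ad (U : Matrix.specialUnitaryGroup (Fin N) ℂ) (B A : Fin d) :
    ((P353.adCoeff M.T U B A : ℝ) : ℂ) = (mgc U.val (M.T A) * M.T B).trace := by
  have h1 : (M.T B * mgc U.val (M.T A)).trace = (mgc U.val (M.T A) * M.T B).trace :=
    Matrix.trace_mul_comm _ _
  have h2 : (starRingEnd ℂ) (M.T B * mgc U.val (M.T A)).trace =
      (M.T B * mgc U.val (M.T A)).trace := by
    have h3 : (M.T B * mgc U.val (M.T A)).conjTranspose = mgc U.val (M.T A) * M.T B := by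
      simp only [mgc, Matrix.conjTranspose_mul, Matrix.conjTranspose_conjTranspose,
        M.T_hermitian, mul_assoc]
    have h4 := Matrix.trace_conjTranspose (M.T B * mgc U.val (M.T A))
    rw [h3, ← h1] at h4
    exact h4.symm
  rw [← h1, ← Complex.conj_eq_iff_re.1 h2]
  rfl

lemma mgS_theta (U : Matrix.specialUnitaryGroup (Fin N) ℂ) (α : Fin 16) (A : Fin d) :
    M.S U * M.θ α A = mgt M α (mgc U.val (M.T A)) * M.S U := by
  rw [M.S_rotates, mgt_apply, Finset.sum_mul]
  refine Finset.sum_congr rfl fun B _ => ?_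
  rw [mg_ad, smul_mul_assoc]

lemma mgc_smul (U : Matrix (Fin N) (Fin N) ℂ) (c : ℂ) (X : Matrix (Fin N) (Fin N) ℂ) :
    mgc U (c • X) = c • mgc U X := by
  simp only [mgc, Matrix.mul_smul, Matrix.smul_mul]

lemma mgc_sum {ι : Type*} (s : Finset ι) (U : Matrix (Fin N) (Fin N) ℂ)
    (X : ι → Matrix (Fin N) (Fin N) ℂ) : mgc U (∑ i ∈ s, X i) = ∑ i ∈ s, mgc U (X i) := by
  simp only [mgc, Matrix.mul_sum, Matrix.sum_mul]

lemma mgS_mgt (hd : 0 < d) (U : Matrix.specialUnitaryGroup (Fin N) ℂ) (α : Fin 16)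
    (Y : Matrix (Fin N) (Fin N) ℂ) (hY : Y.trace = 0) :
    M.S U * mgt M α Y = mgt M α (mgc U.val Y) * M.S U := by
  have h1 : mgt M α (mgc U.val Y) = ∑ A, (Y * M.T A).trace • mgt M α (mgc U.val (M.T A)) := by
    have h3 := mg_complete M hd Y hY
    nth_rewrite 1 [← h3]
    rw [mgc_sum, map_sum]
    refine Finset.sum_congr rfl fun A _ => ?_
    rw [mgc_smul, map_smul]
  rw [h1, mgt_apply, Finset.mul_sum, Finset.sum_mul]
  refine Finset.sum_congr rfl fun A _ => ?_
  rw [mul_smul_comm, mgS_theta, smul_mul_assoc]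

lemma mg_unit (U : Matrix.specialUnitaryGroup (Fin N) ℂ) :
    U.val.conjTranspose * U.val = 1 ∧ U.val * U.val.conjTranspose = 1 := by
  have h := (Matrix.mem_specialUnitaryGroup_iff.1 U.2).1
  exact ⟨Matrix.mem_unitaryGroup_iff'.1 h, Matrix.mem_unitaryGroup_iff.1 h⟩

lemma mg_sum_conj (hd : 0 < d) (U : Matrix.specialUnitaryGroup (Fin N) ℂ) (B : Fin d) :
    ∑ D, (mgc U.val (M.T D) * M.T B).trace • M.T D = U.val.conjTranspose * M.T B * U.val := by
  have h1 : ∀ D, (mgc U.val (M.T D) * M.T B).trace =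
      (U.val.conjTranspose * M.T B * U.val * M.T D).trace := by
    intro D
    rw [mgc, mul_assoc, mul_assoc, Matrix.trace_mul_comm]
    simp only [mul_assoc]
    rw [Matrix.trace_mul_comm]
    simp only [mul_assoc]
  simp only [h1]
  apply mg_complete M hd
  rw [mul_assoc, Matrix.trace_mul_comm, mul_assoc, (mg_unit U).2, mul_one, M.T_traceless]

lemma mg_sum4 {V : Type*} [AddCommMonoid V] (f : Fin d → Fin d → Fin d → Fin d → V) :
    ∑ D, ∑ E, ∑ B, ∑ C, f D E B C = ∑ B, ∑ C, ∑ D, ∑ E, f D E B C := by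
  calc ∑ D, ∑ E, ∑ B, ∑ C, f D E B C = ∑ D, ∑ B, ∑ E, ∑ C, f D E B C :=
        Finset.sum_congr rfl fun D _ => Finset.sum_comm
    _ = ∑ B, ∑ D, ∑ E, ∑ C, f D E B C := Finset.sum_comm
    _ = ∑ B, ∑ D, ∑ C, ∑ E, f D E B C :=
        Finset.sum_congr rfl fun B _ => Finset.sum_congr rfl fun D _ => Finset.sum_comm
    _ = ∑ B, ∑ C, ∑ D, ∑ E, f D E B C := Finset.sum_congr rfl fun B _ => Finset.sum_comm

lemma mgS_mgb (U : Matrix.specialUnitaryGroup (Fin N) ℂ) (D E : Fin d) :
    M.S U * mgb M D E =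
      (∑ B, ∑ C, ((mgc U.val (M.T D) * M.T B).trace * (mgc U.val (M.T E) * M.T C).trace) •
        mgb M B C) * M.S U := by
  have h1 : ∀ α, M.S U * (M.θ α D * M.θ α E) =
      mgt M α (mgc U.val (M.T D)) * mgt M α (mgc U.val (M.T E)) * M.S U := by
    intro α
    rw [← mul_assoc, mgS_theta, mul_assoc, mgS_theta, mul_assoc]
  have h2 : ∀ α, mgt M α (mgc U.val (M.T D)) * mgt M α (mgc U.val (M.T E)) =
      ∑ B, ∑ C, ((mgc U.val (M.T D) * M.T B).trace * (mgc U.val (M.T E) * M.T C).trace) •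
        (M.θ α B * M.θ α C) := by
    intro α
    rw [mgt_apply, mgt_apply, Finset.sum_mul_sum]
    refine Finset.sum_congr rfl fun B _ => Finset.sum_congr rfl fun C _ => ?_
    rw [smul_mul_smul_comm]
  rw [mgb, Finset.mul_sum]
  simp only [h1, h2]
  rw [← Finset.sum_mul]
  congr 1
  rw [Finset.sum_comm]
  refine Finset.sum_congr rfl fun B _ => ?_
  rw [Finset.sum_comm]
  refine Finset.sum_congr rfl fun C _ => ?_
  rw [mgb, Finset.smul_sum]

lemma mg_coef (hd : 0 < d) (U : Matrix.specialUnitaryGroup (Fin N) ℂ)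
    (X : Matrix (Fin N) (Fin N) ℂ) (B C : Fin d) :
    (mgc U.val X * (M.T B * M.T C - M.T C * M.T B)).trace =
      ∑ D, ∑ E, (X * (M.T D * M.T E - M.T E * M.T D)).trace *
        ((mgc U.val (M.T D) * M.T B).trace * (mgc U.val (M.T E) * M.T C).trace) := by
  have hB := mg_sum_conj M hd U B
  have hC := mg_sum_conj M hd U C
  set a : Fin d → Fin d → ℂ := fun D B => (mgc U.val (M.T D) * M.T B).trace with ha
  have e1 : U.val.conjTranspose * M.T B * U.val * (U.val.conjTranspose * M.T C * U.val) -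
      U.val.conjTranspose * M.T C * U.val * (U.val.conjTranspose * M.T B * U.val) =
      ∑ D, ∑ E, (a D B * a E C) • (M.T D * M.T E - M.T E * M.T D) := by
    rw [← hB, ← hC, Finset.sum_mul_sum, Finset.sum_mul_sum, Finset.sum_comm (s := Finset.univ)
      (t := Finset.univ) (f := fun i j => (a i C • M.T i) * (a j B • M.T j)),
      ← Finset.sum_sub_distrib]
    refine Finset.sum_congr rfl fun D _ => ?_
    rw [← Finset.sum_sub_distrib]
    refine Finset.sum_congr rfl fun E _ => ?_
    rw [smul_mul_smul_comm, smul_mul_smul_comm, smul_sub, mul_comm (a E C)]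
  have e2 : (mgc U.val X * (M.T B * M.T C - M.T C * M.T B)).trace =
      (X * (U.val.conjTranspose * M.T B * U.val * (U.val.conjTranspose * M.T C * U.val) -
        U.val.conjTranspose * M.T C * U.val * (U.val.conjTranspose * M.T B * U.val))).trace := by
    have hU := (mg_unit U).2
    have e3 : ∀ P Q : Matrix (Fin N) (Fin N) ℂ, U.val.conjTranspose * P * U.val *
        (U.val.conjTranspose * Q * U.val) = U.val.conjTranspose * (P * Q) * U.val := by
      intro P Q
      calc U.val.conjTranspose * P * U.val * (U.val.conjTranspose * Q * U.val) =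
          U.val.conjTranspose * P * (U.val * U.val.conjTranspose) * Q * U.val := by
            simp only [mul_assoc]
        _ = _ := by rw [hU, mul_one]; simp only [mul_assoc]
    rw [e3, e3, ← Matrix.sub_mul, ← Matrix.mul_sub, mgc]
    rw [mul_assoc, mul_assoc, Matrix.trace_mul_comm]
    simp only [mul_assoc]
  rw [e2, e1]
  simp only [Finset.mul_sum, Matrix.mul_smul, Matrix.trace_sum, Matrix.trace_smul, smul_eq_mul]
  refine Finset.sum_congr rfl fun D _ => Finset.sum_congr rfl fun E _ => ?_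
  ring

lemma mgS_mgz (hd : 0 < d) (U : Matrix.specialUnitaryGroup (Fin N) ℂ)
    (X : Matrix (Fin N) (Fin N) ℂ) :
    M.S U * mgz M X = mgz M (mgc U.val X) * M.S U := by
  rw [mgz_apply, mgz_apply, mul_smul_comm, smul_mul_assoc]
  congr 1
  have h1 : M.S U * (∑ D, ∑ E, (X * (M.T D * M.T E - M.T E * M.T D)).trace • mgb M D E) =
      (∑ D, ∑ E, ∑ B, ∑ C, ((X * (M.T D * M.T E - M.T E * M.T D)).trace *
        ((mgc U.val (M.T D) * M.T B).trace * (mgc U.val (M.T E) * M.T C).trace)) • mgb M B C) *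
        M.S U := by
    rw [Finset.mul_sum, Finset.sum_mul]
    refine Finset.sum_congr rfl fun D _ => ?_
    rw [Finset.mul_sum, Finset.sum_mul]
    refine Finset.sum_congr rfl fun E _ => ?_
    rw [mul_smul_comm, mgS_mgb, ← smul_mul_assoc]
    congr 1
    simp only [Finset.smul_sum, smul_smul]
  rw [h1, mg_sum4]
  congr 1
  refine Finset.sum_congr rfl fun B _ => Finset.sum_congr rfl fun C _ => ?_
  rw [mg_coef M hd]
  simp only [Finset.sum_smul]

end algebra

end Vale.Agent.P353.Z.U
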