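import Vale.Agent.P353.Z.U.MGaussA

/-! # P353, general `N`: the action of the maximal torus -/

open MeasureTheory Filter Topology
open scoped ContDiff

namespace Vale.Agent.P353.Z.U

variable {N d : ℕ} {F : Type*} [NormedAddCommGroup F] [InnerProductSpace ℂ F]

/-! ### exponentials of operators -/

lemma mg_deriv_mul {a b : ℝ → F →L[ℂ] F} {a' b' : F →L[ℂ] F} {s : ℝ}
    (ha : HasDerivAt a a' s) (hb : HasDerivAt b b' s) :
    HasDerivAt (fun s => a s * b s) (a s * b' + a' * b s) s := by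
  have hB : IsBoundedBilinearMap ℝ (fun p : (F →L[ℂ] F) × (F →L[ℂ] F) => p.1 * p.2) := by
    refine ⟨fun a b c => by rw [add_mul], fun c a b => by rw [smul_mul_assoc],
      fun a b c => by rw [mul_add], fun c a b => by rw [mul_smul_comm], ?_⟩
    exact ⟨1, one_pos, fun x y => by rw [one_mul]; exact norm_mul_le x y⟩
  have h1 := hB.hasFDerivAt (a s, b s)
  have h2 := ha.prodMk hb
  have h3 := h1.comp_hasDerivAt s h2
  exact h3

section exp

variable [CompleteSpace F]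

/-- `exp (a z)` -/
noncomputable def mgE (z : F →L[ℂ] F) (a : ℝ) : F →L[ℂ] F := NormedSpace.exp ((a : ℂ) • z)

lemma mgE_deriv (z : F →L[ℂ] F) (a : ℝ) : HasDerivAt (mgE z) (z * mgE z a) a := by
  have h1 := hasDerivAt_exp_smul_const' (𝕂 := ℂ) z (a : ℂ)
  have h2 : HasDerivAt (fun s : ℝ => (s : ℂ)) 1 a := Complex.ofRealCLM.hasDerivAt
  have h3 := HasDerivAt.scomp a h1 h2
  rw [one_smul] at h3
  exact h3

lemma mgE_zero (z : F →L[ℂ] F) : mgE z 0 = 1 := by
  simp [mgE]

lemma mgE_add (z : F →L[ℂ] F) (s t : ℝ) : mgE z (s + t) = mgE z s * mgE z t := by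
  unfold mgE
  let _ : NormedAlgebra ℚ (F →L[ℂ] F) := NormedAlgebra.restrictScalars ℚ ℂ _
  rw [← NormedSpace.exp_add_of_commute, ← add_smul]
  · push_cast; rfl
  · exact ((Commute.refl _).smul_left _).smul_right _

lemma mgE_comm {z y : F →L[ℂ] F} (h : Commute y z) (a : ℝ) : Commute y (mgE z a) :=
  Commute.exp_right (h.smul_right _)

lemma mgE_deriv_neg (z : F →L[ℂ] F) (a : ℝ) :
    HasDerivAt (fun s => mgE z (-s)) (-(z * mgE z (-a))) a := by
  have h := HasDerivAt.scomp a (mgE_deriv z (-a)) (hasDerivAt_neg a)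
  rw [neg_one_smul] at h
  exact h

lemma mgE_neg_mul (z : F →L[ℂ] F) (a : ℝ) : mgE z (-a) * mgE z a = 1 := by
  rw [← mgE_add, neg_add_cancel, mgE_zero]

lemma mgE_mul_neg (z : F →L[ℂ] F) (a : ℝ) : mgE z a * mgE z (-a) = 1 := by
  rw [← mgE_add, add_neg_cancel, mgE_zero]

lemma mgE_add_of_comm {y z : F →L[ℂ] F} (h : Commute y z) (a : ℝ) :
    mgE (y + z) a = mgE y a * mgE z a := by
  unfold mgE
  let _ : NormedAlgebra ℚ (F →L[ℂ] F) := NormedAlgebra.restrictScalars ℚ ℂ _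
  rw [smul_add, NormedSpace.exp_add_of_commute ((h.smul_left _).smul_right _)]

/-- solutions of `X' = [z, X]` -/
lemma mgE_conj (z : F →L[ℂ] F) (X : ℝ → F →L[ℂ] F)
    (hX : ∀ s, HasDerivAt X (z * X s - X s * z) s) (a : ℝ) :
    mgE z (-a) * X a = X 0 * mgE z (-a) := by
  have hφ : ∀ s, HasDerivAt (fun s => mgE z (-s) * X s * mgE z s) 0 s := by
    intro s
    have h := mg_deriv_mul (mg_deriv_mul (mgE_deriv_neg z s) (hX s)) (mgE_deriv z s)
    refine h.congr_deriv ?_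
    have hc : z * mgE z (-s) = mgE z (-s) * z := mgE_comm (Commute.refl z) (-s)
    rw [hc]
    noncomm_ring
  have hconst := is_const_of_deriv_eq_zero (fun s => (hφ s).differentiableAt)
    (fun s => (hφ s).deriv) a 0
  simp only [neg_zero, mgE_zero, mul_one, one_mul] at hconst
  rw [← hconst, mul_assoc, mgE_mul_neg, mul_one]

lemma mgE_ne_zero [Nontrivial F] (z : F →L[ℂ] F) (a : ℝ) : mgE z a ≠ 0 := by
  intro h
  have h1 := mgE_neg_mul z a
  rw [h, mul_zero] at h1
  obtain ⟨v, hv⟩ := exists_ne (0 : F)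
  have h2 := congrArg (fun T : F →L[ℂ] F => T v) h1
  simp only [_root_.zero_apply, one_apply_eq_self] at h2
  exact hv h2.symm

end exp

/-! ### derivatives of matrix valued curves -/

lemma mg_deriv_lin {V : Type*} [NormedAddCommGroup V] [NormedSpace ℂ V]
    (L : Matrix (Fin N) (Fin N) ℂ →ₗ[ℂ] V) {Y : ℝ → Matrix (Fin N) (Fin N) ℂ}
    {Y' : Matrix (Fin N) (Fin N) ℂ} {s : ℝ}
    (h : ∀ j k, HasDerivAt (fun t => Y t j k) (Y' j k) s) :
    HasDerivAt (fun t => L (Y t)) (L Y') s := by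
  have hL : ∀ X : Matrix (Fin N) (Fin N) ℂ, L X = ∑ j, ∑ k, X j k • L (Matrix.single j k 1) := by
    intro X
    nth_rewrite 1 [Matrix.matrix_eq_sum_single X]
    simp only [map_sum]
    refine Finset.sum_congr rfl fun j _ => Finset.sum_congr rfl fun k _ => ?_
    rw [← map_smul, Matrix.smul_single, smul_eq_mul, mul_one]
  have e : (fun t => L (Y t)) = fun t => ∑ j, ∑ k, Y t j k • L (Matrix.single j k 1) := by
    funext t
    exact hL (Y t)
  rw [e, hL Y']
  exact HasDerivAt.fun_sum fun j _ => HasDerivAt.fun_sum fun k _ => (h j k).smul_const _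

/-! ### the torus -/

/-- diagonal traceless matrices -/
def mgH (N : ℕ) : Submodule ℝ (Fin N → ℝ) where
  carrier := {x | ∑ j, x j = 0}
  add_mem' := by
    intro x y hx hy
    have hx' : ∑ j, x j = 0 := hx
    have hy' : ∑ j, y j = 0 := hy
    show ∑ j, (x + y) j = 0
    simp only [Pi.add_apply, Finset.sum_add_distrib, hx', hy', add_zero]
  zero_mem' := by
    show ∑ j, (0 : Fin N → ℝ) j = 0
    simp
  smul_mem' := by
    intro c x hx
    have hx' : ∑ j, x j = 0 := hx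
    show ∑ j, (c • x) j = 0
    simp only [Pi.smul_apply, smul_eq_mul, ← Finset.mul_sum, hx', mul_zero]

lemma mgH_sum (x : mgH N) : ∑ j, x.1 j = 0 := x.2

/-- the diagonal matrix of `x` -/
noncomputable def mgd (x : mgH N) : Matrix (Fin N) (Fin N) ℂ :=
  Matrix.diagonal fun j => ((x.1 j : ℝ) : ℂ)

/-- the matrix `exp (i x)` -/
noncomputable def mgtorM (x : mgH N) : Matrix (Fin N) (Fin N) ℂ :=
  Matrix.diagonal fun j => Complex.exp (((x.1 j : ℝ) : ℂ) * Complex.I)

lemma mgtorM_mem (x : mgH N) : mgtorM x ∈ Matrix.specialUnitaryGroup (Fin N) ℂ := by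
  rw [Matrix.mem_specialUnitaryGroup_iff]
  constructor
  · rw [Matrix.mem_unitaryGroup_iff, Matrix.star_eq_conjTranspose, mgtorM,
      Matrix.diagonal_conjTranspose, Matrix.diagonal_mul_diagonal, ← Matrix.diagonal_one]
    congr 1
    funext j
    rw [Pi.star_apply, RCLike.star_def, ← Complex.exp_conj, ← Complex.exp_add, map_mul,
      Complex.conj_ofReal, Complex.conj_I]
    simp
  · rw [mgtorM, Matrix.det_diagonal, ← Complex.exp_sum, ← Finset.sum_mul, ← Complex.ofReal_sum,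
      mgH_sum]
    simp

/-- the element of the torus -/
noncomputable def mgtor (x : mgH N) : Matrix.specialUnitaryGroup (Fin N) ℂ :=
  ⟨mgtorM x, mgtorM_mem x⟩

lemma mgtor_add (x y : mgH N) : mgtor (x + y) = mgtor x * mgtor y := by
  apply Subtype.ext
  show mgtorM (x + y) = mgtorM x * mgtorM y
  rw [mgtorM, mgtorM, mgtorM, Matrix.diagonal_mul_diagonal]
  congr 1
  funext j
  rw [← Complex.exp_add]
  congr 1
  show (((x.1 j + y.1 j : ℝ)) : ℂ) * Complex.I = _
  push_cast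
  ring

lemma mgtor_zero : mgtor (0 : mgH N) = 1 := by
  apply Subtype.ext
  show mgtorM 0 = 1
  rw [mgtorM, ← Matrix.diagonal_one]
  congr 1
  funext j
  show Complex.exp (((0 : ℝ) : ℂ) * Complex.I) = 1
  simp

lemma mgc_tor_apply (x : mgH N) (X : Matrix (Fin N) (Fin N) ℂ) (j k : Fin N) :
    mgc (mgtorM x) X j k =
      Complex.exp (((x.1 j : ℝ) : ℂ) * Complex.I) * X j k *
        Complex.exp (-((x.1 k : ℝ) : ℂ) * Complex.I) := by
  rw [mgc, mgtorM, Matrix.diagonal_conjTranspose, Matrix.mul_diagonal, Matrix.diagonal_mul,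
    Pi.star_apply, RCLike.star_def, ← Complex.exp_conj, map_mul, Complex.conj_ofReal,
    Complex.conj_I]
  congr 2
  ring

lemma mgc_tor_deriv (x : mgH N) (X : Matrix (Fin N) (Fin N) ℂ) (s : ℝ) (j k : Fin N) :
    HasDerivAt (fun t : ℝ => mgc (mgtorM (t • x)) X j k)
      ((Complex.I • (mgd x * mgc (mgtorM (s • x)) X - mgc (mgtorM (s • x)) X * mgd x)) j k) s := by
  have e1 : ∀ t : ℝ, mgc (mgtorM (t • x)) X j k =
      Complex.exp ((t : ℂ) * (((x.1 j : ℝ) : ℂ) * Complex.I - ((x.1 k : ℝ) : ℂ) * Complex.I)) *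
        X j k := by
    intro t
    rw [mgc_tor_apply]
    have h1 : ∀ i, (((t • x).1 i : ℝ) : ℂ) = (t : ℂ) * ((x.1 i : ℝ) : ℂ) := by
      intro i
      show ((t * x.1 i : ℝ) : ℂ) = _
      push_cast
      ring
    rw [h1, h1, mul_right_comm, ← Complex.exp_add]
    congr 2
    ring
  have e2 : (fun t : ℝ => mgc (mgtorM (t • x)) X j k) = fun t : ℝ =>
      Complex.exp ((t : ℂ) * (((x.1 j : ℝ) : ℂ) * Complex.I - ((x.1 k : ℝ) : ℂ) * Complex.I)) *
        X j k := by
    funext t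
    exact e1 t
  have h2 : HasDerivAt (fun t : ℝ => (t : ℂ) * (((x.1 j : ℝ) : ℂ) * Complex.I -
      ((x.1 k : ℝ) : ℂ) * Complex.I))
      (((x.1 j : ℝ) : ℂ) * Complex.I - ((x.1 k : ℝ) : ℂ) * Complex.I) s := by
    have h3 : HasDerivAt (fun t : ℝ => (t : ℂ)) 1 s := Complex.ofRealCLM.hasDerivAt
    have h4 := h3.mul_const (((x.1 j : ℝ) : ℂ) * Complex.I - ((x.1 k : ℝ) : ℂ) * Complex.I)
    rwa [one_mul] at h4
  have h5 := (h2.cexp).mul_const (X j k)
  rw [e2]
  refine h5.congr_deriv ?_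
  rw [Matrix.smul_apply, Matrix.sub_apply, mgd, Matrix.diagonal_mul, Matrix.mul_diagonal, e1,
    smul_eq_mul]
  ring

lemma mgc_trace (U : Matrix.specialUnitaryGroup (Fin N) ℂ) (X : Matrix (Fin N) (Fin N) ℂ) :
    (mgc U.val X).trace = X.trace := by
  rw [mgc, Matrix.trace_mul_comm, ← mul_assoc, (mg_unit U).1, one_mul]

section torus

variable [CompleteSpace F] (M : P353.Model N d F)

lemma mgE_tor (hd : 0 < d) (x : mgH N) (α : Fin 16) (A : Fin d) (s : ℝ) :
    mgE (mgz M (mgd x)) (-s) * mgt M α (mgc (mgtorM (s • x)) (M.T A)) =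
      M.θ α A * mgE (mgz M (mgd x)) (-s) := by
  have hX : ∀ s : ℝ, HasDerivAt (fun t : ℝ => mgt M α (mgc (mgtorM (t • x)) (M.T A)))
      (mgz M (mgd x) * mgt M α (mgc (mgtorM (s • x)) (M.T A)) -
        mgt M α (mgc (mgtorM (s • x)) (M.T A)) * mgz M (mgd x)) s := by
    intro s
    have h1 := mg_deriv_lin (mgt M α) (mgc_tor_deriv x (M.T A) s)
    rw [map_smul, ← mgz_comm M hd] at h1
    · exact h1
    · have h2 := mgc_trace (mgtor (s • x)) (M.T A)
      rw [M.T_traceless] at h2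
      exact h2
  have h := mgE_conj (mgz M (mgd x)) _ hX s
  have h0 : mgc (mgtorM ((0 : ℝ) • x)) (M.T A) = M.T A := by
    have h1 : mgtorM ((0 : ℝ) • x) = 1 := by
      rw [zero_smul]
      exact congrArg Subtype.val (mgtor_zero (N := N))
    rw [h1, mgc, Matrix.conjTranspose_one, one_mul, mul_one]
  simp only [h0, mgt_T] at h
  exact h

omit [CompleteSpace F] in
/-- Schur's lemma -/
lemma mg_schur [FiniteDimensional ℂ F] (K : F →L[ℂ] F)
    (hK : ∀ α A, K * M.θ α A = M.θ α A * K) : ∃ μ : ℂ, K = μ • (1 : F →L[ℂ] F) := by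
  have : Nontrivial F := by
    obtain ⟨v, hv⟩ := M.nontrivial
    exact ⟨v, 0, hv⟩
  obtain ⟨μ, hμ⟩ := Module.End.exists_eigenvalue (K : F →ₗ[ℂ] F)
  refine ⟨μ, ?_⟩
  have hinv : ∀ α A, ∀ v ∈ Module.End.eigenspace (K : F →ₗ[ℂ] F) μ,
      M.θ α A v ∈ Module.End.eigenspace (K : F →ₗ[ℂ] F) μ := by
    intro α A v hv
    rw [Module.End.mem_eigenspace_iff] at hv ⊢
    have h1 := congrArg (fun T : F →L[ℂ] F => T v) (hK α A)
    simp only [mul_apply_eq_comp] at h1
    have hv' : K v = μ • v := hv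
    change K (M.θ α A v) = μ • M.θ α A v
    rw [h1, hv', map_smul]
  rcases M.θ_irreducible _ hinv with h | h
  · exact absurd h hμ
  · ext v
    have hv : v ∈ Module.End.eigenspace (K : F →ₗ[ℂ] F) μ := by rw [h]; trivial
    rw [Module.End.mem_eigenspace_iff] at hv
    exact hv

lemma mg_lambda [FiniteDimensional ℂ F] (hd : 0 < d) (x : mgH N) (s : ℝ) :
    ∃ μ : ℂ, M.S (mgtor (s • x)) = μ • mgE (mgz M (mgd x)) s := by
  obtain ⟨μ, hμ⟩ := mg_schur M (mgE (mgz M (mgd x)) (-s) * M.S (mgtor (s • x))) (by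
    intro α A
    rw [mul_assoc, mgS_theta, ← mul_assoc]
    have h := mgE_tor M hd x α A s
    rw [show (mgtor (s • x)).val = mgtorM (s • x) from rfl, h, mul_assoc])
  refine ⟨μ, ?_⟩
  calc M.S (mgtor (s • x)) = (mgE (mgz M (mgd x)) s * mgE (mgz M (mgd x)) (-s)) *
        M.S (mgtor (s • x)) := by rw [mgE_mul_neg, one_mul]
    _ = mgE (mgz M (mgd x)) s * (mgE (mgz M (mgd x)) (-s) * M.S (mgtor (s • x))) := by
        rw [mul_assoc]
    _ = μ • mgE (mgz M (mgd x)) s := by rw [hμ, mul_smul_comm, mul_one]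

end torus

end Vale.Agent.P353.Z.U
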