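import Vale.Agent.P353.Z.U.MGaussB

/-! # P353, general `N`: `S(exp(i x)) = exp(Z(x))` on the torus -/

open MeasureTheory Filter Topology
open scoped ContDiff

namespace Vale.Agent.P353.Z.U

variable {N d : ℕ} {F : Type*} [NormedAddCommGroup F] [InnerProductSpace ℂ F]

lemma mgd_smul (s : ℝ) (x : mgH N) : mgd (s • x) = (s : ℂ) • mgd x := by
  rw [mgd, mgd, ← Matrix.diagonal_smul]
  congr 1
  funext j
  show ((s * x.1 j : ℝ) : ℂ) = (s : ℂ) • ((x.1 j : ℝ) : ℂ)
  rw [smul_eq_mul]
  push_cast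
  ring

lemma mgd_add (x y : mgH N) : mgd (x + y) = mgd x + mgd y := by
  rw [mgd, mgd, mgd, Matrix.diagonal_add]
  congr 1
  funext j
  show ((x.1 j + y.1 j : ℝ) : ℂ) = _
  push_cast
  ring

lemma mgd_zero : mgd (0 : mgH N) = 0 := by
  have h := mgd_smul (0 : ℝ) (0 : mgH N)
  rw [zero_smul, Complex.ofReal_zero, zero_smul] at h
  exact h

lemma mgc_tor_diag (y x : mgH N) : mgc (mgtorM y) (mgd x) = mgd x := by
  have h1 := (mg_unit (mgtor y)).2
  have h2 : (mgtor y).val = mgtorM y := rfl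
  rw [h2] at h1
  have h3 : mgtorM y * mgd x = mgd x * mgtorM y := by
    rw [mgtorM, mgd, Matrix.diagonal_mul_diagonal, Matrix.diagonal_mul_diagonal]
    congr 1
    funext j
    ring
  rw [mgc, h3, mul_assoc, h1, mul_one]

/-- unitary matrices can be replaced by special unitary matrices -/
lemma mg_phase (hN : 0 < N) (V : Matrix (Fin N) (Fin N) ℂ)
    (hV : V ∈ Matrix.unitaryGroup (Fin N) ℂ) :
    ∃ U : Matrix.specialUnitaryGroup (Fin N) ℂ, ∀ Y, mgc U.val Y = mgc V Y := by
  have hV2 := Matrix.mem_unitaryGroup_iff.1 hV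
  rw [Matrix.star_eq_conjTranspose] at hV2
  have hdet : V.det * (starRingEnd ℂ) V.det = 1 := by
    have h1 := congrArg Matrix.det hV2
    rw [Matrix.det_mul, Matrix.det_conjTranspose, Matrix.det_one] at h1
    exact h1
  have hnorm : ‖V.det‖ = 1 := by
    have h1 := congrArg norm hdet
    rw [norm_mul, RCLike.norm_conj, norm_one] at h1
    have h2 : (0 : ℝ) ≤ ‖V.det‖ := norm_nonneg _
    nlinarith
  have hne : V.det ≠ 0 := by
    intro h
    rw [h, norm_zero] at hnorm
    exact zero_ne_one hnorm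
  obtain ⟨ζ, hζ⟩ := IsAlgClosed.exists_pow_nat_eq (V.det)⁻¹ hN
  have hζn : ‖ζ‖ = 1 := by
    have h1 := congrArg norm hζ
    rw [norm_pow, norm_inv, hnorm, inv_one] at h1
    exact (pow_eq_one_iff_of_nonneg (norm_nonneg _) hN.ne').1 h1
  have hζζ : ζ * (starRingEnd ℂ) ζ = 1 := by
    rw [Complex.mul_conj, Complex.normSq_eq_norm_sq, hζn]
    norm_num
  have hconj : ∀ Y, (ζ • V) * Y * (ζ • V).conjTranspose = V * Y * V.conjTranspose := by
    intro Y
    rw [Matrix.conjTranspose_smul, Matrix.smul_mul, Matrix.smul_mul, Matrix.mul_smul, smul_smul,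
      RCLike.star_def, hζζ, one_smul]
  refine ⟨⟨ζ • V, ?_⟩, fun Y => hconj Y⟩
  rw [Matrix.mem_specialUnitaryGroup_iff]
  constructor
  · rw [Matrix.mem_unitaryGroup_iff, Matrix.star_eq_conjTranspose]
    have h1 := hconj 1
    rw [mul_one, mul_one, hV2] at h1
    exact h1
  · rw [Matrix.det_smul, Fintype.card_fin, hζ, inv_mul_cancel₀ hne]

/-- permutation matrices -/
lemma mg_perm (hN : 0 < N) (σ : Equiv.Perm (Fin N)) :
    ∃ U : Matrix.specialUnitaryGroup (Fin N) ℂ, ∀ y : Fin N → ℂ,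
      mgc U.val (Matrix.diagonal y) = Matrix.diagonal (fun j => y (σ j)) := by
  set V : Matrix (Fin N) (Fin N) ℂ := Matrix.of fun i j => if σ i = j then 1 else 0 with hVdef
  have hV : ∀ y : Fin N → ℂ,
      V * Matrix.diagonal y * V.conjTranspose = Matrix.diagonal (fun j => y (σ j)) := by
    intro y
    ext i k
    rw [Matrix.mul_apply]
    have h1 : ∀ j, (V * Matrix.diagonal y) i j * V.conjTranspose j k =
        if σ i = j then (if σ k = j then y j else 0) else 0 := by
      intro j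
      rw [Matrix.mul_diagonal, Matrix.conjTranspose_apply, hVdef, Matrix.of_apply,
        Matrix.of_apply]
      by_cases h1 : σ i = j <;> by_cases h2 : σ k = j <;> simp [h1, h2]
    simp only [h1]
    rw [Finset.sum_ite_eq Finset.univ (σ i), if_pos (Finset.mem_univ _), Matrix.diagonal_apply]
    by_cases h : i = k
    · rw [if_pos h, h, if_pos rfl]
    · rw [if_neg h, if_neg (fun h2 => h (σ.injective h2).symm)]
  have hmem : V ∈ Matrix.unitaryGroup (Fin N) ℂ := by
    rw [Matrix.mem_unitaryGroup_iff, Matrix.star_eq_conjTranspose]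
    have h1 := hV (fun _ => 1)
    have h2 : (Matrix.diagonal fun _ : Fin N => (1 : ℂ)) = 1 := Matrix.diagonal_one
    rw [h2, mul_one] at h1
    exact h1
  obtain ⟨U, hU⟩ := mg_phase hN V hmem
  exact ⟨U, fun y => by rw [hU, mgc, hV]⟩

section torus

variable [CompleteSpace F] (M : P353.Model N d F)

lemma mgE_semi {z z' A : F →L[ℂ] F} (h : A * z = z' * A) (a : ℝ) :
    A * mgE z a = mgE z' a * A := by
  have hφ : ∀ s, HasDerivAt (fun s => mgE z' (-s) * A * mgE z s) 0 s := by
    intro s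
    have h1 := mg_deriv_mul (mg_deriv_mul (mgE_deriv_neg z' s) (hasDerivAt_const s A))
      (mgE_deriv z s)
    refine h1.congr_deriv ?_
    have hc : z' * mgE z' (-s) = mgE z' (-s) * z' := mgE_comm (Commute.refl z') (-s)
    have e1 : mgE z' (-s) * A * (z * mgE z s) = mgE z' (-s) * (A * z) * mgE z s := by
      noncomm_ring
    rw [e1, h, hc]
    noncomm_ring
  have hconst := is_const_of_deriv_eq_zero (fun s => (hφ s).differentiableAt)
    (fun s => (hφ s).deriv) a 0
  simp only [neg_zero, mgE_zero, mul_one, one_mul] at hconst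
  calc A * mgE z a = mgE z' a * (mgE z' (-a) * A * mgE z a) := by
        rw [mul_assoc (mgE z' (-a)), ← mul_assoc (mgE z' a), mgE_mul_neg, one_mul]
    _ = mgE z' a * A := by rw [hconst]

lemma mgE_smul (z : F →L[ℂ] F) (s : ℝ) : mgE ((s : ℂ) • z) 1 = mgE z s := by
  unfold mgE
  rw [Complex.ofReal_one, one_smul]

omit [CompleteSpace F] in
include M in
lemma mg_nontriv : Nontrivial F := by
  obtain ⟨v, hv⟩ := M.nontrivial
  exact ⟨v, 0, hv⟩

omit [CompleteSpace F] in
lemma mgS_inv (U : Matrix.specialUnitaryGroup (Fin N) ℂ) : M.S U * M.S U⁻¹ = 1 := by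
  rw [← map_mul, mul_inv_cancel, map_one]

lemma mgz_commute [FiniteDimensional ℂ F] (hd : 0 < d) (x y : mgH N) :
    Commute (mgz M (mgd x)) (mgz M (mgd y)) := by
  have hcomm : ∀ s : ℝ, mgE (mgz M (mgd y)) s * mgz M (mgd x) =
      mgz M (mgd x) * mgE (mgz M (mgd y)) s := by
    intro s
    obtain ⟨μ, hμ⟩ := mg_lambda M hd y s
    have hμ0 : μ ≠ 0 := by
      intro h0
      have h1 := mgS_inv M (mgtor (s • y))
      rw [hμ, h0, zero_smul, zero_mul] at h1
      have := mg_nontriv M
      exact zero_ne_one h1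
    have h1 := mgS_mgz M hd (mgtor (s • y)) (mgd x)
    rw [show (mgtor (s • y)).val = mgtorM (s • y) from rfl, mgc_tor_diag, hμ, smul_mul_assoc,
      mul_smul_comm] at h1
    exact smul_right_injective _ hμ0 h1
  have h1 := mg_deriv_mul (mgE_deriv (mgz M (mgd y)) 0) (hasDerivAt_const (0 : ℝ) (mgz M (mgd x)))
  have h2 := mg_deriv_mul (hasDerivAt_const (0 : ℝ) (mgz M (mgd x))) (mgE_deriv (mgz M (mgd y)) 0)
  have h3 : (fun s => mgE (mgz M (mgd y)) s * mgz M (mgd x)) =
      fun s => mgz M (mgd x) * mgE (mgz M (mgd y)) s := funext hcomm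
  rw [h3] at h1
  have h4 := h1.unique h2
  simp only [mgE_zero, mul_zero, mul_one, zero_add, add_zero] at h4
  exact h4.symm

/-- **the torus acts by exponentials** -/
theorem mgS_tor [FiniteDimensional ℂ F] (hd : 0 < d) (x : mgH N) :
    M.S (mgtor x) = mgE (mgz M (mgd x)) 1 := by
  obtain ⟨hN, -⟩ := mg_dim M hd
  have hnt := mg_nontriv M
  have hex : ∀ x : mgH N, ∃ μ : ℂ, M.S (mgtor x) = μ • mgE (mgz M (mgd x)) 1 := by
    intro x
    have h := mg_lambda M hd x 1
    rwa [one_smul] at h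
  choose lam hlam using hex
  have hcancel : ∀ (a b : ℂ) (x : mgH N), a • mgE (mgz M (mgd x)) 1 = b • mgE (mgz M (mgd x)) 1 →
      a = b := by
    intro a b x hab
    have h1 : (a - b) • mgE (mgz M (mgd x)) 1 = 0 := by rw [sub_smul, hab, sub_self]
    rcases smul_eq_zero.mp h1 with h | h
    · exact sub_eq_zero.mp h
    · exact absurd h (mgE_ne_zero _ _)
  have hadd : ∀ x y, lam (x + y) = lam x * lam y := by
    intro x y
    apply hcancel _ _ (x + y)
    rw [← hlam, mgtor_add, map_mul, hlam, hlam, smul_mul_smul_comm, mgd_add, map_add,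
      mgE_add_of_comm (mgz_commute M hd x y)]
  have h0 : lam 0 = 1 := by
    apply hcancel _ _ 0
    rw [← hlam, mgtor_zero, map_one, one_smul, mgd_zero, map_zero]
    unfold mgE
    rw [smul_zero, NormedSpace.exp_zero]
  have hsum : ∀ (s : Finset (Fin N)) (f : Fin N → mgH N), lam (∑ i ∈ s, f i) = ∏ i ∈ s, lam (f i) := by
    intro s f
    induction s using Finset.induction_on with
    | empty => rw [Finset.sum_empty, Finset.prod_empty, h0]
    | insert a s ha ih => rw [Finset.sum_insert ha, Finset.prod_insert ha, hadd, ih]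
  have hperm : ∀ (σ : Equiv.Perm (Fin N)) (x : mgH N) (hx : ∑ j, x.1 (σ j) = 0),
      lam ⟨fun j => x.1 (σ j), hx⟩ = lam x := by
    intro σ x hx
    set y : mgH N := ⟨fun j => x.1 (σ j), hx⟩ with hy
    obtain ⟨U, hU⟩ := mg_perm hN σ
    have e1 : mgc U.val (mgd x) = mgd y := hU _
    have e2 : mgc U.val (mgtorM x) = mgtorM y := hU _
    have e3 : mgtor y * U = U * mgtor x := by
      apply Subtype.ext
      show mgtorM y * U.val = U.val * mgtorM x
      rw [← e2, mgc, mul_assoc, (mg_unit U).1, mul_one]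
    have e4 : M.S U * mgE (mgz M (mgd x)) 1 = mgE (mgz M (mgd y)) 1 * M.S U := by
      apply mgE_semi
      rw [mgS_mgz M hd, e1]
    have e5 := congrArg M.S e3
    rw [map_mul, map_mul, hlam, hlam, mul_smul_comm, e4, smul_mul_assoc] at e5
    have e6 := congrArg (fun T => T * M.S U⁻¹) e5
    simp only [smul_mul_assoc, mul_assoc, mgS_inv, mul_one] at e6
    exact hcancel _ _ _ e6
  have hNe : NeZero N := ⟨hN.ne'⟩
  have hpow : ∀ x, lam x ^ N = 1 := by
    intro x
    have hx : ∀ i : Fin N, ∑ j, x.1 ((Equiv.addRight i) j) = 0 := by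
      intro i
      rw [Equiv.sum_comp (Equiv.addRight i) x.1]
      exact x.2
    have h1 := hsum Finset.univ (fun i => ⟨fun j => x.1 ((Equiv.addRight i) j), hx i⟩)
    simp only [hperm] at h1
    rw [Finset.prod_const, Finset.card_univ, Fintype.card_fin] at h1
    rw [← h1]
    have h2 : (∑ i : Fin N, (⟨fun j => x.1 ((Equiv.addRight i) j), hx i⟩ : mgH N)) = 0 := by
      apply Subtype.ext
      funext j
      rw [AddSubmonoidClass.coe_finsetSum, Finset.sum_apply]
      show ∑ i, x.1 ((Equiv.addLeft j) i) = 0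
      rw [Equiv.sum_comp (Equiv.addLeft j) x.1]
      exact x.2
    rw [h2, h0]
  have hone : lam x = 1 := by
    have h1 := hsum Finset.univ (fun _ => ((N : ℝ)⁻¹) • x)
    rw [Finset.prod_const, Finset.card_univ, Fintype.card_fin, hpow, Finset.sum_const,
      Finset.card_univ, Fintype.card_fin] at h1
    have hN' : (N : ℝ) ≠ 0 := by exact_mod_cast hN.ne'
    have h2 : N • ((N : ℝ)⁻¹ • x) = x := by
      rw [← Nat.cast_smul_eq_nsmul ℝ, smul_smul, mul_inv_cancel₀ hN', one_smul]
    rwa [h2] at h1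
  rw [hlam, hone, one_smul]

/-- **conjugates of the torus act by exponentials** -/
theorem mgS_conj [FiniteDimensional ℂ F] (hd : 0 < d)
    (U : Matrix.specialUnitaryGroup (Fin N) ℂ) (x : mgH N) (t : ℝ) :
    M.S (U * mgtor (t • x) * U⁻¹) = mgE (mgz M (mgc U.val (mgd x))) t := by
  have h1 : M.S U * mgE (mgz M (mgd x)) t = mgE (mgz M (mgc U.val (mgd x))) t * M.S U := by
    apply mgE_semi
    rw [mgS_mgz M hd]
  rw [map_mul, map_mul, mgS_tor M hd, mgd_smul, map_smul, mgE_smul, h1, mul_assoc, mgS_inv,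
    mul_one]

end torus

end Vale.Agent.P353.Z.U
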