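import Vale.Agent.P353.Z.LimL2

/-! # Mollification on `(Cfg dc)`: `mo ρ f = ρ * f`, derivatives, `L²` bounds, `L²` convergence -/

open MeasureTheory Filter Topology
open scoped ContDiff

namespace Vale.Agent.P353.Z.Moll

variable {dc : ℕ}

section general

variable {G : Type*} [NormedAddCommGroup G] [NormedSpace ℝ G]

/-- mollification -/
noncomputable def mo (ρ : (Cfg dc) → ℝ) (f : (Cfg dc) → G) (x : (Cfg dc)) : G := ∫ y, ρ (x - y) • f y

lemma mo_eq_conv (ρ : (Cfg dc) → ℝ) (f : (Cfg dc) → G) :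
    mo ρ f = convolution f ρ (ContinuousLinearMap.lsmul ℝ ℝ).flip volume := rfl

lemma mo_eq_conv' (ρ : (Cfg dc) → ℝ) (f : (Cfg dc) → G) :
    mo ρ f = convolution ρ f (ContinuousLinearMap.lsmul ℝ ℝ) volume := by
  rw [mo_eq_conv, convolution_flip]

lemma integrable_mo {ρ : (Cfg dc) → ℝ} (hρ : Continuous ρ) (hc : HasCompactSupport ρ) {f : (Cfg dc) → G}
    (hf : LocallyIntegrable f volume) (x : (Cfg dc)) : Integrable (fun y => ρ (x - y) • f y) := by
  have h := HasCompactSupport.convolutionExists_right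
    ((ContinuousLinearMap.lsmul ℝ ℝ : ℝ →L[ℝ] G →L[ℝ] G).flip) hc hf hρ x
  exact h

lemma contDiff_mo {ρ : (Cfg dc) → ℝ} (hρ : ContDiff ℝ ∞ ρ) (hc : HasCompactSupport ρ) {f : (Cfg dc) → G}
    (hf : LocallyIntegrable f volume) : ContDiff ℝ ∞ (mo ρ f) := by
  rw [mo_eq_conv]
  exact hc.contDiff_convolution_right _ hf hρ

lemma fderiv_mo {ρ : (Cfg dc) → ℝ} (hρ : ContDiff ℝ ∞ ρ) (hc : HasCompactSupport ρ) {f : (Cfg dc) → G}
    (hf : LocallyIntegrable f volume) (x e : (Cfg dc)) :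
    fderiv ℝ (mo ρ f) x e = mo (fun z => fderiv ℝ ρ z e) f x := by
  have h1 := hc.hasFDerivAt_convolution_right
    ((ContinuousLinearMap.lsmul ℝ ℝ : ℝ →L[ℝ] G →L[ℝ] G).flip) hf (hρ.of_le (by simp)) x
  have h2 : fderiv ℝ (mo ρ f) x = _ := h1.fderiv
  rw [h2, convolution_precompR_apply _ hf (hc.fderiv ℝ) (hρ.continuous_fderiv (by simp))]
  rfl

lemma mo_sub {ρ : (Cfg dc) → ℝ} (hρ : Continuous ρ) (hc : HasCompactSupport ρ) {f g : (Cfg dc) → G}
    (hf : LocallyIntegrable f volume) (hg : LocallyIntegrable g volume) (x : (Cfg dc)) :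
    mo ρ (fun y => f y - g y) x = mo ρ f x - mo ρ g x := by
  unfold mo
  rw [← integral_sub (integrable_mo hρ hc hf x) (integrable_mo hρ hc hg x)]
  simp only [smul_sub]

end general

/-- radial mollifiers -/
structure IsMol (ε : ℝ) (ρ : (Cfg dc) → ℝ) : Prop where
  contDiff : ContDiff ℝ ∞ ρ
  hcs : HasCompactSupport ρ
  nonneg : ∀ x, 0 ≤ ρ x
  supp : ∀ x, ε ≤ ‖x‖ → ρ x = 0
  one : ∫ x, ρ x = 1

section jensen

variable {G : Type*} [NormedAddCommGroup G] [NormedSpace ℝ G] {ε : ℝ} {ρ : (Cfg dc) → ℝ}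

lemma IsMol.one' (h : IsMol ε ρ) (x : (Cfg dc)) : ∫ y, ρ (x - y) = 1 := by
  rw [integral_sub_left_eq_self ρ volume x, h.one]

lemma IsMol.int (h : IsMol ε ρ) (x : (Cfg dc)) : Integrable (fun y => ρ (x - y)) :=
  (h.contDiff.continuous.integrable_of_hasCompactSupport h.hcs).comp_sub_left x

lemma norm_mo_le (h : IsMol ε ρ) (f : (Cfg dc) → G) (x : (Cfg dc)) :
    ‖mo ρ f x‖ ≤ mo ρ (fun y => ‖f y‖) x := by
  unfold mo
  refine (norm_integral_le_integral_norm _).trans (le_of_eq ?_)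
  refine integral_congr_ae (Eventually.of_forall fun y => ?_)
  simp only [norm_smul, Real.norm_of_nonneg (h.nonneg _), smul_eq_mul]

omit [NormedSpace ℝ G] in
lemma sq_mo_le (h : IsMol ε ρ) {f : (Cfg dc) → G} (hf : LocallyIntegrable f volume)
    (hf2 : LocallyIntegrable (fun y => ‖f y‖ ^ 2) volume) (x : (Cfg dc)) :
    (mo ρ (fun y => ‖f y‖) x) ^ 2 ≤ mo ρ (fun y => ‖f y‖ ^ 2) x := by
  have i1 : Integrable (fun y => ρ (x - y) • ‖f y‖) :=
    integrable_mo h.contDiff.continuous h.hcs (fun z => (hf z).norm) x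
  have i2 : Integrable (fun y => ρ (x - y) • ‖f y‖ ^ 2) :=
    integrable_mo h.contDiff.continuous h.hcs hf2 x
  have i3 := h.int x
  obtain ⟨a, ha⟩ : ∃ a, a = mo ρ (fun y => ‖f y‖) x := ⟨_, rfl⟩
  have h1 : 0 ≤ ∫ y, ρ (x - y) * (‖f y‖ - a) ^ 2 :=
    integral_nonneg fun y => mul_nonneg (h.nonneg _) (sq_nonneg _)
  have h2 : ∫ y, ρ (x - y) * (‖f y‖ - a) ^ 2 =
      mo ρ (fun y => ‖f y‖ ^ 2) x - 2 * a * mo ρ (fun y => ‖f y‖) x + a ^ 2 * ∫ y, ρ (x - y) := by
    have i4 : Integrable (fun y => ρ (x - y) • ‖f y‖ ^ 2 - 2 * a * (ρ (x - y) • ‖f y‖)) :=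
      i2.sub (i1.const_mul _)
    unfold mo
    rw [← integral_const_mul, ← integral_const_mul, ← integral_sub i2 (i1.const_mul _),
      ← integral_add i4 (i3.const_mul _)]
    refine integral_congr_ae (Eventually.of_forall fun y => ?_)
    simp only [smul_eq_mul]
    ring
  rw [h2, h.one' x, ← ha] at h1
  rw [← ha]
  nlinarith

end jensen

section L2

variable {F : Type*} [NormedAddCommGroup F] [InnerProductSpace ℂ F] {ε : ℝ} {ρ : (Cfg dc) → ℝ}

omit [InnerProductSpace ℂ F] in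
lemma locInt {f : (Cfg dc) → F} (hf : MemLp f 2 (volume : Measure (Cfg dc))) :
    LocallyIntegrable f volume := hf.locallyIntegrable (by norm_num)

omit [InnerProductSpace ℂ F] in
lemma locInt_sq {f : (Cfg dc) → F} (hf : MemLp f 2 (volume : Measure (Cfg dc))) :
    LocallyIntegrable (fun y => ‖f y‖ ^ 2) volume := (memLp_norm_sq_int hf).locallyIntegrable

omit [InnerProductSpace ℂ F] in
lemma integral_mo_sq (h : IsMol ε ρ) {f : (Cfg dc) → F} (hf : MemLp f 2 (volume : Measure (Cfg dc))) :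
    Integrable (mo ρ (fun y => ‖f y‖ ^ 2)) ∧ ∫ x, mo ρ (fun y => ‖f y‖ ^ 2) x = nsq f := by
  have i1 := memLp_norm_sq_int hf
  have i2 : Integrable ρ := h.contDiff.continuous.integrable_of_hasCompactSupport h.hcs
  rw [mo_eq_conv]
  refine ⟨i1.integrable_convolution _ i2, ?_⟩
  rw [integral_convolution _ i1 i2, h.one]
  simp [nsq]

/-- bound for functions dominated by `η ρ * |f|` -/
lemma nsq_le_mo (h : IsMol ε ρ) {f : (Cfg dc) → F} (hf : MemLp f 2 (volume : Measure (Cfg dc)))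
    {w : (Cfg dc) → F} {η : ℝ} (hm : AEStronglyMeasurable w volume)
    (hw : ∀ x, ‖w x‖ ≤ η * mo ρ (fun y => ‖f y‖) x) :
    MemLp w 2 (volume : Measure (Cfg dc)) ∧ nsq w ≤ η ^ 2 * nsq f := by
  obtain ⟨i1, i2⟩ := integral_mo_sq h hf
  have hb : ∀ x, ‖w x‖ ^ 2 ≤ η ^ 2 * mo ρ (fun y => ‖f y‖ ^ 2) x := by
    intro x
    calc ‖w x‖ ^ 2 ≤ (η * mo ρ (fun y => ‖f y‖) x) ^ 2 :=
          pow_le_pow_left₀ (norm_nonneg _) (hw x) 2
      _ = η ^ 2 * (mo ρ (fun y => ‖f y‖) x) ^ 2 := by ring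
      _ ≤ _ := mul_le_mul_of_nonneg_left (sq_mo_le h (locInt hf) (locInt_sq hf) x) (sq_nonneg _)
  constructor
  · refine (memLp_two_iff_integrable_sq_norm hm).mpr ?_
    refine (i1.const_mul (η ^ 2)).mono' (hm.norm.pow 2) (Eventually.of_forall fun x => ?_)
    rw [Real.norm_of_nonneg (by positivity)]
    exact hb x
  · rw [← i2, nsq, ← integral_const_mul]
    exact integral_mono_of_nonneg (Eventually.of_forall fun x => by positivity)
      (i1.const_mul _) (Eventually.of_forall hb)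

lemma nsq_mo_le (h : IsMol ε ρ) {f : (Cfg dc) → F} (hf : MemLp f 2 (volume : Measure (Cfg dc))) :
    MemLp (mo ρ f) 2 (volume : Measure (Cfg dc)) ∧ nsq (mo ρ f) ≤ nsq f := by
  have h1 := nsq_le_mo (η := 1) h hf
    (contDiff_mo h.contDiff h.hcs (locInt hf)).continuous.aestronglyMeasurable
    (fun x => by rw [one_mul]; exact norm_mo_le h f x)
  simpa using h1

/-- mollification of a continuous compactly supported function -/
lemma mo_approx_cont [CompleteSpace F] {g : (Cfg dc) → F} (hg : Continuous g) (hgc : HasCompactSupport g) {δ : ℝ}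
    (hδ : 0 < δ) : ∃ ε₀ > 0, ∀ ε, ε ≤ ε₀ → ∀ ρ, IsMol ε ρ →
      nsq (fun x => mo ρ g x - g x) ≤ δ := by
  obtain ⟨r, hr⟩ := hgc.isCompact.isBounded.subset_closedBall (0 : (Cfg dc))
  have hg0 : ∀ x, r < ‖x‖ → g x = 0 := by
    intro x hx
    by_contra hne
    have h1 := hr (subset_tsupport _ hne)
    rw [Metric.mem_closedBall, dist_zero_right] at h1
    linarith
  obtain ⟨v, hv⟩ : ∃ v : ℝ, v = (volume (Metric.closedBall (0 : (Cfg dc)) (r + 1))).toReal := ⟨_, rfl⟩
  have hv0 : 0 ≤ v := hv ▸ ENNReal.toReal_nonneg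
  obtain ⟨η, hη⟩ : ∃ η : ℝ, η = Real.sqrt (δ / (v + 1)) := ⟨_, rfl⟩
  have hη0 : 0 < η := hη ▸ Real.sqrt_pos.2 (by positivity)
  have huc : UniformContinuous g := hgc.uniformContinuous_of_continuous hg
  obtain ⟨ε₁, hε₁, h1⟩ := Metric.uniformContinuous_iff.1 huc η hη0
  refine ⟨min ε₁ 1, lt_min hε₁ one_pos, fun ε hε ρ hρ => ?_⟩
  have hsupp : Function.support ρ ⊆ Metric.ball (0 : (Cfg dc)) ε := by
    intro z hz
    rw [Metric.mem_ball, dist_zero_right]
    by_contra hcon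
    exact hz (hρ.supp z (not_lt.1 hcon))
  have hbd : ∀ x, ‖mo ρ g x - g x‖ ^ 2 ≤
      (Metric.closedBall (0 : (Cfg dc)) (r + 1)).indicator (fun _ => η ^ 2) x := by
    intro x
    by_cases hx : x ∈ Metric.closedBall (0 : (Cfg dc)) (r + 1)
    · rw [Set.indicator_of_mem hx]
      refine pow_le_pow_left₀ (norm_nonneg _) ?_ 2
      rw [← dist_eq_norm, mo_eq_conv']
      refine dist_convolution_le hη0.le hsupp hρ.nonneg hρ.one hg.aestronglyMeasurable ?_
      intro y hy
      exact (h1 (lt_of_lt_of_le hy (hε.trans (min_le_left _ _)))).le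
    · rw [Set.indicator_of_notMem hx]
      have hx' : r + 1 < ‖x‖ := by
        rw [Metric.mem_closedBall, dist_zero_right, not_le] at hx
        exact hx
      have h2 : ‖mo ρ g x - g x‖ ≤ 0 := by
        rw [← dist_eq_norm, mo_eq_conv']
        refine dist_convolution_le le_rfl hsupp hρ.nonneg hρ.one hg.aestronglyMeasurable ?_
        intro y hy
        have hy1 : dist y x < 1 := lt_of_lt_of_le hy (hε.trans (min_le_right _ _))
        have hy2 : r < ‖y‖ := by
          have h3 : ‖x‖ ≤ ‖y‖ + dist y x := by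
            have := norm_sub_norm_le x y
            rw [dist_comm, dist_eq_norm]
            linarith
          linarith
        rw [hg0 y hy2, hg0 x (by linarith), dist_self]
      have h3 : ‖mo ρ g x - g x‖ = 0 := le_antisymm h2 (norm_nonneg _)
      rw [h3]
      norm_num
  have hfin : volume (Metric.closedBall (0 : (Cfg dc)) (r + 1)) ≠ ⊤ :=
    (isCompact_closedBall (0 : (Cfg dc)) (r + 1)).measure_lt_top.ne
  calc nsq (fun x => mo ρ g x - g x)
      ≤ ∫ x, (Metric.closedBall (0 : (Cfg dc)) (r + 1)).indicator (fun _ => η ^ 2) x := by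
        refine integral_mono_of_nonneg (Eventually.of_forall fun x => by positivity) ?_
          (Eventually.of_forall hbd)
        exact (integrable_indicator_iff Metric.isClosed_closedBall.measurableSet).2
          (integrableOn_const hfin)
    _ = v * η ^ 2 := by
        rw [integral_indicator Metric.isClosed_closedBall.measurableSet, setIntegral_const,
          smul_eq_mul, hv]
        rfl
    _ ≤ δ := by
        rw [hη, Real.sq_sqrt (by positivity), mul_div_assoc']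
        rw [div_le_iff₀ (by positivity)]
        nlinarith

/-- mollification converges in `L²` -/
lemma mo_approx [CompleteSpace F] {f : (Cfg dc) → F} (hf : MemLp f 2 (volume : Measure (Cfg dc))) {δ : ℝ} (hδ : 0 < δ) :
    ∃ ε₀ > 0, ∀ ε, ε ≤ ε₀ → ∀ ρ, IsMol ε ρ → nsq (fun x => mo ρ f x - f x) ≤ δ := by
  obtain ⟨s, hs⟩ : ∃ s : ℝ, s = Real.sqrt (δ / 12) := ⟨_, rfl⟩
  have hs0 : 0 < s := hs ▸ Real.sqrt_pos.2 (by positivity)
  obtain ⟨g, hgc, hfg, hg, hgm⟩ := hf.exists_hasCompactSupport_eLpNorm_sub_le (by norm_num)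
    (ε := ENNReal.ofReal s) (by simpa using hs0)
  have hd : MemLp (fun x => f x - g x) 2 (volume : Measure (Cfg dc)) := hf.sub hgm
  have h1 : nsq (fun x => f x - g x) ≤ δ / 12 := by
    have e1 := norm_toLp hd
    have e2 : ‖hd.toLp (fun x => f x - g x)‖ ≤ s := by
      rw [Lp.norm_toLp]
      refine ENNReal.toReal_le_of_le_ofReal hs0.le ?_
      exact hfg
    rw [e1, hs] at e2
    exact (Real.sqrt_le_sqrt_iff (by positivity)).1 e2
  obtain ⟨ε₀, hε₀, h2⟩ := mo_approx_cont hg hgc (show 0 < δ / 12 by positivity)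
  refine ⟨ε₀, hε₀, fun ε hε ρ hρ => ?_⟩
  have h3 := h2 ε hε ρ hρ
  have h4 := nsq_mo_le hρ hd
  have m1 : MemLp (mo ρ (fun x => f x - g x)) 2 (volume : Measure (Cfg dc)) := h4.1
  have m2 : MemLp (fun x => mo ρ g x - g x) 2 (volume : Measure (Cfg dc)) :=
    (nsq_mo_le hρ hgm).1.sub hgm
  have m3 : MemLp (fun x => g x - f x) 2 (volume : Measure (Cfg dc)) := hgm.sub hf
  have e : (fun x => mo ρ f x - f x) = fun x =>
      mo ρ (fun x => f x - g x) x + ((mo ρ g x - g x) + (g x - f x)) := by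
    funext x
    rw [mo_sub hρ.contDiff.continuous hρ.hcs (locInt hf) (locInt hgm)]
    abel
  have e3 : nsq (fun x => g x - f x) = nsq (fun x => f x - g x) := by
    unfold nsq
    refine integral_congr_ae (Eventually.of_forall fun x => ?_)
    simp only [norm_sub_rev]
  rw [e]
  have b1 := nsq_add_le m1 (m2.add m3)
  have b2 := nsq_add_le m2 m3
  have b3 : nsq (fun x => mo ρ (fun x => f x - g x) x + ((mo ρ g x - g x) + (g x - f x))) ≤
    2 * nsq (mo ρ (fun x => f x - g x)) + 2 * nsq (fun x => (mo ρ g x - g x) + (g x - f x)) := b1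
  rw [e3] at b2
  linarith [h4.2]

end L2

end Vale.Agent.P353.Z.Moll
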